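/-
helper392, row 96, leaf P6-ACL (A3): average energy of translated skeletons (Tonelli) and the
choice of a good translate (Chebyshev).  Any lattice `L` with fundamental domain `D`, any
parametrised piece `γ : T → E` (vertex, edge, face, cube, ...).
-/
import Mathlib

set_option autoImplicit false
set_option linter.unusedSectionVars false

open MeasureTheory Set Filter
open scoped ENNReal Topology

namespace Crest.Agent.R96.Grid_392

noncomputable section

variable {E : Type*} [NormedAddCommGroup E] [NormedSpace ℝ E] [FiniteDimensional ℝ E]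
  [MeasurableSpace E] [BorelSpace E] {μ : Measure E} [μ.IsAddHaarMeasure]

/-- energy of `G` on the piece `γ` at the base point `x` -/
def pc {T : Type*} [MeasurableSpace T] (ν : Measure T) (γ : T → E) (G : E → ℝ≥0∞) (x : E) : ℝ≥0∞ :=
  ∫⁻ τ, G (x + γ τ) ∂ν


section

variable {T : Type*} [MeasurableSpace T] {ν : Measure T} [SFinite ν] {γ : T → E}

theorem mp_shear' (hγ : Measurable γ) :
    MeasurePreserving (fun p : T × E => (p.1, p.2 + γ p.1)) (ν.prod μ) (ν.prod μ) := by
  apply MeasurePreserving.skew_product (MeasurePreserving.id ν)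
    (g := fun (τ : T) (x : E) => x + γ τ)
  · exact measurable_snd.add (hγ.comp measurable_fst)
  · apply Eventually.of_forall
    intro τ
    exact (measurePreserving_add_right μ (γ τ)).map_eq

theorem aemeasurable_shear (hγ : Measurable γ) {G : E → ℝ≥0∞} (hG : AEMeasurable G μ) :
    AEMeasurable (fun p : T × E => G (p.2 + γ p.1)) (ν.prod μ) := by
  have h1 : AEMeasurable (fun p : T × E => G p.2) (ν.prod μ) :=
    hG.comp_quasiMeasurePreserving Measure.quasiMeasurePreserving_snd
  exact h1.comp_quasiMeasurePreserving (mp_shear' (μ := μ) (ν := ν) hγ).quasiMeasurePreserving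

theorem aemeasurable_pc (hγ : Measurable γ) {G : E → ℝ≥0∞} (hG : AEMeasurable G μ) :
    AEMeasurable (pc ν γ G) μ := by
  have h1 := aemeasurable_shear (ν := ν) (μ := μ) hγ hG
  have h2 : AEMeasurable (fun p : E × T => G (p.1 + γ p.2)) (μ.prod ν) := h1.prod_swap
  exact h2.lintegral_prod_right'

theorem lintegral_pc (hγ : Measurable γ) {G : E → ℝ≥0∞} (hG : AEMeasurable G μ) :
    ∫⁻ x, pc ν γ G x ∂μ = ν univ * ∫⁻ x, G x ∂μ := by
  have h1 := aemeasurable_shear (ν := ν) (μ := μ) hγ hG
  have h2 : AEMeasurable (Function.uncurry fun (x : E) (τ : T) => G (x + γ τ)) (μ.prod ν) :=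
    h1.prod_swap
  simp only [pc]
  rw [lintegral_lintegral_swap h2]
  have h3 : ∀ τ, ∫⁻ x, G (x + γ τ) ∂μ = ∫⁻ x, G x ∂μ := fun τ =>
    lintegral_add_right_eq_self (μ := μ) G (γ τ)
  simp_rw [h3]
  rw [lintegral_const, mul_comm]

variable {L : AddSubgroup E} [Countable L] {D : Set E}



end



end

end Crest.Agent.R96.Grid_392
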