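/-
helper538, row 96, leaf COARSE, part 11: cubical grids of R3: fundamental domain, Tonelli on the
edges of a translated grid.
-/
import Mathlib
import Crest.Agent.R96.Grid1_392

set_option autoImplicit false
set_option linter.unusedSectionVars false

open MeasureTheory Set Filter Metric
open scoped ENNReal NNReal Topology

namespace Crest.Agent.R96.Coarse_538

noncomputable section

abbrev E3 := EuclideanSpace ℝ (Fin 3)

/-- integer vectors as a homomorphism -/
def ihom (t : ℝ) : (Fin 3 → ℤ) →+ E3 where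
  toFun k := t • WithLp.toLp 2 (fun i => (k i : ℝ))
  map_zero' := by ext i; simp
  map_add' k l := by ext i; simp [mul_add]

theorem ihom_apply (t : ℝ) (k : Fin 3 → ℤ) (i : Fin 3) : ihom t k i = t * k i := by
  simp [ihom]

/-- the vertices of the grid of size `t` through `a` -/
def vt (t : ℝ) (a : E3) (k : Fin 3 → ℤ) : E3 := a + ihom t k

theorem vt_apply (t : ℝ) (a : E3) (k : Fin 3 → ℤ) (i : Fin 3) : vt t a k i = a i + t * k i := by
  simp [vt, ihom_apply]


/-- the lattice -/
def lat (t : ℝ) : AddSubgroup E3 := (ihom t).range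

instance (t : ℝ) : Countable (lat t) := by
  have : Function.Surjective (ihom t).rangeRestrict := (ihom t).rangeRestrict_surjective
  exact this.countable

/-- the fundamental cube -/
def Dt (t : ℝ) : Set E3 := {a | ∀ i, 0 ≤ a i ∧ a i < t}

theorem meas_Dt (t : ℝ) : MeasurableSet (Dt t) := by
  have : Dt t = ⋂ i : Fin 3, {a : E3 | 0 ≤ a i ∧ a i < t} := by
    ext a; simp [Dt]
  rw [this]
  refine MeasurableSet.iInter fun i => ?_
  have h1 : Measurable (fun a : E3 => a i) := by fun_prop
  exact (measurableSet_Ico (a := (0:ℝ)) (b := t)).preimage h1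


theorem vol_box {I : Fin 3 → Set ℝ} (hI : ∀ i, MeasurableSet (I i)) :
    volume {x : E3 | ∀ i, x i ∈ I i} = ∏ i, volume (I i) := by
  have h1 : {x : E3 | ∀ i, x i ∈ I i} = (@WithLp.ofLp 2 (Fin 3 → ℝ)) ⁻¹' (Set.pi univ I) := by
    ext x; simp
  rw [h1, (PiLp.volume_preserving_ofLp (Fin 3)).measure_preimage
    (MeasurableSet.univ_pi hI).nullMeasurableSet, volume_pi_pi]

theorem vol_Dt {t : ℝ} (ht : 0 < t) : volume (Dt t) = ENNReal.ofReal (t ^ 3) := by
  have h1 : Dt t = {x : E3 | ∀ i, x i ∈ (fun _ : Fin 3 => Ico (0:ℝ) t) i} := by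
    ext a; simp [Dt]
  rw [h1, vol_box fun _ => measurableSet_Ico]
  simp only [Real.volume_Ico, sub_zero, Finset.prod_const, Finset.card_univ, Fintype.card_fin]
  rw [ENNReal.ofReal_pow ht.le]

/-- the unit vectors -/
def ed (i : Fin 3) : E3 := EuclideanSpace.single i 1






end

end Crest.Agent.R96.Coarse_538
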