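import Mathlib
import Crest.Prelude.Def_SobolevMap

-- ▼ part R96/Acl1_392
section

set_option autoImplicit false
set_option linter.unusedSectionVars false

open MeasureTheory Set Filter
open scoped ContDiff Topology

namespace Crest.Agent.R96.Acl_392

noncomputable section

variable {E : Type*} [NormedAddCommGroup E] [NormedSpace ℝ E] [FiniteDimensional ℝ E]
  [MeasurableSpace E] [BorelSpace E] {μ : Measure E} [μ.IsAddHaarMeasure]

/-- the segment `x + [s,t] e` -/
def segIn (Ω : Set E) (e : E) (s t : ℝ) : Set E := {x | ∀ τ ∈ Icc s t, x + τ • e ∈ Ω}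

theorem isOpen_segIn {Ω : Set E} (hΩ : IsOpen Ω) (e : E) (s t : ℝ) : IsOpen (segIn Ω e s t) := by
  have hcl : IsClosed (segIn Ω e s t)ᶜ := by
    have h1 : (segIn Ω e s t)ᶜ = Prod.fst '' ({p : E × ℝ | p.1 + p.2 • e ∈ Ωᶜ} ∩
        (univ ×ˢ Icc s t)) := by
      ext x
      simp only [segIn, mem_compl_iff, mem_ofPred_eq, not_forall, mem_image, mem_inter_iff,
        mem_prod, mem_univ, true_and, Prod.exists, exists_and_right, exists_eq_right]
      constructor
      · rintro ⟨τ, hτ, h⟩
        exact ⟨τ, h, hτ⟩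
      · rintro ⟨τ, h, hτ⟩
        exact ⟨τ, hτ, h⟩
    rw [h1]
    have h2 : IsClosed {p : E × ℝ | p.1 + p.2 • e ∈ Ωᶜ} := by
      apply (hΩ.isClosed_compl).preimage
      fun_prop
    -- projection along a compact set
    have h3 : ({p : E × ℝ | p.1 + p.2 • e ∈ Ωᶜ} ∩ (univ ×ˢ Icc s t)) =
        {p : E × ℝ | p.1 + p.2 • e ∈ Ωᶜ} ∩ (univ ×ˢ Icc s t) := rfl
    rw [← isSeqClosed_iff_isClosed]
    intro u a hu hua
    choose p hp hpu using fun n => hu n
    have hmem : ∀ n, (p n).2 ∈ Icc s t := fun n => (hp n).2.2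
    obtain ⟨b, hb, φ, hφ, hlim⟩ := isCompact_Icc.tendsto_subseq hmem
    refine ⟨(a, b), ⟨?_, ⟨mem_univ _, hb⟩⟩, rfl⟩
    have h4 : Tendsto (fun n => ((p (φ n)).1, (p (φ n)).2)) atTop (𝓝 (a, b)) := by
      apply Tendsto.prodMk_nhds
      · have h5 : (fun n => (p (φ n)).1) = fun n => u (φ n) := by
          funext n; exact hpu (φ n)
        rw [h5]
        exact hua.comp hφ.tendsto_atTop
      · exact hlim
    exact h2.mem_of_tendsto h4 (Eventually.of_forall fun n => (hp (φ n)).1)
  exact isClosed_compl_iff.1 hcl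

/-- the swept set of a compact set -/
def sweep (K : Set E) (e : E) (s t : ℝ) : Set E := (fun p : E × ℝ => p.1 + p.2 • e) '' (K ×ˢ Icc s t)

theorem isCompact_sweep {K : Set E} (hK : IsCompact K) (e : E) (s t : ℝ) :
    IsCompact (sweep K e s t) := by
  apply (hK.prod isCompact_Icc).image
  fun_prop

theorem sweep_subset {Ω K : Set E} {e : E} {s t : ℝ} (h : K ⊆ segIn Ω e s t) :
    sweep K e s t ⊆ Ω := by
  rintro _ ⟨⟨x, τ⟩, ⟨hx, hτ⟩, rfl⟩
  exact h hx τ hτ

theorem mem_sweep {K : Set E} {e x : E} {s t τ : ℝ} (hx : x ∈ K) (hτ : τ ∈ Icc s t) :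
    x + τ • e ∈ sweep K e s t := ⟨(x, τ), ⟨hx, hτ⟩, rfl⟩

/-- the shear `(τ,x) ↦ (τ, x + τ e)` preserves the product measure -/
theorem mp_shear (ν : Measure ℝ) [SFinite ν] (e : E) :
    MeasurePreserving (fun p : ℝ × E => (p.1, p.2 + p.1 • e)) (ν.prod μ) (ν.prod μ) := by
  apply MeasurePreserving.skew_product (MeasurePreserving.id ν)
    (g := fun (τ : ℝ) (x : E) => x + τ • e)
  · apply Measurable.add measurable_snd
    exact measurable_fst.smul_const e
  · apply Eventually.of_forall
    intro τ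
    exact (measurePreserving_add_right μ (τ • e)).map_eq

/-- if `F` is integrable then `(τ,x) ↦ F (x + τ e)` is integrable on `[s,t] × E` -/
theorem integrable_shear {F : E → ℝ} (hF : Integrable F μ) (ν : Measure ℝ) [IsFiniteMeasure ν]
    (e : E) : Integrable (fun p : ℝ × E => F (p.2 + p.1 • e)) (ν.prod μ) := by
  have h1 : Integrable (fun p : ℝ × E => F p.2) (ν.prod μ) := hF.comp_snd ν
  exact (mp_shear (μ := μ) ν e).integrable_comp_of_integrable h1

/-- the averaged test function -/
def avgT (ψ : E → ℝ) (e : E) (s t : ℝ) (y : E) : ℝ := ∫ τ in s..t, ψ (y - τ • e)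

theorem contDiff_avgT {ψ : E → ℝ} (hψ : ContDiff ℝ ∞ ψ) (hc : HasCompactSupport ψ) (e : E)
    {s t : ℝ} (hst : s ≤ t) : ContDiff ℝ ∞ (avgT ψ e s t) := by
  let ν : Measure E := Measure.map (fun τ : ℝ => τ • e) (volume.restrict (Ioc s t))
  have hmeas : Measurable (fun τ : ℝ => τ • e) := measurable_id.smul_const e
  have : IsFiniteMeasure ν := Measure.isFiniteMeasure_map _ _
  have h1 : avgT ψ e s t = MeasureTheory.convolution (fun _ : E => (1:ℝ)) ψ
      (ContinuousLinearMap.mul ℝ ℝ) ν := by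
    funext y
    rw [avgT, intervalIntegral.integral_of_le hst, MeasureTheory.convolution]
    simp only [ContinuousLinearMap.mul_apply', one_mul]
    rw [integral_map hmeas.aemeasurable]
    exact (hψ.continuous.comp (continuous_const.sub continuous_id)).aestronglyMeasurable
  rw [h1]
  exact hc.contDiff_convolution_right _ (locallyIntegrable_const 1) hψ

theorem fderiv_avgT {ψ : E → ℝ} (hψ : ContDiff ℝ ∞ ψ) (hc : HasCompactSupport ψ) (e : E)
    {s t : ℝ} (hst : s ≤ t) (y : E) :
    fderiv ℝ (avgT ψ e s t) y e = ψ (y - s • e) - ψ (y - t • e) := by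
  have hd : DifferentiableAt ℝ (avgT ψ e s t) y :=
    ((contDiff_avgT hψ hc e hst).differentiable (by simp)).differentiableAt
  have h1 : HasDerivAt (fun h : ℝ => avgT ψ e s t (y + h • e))
      (fderiv ℝ (avgT ψ e s t) y e) 0 := by
    have h2 : HasDerivAt (fun h : ℝ => y + h • e) e 0 := by
      have := ((hasDerivAt_id (0:ℝ)).smul_const e).const_add y
      simpa using this
    have h3 : HasFDerivAt (avgT ψ e s t) (fderiv ℝ (avgT ψ e s t) y) (y + (0:ℝ) • e) := by
      simpa using hd.hasFDerivAt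
    exact h3.comp_hasDerivAt (0:ℝ) h2
  have h4 : (fun h : ℝ => avgT ψ e s t (y + h • e)) =
      fun h : ℝ => (∫ τ in (0:ℝ)..(t - h), ψ (y - τ • e)) -
        ∫ τ in (0:ℝ)..(s - h), ψ (y - τ • e) := by
    funext h
    have hcont : Continuous (fun τ : ℝ => ψ (y - τ • e)) := by
      have := hψ.continuous
      fun_prop
    have h5 : avgT ψ e s t (y + h • e) = ∫ τ in (s - h)..(t - h), ψ (y - τ • e) := by
      rw [avgT, ← intervalIntegral.integral_comp_sub_right (fun τ => ψ (y - τ • e)) h]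
      congr 1
      funext τ
      congr 1
      rw [sub_smul]
      abel
    rw [h5, ← intervalIntegral.integral_interval_sub_left (hcont.intervalIntegrable _ _)
      (hcont.intervalIntegrable _ _)]
  have hcont : Continuous (fun τ : ℝ => ψ (y - τ • e)) := by
    have := hψ.continuous
    fun_prop
  have h6 : HasDerivAt (fun h : ℝ => (∫ τ in (0:ℝ)..(t - h), ψ (y - τ • e)) -
        ∫ τ in (0:ℝ)..(s - h), ψ (y - τ • e)) (ψ (y - s • e) - ψ (y - t • e)) 0 := by
    have h7 : ∀ a : ℝ, HasDerivAt (fun h : ℝ => ∫ τ in (0:ℝ)..(a - h), ψ (y - τ • e))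
        (- ψ (y - a • e)) 0 := by
      intro a
      have h8 : HasDerivAt (fun u : ℝ => ∫ τ in (0:ℝ)..u, ψ (y - τ • e)) (ψ (y - a • e)) (a - 0) := by
        rw [sub_zero]
        exact intervalIntegral.integral_hasDerivAt_right (hcont.intervalIntegrable _ _)
          (hcont.stronglyMeasurableAtFilter _ _) hcont.continuousAt
      have h9 : HasDerivAt (fun h : ℝ => a - h) (-1) 0 := by
        simpa using (hasDerivAt_id (0:ℝ)).const_sub a
      have := h8.comp (0:ℝ) h9
      simpa [Function.comp_def] using this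
    have := (h7 t).sub (h7 s)
    convert! this using 1
    ring
  rw [← h4] at h6
  exact h1.unique h6

theorem avgT_ne_zero {ψ : E → ℝ} {e y : E} {s t : ℝ} (hst : s ≤ t) (h : avgT ψ e s t y ≠ 0) :
    y ∈ sweep (tsupport ψ) e s t := by
  by_contra hy
  apply h
  rw [avgT]
  have : ∀ τ ∈ Icc s t, ψ (y - τ • e) = 0 := by
    intro τ hτ
    by_contra hne
    apply hy
    have h1 : y - τ • e ∈ tsupport ψ := subset_tsupport _ hne
    have h2 := mem_sweep (e := e) h1 hτ
    rwa [sub_add_cancel] at h2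
  rw [intervalIntegral.integral_congr (g := fun _ => (0:ℝ))]
  · simp
  · intro τ hτ
    rw [uIcc_of_le hst] at hτ
    exact this τ hτ

theorem tsupport_avgT {ψ : E → ℝ} (hc : HasCompactSupport ψ) (e : E)
    {s t : ℝ} (hst : s ≤ t) : tsupport (avgT ψ e s t) ⊆ sweep (tsupport ψ) e s t := by
  apply closure_minimal
  · intro y hy
    exact avgT_ne_zero hst hy
  · exact (isCompact_sweep hc e s t).isClosed

end

end Crest.Agent.R96.Acl_392
end

-- ▼ part R96/Acl2_392
section

set_option autoImplicit false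
set_option linter.unusedSectionVars false

open MeasureTheory Set Filter
open scoped ContDiff Topology

namespace Crest.Agent.R96.Acl_392

noncomputable section

variable {E : Type*} [NormedAddCommGroup E] [NormedSpace ℝ E] [FiniteDimensional ℝ E]
  [MeasurableSpace E] [BorelSpace E]

/-- `g` is the weak derivative of `v` in the direction `e` on `Ω` -/
structure WD (Ω : Set E) (μ : Measure E) (v g : E → ℝ) (e : E) : Prop where
  lv : LocallyIntegrableOn v Ω μ
  lg : LocallyIntegrableOn g Ω μ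
  weak : ∀ φ : E → ℝ, ContDiff ℝ ∞ φ → HasCompactSupport φ → tsupport φ ⊆ Ω →
    ∫ x, v x * fderiv ℝ φ x e ∂μ = - ∫ x, g x * φ x ∂μ

variable {μ : Measure E} [μ.IsAddHaarMeasure]

/-- the cut-off of `g` to the swept set of `K` -/
def cut (g : E → ℝ) (K : Set E) (e : E) (s t : ℝ) : E → ℝ := (sweep K e s t).indicator g

theorem cut_apply {g : E → ℝ} {K : Set E} {e x : E} {s t τ : ℝ} (hx : x ∈ K)
    (hτ : τ ∈ Icc s t) : cut g K e s t (x + τ • e) = g (x + τ • e) :=
  indicator_of_mem (mem_sweep hx hτ) _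

theorem integrable_cut {Ω : Set E} {g : E → ℝ} (hg : LocallyIntegrableOn g Ω μ) {K : Set E}
    (hK : IsCompact K) {e : E} {s t : ℝ} (hKs : K ⊆ segIn Ω e s t) :
    Integrable (cut g K e s t) μ := by
  have h1 : IntegrableOn g (sweep K e s t) μ :=
    hg.integrableOn_compact_subset (sweep_subset hKs) (isCompact_sweep hK e s t)
  exact h1.integrable_indicator (isCompact_sweep hK e s t).measurableSet

theorem ae_integrable {Ω : Set E} {g : E → ℝ} (hg : LocallyIntegrableOn g Ω μ) {K : Set E}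
    (hK : IsCompact K) {e : E} {s t : ℝ} (hKs : K ⊆ segIn Ω e s t) :
    ∀ᵐ x ∂μ, x ∈ K → IntegrableOn (fun τ : ℝ => g (x + τ • e)) (Icc s t) := by
  have h1 := integrable_shear (integrable_cut hg hK hKs) (volume.restrict (Icc s t)) e
  filter_upwards [h1.prod_left_ae] with x hx hxK
  refine IntegrableOn.congr_fun (f := fun τ : ℝ => cut g K e s t (x + τ • e)) hx ?_ measurableSet_Icc
  intro τ hτ
  exact cut_apply hxK hτ

theorem integral_cut {g : E → ℝ} {K : Set E} {e x : E} {s t : ℝ} (hst : s ≤ t) (hx : x ∈ K) :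
    ∫ τ in s..t, g (x + τ • e) = ∫ τ, cut g K e s t (x + τ • e) ∂(volume.restrict (Icc s t)) := by
  rw [intervalIntegral.integral_of_le hst, ← integral_Icc_eq_integral_Ioc]
  apply setIntegral_congr_fun measurableSet_Icc
  intro τ hτ
  exact (cut_apply hx hτ).symm

theorem locallyIntegrable_avg {Ω : Set E} (hΩ : IsOpen Ω) {g : E → ℝ}
    (hg : LocallyIntegrableOn g Ω μ) {e : E} {s t : ℝ} (hst : s ≤ t) :
    LocallyIntegrableOn (fun x => ∫ τ in s..t, g (x + τ • e)) (segIn Ω e s t) μ := by
  rw [locallyIntegrableOn_iff (isOpen_segIn hΩ e s t).isLocallyClosed]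
  intro K hKs hK
  have h1 := integrable_shear (integrable_cut hg hK hKs) (volume.restrict (Icc s t)) e
  have h2 := h1.integral_prod_right
  refine IntegrableOn.congr_fun
    (f := fun x => ∫ τ, cut g K e s t (x + τ • e) ∂(volume.restrict (Icc s t))) h2.integrableOn ?_
    hK.measurableSet
  intro x hx
  exact (integral_cut hst hx).symm

theorem locallyIntegrable_shift {Ω : Set E} (hΩ : IsOpen Ω) {v : E → ℝ}
    (hv : LocallyIntegrableOn v Ω μ) {e : E} {s t a : ℝ} (ha : a ∈ Icc s t) :
    LocallyIntegrableOn (fun x => v (x + a • e)) (segIn Ω e s t) μ := by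
  rw [locallyIntegrableOn_iff (isOpen_segIn hΩ e s t).isLocallyClosed]
  intro K hKs hK
  have h1 := integrable_cut hv hK hKs
  have h2 : Integrable (fun x => cut v K e s t (x + a • e)) μ := h1.comp_add_right (a • e)
  refine IntegrableOn.congr_fun (f := fun x => cut v K e s t (x + a • e)) h2.integrableOn ?_
    hK.measurableSet
  intro x hx
  exact cut_apply hx ha

theorem test_identity {Ω : Set E} {v g : E → ℝ} {e : E} (h : WD Ω μ v g e) {s t : ℝ}
    (hst : s ≤ t) {ψ : E → ℝ} (hψ : ContDiff ℝ ∞ ψ) (hc : HasCompactSupport ψ)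
    (hsupp : tsupport ψ ⊆ segIn Ω e s t) :
    ∫ x, ψ x • (v (x + t • e) - v (x + s • e) - ∫ τ in s..t, g (x + τ • e)) ∂μ = 0 := by
  set K := tsupport ψ with hKdef
  have hK : IsCompact K := hc
  obtain ⟨C, hC⟩ := hψ.continuous.bounded_above_of_compact_support hc
  have hψ0 : ∀ x, x ∉ K → ψ x = 0 := fun x hx => image_eq_zero_of_notMem_tsupport hx
  have hψm : AEStronglyMeasurable ψ μ := hψ.continuous.aestronglyMeasurable
  -- shifts
  have hsh : ∀ a ∈ Icc s t, Integrable (fun x => ψ x * v (x + a • e)) μ ∧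
      ∫ x, ψ x * v (x + a • e) ∂μ = ∫ y, v y * ψ (y - a • e) ∂μ ∧
      Integrable (fun y => v y * ψ (y - a • e)) μ := by
    intro a ha
    have h1 : (fun x => ψ x * v (x + a • e)) = fun x => ψ x * cut v K e s t (x + a • e) := by
      funext x
      by_cases hx : x ∈ K
      · rw [cut_apply hx ha]
      · rw [hψ0 x hx]; simp
    have h2 : Integrable (fun x => cut v K e s t (x + a • e)) μ :=
      (integrable_cut h.lv hK hsupp).comp_add_right (a • e)
    have h3 : Integrable (fun x => ψ x * v (x + a • e)) μ := by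
      rw [h1]
      exact h2.bdd_mul hψm (Eventually.of_forall hC)
    refine ⟨h3, ?_, ?_⟩
    · have h4 := integral_add_right_eq_self (μ := μ) (fun y => v y * ψ (y - a • e)) (a • e)
      rw [← h4]
      congr 1
      funext x
      rw [add_sub_cancel_right, mul_comm]
    · have h5 := h3.comp_sub_right (a • e)
      refine h5.congr (Eventually.of_forall fun y => ?_)
      show ψ (y - a • e) * v (y - a • e + a • e) = _
      rw [sub_add_cancel, mul_comm]
  obtain ⟨ht1, ht2, ht3⟩ := hsh t ⟨hst, le_rfl⟩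
  obtain ⟨hs1, hs2, hs3⟩ := hsh s ⟨le_rfl, hst⟩
  set ν : Measure ℝ := volume.restrict (Icc s t) with hν
  have hF := integrable_cut h.lg hK hsupp
  have hH := integrable_shear (μ := μ) hF ν e
  -- the averaged term
  have hA1 : Integrable (fun p : ℝ × E => ψ p.2 * cut g K e s t (p.2 + p.1 • e)) (ν.prod μ) := by
    refine hH.bdd_mul (c := C) ?_ (Eventually.of_forall fun p => hC p.2)
    exact (hψ.continuous.comp continuous_snd).aestronglyMeasurable
  have hA2 : Integrable (fun p : ℝ × E => ψ (p.2 - p.1 • e) * cut g K e s t p.2) (ν.prod μ) := by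
    refine (hF.comp_snd ν).bdd_mul (c := C) ?_ (Eventually.of_forall fun p => hC _)
    apply Continuous.aestronglyMeasurable
    have := hψ.continuous
    fun_prop
  have hG1 : (fun x => ψ x * ∫ τ in s..t, g (x + τ • e)) =
      fun x => ∫ τ, ψ x * cut g K e s t (x + τ • e) ∂ν := by
    funext x
    by_cases hx : x ∈ K
    · rw [integral_cut hst hx, integral_const_mul]
    · rw [hψ0 x hx]; simp
  have hG2 : Integrable (fun x => ψ x * ∫ τ in s..t, g (x + τ • e)) μ := by
    rw [hG1]; exact hA1.integral_prod_right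
  have hG3 : ∫ x, ψ x * (∫ τ in s..t, g (x + τ • e)) ∂μ = ∫ y, g y * avgT ψ e s t y ∂μ := by
    rw [hG1]
    rw [← integral_integral_swap (f := fun (τ : ℝ) (x : E) => ψ x * cut g K e s t (x + τ • e)) hA1]
    have h1 : ∀ τ : ℝ, ∫ x, ψ x * cut g K e s t (x + τ • e) ∂μ =
        ∫ y, ψ (y - τ • e) * cut g K e s t y ∂μ := by
      intro τ
      have h4 := integral_add_right_eq_self (μ := μ)
        (fun y => ψ (y - τ • e) * cut g K e s t y) (τ • e)
      rw [← h4]
      congr 1
      funext x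
      rw [add_sub_cancel_right]
    simp_rw [h1]
    rw [integral_integral_swap (f := fun (τ : ℝ) (y : E) => ψ (y - τ • e) * cut g K e s t y) hA2]
    congr 1
    funext y
    rw [integral_mul_const]
    by_cases hy : y ∈ sweep K e s t
    · have : cut g K e s t y = g y := indicator_of_mem hy _
      rw [this, mul_comm]
      congr 1
      rw [avgT, intervalIntegral.integral_of_le hst, ← integral_Icc_eq_integral_Ioc]
    · have h5 : cut g K e s t y = 0 := indicator_of_notMem hy _
      have h6 : avgT ψ e s t y = 0 := by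
        by_contra hne
        exact hy (avgT_ne_zero hst hne)
      rw [h5, h6]; simp
  have hw := h.weak (avgT ψ e s t) (contDiff_avgT hψ hc e hst)
    (HasCompactSupport.of_support_subset_isCompact (isCompact_sweep hK e s t)
      (subset_closure.trans (tsupport_avgT hc e hst)))
    ((tsupport_avgT hc e hst).trans (sweep_subset hsupp))
  have hw' : ∫ x, v x * fderiv ℝ (avgT ψ e s t) x e ∂μ =
      ∫ y, v y * ψ (y - s • e) ∂μ - ∫ y, v y * ψ (y - t • e) ∂μ := by
    rw [← integral_sub hs3 ht3]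
    congr 1
    funext y
    rw [fderiv_avgT hψ hc e hst]
    ring
  have hfin : ∫ x, ψ x • (v (x + t • e) - v (x + s • e) - ∫ τ in s..t, g (x + τ • e)) ∂μ =
      ∫ x, ψ x * v (x + t • e) ∂μ - ∫ x, ψ x * v (x + s • e) ∂μ -
        ∫ x, ψ x * (∫ τ in s..t, g (x + τ • e)) ∂μ := by
    have hsub : Integrable (fun x => ψ x * v (x + t • e) - ψ x * v (x + s • e)) μ := ht1.sub hs1
    rw [← integral_sub ht1 hs1, ← integral_sub hsub hG2]
    congr 1
    funext x
    simp only [smul_eq_mul, Pi.sub_apply]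
    ring
  rw [hfin, ht2, hs2, hG3]
  rw [hw'] at hw
  linarith

/-- **ACL, fixed parameters.** -/
theorem acl_fix {Ω : Set E} (hΩ : IsOpen Ω) {v g : E → ℝ} {e : E} (h : WD Ω μ v g e) {s t : ℝ}
    (hst : s ≤ t) : ∀ᵐ x ∂μ, x ∈ segIn Ω e s t →
      IntegrableOn (fun τ : ℝ => g (x + τ • e)) (Icc s t) ∧
        v (x + t • e) - v (x + s • e) = ∫ τ in s..t, g (x + τ • e) := by
  have hU := isOpen_segIn hΩ e s t
  have h1 : ∀ᵐ x ∂μ, x ∈ segIn Ω e s t →
      v (x + t • e) - v (x + s • e) - ∫ τ in s..t, g (x + τ • e) = 0 := by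
    apply hU.ae_eq_zero_of_integral_contDiff_smul_eq_zero
    · exact ((locallyIntegrable_shift hΩ h.lv ⟨hst, le_rfl⟩).sub
        (locallyIntegrable_shift hΩ h.lv ⟨le_rfl, hst⟩)).sub (locallyIntegrable_avg hΩ h.lg hst)
    · intro ψ hψ hc hs
      exact test_identity h hst hψ hc hs
  have h2 : ∀ᵐ x ∂μ, x ∈ segIn Ω e s t →
      IntegrableOn (fun τ : ℝ => g (x + τ • e)) (Icc s t) := by
    -- exhaust the open set by compact sets
    obtain ⟨F, hFc, hFs, hFU, hFm⟩ := hU.exists_iUnion_isClosed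
    have h3 : ∀ n : ℕ, ∀ᵐ x ∂μ, x ∈ F n ∩ Metric.closedBall (0:E) n →
        IntegrableOn (fun τ : ℝ => g (x + τ • e)) (Icc s t) := by
      intro n
      apply ae_integrable h.lg
      · exact (isCompact_closedBall (0:E) (n:ℝ)).inter_left (hFc n)
      · exact inter_subset_left.trans (hFs n)
    filter_upwards [ae_all_iff.2 h3] with x hx hxU
    rw [← hFU] at hxU
    obtain ⟨m, hm⟩ := mem_iUnion.1 hxU
    obtain ⟨k, hk⟩ := exists_nat_ge ‖x‖
    refine hx (max m k) ⟨hFm (le_max_left m k) hm, ?_⟩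
    rw [mem_closedBall_zero_iff]
    exact hk.trans (by exact_mod_cast le_max_right m k)
  filter_upwards [h1, h2] with x hx1 hx2 hxU
  exact ⟨hx2 hxU, sub_eq_zero.1 (hx1 hxU)⟩

end

end Crest.Agent.R96.Acl_392
end

-- ▼ part R96/Acl3_392

set_option autoImplicit false
set_option linter.unusedSectionVars false

open MeasureTheory Set Filter
open scoped ContDiff Topology

namespace Crest.Agent.R96.Acl_392

noncomputable section

section General

variable {E : Type*} [NormedAddCommGroup E] [NormedSpace ℝ E] [FiniteDimensional ℝ E]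
  [MeasurableSpace E] [BorelSpace E] {μ : Measure E} [μ.IsAddHaarMeasure]

/-- `v` is absolutely continuous on the line through `x` in the direction `e` inside `Ω`,
with derivative `g`. -/
def ACLat (Ω : Set E) (v g : E → ℝ) (e x : E) : Prop :=
  ∀ s t : ℝ, s ≤ t → x ∈ segIn Ω e s t →
    IntegrableOn (fun τ : ℝ => g (x + τ • e)) (Icc s t) ∧
      v (x + t • e) - v (x + s • e) = ∫ τ in s..t, g (x + τ • e)

theorem exists_rat_Icc {O : Set ℝ} (hO : IsOpen O) {s t : ℝ} (hst : s ≤ t) (h : Icc s t ⊆ O) :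
    ∃ a b : ℚ, (a:ℝ) < s ∧ t < b ∧ Icc (a:ℝ) b ⊆ O := by
  obtain ⟨ε₁, hε₁, h1⟩ := Metric.isOpen_iff.1 hO s (h ⟨le_rfl, hst⟩)
  obtain ⟨ε₂, hε₂, h2⟩ := Metric.isOpen_iff.1 hO t (h ⟨hst, le_rfl⟩)
  obtain ⟨a, ha1, ha2⟩ := exists_rat_btwn (show s - ε₁ < s by linarith)
  obtain ⟨b, hb1, hb2⟩ := exists_rat_btwn (show t < t + ε₂ by linarith)
  refine ⟨a, b, ha2, hb1, ?_⟩
  intro τ hτ
  rcases lt_or_ge τ s with hs | hs
  · apply h1
    rw [Metric.mem_ball, Real.dist_eq, abs_lt]
    constructor
    · linarith [hτ.1]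
    · linarith
  · rcases le_or_gt τ t with ht | ht
    · exact h ⟨hs, ht⟩
    · apply h2
      rw [Metric.mem_ball, Real.dist_eq, abs_lt]
      constructor
      · linarith
      · linarith [hτ.2]

/-- **ACL**: almost every line. -/
theorem acl {Ω : Set E} (hΩ : IsOpen Ω) {v g : E → ℝ} {e : E} (h : WD Ω μ v g e)
    (hvc : ContinuousOn v Ω) : ∀ᵐ x ∂μ, ACLat Ω v g e x := by
  have h1 : ∀ p : ℚ × ℚ, ∀ᵐ x ∂μ, (p.1:ℝ) ≤ p.2 → x ∈ segIn Ω e p.1 p.2 →
      IntegrableOn (fun τ : ℝ => g (x + τ • e)) (Icc (p.1:ℝ) p.2) ∧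
        v (x + (p.2:ℝ) • e) - v (x + (p.1:ℝ) • e) = ∫ τ in (p.1:ℝ)..p.2, g (x + τ • e) := by
    intro p
    by_cases hp : (p.1:ℝ) ≤ p.2
    · filter_upwards [acl_fix hΩ h hp] with x hx _ using hx
    · exact Eventually.of_forall fun x hp' => absurd hp' hp
  filter_upwards [ae_all_iff.2 h1] with x hx
  intro s t hst hxs
  set O : Set ℝ := {τ | x + τ • e ∈ Ω} with hO
  have hOo : IsOpen O := by
    apply hΩ.preimage (f := fun τ : ℝ => x + τ • e)
    fun_prop
  obtain ⟨a, b, has, htb, hab⟩ := exists_rat_Icc hOo hst hxs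
  have hab' : (a:ℝ) ≤ b := by linarith
  have hseg : ∀ p q : ℝ, p ∈ Icc (a:ℝ) b → q ∈ Icc (a:ℝ) b → x ∈ segIn Ω e p q := by
    intro p q hp hq τ hτ
    exact hab ⟨hp.1.trans hτ.1, hτ.2.trans hq.2⟩
  obtain ⟨hint, -⟩ := hx (a, b) hab' (hseg _ _ ⟨le_rfl, hab'⟩ ⟨hab', le_rfl⟩)
  have hII : ∀ p q : ℝ, p ∈ Icc (a:ℝ) b → q ∈ Icc (a:ℝ) b →
      IntervalIntegrable (fun τ : ℝ => g (x + τ • e)) volume p q := by
    intro p q hp hq
    have h2 : IntervalIntegrable (fun τ : ℝ => g (x + τ • e)) volume a b :=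
      (intervalIntegrable_iff_integrableOn_Icc_of_le hab').2 hint
    refine h2.mono_set ?_
    rw [uIcc_of_le hab']
    exact uIcc_subset_Icc hp hq
  -- the function `H` is constant
  set H : ℝ → ℝ := fun τ => v (x + τ • e) - ∫ σ in (a:ℝ)..τ, g (x + σ • e) with hH
  have hHc : ContinuousOn H (Ioo (a:ℝ) b) := by
    apply ContinuousOn.sub
    · have h3 : ContinuousOn (fun τ : ℝ => x + τ • e) (Ioo (a:ℝ) b) := by fun_prop
      exact hvc.comp h3 (fun τ hτ => hab ⟨hτ.1.le, hτ.2.le⟩)
    · have h4 := intervalIntegral.continuousOn_primitive_interval (a := (a:ℝ)) (b := (b:ℝ))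
        (f := fun σ => g (x + σ • e)) (μ := volume) (by rw [uIcc_of_le hab']; exact hint)
      rw [uIcc_of_le hab'] at h4
      exact h4.mono Ioo_subset_Icc_self
  have hHr : ∀ q : ℚ, (q:ℝ) ∈ Ioo (a:ℝ) b → H q = v (x + (a:ℝ) • e) := by
    intro q hq
    obtain ⟨-, h5⟩ := hx (a, q) hq.1.le (hseg _ _ ⟨le_rfl, hab'⟩ ⟨hq.1.le, hq.2.le⟩)
    simp only [hH]
    simp only at h5
    rw [← h5]
    ring
  have hHconst : EqOn H (fun _ => v (x + (a:ℝ) • e)) (Ioo (a:ℝ) b) := by
    refine EqOn.of_subset_closure (s := Ioo (a:ℝ) b ∩ range ((↑) : ℚ → ℝ)) ?_ hHc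
      continuousOn_const inter_subset_left ?_
    · rintro _ ⟨hq, q, rfl⟩
      exact hHr q hq
    · exact Rat.denseRange_cast.open_subset_closure_inter isOpen_Ioo
  have hs' : s ∈ Ioo (a:ℝ) b := ⟨has, by linarith⟩
  have ht' : t ∈ Ioo (a:ℝ) b := ⟨by linarith, htb⟩
  refine ⟨hint.mono_set (Icc_subset_Icc has.le htb.le), ?_⟩
  have e1 := hHconst hs'
  have e2 := hHconst ht'
  simp only [hH] at e1 e2
  have e3 : ∫ τ in s..t, g (x + τ • e) =
      (∫ σ in (a:ℝ)..t, g (x + σ • e)) - ∫ σ in (a:ℝ)..s, g (x + σ • e) := by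
    rw [intervalIntegral.integral_interval_sub_left
      (hII _ _ ⟨le_rfl, hab'⟩ ⟨ht'.1.le, ht'.2.le⟩) (hII _ _ ⟨le_rfl, hab'⟩ ⟨hs'.1.le, hs'.2.le⟩)]
  rw [e3]
  linarith

end General

section R3

open Crest.AnalysisR.VecCalc3 Crest.AnalysisR.Sobolev

/-- A weak gradient gives all directional weak derivatives. -/
theorem wd_of_grad {Ω : Set R3} (hΩ : IsOpen Ω) {v : R3 → ℝ} {G : R3 → R3}
    (h : HasWeakGradOn Ω v G) (e : R3) :
    WD Ω volume v (fun x => inner ℝ (G x) e) e := by
  obtain ⟨hv, hG, hw⟩ := h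
  have hGi : ∀ i : Fin 3, LocallyIntegrableOn (fun x => G x i) Ω := by
    intro i
    rw [locallyIntegrableOn_iff hΩ.isLocallyClosed] at hG ⊢
    intro K hK hKc
    exact (EuclideanSpace.proj (𝕜 := ℝ) i).integrable_comp (hG K hK hKc)
  have hin : ∀ x, inner ℝ (G x) e = ∑ i : Fin 3, G x i * e i := by
    intro x
    rw [PiLp.inner_apply]
    apply Finset.sum_congr rfl
    intro i _
    simp [mul_comm]
  -- integrability of (locally integrable) times (continuous, compactly supported in Ω)
  have hprod : ∀ (u : R3 → ℝ), LocallyIntegrableOn u Ω → ∀ φ : R3 → ℝ, Continuous φ →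
      HasCompactSupport φ → tsupport φ ⊆ Ω → Integrable (fun x => u x * φ x) := by
    intro u hu φ hφ hc hs
    have h1 : IntegrableOn u (tsupport φ) := hu.integrableOn_compact_subset hs hc
    obtain ⟨C, hC⟩ := hφ.bounded_above_of_compact_support hc
    have h2 : Integrable ((tsupport φ).indicator u) :=
      h1.integrable_indicator (isClosed_tsupport φ).measurableSet
    have h3 := h2.bdd_mul hφ.aestronglyMeasurable (Eventually.of_forall hC)
    refine h3.congr (Eventually.of_forall fun x => ?_)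
    by_cases hx : x ∈ tsupport φ
    · simp only [indicator_of_mem hx]; ring
    · have : φ x = 0 := image_eq_zero_of_notMem_tsupport hx
      simp [this]
  refine ⟨hv, ?_, ?_⟩
  · have : (fun x => inner ℝ (G x) e) = fun x => ∑ i : Fin 3, G x i * e i := funext hin
    rw [this]
    rw [locallyIntegrableOn_iff hΩ.isLocallyClosed]
    intro K hK hKc
    apply integrable_finsetSum
    intro i _
    have := (locallyIntegrableOn_iff hΩ.isLocallyClosed).1 (hGi i) K hK hKc
    exact this.mul_const (e i)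
  · intro φ hφ hc hs
    have hd : ∀ x, fderiv ℝ φ x e = ∑ i : Fin 3, e i * pderiv φ i x := by
      intro x
      have he : e = ∑ i : Fin 3, e i • EuclideanSpace.single i (1:ℝ) := by
        ext j
        simp [Finset.sum_apply, Pi.single_apply]
      conv_lhs => rw [he]
      rw [map_sum]
      apply Finset.sum_congr rfl
      intro i _
      rw [map_smul]
      rfl
    have hpc : ∀ i : Fin 3, Continuous (pderiv φ i) := by
      intro i
      have h1 : Continuous (fderiv ℝ φ) := hφ.continuous_fderiv (by simp)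
      exact h1.clm_apply continuous_const
    have hps : ∀ i : Fin 3, tsupport (pderiv φ i) ⊆ tsupport φ := by
      intro i
      apply closure_minimal _ (isClosed_tsupport φ)
      intro x hx
      have h1 : fderiv ℝ φ x ≠ 0 := by
        intro h0
        apply hx
        show fderiv ℝ φ x _ = 0
        rw [h0]; rfl
      exact tsupport_fderiv_subset ℝ (subset_tsupport _ h1)
    have hpcs : ∀ i : Fin 3, HasCompactSupport (pderiv φ i) := fun i =>
      hc.of_isClosed_subset (isClosed_tsupport _) (hps i)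
    have hI1 : ∀ i : Fin 3, Integrable (fun x => v x * pderiv φ i x) := fun i =>
      hprod v hv _ (hpc i) (hpcs i) ((hps i).trans hs)
    have hI2 : ∀ i : Fin 3, Integrable (fun x => G x i * φ x) := fun i =>
      hprod _ (hGi i) _ hφ.continuous hc hs
    have hΩ1 : ∀ (u : R3 → ℝ) (ψ : R3 → ℝ), tsupport ψ ⊆ Ω →
        ∫ x in Ω, u x * ψ x = ∫ x, u x * ψ x := by
      intro u ψ hψ
      apply setIntegral_eq_integral_of_forall_compl_eq_zero
      intro x hx
      have : ψ x = 0 := image_eq_zero_of_notMem_tsupport (fun h => hx (hψ h))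
      simp [this]
    have hwi : ∀ i : Fin 3, ∫ x, v x * pderiv φ i x = - ∫ x, G x i * φ x := by
      intro i
      have := hw φ hφ hc hs i
      rwa [hΩ1 v _ ((hps i).trans hs), hΩ1 (fun x => G x i) φ hs] at this
    calc ∫ x, v x * fderiv ℝ φ x e = ∫ x, ∑ i : Fin 3, e i * (v x * pderiv φ i x) := by
          congr 1
          funext x
          rw [hd, Finset.mul_sum]
          apply Finset.sum_congr rfl
          intro i _
          ring
      _ = ∑ i : Fin 3, e i * ∫ x, v x * pderiv φ i x := by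
          rw [integral_finsetSum _ (fun i _ => (hI1 i).const_mul (e i))]
          apply Finset.sum_congr rfl
          intro i _
          rw [integral_const_mul]
      _ = - ∑ i : Fin 3, e i * ∫ x, G x i * φ x := by
          rw [← Finset.sum_neg_distrib]
          apply Finset.sum_congr rfl
          intro i _
          rw [hwi i]
          ring
      _ = - ∫ x, inner ℝ (G x) e * φ x := by
          congr 1
          have : ∀ x, inner ℝ (G x) e * φ x = ∑ i : Fin 3, e i * (G x i * φ x) := by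
            intro x
            rw [hin, Finset.sum_mul]
            apply Finset.sum_congr rfl
            intro i _
            ring
          simp_rw [this]
          rw [integral_finsetSum _ (fun i _ => (hI2 i).const_mul (e i))]
          apply Finset.sum_congr rfl
          intro i _
          rw [integral_const_mul]

/-- **ACL for Sobolev functions on ℝ³**: for every direction `e`, for a.e. `x`, on every segment
`x + [s,t] e ⊆ Ω` the function is absolutely continuous with derivative `⟪G, e⟫`. -/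
theorem acl_grad {Ω : Set R3} (hΩ : IsOpen Ω) {v : R3 → ℝ} {G : R3 → R3}
    (h : HasWeakGradOn Ω v G) (hvc : ContinuousOn v Ω) (e : R3) :
    ∀ᵐ x : R3, ACLat Ω v (fun x => inner ℝ (G x) e) e x :=
  acl hΩ (wd_of_grad hΩ h e) hvc

/-- simultaneously for countably many directions and base point offsets: for a.e. translate `x`,
on all lines `x + c + ℝ e`. -/
theorem acl_grad_countable {Ω : Set R3} (hΩ : IsOpen Ω) {v : R3 → ℝ} {G : R3 → R3}
    (h : HasWeakGradOn Ω v G) (hvc : ContinuousOn v Ω) {ι : Type*} [Countable ι] (c e : ι → R3) :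
    ∀ᵐ x : R3, ∀ i, ACLat Ω v (fun x => inner ℝ (G x) (e i)) (e i) (x + c i) := by
  rw [ae_all_iff]
  intro i
  have h1 := acl_grad hΩ h hvc (e i)
  exact (measurePreserving_add_right volume (c i)).quasiMeasurePreserving.ae h1

end R3

end

end Crest.Agent.R96.Acl_392
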