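import Mathlib
import Crest.Prelude.Def_SobolevMap
import Crest.Agent.R96.Acl3_392

-- ▼ part R96/Lu1_538
section

set_option autoImplicit false
set_option linter.unusedSectionVars false

open MeasureTheory Set Filter Metric Module
open scoped ENNReal Topology

namespace Crest.Agent.R96.Lu_538

noncomputable section

variable {E : Type*} [NormedAddCommGroup E] [NormedSpace ℝ E] [FiniteDimensional ℝ E]
  [MeasurableSpace E] [BorelSpace E] {μ : Measure E} [μ.IsAddHaarMeasure]

/-- scaling towards `x` -/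
theorem lintegral_scale {h : E → ℝ≥0∞} (hh : Measurable h) (x : E) {τ R : ℝ} (hτ : 0 < τ) :
    ∫⁻ w in closedBall (0:E) R, h (x + τ • w) ∂μ =
      ENNReal.ofReal (τ ^ finrank ℝ E)⁻¹ * ∫⁻ u in closedBall x (τ * R), h u ∂μ := by
  have hT : Measurable (fun w : E => x + τ • w) := by fun_prop
  have hmap : Measure.map (fun w : E => x + τ • w) μ = ENNReal.ofReal (τ ^ finrank ℝ E)⁻¹ • μ := by
    have h1 : (fun w : E => x + τ • w) = (fun w => x + w) ∘ (fun w => τ • w) := rfl
    rw [h1, ← Measure.map_map (measurable_const_add x) (measurable_const_smul τ),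
      Measure.map_addHaar_smul μ hτ.ne', Measure.map_smul, map_add_left_eq_self,
      abs_of_pos (by positivity)]
  have hpre : (fun w : E => x + τ • w) ⁻¹' closedBall x (τ * R) = closedBall (0:E) R := by
    ext w
    simp only [mem_preimage, mem_closedBall, dist_eq_norm, add_sub_cancel_left, sub_zero, norm_smul,
      Real.norm_eq_abs, abs_of_pos hτ]
    exact mul_le_mul_iff_right₀ hτ
  rw [← hpre, ← setLIntegral_map measurableSet_closedBall hh hT, hmap, Measure.restrict_smul,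
    lintegral_smul_measure, smul_eq_mul]

/-- the mean over the ball of the mean along the ray is bounded by the maximal function -/
theorem avg_le {h : E → ℝ≥0∞} (hh : Measurable h) {x : E} {R : ℝ} (hR : 0 < R) {δ : ℝ≥0∞}
    (H : ∀ ρ, 0 < ρ → ρ ≤ R → ∫⁻ u in closedBall x ρ, h u ∂μ ≤ δ * μ (closedBall (0:E) ρ)) :
    ∫⁻ w in closedBall (0:E) R, (∫⁻ τ in Ioc (0:ℝ) 1, h (x + τ • w)) ∂μ ≤
      δ * μ (closedBall (0:E) R) := by
  have hm : Measurable (fun p : E × ℝ => h (x + p.2 • p.1)) := by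
    apply hh.comp
    fun_prop
  rw [lintegral_lintegral_swap (f := fun w τ => h (x + τ • w)) hm.aemeasurable]
  calc ∫⁻ τ in Ioc (0:ℝ) 1, (∫⁻ w in closedBall (0:E) R, h (x + τ • w) ∂μ)
      ≤ ∫⁻ _ in Ioc (0:ℝ) 1, δ * μ (closedBall (0:E) R) := by
        apply setLIntegral_mono' measurableSet_Ioc
        intro τ hτ
        rw [lintegral_scale hh x hτ.1]
        have h1 : τ * R ≤ R := by nlinarith [hτ.2]
        have h2 := H (τ * R) (mul_pos hτ.1 hR) h1
        rw [Measure.addHaar_closedBall_mul_of_pos μ (0:E) hτ.1 R] at h2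
        have hpos : 0 < τ ^ finrank ℝ E := pow_pos hτ.1 _
        calc ENNReal.ofReal (τ ^ finrank ℝ E)⁻¹ * ∫⁻ u in closedBall x (τ * R), h u ∂μ
            ≤ ENNReal.ofReal (τ ^ finrank ℝ E)⁻¹ *
              (δ * (ENNReal.ofReal (τ ^ finrank ℝ E) * μ (closedBall (0:E) R))) := by gcongr
          _ = (ENNReal.ofReal (τ ^ finrank ℝ E)⁻¹ * ENNReal.ofReal (τ ^ finrank ℝ E)) *
              (δ * μ (closedBall (0:E) R)) := by ring
          _ = δ * μ (closedBall (0:E) R) := by
              rw [← ENNReal.ofReal_mul (by positivity), inv_mul_cancel₀ hpos.ne', ENNReal.ofReal_one,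
                one_mul]
    _ = δ * μ (closedBall (0:E) R) := by
        rw [setLIntegral_const, Real.volume_Ioc]
        simp

variable {F : Type*} [NormedAddCommGroup F] [NormedSpace ℝ F] [FiniteDimensional ℝ F]
  [MeasurableSpace F] [BorelSpace F]

/-- the ray formula holds at `x` for almost every `w` -/
def Good (μ : Measure E) (f : E → F) (G : E → E →L[ℝ] F) (B : Set E) (x : E) : Prop :=
  ∀ᵐ w ∂μ, x ∈ B → x + w ∈ B → f (x + w) - f x = ∫ τ in (0:ℝ)..1, G (x + τ • w) w

/-- almost every point is good -/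
theorem ae_good {f : E → F} {G : E → E →L[ℝ] F} {B : Set E} (hB : IsOpen B) 
    (hf : ContinuousOn f B) (hG : StronglyMeasurable G)
    (H : ∀ w : E, ∀ᵐ x ∂μ, x ∈ B → x + w ∈ B →
      f (x + w) - f x = ∫ τ in (0:ℝ)..1, G (x + τ • w) w) :
    ∀ᵐ x ∂μ, Good μ f G B x := by
  classical
  have hf1 : Measurable (B.indicator f) := by
    have h1 := ContinuousOn.measurable_piecewise (s := B) (f := f) (g := fun _ => (0:F)) hf
      continuousOn_const hB.measurableSet
    exact h1
  set L : E × E → F := fun p => B.indicator f (p.2 + p.1) - B.indicator f p.2 with hL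
  set Rr : E × E → F := fun p => ∫ τ in (0:ℝ)..1, G (p.2 + τ • p.1) p.1 with hRr
  have hLm : StronglyMeasurable L := by
    have h1 : Measurable (fun p : E × E => B.indicator f (p.2 + p.1)) :=
      hf1.comp (measurable_snd.add measurable_fst)
    have h2 : Measurable (fun p : E × E => B.indicator f p.2) := hf1.comp measurable_snd
    exact (h1.stronglyMeasurable).sub (h2.stronglyMeasurable)
  have hRm : StronglyMeasurable Rr := by
    have h1 : StronglyMeasurable (fun q : (E × E) × ℝ => G (q.1.2 + q.2 • q.1.1)) :=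
      hG.comp_measurable (by fun_prop)
    have h2 : StronglyMeasurable (fun q : (E × E) × ℝ => q.1.1) :=
      (measurable_fst.comp measurable_fst).stronglyMeasurable
    have h3 : StronglyMeasurable (fun q : (E × E) × ℝ => G (q.1.2 + q.2 • q.1.1) q.1.1) := by
      have hc : Continuous (fun z : (E →L[ℝ] F) × E => z.1 z.2) :=
        isBoundedBilinearMap_apply.continuous
      exact hc.comp_stronglyMeasurable (h1.prodMk h2)
    have h4 : StronglyMeasurable (fun p : E × E =>
        ∫ τ in Ioc (0:ℝ) 1, G (p.2 + τ • p.1) p.1) :=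
      StronglyMeasurable.integral_prod_right (ν := volume.restrict (Ioc (0:ℝ) 1)) h3
    convert h4 using 2 with p
    simp only [hRr]
    rw [intervalIntegral.integral_of_le zero_le_one]
  set P : Set (E × E) := {p | p.2 ∈ B ∧ p.2 + p.1 ∈ B ∧ L p ≠ Rr p} with hP
  have hPm : MeasurableSet P := by
    have h1 : MeasurableSet {p : E × E | p.2 ∈ B} := measurable_snd hB.measurableSet
    have h2 : MeasurableSet {p : E × E | p.2 + p.1 ∈ B} :=
      (measurable_snd.add measurable_fst) hB.measurableSet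
    have h3 : MeasurableSet {p : E × E | L p = Rr p} := hLm.measurableSet_eq_fun hRm
    exact h1.inter (h2.inter h3.compl)
  -- for every `w`, a.e. `x`
  have h0 : ∀ w : E, ∀ᵐ x ∂μ, (w, x) ∉ P := by
    intro w
    filter_upwards [H w] with x hx
    rintro ⟨h1, h2, h3⟩
    apply h3
    simp only [hL, hRr, indicator_of_mem h1, indicator_of_mem h2]
    exact hx h1 h2
  have h1 : ∀ᵐ p ∂(μ.prod μ), p ∉ P := by
    rw [Measure.ae_prod_iff_ae_ae hPm.compl]
    exact Eventually.of_forall h0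
  have h2 : ∀ᵐ p ∂(μ.prod μ), (p.2, p.1) ∉ P := by
    exact (Measure.measurePreserving_swap (μ := μ) (ν := μ)).quasiMeasurePreserving.ae h1
  have h3 := Measure.ae_ae_of_ae_prod h2
  filter_upwards [h3] with x hx
  filter_upwards [hx] with w hw
  intro hxB hxwB
  by_contra hne
  apply hw
  refine ⟨hxB, hxwB, ?_⟩
  simp only [hL, hRr, indicator_of_mem hxB, indicator_of_mem hxwB]
  exact hne

/-- the pointwise estimate along a good ray -/
theorem enorm_ray_le {f : E → F} {G : E → E →L[ℝ] F} {x w : E} (hG : StronglyMeasurable G)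
    (h : f (x + w) - f x = ∫ τ in (0:ℝ)..1, G (x + τ • w) w) (A : E →L[ℝ] F) :
    ‖f (x + w) - f x - A w‖ₑ ≤ ‖w‖ₑ * ∫⁻ τ in Ioc (0:ℝ) 1, ‖G (x + τ • w) - A‖ₑ := by
  have hGm : StronglyMeasurable (fun τ : ℝ => G (x + τ • w)) :=
    hG.comp_measurable (by fun_prop)
  have hGw : StronglyMeasurable (fun τ : ℝ => G (x + τ • w) w) := by
    have hc : Continuous (fun z : (E →L[ℝ] F) => z w) := (ContinuousLinearMap.apply ℝ F w).continuous
    exact hc.comp_stronglyMeasurable hGm
  have hDw : StronglyMeasurable (fun τ : ℝ => (G (x + τ • w) - A) w) := by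
    exact hGw.sub (stronglyMeasurable_const (b := A w))
  have hb : ∫⁻ τ in Ioc (0:ℝ) 1, ‖(G (x + τ • w) - A) w‖ₑ ≤
      ‖w‖ₑ * ∫⁻ τ in Ioc (0:ℝ) 1, ‖G (x + τ • w) - A‖ₑ := by
    rw [← lintegral_const_mul']
    · apply lintegral_mono
      intro τ
      have h1 := (G (x + τ • w) - A).le_opENorm w
      calc ‖(G (x + τ • w) - A) w‖ₑ ≤ ‖G (x + τ • w) - A‖ₑ * ‖w‖ₑ := h1
        _ = ‖w‖ₑ * ‖G (x + τ • w) - A‖ₑ := mul_comm _ _
    · exact enorm_ne_top
  refine le_trans ?_ hb
  by_cases htop : ∫⁻ τ in Ioc (0:ℝ) 1, ‖(G (x + τ • w) - A) w‖ₑ = ∞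
  · rw [htop]; exact le_top
  have hint : IntegrableOn (fun τ : ℝ => (G (x + τ • w) - A) w) (Ioc (0:ℝ) 1) :=
    ⟨hDw.aestronglyMeasurable, lt_top_iff_ne_top.2 htop⟩
  have hc : IntegrableOn (fun _ : ℝ => A w) (Ioc (0:ℝ) 1) := by
    apply integrableOn_const
    · simp
    · simp
  have hsum : ∫ τ in (0:ℝ)..1, G (x + τ • w) w =
      (∫ τ in (0:ℝ)..1, (G (x + τ • w) - A) w) + A w := by
    rw [intervalIntegral.integral_of_le zero_le_one, intervalIntegral.integral_of_le zero_le_one]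
    have h1 : ∫ _ in Ioc (0:ℝ) 1, A w = A w := by simp
    rw [← h1, ← integral_add hint hc]
    apply integral_congr_ae
    filter_upwards with τ
    simp
  rw [h, hsum, add_sub_cancel_right, intervalIntegral.integral_of_le zero_le_one]
  exact enorm_integral_le_lintegral_enorm _

/-- `L^1` estimate on a ball around a good point -/
theorem ball_est {f : E → F} {G : E → E →L[ℝ] F} {B : Set E} {x : E} {R : ℝ}
    (hG : StronglyMeasurable G) (hx : Good μ f G B x) (hR : 0 < R) (hb : closedBall x R ⊆ B)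
    (A : E →L[ℝ] F) {δ : ℝ≥0∞}
    (H : ∀ ρ, 0 < ρ → ρ ≤ R →
      ∫⁻ u in closedBall x ρ, ‖G u - A‖ₑ ∂μ ≤ δ * μ (closedBall (0:E) ρ)) :
    ∫⁻ u in closedBall x R, ‖f u - f x - A (u - x)‖ₑ ∂μ ≤
      ENNReal.ofReal R * (δ * μ (closedBall (0:E) R)) := by
  have hm : Measurable (fun u => ‖G u - A‖ₑ) :=
    (hG.sub stronglyMeasurable_const).enorm
  have h1 := avg_le hm hR H
  have h2 : ∫⁻ u in closedBall x R, ‖f u - f x - A (u - x)‖ₑ ∂μ =
      ∫⁻ w in closedBall (0:E) R, ‖f (x + w) - f x - A w‖ₑ ∂μ := by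
    have hmp : MeasurePreserving (fun w : E => x + w) μ μ := measurePreserving_add_left μ x
    have hemb : MeasurableEmbedding (fun w : E => x + w) := measurableEmbedding_addLeft x
    have hpre : (fun w : E => x + w) ⁻¹' closedBall x R = closedBall (0:E) R := by
      ext w
      simp [mem_closedBall, dist_eq_norm]
    rw [← hpre, ← hmp.setLIntegral_comp_preimage_emb hemb
      (fun u => ‖f u - f x - A (u - x)‖ₑ) (closedBall x R)]
    simp
  rw [h2]
  have hxB : x ∈ B := hb (mem_closedBall_self hR.le)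
  calc ∫⁻ w in closedBall (0:E) R, ‖f (x + w) - f x - A w‖ₑ ∂μ
      ≤ ∫⁻ w in closedBall (0:E) R, ENNReal.ofReal R *
          (∫⁻ τ in Ioc (0:ℝ) 1, ‖G (x + τ • w) - A‖ₑ) ∂μ := by
        apply setLIntegral_mono_ae'  measurableSet_closedBall
        filter_upwards [hx] with w hw hwR
        have hwn : ‖w‖ ≤ R := by simpa using hwR
        have hwB : x + w ∈ B := hb (by simpa [mem_closedBall, dist_eq_norm] using hwn)
        refine (enorm_ray_le hG (hw hxB hwB) A).trans ?_
        gcongr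
        rw [← ofReal_norm]
        exact ENNReal.ofReal_le_ofReal hwn
    _ = ENNReal.ofReal R * ∫⁻ w in closedBall (0:E) R,
          (∫⁻ τ in Ioc (0:ℝ) 1, ‖G (x + τ • w) - A‖ₑ) ∂μ := by
        rw [lintegral_const_mul' _ _ ENNReal.ofReal_ne_top]
    _ ≤ _ := by gcongr

end

end Crest.Agent.R96.Lu_538
end

-- ▼ part R96/Lu2_538
section

set_option autoImplicit false
set_option linter.unusedSectionVars false

open MeasureTheory Set Filter Metric Module
open scoped ENNReal NNReal Topology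

namespace Crest.Agent.R96.Lu_538

noncomputable section

variable {E : Type*} [NormedAddCommGroup E] [NormedSpace ℝ E] [FiniteDimensional ℝ E]
  [MeasurableSpace E] [BorelSpace E] {μ : Measure E} [μ.IsAddHaarMeasure]
variable {F : Type*} [NormedAddCommGroup F] [NormedSpace ℝ F] [FiniteDimensional ℝ F]
  [MeasurableSpace F] [BorelSpace F]

theorem mu_two_mul (r : ℝ) : μ (closedBall (0:E) (2 * r)) =
    ENNReal.ofReal (2 ^ finrank ℝ E) * μ (closedBall (0:E) r) :=
  Measure.addHaar_closedBall_mul_of_pos μ (0:E) (by norm_num : (0:ℝ) < 2) r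

theorem mu_center (x : E) (r : ℝ) : μ (closedBall x r) = μ (closedBall (0:E) r) :=
  Measure.addHaar_closedBall_center μ x r

theorem mu_pos {r : ℝ} (hr : 0 < r) (x : E) : μ (closedBall x r) ≠ 0 :=
  (measure_closedBall_pos μ x hr).ne'

theorem mu_fin (x : E) (r : ℝ) : μ (closedBall x r) ≠ ∞ := measure_closedBall_lt_top.ne

/-- the Lipschitz estimate for two good points with bounded maximal function -/
theorem lip_est {f : E → F} {G : E → E →L[ℝ] F} {B : Set E}
    (hf : ContinuousOn f B)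
    (hG : StronglyMeasurable G) {x y : E} {R : ℝ} {K : ℝ}
    (hx : Good μ f G B x) (hy : Good μ f G B y) (hbx : closedBall x R ⊆ B)
    (hby : closedBall y R ⊆ B) (hxy : 2 * dist x y ≤ R)
    (Hx : ∀ ρ, 0 < ρ → ρ ≤ R →
      ∫⁻ u in closedBall x ρ, ‖G u‖ₑ ∂μ ≤ ENNReal.ofReal K * μ (closedBall (0:E) ρ))
    (Hy : ∀ ρ, 0 < ρ → ρ ≤ R →
      ∫⁻ u in closedBall y ρ, ‖G u‖ₑ ∂μ ≤ ENNReal.ofReal K * μ (closedBall (0:E) ρ)) :
    ‖f x - f y‖ₑ ≤ ENNReal.ofReal (4 * 2 ^ finrank ℝ E * K * dist x y) := by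
  rcases eq_or_ne x y with rfl | hne
  · simp
  set r := dist x y with hr
  have hr0 : 0 < r := dist_pos.2 hne
  set m : E := midpoint ℝ x y with hm
  have hmx : dist m x = r / 2 := by
    rw [hm, dist_midpoint_left]
    simp [hr]; ring
  have hmy : dist m y = r / 2 := by
    rw [hm, dist_midpoint_right]
    simp [hr]; ring
  have hsx : closedBall m r ⊆ closedBall x (2 * r) := by
    apply closedBall_subset_closedBall'
    rw [hmx]; linarith
  have hsy : closedBall m r ⊆ closedBall y (2 * r) := by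
    apply closedBall_subset_closedBall'
    rw [hmy]; linarith
  have hR2 : (0:ℝ) < 2 * r := by linarith
  have ex := ball_est (μ := μ) (F := F) hG hx hR2 ((closedBall_subset_closedBall hxy).trans hbx) 0
    (δ := ENNReal.ofReal K) (fun ρ h1 h2 => by simpa using Hx ρ h1 (h2.trans hxy))
  have ey := ball_est (μ := μ) (F := F) hG hy hR2 ((closedBall_subset_closedBall hxy).trans hby) 0
    (δ := ENNReal.ofReal K) (fun ρ h1 h2 => by simpa using Hy ρ h1 (h2.trans hxy))
  simp only [zero_apply, sub_zero] at ex ey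
  have hmB : closedBall m r ⊆ B := hsx.trans ((closedBall_subset_closedBall hxy).trans hbx)
  have hfm : AEMeasurable f (μ.restrict (closedBall m r)) :=
    (hf.mono hmB).aemeasurable measurableSet_closedBall
  have hmeas : AEMeasurable (fun u => ‖f u - f x‖ₑ) (μ.restrict (closedBall m r)) :=
    (hfm.sub_const _).enorm
  have key : ‖f x - f y‖ₑ * μ (closedBall m r) ≤
      2 * (ENNReal.ofReal (2 * r) * (ENNReal.ofReal K * μ (closedBall (0:E) (2 * r)))) := by
    calc ‖f x - f y‖ₑ * μ (closedBall m r) = ∫⁻ _ in closedBall m r, ‖f x - f y‖ₑ ∂μ := by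
          rw [setLIntegral_const]
      _ ≤ ∫⁻ u in closedBall m r, (‖f u - f x‖ₑ + ‖f u - f y‖ₑ) ∂μ := by
          apply lintegral_mono
          intro u
          have h1 : f x - f y = (f u - f y) - (f u - f x) := by abel
          calc ‖f x - f y‖ₑ = ‖(f u - f y) - (f u - f x)‖ₑ := by rw [h1]
            _ ≤ ‖f u - f y‖ₑ + ‖f u - f x‖ₑ := enorm_sub_le
            _ = _ := add_comm _ _
      _ = (∫⁻ u in closedBall m r, ‖f u - f x‖ₑ ∂μ) + ∫⁻ u in closedBall m r, ‖f u - f y‖ₑ ∂μ :=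
          lintegral_add_left' hmeas _
      _ ≤ (∫⁻ u in closedBall x (2 * r), ‖f u - f x‖ₑ ∂μ) +
            ∫⁻ u in closedBall y (2 * r), ‖f u - f y‖ₑ ∂μ := by
          gcongr
      _ ≤ _ := by
          rw [two_mul (ENNReal.ofReal (2 * r) * _)]
          exact add_le_add ex ey
  rw [mu_two_mul, mu_center m] at key
  have h0 := mu_pos (μ := μ) hr0 (0:E)
  have hfin := mu_fin (μ := μ) (0:E) r
  have hK : ENNReal.ofReal (4 * 2 ^ finrank ℝ E * K * r) =
      2 * (ENNReal.ofReal (2 * r) * (ENNReal.ofReal K * ENNReal.ofReal (2 ^ finrank ℝ E))) := by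
    rcases le_or_gt 0 K with hK | hK
    · rw [← ENNReal.ofReal_mul hK, ← ENNReal.ofReal_mul (by positivity),
        show (2:ℝ≥0∞) = ENNReal.ofReal 2 by simp, ← ENNReal.ofReal_mul (by norm_num)]
      congr 1
      ring
    · rw [ENNReal.ofReal_of_nonpos hK.le, ENNReal.ofReal_of_nonpos]
      · simp
      · have : (0:ℝ) < 4 * 2 ^ finrank ℝ E * r := by positivity
        nlinarith
  rw [hK]
  have key2 : ‖f x - f y‖ₑ * μ (closedBall (0:E) r) ≤
      (2 * (ENNReal.ofReal (2 * r) * (ENNReal.ofReal K * ENNReal.ofReal (2 ^ finrank ℝ E)))) *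
        μ (closedBall (0:E) r) := by
    refine key.trans (le_of_eq ?_)
    ring
  exact (ENNReal.mul_le_mul_iff_left h0 hfin).1 key2

/-- from averages to `lintegral` -/
theorem leb_lintegral {G : E → E →L[ℝ] F} (hG : LocallyIntegrable G μ) {x : E}
    (h : Tendsto (fun ρ : ℝ => ⨍ y in closedBall x ρ, ‖G y - G x‖ ∂μ) (𝓝[>] 0) (𝓝 0))
    {ε : ℝ} (hε : 0 < ε) :
    ∃ R > 0, ∀ ρ, 0 < ρ → ρ ≤ R →
      ∫⁻ u in closedBall x ρ, ‖G u - G x‖ₑ ∂μ ≤ ENNReal.ofReal ε * μ (closedBall (0:E) ρ) := by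
  have h1 : ∀ᶠ ρ in 𝓝[>] (0:ℝ), (⨍ y in closedBall x ρ, ‖G y - G x‖ ∂μ) < ε :=
    h.eventually (eventually_lt_nhds hε)
  obtain ⟨R, hR, hR2⟩ := mem_nhdsGT_iff_exists_Ioc_subset.1 h1
  refine ⟨R, hR, fun ρ h0 hρ => ?_⟩
  have h2 : (⨍ y in closedBall x ρ, ‖G y - G x‖ ∂μ) < ε := hR2 ⟨h0, hρ⟩
  rw [setAverage_eq, smul_eq_mul] at h2
  have hpos : 0 < μ.real (closedBall x ρ) := by
    rw [measureReal_def]
    exact ENNReal.toReal_pos (mu_pos h0 x) (mu_fin x ρ)
  have hint : IntegrableOn (fun y => G y - G x) (closedBall x ρ) μ := by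
    apply Integrable.sub
    · exact (hG.integrableOn_isCompact (isCompact_closedBall x ρ))
    · exact integrableOn_const (mu_fin x ρ)
  have h3 : ∫ y in closedBall x ρ, ‖G y - G x‖ ∂μ ≤ ε * μ.real (closedBall x ρ) := by
    have := mul_lt_mul_of_pos_left h2 hpos
    rw [← mul_assoc, mul_inv_cancel₀ hpos.ne', one_mul] at this
    linarith
  rw [← ofReal_integral_norm_eq_lintegral_enorm hint, ← mu_center x]
  refine (ENNReal.ofReal_le_ofReal h3).trans (le_of_eq ?_)
  rw [ENNReal.ofReal_mul hε.le, ofReal_measureReal (mu_fin x ρ)]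

/-- off-centre density at `x` -/
def Dens (μ : Measure E) (A : Set E) (x : E) : Prop :=
  ∀ K : ℕ, Tendsto (fun y => μ (A ∩ closedBall y (‖y - x‖ / (K + 1))) /
    μ (closedBall y (‖y - x‖ / (K + 1)))) (𝓝[≠] x) (𝓝 1)

theorem ae_dens (A : Set E) : ∀ᵐ x ∂(μ.restrict A), Dens μ A x := by
  unfold Dens
  rw [ae_all_iff]
  intro K
  filter_upwards [IsUnifLocDoublingMeasure.ae_tendsto_measure_inter_div μ A ((K:ℝ) + 1)] with x hx
  apply hx (fun y => y) (fun y => ‖y - x‖ / (K + 1))
  · rw [tendsto_nhdsWithin_iff]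
    constructor
    · have h1 : Tendsto (fun y : E => ‖y - x‖ / ((K:ℝ) + 1)) (𝓝 x) (𝓝 (‖x - x‖ / ((K:ℝ) + 1))) := by
        apply Continuous.tendsto
        fun_prop
      rw [sub_self, norm_zero, zero_div] at h1
      exact h1.mono_left nhdsWithin_le_nhds
    · filter_upwards [self_mem_nhdsWithin] with y hy
      have : y ≠ x := hy
      have h2 : 0 < ‖y - x‖ := norm_pos_iff.2 (sub_ne_zero.2 this)
      exact div_pos h2 (by positivity)
  · filter_upwards with y
    rw [mem_closedBall, mul_div_cancel₀ _ (by positivity : ((K:ℝ) + 1) ≠ 0), dist_comm,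
      dist_eq_norm]

/-- derivative within `A` at a good, Lebesgue, density point -/
theorem hasFDerivWithinAt_of {f : E → F} {G : E → E →L[ℝ] F} {B A : Set E} (hA : MeasurableSet A)
    (hG : StronglyMeasurable G) {x : E} (hx : Good μ f G B x) (hBx : B ∈ 𝓝 x)
    (hL : ∀ ε > 0, ∃ R > 0, ∀ ρ, 0 < ρ → ρ ≤ R →
      ∫⁻ u in closedBall x ρ, ‖G u - G x‖ₑ ∂μ ≤ ENNReal.ofReal ε * μ (closedBall (0:E) ρ))
    (hD : Dens μ A x) {L r0 : ℝ} (hL0 : 0 ≤ L) (hr0 : 0 < r0)
    (hLip : ∀ u ∈ A, ∀ y ∈ A, dist u y ≤ r0 → ‖f u - f y‖ ≤ L * dist u y) :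
    HasFDerivWithinAt f (G x) A x := by
  rw [hasFDerivWithinAt_iff_isLittleO]
  rw [Asymptotics.isLittleO_iff]
  intro c hc
  set n := finrank ℝ E with hn
  -- choice of η
  obtain ⟨K, hK⟩ := exists_nat_gt ((L + ‖G x‖) * 2 / c)
  set η : ℝ := 1 / ((K:ℝ) + 1) with hη
  have hη0 : 0 < η := by positivity
  have hη1 : η ≤ 1 := by
    rw [hη, div_le_one (by positivity)]
    have : (0:ℝ) ≤ K := Nat.cast_nonneg K
    linarith
  have hηc : (L + ‖G x‖) * η ≤ c / 2 := by
    have h1 : (L + ‖G x‖) * 2 < c * (K + 1) := by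
      rw [div_lt_iff₀ hc] at hK
      nlinarith
    rw [hη, mul_one_div, div_le_iff₀ (by positivity)]
    linarith
  set κ : ℝ := c * (η / 2) ^ n / 16 with hκ
  have hκ0 : 0 < κ := by positivity
  obtain ⟨R, hR, hRL⟩ := hL κ hκ0
  obtain ⟨R', hR', hR'B⟩ := Metric.nhds_basis_closedBall.mem_iff.1 hBx
  have hdens := hD K
  have hev : ∀ᶠ y in 𝓝[≠] x, (1/2 : ℝ≥0∞) ≤ μ (A ∩ closedBall y (‖y - x‖ / (K + 1))) /
      μ (closedBall y (‖y - x‖ / (K + 1))) := by
    have : (1/2 : ℝ≥0∞) < 1 := by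
      simp
    filter_upwards [hdens.eventually (eventually_gt_nhds this)] with y hy using hy.le
  have hsmall : ∀ᶠ y in 𝓝 x, 2 * ‖y - x‖ < min (min R R') r0 := by
    have h1 : Tendsto (fun y : E => 2 * ‖y - x‖) (𝓝 x) (𝓝 (2 * ‖x - x‖)) := by
      apply Continuous.tendsto
      fun_prop
    rw [sub_self, norm_zero, mul_zero] at h1
    exact h1.eventually (eventually_lt_nhds (by positivity))
  rw [eventually_nhdsWithin_iff] at hev
  rw [eventually_nhdsWithin_iff]
  filter_upwards [hev, hsmall] with y hy1 hy2 hyA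
  rcases eq_or_ne y x with rfl | hne
  · simp
  have hden := hy1 hne
  set r := ‖y - x‖ with hr
  have hr0' : 0 < r := norm_pos_iff.2 (sub_ne_zero.2 hne)
  have h2R : 2 * r ≤ R := (hy2.le.trans (min_le_left _ _)).trans (min_le_left _ _)
  have h2R' : 2 * r ≤ R' := (hy2.le.trans (min_le_left _ _)).trans (min_le_right _ _)
  have h2r0 : 2 * r ≤ r0 := hy2.le.trans (min_le_right _ _)
  by_contra hcon
  rw [not_le] at hcon
  have e1 := ball_est (μ := μ) hG hx (by linarith : (0:ℝ) < 2 * r)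
    ((closedBall_subset_closedBall h2R').trans hR'B) (G x) (δ := ENNReal.ofReal κ)
    (fun ρ h1 h2 => hRL ρ h1 (h2.trans h2R))
  have hηr : r / ((K:ℝ) + 1) = η * r := by rw [hη]; ring
  rw [hηr] at hden
  set S : Set E := A ∩ closedBall y (η * r) with hS
  have hSm : MeasurableSet S := hA.inter measurableSet_closedBall
  have hSsub : S ⊆ closedBall x (2 * r) := by
    rintro u ⟨-, hu⟩
    rw [mem_closedBall] at hu ⊢
    have h3 : dist y x = r := by rw [dist_eq_norm]
    calc dist u x ≤ dist u y + dist y x := dist_triangle _ _ _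
      _ ≤ η * r + r := by rw [h3]; linarith
      _ ≤ 2 * r := by nlinarith
  have e2 : ENNReal.ofReal (c * r / 2) * μ S ≤
      ∫⁻ u in closedBall x (2 * r), ‖f u - f x - G x (u - x)‖ₑ ∂μ := by
    calc ENNReal.ofReal (c * r / 2) * μ S = ∫⁻ _ in S, ENNReal.ofReal (c * r / 2) ∂μ := by
          rw [setLIntegral_const]
      _ ≤ ∫⁻ u in S, ‖f u - f x - G x (u - x)‖ₑ ∂μ := by
          apply setLIntegral_mono' hSm
          intro u hu
          rw [← ofReal_norm]
          apply ENNReal.ofReal_le_ofReal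
          have hud : dist u y ≤ η * r := hu.2
          have hud0 : dist u y ≤ r0 := by nlinarith
          have l1 := hLip u hu.1 y hyA hud0
          have l2 : ‖G x (u - y)‖ ≤ ‖G x‖ * (η * r) := by
            refine (ContinuousLinearMap.le_opNorm _ _).trans ?_
            rw [← dist_eq_norm]
            gcongr
          have l3 : f y - f x - G x (y - x) =
              (f u - f x - G x (u - x)) - (f u - f y) + G x (u - y) := by
            have : u - x = (u - y) + (y - x) := by abel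
            rw [this, map_add]
            abel
          have l4 : ‖f y - f x - G x (y - x)‖ ≤
              ‖f u - f x - G x (u - x)‖ + ‖f u - f y‖ + ‖G x (u - y)‖ := by
            rw [l3]
            exact (norm_add_le _ _).trans (by gcongr; exact norm_sub_le _ _)
          have l5 : L * dist u y ≤ L * (η * r) := by gcongr
          have l6 : (L + ‖G x‖) * η * r ≤ c / 2 * r := by gcongr
          nlinarith
      _ ≤ _ := lintegral_mono_set hSsub
  have hmy : μ (closedBall y (η * r)) = ENNReal.ofReal ((η / 2) ^ n) * μ (closedBall (0:E) (2 * r)) := by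
    have h3 : η * r = (η / 2) * (2 * r) := by ring
    rw [mu_center, h3, Measure.addHaar_closedBall_mul_of_pos μ (0:E) (by positivity) (2 * r)]
  have hSlow : (1/2 : ℝ≥0∞) * (ENNReal.ofReal ((η / 2) ^ n) * μ (closedBall (0:E) (2 * r))) ≤ μ S := by
    rw [← hmy]
    have h4 := mu_pos (μ := μ) (mul_pos hη0 hr0') y
    have h5 := mu_fin (μ := μ) y (η * r)
    exact (ENNReal.le_div_iff_mul_le (Or.inl h4) (Or.inl h5)).1 hden
  set V := μ (closedBall (0:E) (2 * r)) with hV
  have hV0 : V ≠ 0 := mu_pos (by linarith) 0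
  have hVf : V ≠ ∞ := mu_fin 0 _
  have e3 : ENNReal.ofReal (c * r / 2) * ((1/2 : ℝ≥0∞) * (ENNReal.ofReal ((η / 2) ^ n) * V)) ≤
      ENNReal.ofReal (2 * r) * (ENNReal.ofReal κ * V) :=
    (mul_le_mul_right hSlow _).trans (e2.trans e1)
  have e4 : ENNReal.ofReal (c * r / 2 * (1/2 * (η / 2) ^ n)) * V ≤
      ENNReal.ofReal (2 * r * κ) * V := by
    have h5 : (1/2 : ℝ≥0∞) = ENNReal.ofReal (1/2) := by
      rw [ENNReal.ofReal_div_of_pos (by norm_num)]; simp
    rw [h5] at e3
    calc ENNReal.ofReal (c * r / 2 * (1/2 * (η / 2) ^ n)) * V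
        = ENNReal.ofReal (c * r / 2) * (ENNReal.ofReal (1/2) * (ENNReal.ofReal ((η / 2) ^ n) * V)) := by
          rw [ENNReal.ofReal_mul (by positivity), ENNReal.ofReal_mul (by positivity)]
          ring
      _ ≤ _ := e3
      _ = _ := by
          rw [ENNReal.ofReal_mul (show (0:ℝ) ≤ 2 * r by positivity)]
          ring
  have e5 := (ENNReal.mul_le_mul_iff_left hV0 hVf).1 e4
  rw [ENNReal.ofReal_le_ofReal_iff (by positivity)] at e5
  have h6 : 0 < (η / 2) ^ n := by positivity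
  rw [hκ] at e5
  have h7 : 0 < c * r * (η / 2) ^ n := by positivity
  nlinarith

end

end Crest.Agent.R96.Lu_538
end

-- ▼ part R96/Lu3_538
section

set_option autoImplicit false
set_option linter.unusedSectionVars false

open MeasureTheory Set Filter Metric Module
open scoped ENNReal NNReal Topology

namespace Crest.Agent.R96.Lu_538

noncomputable section

variable {E : Type*} [NormedAddCommGroup E] [NormedSpace ℝ E] [FiniteDimensional ℝ E]
  [MeasurableSpace E] [BorelSpace E] {μ : Measure E} [μ.IsAddHaarMeasure]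
variable {F : Type*} [NormedAddCommGroup F] [NormedSpace ℝ F] [FiniteDimensional ℝ F]
  [MeasurableSpace F] [BorelSpace F]

theorem measurable_ballInt {g : E → ℝ≥0∞} (hg : Measurable g) (ρ : ℝ) :
    Measurable (fun x => ∫⁻ u in closedBall x ρ, g u ∂μ) := by
  have h1 : MeasurableSet {p : E × E | dist p.2 p.1 ≤ ρ} :=
    measurableSet_le (by fun_prop) measurable_const
  have h2 : Measurable (indicator {p : E × E | dist p.2 p.1 ≤ ρ} (fun p => g p.2)) :=
    (hg.comp measurable_snd).indicator h1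
  have h3 := h2.lintegral_prod_right' (ν := μ)
  convert h3 using 2 with x
  rw [← lintegral_indicator measurableSet_closedBall]
  rfl

/-- bounded maximal function at dyadic scales below `2^{-k}` -/
def ASet (μ : Measure E) (G : E → E →L[ℝ] F) (z : E) (r : ℝ) (k : ℕ) : Set E :=
  {x | x ∈ ball z r ∧ ∀ j, k ≤ j → ∫⁻ u in closedBall x ((1/2 : ℝ) ^ j), ‖G u‖ₑ ∂μ ≤
    k * μ (closedBall (0:E) ((1/2 : ℝ) ^ j))}

theorem measurableSet_ASet {G : E → E →L[ℝ] F} (hG : StronglyMeasurable G) (z : E) (r : ℝ) (k : ℕ) :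
    MeasurableSet (ASet μ G z r k) := by
  have h1 : ASet μ G z r k = ball z r ∩ ⋂ j : ℕ, ⋂ _ : k ≤ j,
      {x | ∫⁻ u in closedBall x ((1/2 : ℝ) ^ j), ‖G u‖ₑ ∂μ ≤
        k * μ (closedBall (0:E) ((1/2 : ℝ) ^ j))} := by
    ext x
    simp [ASet]
  rw [h1]
  refine measurableSet_ball.inter (MeasurableSet.iInter fun j => MeasurableSet.iInter fun _ => ?_)
  exact measurableSet_le (measurable_ballInt hG.enorm _) measurable_const

theorem ASet_bound {G : E → E →L[ℝ] F} {z x : E} {r : ℝ} {k : ℕ} (hx : x ∈ ASet μ G z r k)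
    {ρ : ℝ} (h0 : 0 < ρ) (hρ : ρ ≤ (1/2 : ℝ) ^ k) :
    ∫⁻ u in closedBall x ρ, ‖G u‖ₑ ∂μ ≤
      ENNReal.ofReal (k * 2 ^ finrank ℝ E) * μ (closedBall (0:E) ρ) := by
  have hρ1 : ρ ≤ 1 := hρ.trans (pow_le_one₀ (by norm_num) (by norm_num))
  obtain ⟨j, hj1, hj2⟩ := exists_nat_pow_near_of_lt_one h0 hρ1 (by norm_num : (0:ℝ) < 1/2)
    (by norm_num)
  have hkj : k ≤ j := by
    by_contra hlt
    push Not at hlt
    have h3 : (1/2 : ℝ) ^ k ≤ (1/2 : ℝ) ^ (j + 1) :=
      pow_le_pow_of_le_one (by norm_num) (by norm_num) hlt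
    linarith
  have h4 : (1/2 : ℝ) ^ j ≤ 2 * ρ := by
    rw [pow_succ] at hj1
    linarith
  calc ∫⁻ u in closedBall x ρ, ‖G u‖ₑ ∂μ
      ≤ ∫⁻ u in closedBall x ((1/2 : ℝ) ^ j), ‖G u‖ₑ ∂μ :=
        lintegral_mono_set (closedBall_subset_closedBall hj2)
    _ ≤ k * μ (closedBall (0:E) ((1/2 : ℝ) ^ j)) := hx.2 j hkj
    _ ≤ k * μ (closedBall (0:E) (2 * ρ)) := by
        gcongr
    _ = _ := by
        rw [mu_two_mul, ENNReal.ofReal_mul (by positivity), ENNReal.ofReal_natCast]
        ring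

theorem dens_diff_null {A N : Set E} (hN : μ N = 0) {x : E} (h : Dens μ A x) :
    Dens μ (A \ N) x := by
  intro K
  have h1 : ∀ C : Set E, μ ((A \ N) ∩ C) = μ (A ∩ C) := by
    intro C
    have : (A \ N) ∩ C = (A ∩ C) \ N := by
      ext y; simp only [mem_inter_iff, Set.mem_sdiff]; tauto
    rw [this, measure_sdiff_null hN]
  simp_rw [h1]
  exact h K

/-- local decomposition -/
theorem pieces_local {f : E → F} {G : E → E →L[ℝ] F} {z : E} {R0 : ℝ} (hR0 : 0 < R0)
    (hf : ContinuousOn f (ball z R0)) (hGm : StronglyMeasurable G) (hGi : Integrable G μ)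
    (H : ∀ w : E, ∀ᵐ x ∂μ, x ∈ ball z R0 → x + w ∈ ball z R0 →
      f (x + w) - f x = ∫ τ in (0:ℝ)..1, G (x + τ • w) w) :
    ∃ s : ℕ → Set E, (∀ k, MeasurableSet (s k)) ∧ (∀ k, s k ⊆ ball z (R0 / 2)) ∧
      μ (ball z (R0 / 2) \ ⋃ k, s k) = 0 ∧
      (∀ k, ∃ C : ℝ, 0 ≤ C ∧ ∃ r > 0, ∀ u ∈ s k, ∀ y ∈ s k, dist u y ≤ r →
        ‖f u - f y‖ ≤ C * dist u y) ∧
      ∀ k, ∀ x ∈ s k, HasFDerivWithinAt f (G x) (s k) x := by
  have hgood := ae_good isOpen_ball hf hGm H
  have hleb : ∀ᵐ x ∂μ, Tendsto (fun ρ : ℝ => ⨍ y in closedBall x ρ, ‖G y - G x‖ ∂μ)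
      (𝓝[>] 0) (𝓝 0) := by
    filter_upwards [IsUnifLocDoublingMeasure.ae_tendsto_average_norm_sub (μ := μ)
      hGi.locallyIntegrable 1] with x hx
    apply hx (fun _ => x) (fun ρ => ρ) tendsto_id
    filter_upwards [self_mem_nhdsWithin] with ρ hρ
    have : (0:ℝ) < ρ := hρ
    exact mem_closedBall_self (by linarith)
  have hden : ∀ᵐ x ∂μ, ∀ k, x ∈ ASet μ G z (R0/2) k → Dens μ (ASet μ G z (R0/2) k) x := by
    rw [ae_all_iff]
    intro k
    exact (ae_restrict_iff' (measurableSet_ASet hGm z (R0/2) k)).1 (ae_dens _)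
  set Bad : Set E := {x | ¬ (Good μ f G (ball z R0) x ∧
    Tendsto (fun ρ : ℝ => ⨍ y in closedBall x ρ, ‖G y - G x‖ ∂μ) (𝓝[>] 0) (𝓝 0) ∧
    ∀ k, x ∈ ASet μ G z (R0/2) k → Dens μ (ASet μ G z (R0/2) k) x)} with hBad
  have hBad0 : μ Bad = 0 := by
    have : ∀ᵐ x ∂μ, x ∉ Bad := by
      filter_upwards [hgood, hleb, hden] with x h1 h2 h3
      simp only [hBad, mem_ofPred_eq, not_not]
      exact ⟨h1, h2, h3⟩
    simpa [ae_iff] using this
  set N := toMeasurable μ Bad with hN
  have hNm : MeasurableSet N := measurableSet_toMeasurable μ Bad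
  have hN0 : μ N = 0 := by rw [hN, measure_toMeasurable, hBad0]
  have hNgood : ∀ x, x ∉ N → x ∉ Bad := fun x hx hb => hx (subset_toMeasurable μ Bad hb)
  obtain ⟨k0, hk0⟩ := exists_pow_lt_of_lt_one (show (0:ℝ) < R0 / 2 by linarith)
    (show (1/2 : ℝ) < 1 by norm_num)
  have hpow : ∀ k, (1/2 : ℝ) ^ (k + k0) ≤ R0 / 2 := by
    intro k
    refine le_trans ?_ hk0.le
    exact pow_le_pow_of_le_one (by norm_num) (by norm_num) (Nat.le_add_left k0 k)
  have hball : ∀ k, ∀ x ∈ ball z (R0/2), closedBall x ((1/2 : ℝ) ^ (k + k0)) ⊆ ball z R0 := by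
    intro k x hx u hu
    rw [mem_closedBall] at hu
    rw [mem_ball] at hx ⊢
    have := hpow k
    calc dist u z ≤ dist u x + dist x z := dist_triangle _ _ _
      _ < R0 := by linarith
  have hLip : ∀ k, ∀ u ∈ ASet μ G z (R0/2) (k + k0) \ N, ∀ y ∈ ASet μ G z (R0/2) (k + k0) \ N,
      dist u y ≤ (1/2 : ℝ) ^ (k + k0) / 2 →
      ‖f u - f y‖ ≤ (4 * 2 ^ finrank ℝ E * (((k + k0 : ℕ) : ℝ) * 2 ^ finrank ℝ E)) * dist u y := by
    intro k u hu y hy huy
    have gu : Good μ f G (ball z R0) u := by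
      have := hNgood u hu.2
      simp only [hBad, mem_ofPred_eq, not_not] at this
      exact this.1
    have gy : Good μ f G (ball z R0) y := by
      have := hNgood y hy.2
      simp only [hBad, mem_ofPred_eq, not_not] at this
      exact this.1
    have := lip_est (μ := μ) (R := (1/2 : ℝ) ^ (k + k0))
      (K := ((k + k0 : ℕ) : ℝ) * 2 ^ finrank ℝ E) hf hGm gu gy
      (hball k u hu.1.1) (hball k y hy.1.1) (by linarith)
      (fun ρ h1 h2 => ASet_bound hu.1 h1 h2) (fun ρ h1 h2 => ASet_bound hy.1 h1 h2)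
    rw [← ofReal_norm, ENNReal.ofReal_le_ofReal_iff (by positivity)] at this
    exact this
  refine ⟨fun k => ASet μ G z (R0/2) (k + k0) \ N, ?_, ?_, ?_, ?_, ?_⟩
  · intro k
    exact (measurableSet_ASet hGm z _ _).diff hNm
  · rintro k x ⟨hx, -⟩
    exact hx.1
  · refine measure_mono_null (t := N) ?_ hN0
    rintro x ⟨hxb, hxU⟩
    by_contra hxN
    apply hxU
    have hxg := hNgood x hxN
    simp only [hBad, mem_ofPred_eq, not_not] at hxg
    obtain ⟨R, hR, hRb⟩ := leb_lintegral hGi.locallyIntegrable hxg.2.1 one_pos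
    obtain ⟨k1, hk1⟩ := exists_pow_lt_of_lt_one hR (show (1/2 : ℝ) < 1 by norm_num)
    obtain ⟨k2, hk2⟩ := exists_nat_gt (1 + ‖G x‖)
    rw [mem_iUnion]
    refine ⟨k1 + k2, ⟨⟨hxb, ?_⟩, hxN⟩⟩
    intro j hj
    set ρ := (1/2 : ℝ) ^ j with hρ
    have hρ0 : 0 < ρ := by positivity
    have hρR : ρ ≤ R := by
      refine le_trans ?_ hk1.le
      exact pow_le_pow_of_le_one (by norm_num) (by norm_num) (by omega)
    have h5 := hRb ρ hρ0 hρR
    have h6 : ∀ u, ‖G u‖ₑ ≤ ‖G u - G x‖ₑ + ‖G x‖ₑ := by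
      intro u
      have h7 : ‖G u‖ ≤ ‖G u - G x‖ + ‖G x‖ := by
        calc ‖G u‖ = ‖(G u - G x) + G x‖ := by rw [sub_add_cancel]
          _ ≤ _ := norm_add_le _ _
      rw [← ofReal_norm, ← ofReal_norm, ← ofReal_norm, ← ENNReal.ofReal_add (norm_nonneg _)
        (norm_nonneg _)]
      exact ENNReal.ofReal_le_ofReal h7
    calc ∫⁻ u in closedBall x ρ, ‖G u‖ₑ ∂μ
        ≤ ∫⁻ u in closedBall x ρ, (‖G u - G x‖ₑ + ‖G x‖ₑ) ∂μ := lintegral_mono h6
      _ = (∫⁻ u in closedBall x ρ, ‖G u - G x‖ₑ ∂μ) + ‖G x‖ₑ * μ (closedBall x ρ) := by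
          rw [lintegral_add_right _ measurable_const, setLIntegral_const]
      _ ≤ ENNReal.ofReal 1 * μ (closedBall (0:E) ρ) + ‖G x‖ₑ * μ (closedBall (0:E) ρ) := by
          rw [mu_center x]
          gcongr
      _ = ENNReal.ofReal (1 + ‖G x‖) * μ (closedBall (0:E) ρ) := by
          rw [ENNReal.ofReal_add zero_le_one (norm_nonneg _), ofReal_norm]
          ring
      _ ≤ ((k1 + k2 + k0 : ℕ) : ℝ≥0∞) * μ (closedBall (0:E) ρ) := by
          gcongr
          rw [← ENNReal.ofReal_natCast]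
          apply ENNReal.ofReal_le_ofReal
          push_cast
          have : (0:ℝ) ≤ k1 := Nat.cast_nonneg _
          have : (0:ℝ) ≤ k0 := Nat.cast_nonneg _
          linarith
  · intro k
    refine ⟨4 * 2 ^ finrank ℝ E * (((k + k0 : ℕ) : ℝ) * 2 ^ finrank ℝ E), by positivity,
      (1/2 : ℝ) ^ (k + k0) / 2, by positivity, ?_⟩
    exact hLip k
  · intro k x hx
    have hxg := hNgood x hx.2
    simp only [hBad, mem_ofPred_eq, not_not] at hxg
    refine hasFDerivWithinAt_of (μ := μ) (B := ball z R0)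
      ((measurableSet_ASet hGm z _ _).diff hNm) hGm hxg.1 ?_
      (fun ε hε => leb_lintegral hGi.locallyIntegrable hxg.2.1 hε)
      (dens_diff_null hN0 (hxg.2.2 _ hx.1)) (L := 4 * 2 ^ finrank ℝ E *
        (((k + k0 : ℕ) : ℝ) * 2 ^ finrank ℝ E)) (r0 := (1/2 : ℝ) ^ (k + k0) / 2)
      (by positivity) (by positivity) (hLip k)
    apply isOpen_ball.mem_nhds
    have := hx.1.1
    exact ball_subset_ball (by linarith) this

end

end Crest.Agent.R96.Lu_538
end

-- ▼ part R96/Lu4_538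
section

set_option autoImplicit false
set_option linter.unusedSectionVars false

open MeasureTheory Set Filter Metric Module
open scoped ENNReal NNReal Topology

namespace Crest.Agent.R96.Lu_538

noncomputable section

variable {E : Type*} [NormedAddCommGroup E] [NormedSpace ℝ E] [FiniteDimensional ℝ E]
  [MeasurableSpace E] [BorelSpace E] {μ : Measure E} [μ.IsAddHaarMeasure]
variable {F : Type*} [NormedAddCommGroup F] [NormedSpace ℝ F] [FiniteDimensional ℝ F]
  [MeasurableSpace F] [BorelSpace F]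

/-- a null set is avoided at a.e. time by a.e. translate of a segment -/
theorem ae_ae_segment {P : E → Prop} (h : ∀ᵐ x ∂μ, P x) (w : E) :
    ∀ᵐ x ∂μ, ∀ᵐ τ : ℝ, P (x + τ • w) := by
  set N := toMeasurable μ {x | ¬ P x} with hN
  have hNm : MeasurableSet N := measurableSet_toMeasurable _ _
  have hN0 : μ N = 0 := by rw [hN, measure_toMeasurable]; exact h
  have hNP : ∀ x, x ∉ N → P x := fun x hx => by
    by_contra hb
    exact hx (subset_toMeasurable μ _ hb)
  have h1 : MeasurableSet {q : E × ℝ | q.1 + q.2 • w ∈ N} := by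
    apply hNm.preimage
    fun_prop
  have h2 : (μ.prod volume) {q : E × ℝ | q.1 + q.2 • w ∈ N} = 0 := by
    rw [Measure.prod_apply_symm h1]
    simp only [preimage_ofPred_eq]
    have : ∀ τ : ℝ, μ {x | x + τ • w ∈ N} = 0 := by
      intro τ
      have := measure_preimage_add_right μ (τ • w) N
      rw [← hN0, ← this]
      rfl
    simp [this]
  have h3 := Measure.ae_ae_of_ae_prod (μ := μ) (ν := (volume : Measure ℝ))
    (p := fun q : E × ℝ => q.1 + q.2 • w ∉ N) (by
      rw [ae_iff]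
      simpa using h2)
  filter_upwards [h3] with x hx
  filter_upwards [hx] with τ hτ using hNP _ hτ

/-- fundamental theorem of calculus along a.e. translate of every segment -/
def SegH (Ω : Set E) (μ : Measure E) (f : E → F) (G : E → E →L[ℝ] F) : Prop :=
  ∀ w : E, ∀ᵐ x ∂μ, (∀ τ ∈ Icc (0:ℝ) 1, x + τ • w ∈ Ω) →
    f (x + w) - f x = ∫ τ in (0:ℝ)..1, G (x + τ • w) w

/-- a piece -/
structure Piece (Ω : Set E) (f : E → F) (G : E → E →L[ℝ] F) (s : Set E) : Prop where
  meas : MeasurableSet s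
  sub : s ⊆ Ω
  lip : ∃ C : ℝ≥0, LipschitzOnWith C f s
  der : ∀ x ∈ s, HasFDerivWithinAt f (G x) s x

theorem Piece.mono {Ω : Set E} {f : E → F} {G : E → E →L[ℝ] F} {s t : Set E}
    (h : Piece Ω f G s) (ht : MeasurableSet t) (hts : t ⊆ s) : Piece Ω f G t where
  meas := ht
  sub := hts.trans h.sub
  lip := h.lip.imp fun _ hC => hC.mono hts
  der := fun x hx => (h.der x (hts hx)).mono hts

theorem Piece.empty {Ω : Set E} {f : E → F} {G : E → E →L[ℝ] F} : Piece Ω f G ∅ where
  meas := MeasurableSet.empty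
  sub := empty_subset _
  lip := ⟨0, by simp⟩
  der := fun x hx => absurd hx (notMem_empty x)

/-- countable family of pieces covering a ball up to a null set -/
theorem pieces_ball {Ω : Set E} {f : E → F} {G : E → E →L[ℝ] F} (hf : ContinuousOn f Ω)
    (hG : LocallyIntegrableOn G Ω μ) (H : SegH Ω μ f G) {z : E} {R : ℝ} (hR : 0 < R)
    (hz : closedBall z R ⊆ Ω) :
    ∃ 𝒮 : Set (Set E), 𝒮.Countable ∧ (∀ s ∈ 𝒮, Piece Ω f G s) ∧
      μ (ball z (R / 2) \ ⋃₀ 𝒮) = 0 := by
  have hbz : ball z R ⊆ Ω := ball_subset_closedBall.trans hz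
  have h1 : IntegrableOn G (closedBall z R) μ :=
    (hG.mono_set hz).integrableOn_isCompact (isCompact_closedBall z R)
  have h2 : Integrable (indicator (closedBall z R) G) μ := by
    have := h1.integrable_indicator (ε' := E →L[ℝ] F) measurableSet_closedBall
    exact this
  set G₁ := h2.aestronglyMeasurable.mk _ with hG₁
  have hG₁m : StronglyMeasurable G₁ := h2.aestronglyMeasurable.stronglyMeasurable_mk
  have hG₁e : indicator (closedBall z R) G =ᵐ[μ] G₁ := h2.aestronglyMeasurable.ae_eq_mk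
  have hG₁i : Integrable G₁ μ := h2.congr hG₁e
  have H1 : ∀ w : E, ∀ᵐ x ∂μ, x ∈ ball z R → x + w ∈ ball z R →
      f (x + w) - f x = ∫ τ in (0:ℝ)..1, G₁ (x + τ • w) w := by
    intro w
    filter_upwards [H w, ae_ae_segment hG₁e w] with x hx hx2 hxb hxw
    have hseg : ∀ τ ∈ Icc (0:ℝ) 1, x + τ • w ∈ ball z R := by
      intro τ hτ
      exact (convex_ball z R).add_smul_mem hxb hxw hτ
    rw [hx fun τ hτ => hbz (hseg τ hτ)]
    apply intervalIntegral.integral_congr_ae
    filter_upwards [hx2] with τ hτ hτI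
    rw [uIoc_of_le zero_le_one] at hτI
    rw [← hτ, indicator_of_mem (ball_subset_closedBall (hseg τ ⟨hτI.1.le, hτI.2⟩))]
  obtain ⟨s, hsm, hss, hs0, hsl, hsd⟩ := pieces_local hR (hf.mono hbz) hG₁m hG₁i H1
  choose C hC0 r hr0 hCr using hsl
  set N := toMeasurable μ {x | ¬ (indicator (closedBall z R) G x = G₁ x)} with hN
  have hNm : MeasurableSet N := measurableSet_toMeasurable _ _
  have hN0 : μ N = 0 := by rw [hN, measure_toMeasurable]; exact hG₁e
  have hNP : ∀ x, x ∉ N → indicator (closedBall z R) G x = G₁ x := fun x hx => by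
    by_contra hb
    exact hx (subset_toMeasurable μ _ hb)
  have hhalf : ball z (R/2) ⊆ closedBall z R :=
    (ball_subset_ball (by linarith)).trans ball_subset_closedBall
  set 𝒮 : Set (Set E) := range fun q : ℕ × ℕ =>
    (s q.1 \ N) ∩ ball (TopologicalSpace.denseSeq E q.2) (r q.1 / 2) with h𝒮
  refine ⟨𝒮, countable_range _, ?_, ?_⟩
  · rintro _ ⟨⟨k, n⟩, rfl⟩
    refine ⟨((hsm k).diff hNm).inter measurableSet_ball, ?_, ?_, ?_⟩
    · rintro x ⟨⟨hx, -⟩, -⟩
      exact hz (hhalf (hss k hx))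
    · refine ⟨⟨C k, hC0 k⟩, ?_⟩
      apply LipschitzOnWith.of_dist_le_mul
      rintro x ⟨⟨hx, -⟩, hxb⟩ y ⟨⟨hy, -⟩, hyb⟩
      rw [dist_eq_norm (f x)]
      apply hCr k x hx y hy
      simp only [mem_ball] at hxb hyb
      have := dist_triangle_right x y (TopologicalSpace.denseSeq E n)
      linarith
    · rintro x ⟨⟨hx, hxN⟩, hxb⟩
      have h3 := hsd k x hx
      rw [← hNP x hxN, indicator_of_mem (hhalf (hss k hx))] at h3
      exact h3.mono (inter_subset_left.trans sdiff_subset)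
  · refine measure_mono_null (t := (ball z (R/2) \ ⋃ k, s k) ∪ N) ?_ (measure_union_null hs0 hN0)
    rintro x ⟨hx, hxU⟩
    by_contra hcon
    rw [mem_union, not_or] at hcon
    obtain ⟨h4, h5⟩ := hcon
    have h6 : x ∈ ⋃ k, s k := by
      by_contra h7
      exact h4 ⟨hx, h7⟩
    obtain ⟨k, hk⟩ := mem_iUnion.1 h6
    apply hxU
    obtain ⟨n, hn⟩ := (TopologicalSpace.denseRange_denseSeq E).exists_dist_lt x
      (half_pos (hr0 k))
    exact ⟨_, ⟨(k, n), rfl⟩, ⟨hk, h5⟩, hn⟩

/-- **Lusin decomposition**: the open set `Ω` is, up to a null set, a countable disjoint union of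
measurable pieces on which `f` is Lipschitz and differentiable with derivative `G` (within the
piece). -/
theorem pieces {Ω : Set E} (hΩ : IsOpen Ω) {f : E → F} {G : E → E →L[ℝ] F}
    (hf : ContinuousOn f Ω) (hG : LocallyIntegrableOn G Ω μ) (H : SegH Ω μ f G) :
    ∃ s : ℕ → Set E, (∀ k, Piece Ω f G (s k)) ∧ Pairwise (Function.onFun Disjoint s) ∧
      μ (Ω \ ⋃ k, s k) = 0 := by
  have h1 : ∀ x ∈ Ω, ∃ R > 0, closedBall x R ⊆ Ω := fun x hx =>
    Metric.nhds_basis_closedBall.mem_iff.1 (hΩ.mem_nhds hx)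
  choose! R hR0 hR using h1
  obtain ⟨T, hTΩ, hTc, hTcov⟩ := TopologicalSpace.countable_cover_nhdsWithin (s := Ω)
    (f := fun x => ball x (R x / 2))
    (fun x hx => mem_nhdsWithin_of_mem_nhds (ball_mem_nhds x (half_pos (hR0 x hx))))
  have h2 : ∀ x ∈ T, ∃ 𝒮 : Set (Set E), 𝒮.Countable ∧ (∀ s ∈ 𝒮, Piece Ω f G s) ∧
      μ (ball x (R x / 2) \ ⋃₀ 𝒮) = 0 := fun x hx =>
    pieces_ball hf hG H (hR0 x (hTΩ hx)) (hR x (hTΩ hx))
  choose! 𝒮 hc hp h0 using h2
  set 𝒯 : Set (Set E) := insert ∅ (⋃ x ∈ T, 𝒮 x) with h𝒯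
  have h𝒯c : 𝒯.Countable := (hTc.biUnion hc).insert _
  obtain ⟨t, ht⟩ := h𝒯c.exists_eq_range ⟨∅, mem_insert _ _⟩
  have htp : ∀ k, Piece Ω f G (t k) := by
    intro k
    have : t k ∈ 𝒯 := by rw [ht]; exact mem_range_self k
    rcases this with h | h
    · rw [h]; exact Piece.empty
    · simp only [mem_iUnion] at h
      obtain ⟨x, hx, hk⟩ := h
      exact hp x hx _ hk
  refine ⟨disjointed t, fun k => (htp k).mono ?_ (disjointed_subset t k), disjoint_disjointed t, ?_⟩
  · exact MeasurableSet.disjointed (fun k => (htp k).meas) k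
  · rw [iUnion_disjointed]
    refine measure_mono_null (t := ⋃ x ∈ T, (ball x (R x / 2) \ ⋃₀ 𝒮 x)) ?_ ?_
    · rintro x ⟨hx, hxU⟩
      have h3 := hTcov hx
      simp only [mem_iUnion] at h3 ⊢
      obtain ⟨y, hy, hxy⟩ := h3
      refine ⟨y, hy, hxy, ?_⟩
      rintro ⟨s, hs, hxs⟩
      apply hxU
      have : s ∈ 𝒯 := mem_insert_of_mem _ (mem_biUnion hy hs)
      rw [ht] at this
      obtain ⟨k, rfl⟩ := this
      exact mem_iUnion.2 ⟨k, hxs⟩
    · exact (measure_biUnion_null_iff hTc).2 h0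

end

end Crest.Agent.R96.Lu_538
end

-- ▼ part R96/Lu5_538
section

set_option autoImplicit false
set_option linter.unusedSectionVars false

open MeasureTheory Set Filter Metric Module
open scoped ENNReal NNReal Topology

namespace Crest.Agent.R96.Lu_538

noncomputable section

variable {E : Type*} [NormedAddCommGroup E] [NormedSpace ℝ E] [FiniteDimensional ℝ E]
  [MeasurableSpace E] [BorelSpace E] {μ : Measure E} [μ.IsAddHaarMeasure]
variable {F : Type*} [NormedAddCommGroup F] [NormedSpace ℝ F] [FiniteDimensional ℝ F]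
  [MeasurableSpace F] [BorelSpace F]

/-- Lusin data for `(f, G)` on `Ω` -/
structure Lus (Ω : Set E) (μ : Measure E) (f : E → F) (G : E → E →L[ℝ] F) (s : ℕ → Set E) :
    Prop where
  piece : ∀ k, Piece Ω f G (s k)
  disj : Pairwise (Function.onFun Disjoint s)
  null : μ (Ω \ ⋃ k, s k) = 0

theorem exists_lus {Ω : Set E} (hΩ : IsOpen Ω) {f : E → F} {G : E → E →L[ℝ] F}
    (hf : ContinuousOn f Ω) (hG : LocallyIntegrableOn G Ω μ) (H : SegH Ω μ f G) :
    ∃ s : ℕ → Set E, Lus Ω μ f G s := by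
  obtain ⟨s, h1, h2, h3⟩ := pieces hΩ hf hG H
  exact ⟨s, h1, h2, h3⟩

namespace Lus

variable {Ω : Set E} {f : E → F} {G : E → E →L[ℝ] F} {s : ℕ → Set E}

theorem measU (h : Lus Ω μ f G s) : MeasurableSet (⋃ k, s k) :=
  MeasurableSet.iUnion fun k => (h.piece k).meas

theorem subU (h : Lus Ω μ f G s) : (⋃ k, s k) ⊆ Ω := iUnion_subset fun k => (h.piece k).sub

theorem ae_mem (h : Lus Ω μ f G s) : ∀ᵐ x ∂μ, x ∈ Ω → x ∈ ⋃ k, s k := by
  have := h.null
  rw [ae_iff]
  convert this using 2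
  ext x
  simp

/-- a.e. point of a measurable subset lies in the pieces -/
theorem ae_eq (h : Lus Ω μ f G s) {A : Set E} (hA : A ⊆ Ω) :
    (A ∩ ⋃ k, s k : Set E) =ᵐ[μ] A := by
  filter_upwards [h.ae_mem] with x hx
  apply propext
  exact ⟨fun h1 => h1.1, fun h1 => ⟨h1, hx (hA h1)⟩⟩

end Lus

/-! ### area formula -/

section area

variable {Ω : Set E} {f : E → E} {G : E → E →L[ℝ] E} {s : ℕ → Set E}

theorem image_inter_iUnion {A : Set E} {s : ℕ → Set E} (hAs : A ⊆ ⋃ k, s k) :
    f '' A = ⋃ k, f '' (A ∩ s k) := by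
  rw [← image_iUnion, ← inter_iUnion, inter_eq_self_of_subset_left hAs]

theorem Piece.der_inter {k : Set E} (h : Piece Ω f G k) (A : Set E) :
    ∀ x ∈ A ∩ k, HasFDerivWithinAt f (G x) (A ∩ k) x :=
  fun x hx => (h.der x hx.2).mono inter_subset_right

theorem measurable_image (h : Lus Ω μ f G s) (hinj : InjOn f Ω) {A : Set E}
    (hA : MeasurableSet A) (hAs : A ⊆ ⋃ k, s k) : MeasurableSet (f '' A) := by
  rw [image_inter_iUnion hAs]
  refine MeasurableSet.iUnion fun k => ?_
  exact measurable_image_of_fderivWithin (hA.inter (h.piece k).meas)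
    ((h.piece k).der_inter A)
    (hinj.mono (inter_subset_right.trans (h.piece k).sub))

theorem lintegral_image (h : Lus Ω μ f G s) (hinj : InjOn f Ω) {A : Set E}
    (hA : MeasurableSet A) (hAs : A ⊆ ⋃ k, s k) (g : E → ℝ≥0∞) :
    ∫⁻ y in f '' A, g y ∂μ = ∫⁻ x in A, ENNReal.ofReal |(G x).det| * g (f x) ∂μ := by
  have hm : ∀ k, MeasurableSet (A ∩ s k) := fun k => hA.inter (h.piece k).meas
  have hAΩ : A ⊆ Ω := hAs.trans h.subU
  have h1 : A = ⋃ k, A ∩ s k := by
    rw [← inter_iUnion, inter_eq_self_of_subset_left hAs]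
  rw [image_inter_iUnion hAs, lintegral_iUnion (fun k => measurable_image h hinj (hm k)
    (inter_subset_left.trans hAs))]
  · conv_rhs => rw [h1]
    rw [lintegral_iUnion hm]
    · congr 1
      ext k
      exact lintegral_image_eq_lintegral_abs_det_fderiv_mul μ (hm k) ((h.piece k).der_inter A)
        (hinj.mono (inter_subset_left.trans hAΩ)) g
    · intro i j hij
      exact (h.disj hij).mono inter_subset_right inter_subset_right
  · intro i j hij
    rw [Function.onFun, Set.disjoint_left]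
    rintro _ ⟨x, hx, rfl⟩ ⟨y, hy, hxy⟩
    have : y = x := hinj (hAΩ hy.1) (hAΩ hx.1) hxy
    subst this
    exact Set.disjoint_left.1 (h.disj hij) hx.2 hy.2

/-- **area formula** -/
theorem area (h : Lus Ω μ f G s) (hinj : InjOn f Ω) {A : Set E}
    (hA : MeasurableSet A) (hAs : A ⊆ ⋃ k, s k) :
    ∫⁻ x in A, ENNReal.ofReal |(G x).det| ∂μ = μ (f '' A) := by
  have := lintegral_image h hinj hA hAs (fun _ => 1)
  simpa using this.symm

theorem area_le (h : Lus Ω μ f G s) (hinj : InjOn f Ω) {A : Set E}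
    (hA : MeasurableSet A) (hAΩ : A ⊆ Ω) :
    ∫⁻ x in A, ENNReal.ofReal |(G x).det| ∂μ ≤ μ (f '' A) := by
  rw [← setLIntegral_congr (h.ae_eq hAΩ), area h hinj (hA.inter h.measU) inter_subset_right]
  exact measure_mono (image_mono inter_subset_left)



/-- **Sard**: the image of the critical part of the pieces is null (no injectivity) -/
theorem crit_null (h : Lus Ω μ f G s) {A : Set E} (hAs : A ⊆ ⋃ k, s k)
    (hA0 : ∀ x ∈ A, (G x).det = 0) : μ (f '' A) = 0 := by
  rw [image_inter_iUnion hAs, measure_iUnion_null_iff]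
  intro k
  exact addHaar_image_eq_zero_of_det_fderivWithin_eq_zero μ ((h.piece k).der_inter A)
    (fun x hx => hA0 x hx.1)

/-- Lusin's (N) on the pieces -/
theorem image_null (h : Lus Ω μ f G s) {A : Set E} (hAs : A ⊆ ⋃ k, s k) (hA0 : μ A = 0) :
    μ (f '' A) = 0 := by
  rw [image_inter_iUnion hAs, measure_iUnion_null_iff]
  intro k
  refine addHaar_image_eq_zero_of_differentiableOn_of_addHaar_eq_zero μ
    (fun x hx => ((h.piece k).der_inter A x hx).differentiableWithinAt)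
    (measure_mono_null inter_subset_left hA0)

end area

end

end Crest.Agent.R96.Lu_538
end

-- ▼ part R96/Lu7_538

set_option autoImplicit false
set_option linter.unusedSectionVars false

open MeasureTheory Set Filter Metric Module
open scoped ENNReal NNReal Topology

namespace Crest.Agent.R96.Lu_538

noncomputable section

section gen

variable {E : Type*} [NormedAddCommGroup E] [NormedSpace ℝ E] [FiniteDimensional ℝ E]
  [MeasurableSpace E] [BorelSpace E] {μ : Measure E} [μ.IsAddHaarMeasure]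
variable {F : Type*} [NormedAddCommGroup F] [NormedSpace ℝ F] [FiniteDimensional ℝ F]
  [MeasurableSpace F] [BorelSpace F]



/-- a.e. point of a null preimage condition: if `V` is null then a.e. `x` with `f x ∈ V` is
critical -/
theorem Lus.ae_crit_of_null {Ω : Set E} {f : E → E} {G : E → E →L[ℝ] E} {s : ℕ → Set E}
    (h : Lus Ω μ f G s) (hinj : InjOn f Ω) (hf : ContinuousOn f Ω) (hΩ : MeasurableSet Ω)
    (hG : AEStronglyMeasurable G (μ.restrict Ω)) {V : Set E}
    (hV : μ V = 0) : ∀ᵐ x ∂μ, x ∈ Ω → f x ∈ V → (G x).det = 0 := by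
  set V' := toMeasurable μ V with hV'
  have hV'm : MeasurableSet V' := measurableSet_toMeasurable _ _
  have hV'0 : μ V' = 0 := by rw [hV', measure_toMeasurable, hV]
  have hΩV : MeasurableSet (Ω ∩ f ⁻¹' V') := by
    have h1 : Measurable (fun x : Ω => f x) := hf.domRestrict.measurable
    have h2 := (h1 hV'm)
    have h3 := hΩ.subtype_image h2
    convert h3 using 1
    ext x
    simp [and_comm]
  have h4 := area_le h hinj hΩV inter_subset_left
  have h5 : μ (f '' (Ω ∩ f ⁻¹' V')) = 0 :=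
    measure_mono_null (by rintro _ ⟨x, hx, rfl⟩; exact hx.2) hV'0
  rw [h5, nonpos_iff_eq_zero] at h4
  have h6 : AEMeasurable (fun x => ENNReal.ofReal |(G x).det|) (μ.restrict Ω) := by
    have h7 : Continuous fun A : E →L[ℝ] E => ENNReal.ofReal |A.det| :=
      ENNReal.continuous_ofReal.comp (continuous_abs.comp ContinuousLinearMap.continuous_det)
    exact h7.measurable.comp_aemeasurable hG.aemeasurable
  rw [lintegral_eq_zero_iff' (h6.mono_measure (Measure.restrict_mono inter_subset_left le_rfl)),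
    Filter.EventuallyEq, ae_restrict_iff' hΩV] at h4
  filter_upwards [h4] with x hx hxΩ hxV
  have := hx ⟨hxΩ, subset_toMeasurable μ V hxV⟩
  simp only [Pi.zero_apply, ENNReal.ofReal_eq_zero] at this
  exact abs_nonpos_iff.1 this

end gen

/-! ### `R3` instance -/

section R3

open Crest.AnalysisR.VecCalc3 Crest.AnalysisR.Sobolev
open Crest.Agent.R96.Acl_392

/-- the matrix with rows `g j` -/
def gmatL : (Fin 3 → R3) →ₗ[ℝ] (R3 →L[ℝ] R3) where
  toFun g := ((PiLp.continuousLinearEquiv 2 ℝ (fun _ : Fin 3 => ℝ)).symm :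
      (Fin 3 → ℝ) →L[ℝ] R3).comp (ContinuousLinearMap.pi fun j => innerSL ℝ (g j))
  map_add' g g' := by
    ext w j
    simp
  map_smul' c g := by
    ext w j
    simp

/-- the weak differential -/
def Gmat (G : Fin 3 → R3 → R3) (x : R3) : R3 →L[ℝ] R3 := gmatL fun j => G j x

theorem gmatL_apply (g : Fin 3 → R3) (w : R3) (j : Fin 3) : gmatL g w j = inner ℝ (g j) w := rfl

theorem Gmat_apply (G : Fin 3 → R3 → R3) (x w : R3) (j : Fin 3) :
    Gmat G x w j = inner ℝ (G j x) w := rfl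

theorem norm_gmatL_le (g : Fin 3 → R3) : ‖gmatL g‖ ≤ Real.sqrt (∑ j, ‖g j‖ ^ 2) := by
  apply ContinuousLinearMap.opNorm_le_bound _ (Real.sqrt_nonneg _)
  intro w
  rw [EuclideanSpace.norm_eq]
  apply Real.sqrt_le_iff.2
  constructor
  · positivity
  · rw [mul_pow, Real.sq_sqrt (by positivity), Finset.sum_mul]
    apply Finset.sum_le_sum
    intro j _
    rw [gmatL_apply, ← mul_pow]
    rw [Real.norm_eq_abs, sq_abs, sq_le_sq, abs_mul, abs_norm, abs_norm]
    exact abs_real_inner_le_norm _ _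

theorem norm_row_le (g : Fin 3 → R3) (j : Fin 3) : ‖g j‖ ≤ ‖gmatL g‖ := by
  rcases eq_or_ne (g j) 0 with h | h
  · rw [h, norm_zero]; exact norm_nonneg _
  · have h1 := (gmatL g).le_opNorm (g j)
    have h2 : |gmatL g (g j) j| ≤ ‖gmatL g (g j)‖ := by
      have := EuclideanSpace.norm_eq (gmatL g (g j))
      rw [this]
      apply Real.abs_le_sqrt
      have h3 : ‖gmatL g (g j) j‖ ^ 2 ≤ ∑ i, ‖gmatL g (g j) i‖ ^ 2 :=
        Finset.single_le_sum (f := fun i => ‖gmatL g (g j) i‖ ^ 2) (fun i _ => by positivity)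
          (Finset.mem_univ j)
      simpa using h3
    rw [gmatL_apply, real_inner_self_eq_norm_sq, abs_of_nonneg (by positivity)] at h2
    have h3 : 0 < ‖g j‖ := norm_pos_iff.2 h
    have h4 : ‖g j‖ * ‖g j‖ ≤ ‖gmatL g‖ * ‖g j‖ := by nlinarith
    exact le_of_mul_le_mul_right h4 h3

theorem continuous_gmatL : Continuous gmatL := gmatL.continuous_of_finiteDimensional

theorem aesm_Gmat {G : Fin 3 → R3 → R3} {m : Measure R3}
    (h : ∀ j, AEStronglyMeasurable (G j) m) : AEStronglyMeasurable (Gmat G) m := by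
  have h1 : AEStronglyMeasurable (fun x => fun j => G j x) m :=
    (aemeasurable_pi_lambda _ fun j => (h j).aemeasurable).aestronglyMeasurable
  exact continuous_gmatL.comp_aestronglyMeasurable h1

theorem locInt_Gmat {Ω : Set R3} (hΩ : IsOpen Ω) {G : Fin 3 → R3 → R3}
    (h : ∀ j, LocallyIntegrableOn (G j) Ω) : LocallyIntegrableOn (Gmat G) Ω := by
  rw [locallyIntegrableOn_iff hΩ.isLocallyClosed]
  intro K hK hKc
  have h1 : ∀ j, IntegrableOn (G j) K := fun j =>
    ((locallyIntegrableOn_iff hΩ.isLocallyClosed).1 (h j)) K hK hKc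
  have h2 : Integrable (fun x => ∑ j, ‖G j x‖) (volume.restrict K) :=
    integrable_finsetSum _ fun j _ => (h1 j).norm
  refine h2.mono' (aesm_Gmat fun j => (h1 j).aestronglyMeasurable) ?_
  refine Eventually.of_forall fun x => ?_
  refine (norm_gmatL_le _).trans ?_
  apply Real.sqrt_le_iff.2
  refine ⟨Finset.sum_nonneg fun _ _ => norm_nonneg _, ?_⟩
  exact Finset.sum_sq_le_sq_sum_of_nonneg (s := Finset.univ) fun j _ => norm_nonneg (G j x)

theorem segH_of_weak {Ω : Set R3} (hΩ : IsOpen Ω) {f : R3 → R3} {G : Fin 3 → R3 → R3}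
    (hG : ∀ j, HasWeakGradOn Ω (fun x => f x j) (G j)) (hf : ContinuousOn f Ω) :
    SegH Ω volume f (Gmat G) := by
  intro w
  have hfj : ∀ j : Fin 3, ContinuousOn (fun x => f x j) Ω := fun j =>
    (EuclideanSpace.proj (𝕜 := ℝ) j).continuous.comp_continuousOn hf
  have h1 : ∀ᵐ x : R3, ∀ j : Fin 3, ACLat Ω (fun x => f x j) (fun x => inner ℝ (G j x) w) w x := by
    rw [ae_all_iff]
    intro j
    exact acl_grad hΩ (hG j) (hfj j) w
  filter_upwards [h1] with x hx hseg
  have h2 : ∀ j, IntegrableOn (fun τ : ℝ => inner ℝ (G j (x + τ • w)) w) (Icc 0 1) ∧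
      f (x + w) j - f x j = ∫ τ in (0:ℝ)..1, inner ℝ (G j (x + τ • w)) w := by
    intro j
    have := hx j 0 1 zero_le_one hseg
    simpa using this
  ext j
  rw [intervalIntegral.integral_of_le zero_le_one]
  have h3 : ∀ j, Integrable (fun τ : ℝ => Gmat G (x + τ • w) w j) (volume.restrict (Ioc 0 1)) :=
    fun j => ((h2 j).1).mono_set Ioc_subset_Icc_self
  have h4 := eval_integral_piLp h3 j
  rw [h4, ← intervalIntegral.integral_of_le zero_le_one]
  exact (h2 j).2

/-- **Lusin decomposition of a Sobolev map** of `R3` (literal hypotheses of S0127). -/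
theorem exists_lus_R3 {Ω : Set R3} (hΩ : IsOpen Ω) {f : R3 → R3} {G : Fin 3 → R3 → R3}
    (hG : ∀ j, HasWeakGradOn Ω (fun x => f x j) (G j)) (hf : ContinuousOn f Ω) :
    ∃ s : ℕ → Set R3, Lus Ω volume f (Gmat G) s :=
  exists_lus hΩ hf (locInt_Gmat hΩ fun j => (hG j).2.1) (segH_of_weak hΩ hG hf)

end R3

end

end Crest.Agent.R96.Lu_538
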