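import Mathlib
import Crest.Agent.R96.Lu7_538
import Crest.Agent.R96.Intr11_538

-- ▼ part R96/Intr1_538
section

set_option autoImplicit false
set_option linter.unusedSectionVars false

open MeasureTheory Set Filter Metric Module
open scoped ENNReal NNReal Topology

namespace Crest.Agent.R96.Intr_538

open Crest.Agent.R96.Lu_538

noncomputable section

variable {E : Type*} [NormedAddCommGroup E] [NormedSpace ℝ E] [FiniteDimensional ℝ E]
  [MeasurableSpace E] [BorelSpace E] {μ : Measure E} [μ.IsAddHaarMeasure]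

/-! ### linear algebra -/

theorem inj_of_low {κ : ℝ} (hκ : 0 < κ) {L : E →L[ℝ] E} (hL : ∀ v, κ * ‖v‖ ≤ ‖L v‖) :
    Function.Injective L := by
  rw [injective_iff_map_eq_zero]
  intro v hv
  have := hL v
  rw [hv, norm_zero] at this
  have h1 : ‖v‖ ≤ 0 := by nlinarith [norm_nonneg v]
  exact norm_le_zero_iff.1 h1

theorem exists_pre {κ : ℝ} (hκ : 0 < κ) {L : E →L[ℝ] E} (hL : ∀ v, κ * ‖v‖ ≤ ‖L v‖) (w : E) :
    ∃ v, L v = w ∧ κ * ‖v‖ ≤ ‖w‖ := by
  have h1 : Function.Surjective (L : E →ₗ[ℝ] E) :=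
    LinearMap.surjective_of_injective (inj_of_low hκ hL)
  obtain ⟨v, hv⟩ := h1 w
  refine ⟨v, hv, ?_⟩
  have := hL v
  have h2 : L v = w := hv
  rw [h2] at this
  exact this

theorem det_low (μ : Measure E) [μ.IsAddHaarMeasure] {κ : ℝ} (hκ : 0 < κ) {L : E →L[ℝ] E}
    (hL : ∀ v, κ * ‖v‖ ≤ ‖L v‖) : κ ^ finrank ℝ E ≤ |L.det| := by
  have h1 : closedBall (0:E) κ ⊆ L '' closedBall (0:E) 1 := by
    intro w hw
    obtain ⟨v, hv, hvn⟩ := exists_pre hκ hL w
    refine ⟨v, ?_, hv⟩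
    rw [mem_closedBall_zero_iff] at hw ⊢
    have : κ * ‖v‖ ≤ κ * 1 := by linarith
    exact le_of_mul_le_mul_left this hκ
  have h2 := measure_mono (μ := μ) h1
  rw [Measure.addHaar_image_continuousLinearMap, Measure.addHaar_closedBall' μ 0 hκ.le] at h2
  have h3 : μ (closedBall (0:E) 1) ≠ 0 := Lu_538.mu_pos one_pos 0
  have h4 : μ (closedBall (0:E) 1) ≠ ∞ := Lu_538.mu_fin 0 1
  have h5 := (ENNReal.mul_le_mul_iff_left h3 h4).1 h2
  exact (ENNReal.ofReal_le_ofReal_iff (abs_nonneg _)).1 h5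

theorem det_bound (κ : ℝ) : ∃ D : ℝ, 0 < D ∧ ∀ L : E →L[ℝ] E, ‖L‖ ≤ κ⁻¹ → |L.det| ≤ D := by
  have h1 : IsCompact (closedBall (0 : E →L[ℝ] E) κ⁻¹) := isCompact_closedBall _ _
  obtain ⟨D, hD⟩ := (h1.image (ContinuousLinearMap.continuous_det (𝕜 := ℝ)
    (E := E))).isBounded.exists_norm_le
  refine ⟨max D 1, by positivity, fun L hL => ?_⟩
  refine le_trans ?_ (le_max_left _ _)
  exact hD _ (mem_image_of_mem _ (mem_closedBall_zero_iff.2 hL))

theorem det_unif (κ : ℝ) {η : ℝ} (hη : 0 < η) :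
    ∃ e > 0, ∀ L G : E →L[ℝ] E, ‖L‖ ≤ κ⁻¹ → ‖G - L‖ ≤ e → |G.det - L.det| ≤ η := by
  have h1 : IsCompact (closedBall (0 : E →L[ℝ] E) (κ⁻¹ + 1)) := isCompact_closedBall _ _
  have h2 := h1.uniformContinuousOn_of_continuous
    (ContinuousLinearMap.continuous_det (𝕜 := ℝ) (E := E)).continuousOn
  rw [Metric.uniformContinuousOn_iff] at h2
  obtain ⟨δ, hδ, h3⟩ := h2 η hη
  refine ⟨min (δ / 2) 1, by positivity, fun L G hL hG => ?_⟩
  have h4 : ‖G - L‖ < δ := lt_of_le_of_lt (hG.trans (min_le_left _ _)) (by linarith)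
  have h5 : ‖G‖ ≤ κ⁻¹ + 1 := by
    calc ‖G‖ = ‖L + (G - L)‖ := by rw [add_sub_cancel]
      _ ≤ ‖L‖ + ‖G - L‖ := norm_add_le _ _
      _ ≤ κ⁻¹ + 1 := add_le_add hL (hG.trans (min_le_right _ _))
  have h6 := h3 G (mem_closedBall_zero_iff.2 h5) L (mem_closedBall_zero_iff.2 (by linarith))
    (by rwa [dist_eq_norm])
  rw [Real.dist_eq] at h6
  exact h6.le

/-! ### cells -/

/-- the cell `z + t C` -/
def cel (C : Set E) (z : E) (t : ℝ) : Set E := (fun u => z + t • u) '' C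

/-- the parallelepiped `b + t L C` -/
def par (C : Set E) (L : E →L[ℝ] E) (b : E) (t : ℝ) : Set E := (fun u => b + t • L u) '' C

/-- reference cell -/
structure Ref (C : Set E) (a : ℝ) : Prop where
  conv : Convex ℝ C
  cpt : IsCompact C
  pos : 0 < a
  ball : closedBall (0:E) a ⊆ C

theorem Ref.zero_mem {C : Set E} {a : ℝ} (hC : Ref C a) : (0:E) ∈ C :=
  hC.ball (mem_closedBall_self hC.pos.le)

theorem Ref.mu_pos {C : Set E} {a : ℝ} (hC : Ref C a) : 0 < μ C :=
  lt_of_lt_of_le (pos_iff_ne_zero.2 (Lu_538.mu_pos hC.pos 0)) (measure_mono hC.ball)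

theorem Ref.mu_fin {C : Set E} {a : ℝ} (hC : Ref C a) : μ C < ∞ := hC.cpt.measure_lt_top

theorem isCompact_cel {C : Set E} (hC : IsCompact C) (z : E) (t : ℝ) : IsCompact (cel C z t) :=
  hC.image (by fun_prop)

theorem isCompact_par {C : Set E} (hC : IsCompact C) (L : E →L[ℝ] E) (b : E) (t : ℝ) :
    IsCompact (par C L b t) := hC.image (by fun_prop)

theorem mu_par (C : Set E) (L : E →L[ℝ] E) (b : E) {t : ℝ} (ht : 0 ≤ t) :
    μ (par C L b t) = ENNReal.ofReal (t ^ finrank ℝ E * |L.det|) * μ C := by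
  have h1 : par C L b t = (fun x => b + x) '' ((t • L) '' C) := by
    rw [par, image_image]
    rfl
  rw [h1, image_add_left, measure_preimage_add, Measure.addHaar_image_continuousLinearMap]
  congr 2
  have h2 : LinearMap.det ((t • L : E →L[ℝ] E) : E →ₗ[ℝ] E) = t ^ finrank ℝ E * L.det := by
    rw [ContinuousLinearMap.toLinearMap_smul, LinearMap.det_smul]
  rw [h2, abs_mul, abs_of_nonneg (by positivity)]

theorem mu_cel (C : Set E) (z : E) {t : ℝ} (ht : 0 ≤ t) :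
    μ (cel C z t) = ENNReal.ofReal (t ^ finrank ℝ E) * μ C := by
  have h1 : cel C z t = par C (ContinuousLinearMap.id ℝ E) z t := rfl
  rw [h1, mu_par C _ _ ht]
  congr 2
  simp [ContinuousLinearMap.det]

theorem cel_mono {C : Set E} {a : ℝ} (hC : Ref C a) (z : E) {s t : ℝ} (hs : 0 ≤ s) (hst : s ≤ t) :
    cel C z s ⊆ cel C z t := by
  rcases eq_or_lt_of_le hs with h0 | h0
  · rintro _ ⟨u, -, rfl⟩
    rw [← h0]
    exact ⟨0, hC.zero_mem, by simp⟩
  · have ht : 0 < t := h0.trans_le hst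
    rintro _ ⟨u, hu, rfl⟩
    refine ⟨(s / t) • u, ?_, ?_⟩
    · have := hC.conv.smul_mem_of_zero_mem hC.zero_mem hu
        (t := s / t) ⟨by positivity, (div_le_one ht).2 hst⟩
      exact this
    · simp only [smul_smul]
      congr 2
      field_simp

/-- thickening of a shrunk parallelepiped -/
theorem par_thick {C : Set E} {a : ℝ} (hC : Ref C a) {κ : ℝ} (hκ : 0 < κ) {L : E →L[ℝ] E}
    (hL : ∀ v, κ * ‖v‖ ≤ ‖L v‖) {b : E} {r σ : ℝ} (hr : 0 < r) (hσ : 0 < σ) (hσ1 : σ ≤ 1)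
    {y y' : E} (hy : y ∈ par C L b ((1 - σ) * r)) (hyy : ‖y' - y‖ ≤ κ * a * σ * r) :
    y' ∈ par C L b r := by
  obtain ⟨u, hu, rfl⟩ := hy
  obtain ⟨v, hv, hvn⟩ := exists_pre hκ hL (y' - (b + ((1 - σ) * r) • L u))
  have h1 : ‖v‖ ≤ a * σ * r := by
    have : κ * ‖v‖ ≤ κ * (a * σ * r) := by
      calc κ * ‖v‖ ≤ _ := hvn
        _ ≤ κ * a * σ * r := hyy
        _ = _ := by ring
    exact le_of_mul_le_mul_left this hκ
  have h2 : (σ * r)⁻¹ • v ∈ C := by
    apply hC.ball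
    rw [mem_closedBall_zero_iff, norm_smul, Real.norm_eq_abs, abs_of_pos (by positivity)]
    rw [inv_mul_le_iff₀ (by positivity)]
    linarith
  refine ⟨(1 - σ) • u + σ • ((σ * r)⁻¹ • v), hC.conv hu h2 (by linarith) hσ.le (by ring), ?_⟩
  have h3 : y' = b + ((1 - σ) * r) • L u + L v := by rw [hv]; abel
  rw [h3]
  simp only [map_add, map_smul, smul_add, smul_smul]
  have h4 : r * σ * (σ * r)⁻¹ = 1 := by field_simp
  have h5 : r * (σ * (σ * r)⁻¹) = 1 := by rw [← mul_assoc]; exact h4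
  rw [h5, one_smul, mul_comm r (1 - σ), add_assoc]

/-- diameter of a parallelepiped -/
theorem par_dist {C : Set E} {R : ℝ} (hCR : C ⊆ closedBall 0 R) {M : ℝ} {L : E →L[ℝ] E}
    (hL : ‖L‖ ≤ M) {b : E} {r : ℝ} (hr : 0 ≤ r) {y y' : E} (hy : y ∈ par C L b r)
    (hy' : y' ∈ par C L b r) : dist y' y ≤ 2 * R * M * r := by
  obtain ⟨u, hu, rfl⟩ := hy
  obtain ⟨u', hu', rfl⟩ := hy'
  have h1 := mem_closedBall_zero_iff.1 (hCR hu)
  have h2 := mem_closedBall_zero_iff.1 (hCR hu')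
  have hM : 0 ≤ M := (norm_nonneg L).trans hL
  rw [dist_eq_norm]
  have h3 : b + r • L u' - (b + r • L u) = r • L (u' - u) := by
    rw [map_sub, smul_sub]; abel
  rw [h3, norm_smul, Real.norm_eq_abs, abs_of_nonneg hr]
  have h4 : ‖L (u' - u)‖ ≤ M * (R + R) := by
    calc ‖L (u' - u)‖ ≤ ‖L‖ * ‖u' - u‖ := L.le_opNorm _
      _ ≤ M * (R + R) := by
          have := norm_sub_le u' u
          gcongr
          linarith
  calc r * ‖L (u' - u)‖ ≤ r * (M * (R + R)) := by gcongr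
    _ = _ := by ring

end

end Crest.Agent.R96.Intr_538
end

-- ▼ part R96/Intr2_538
section

set_option autoImplicit false
set_option linter.unusedSectionVars false

open MeasureTheory Set Filter Metric Module
open scoped ENNReal NNReal Topology

namespace Crest.Agent.R96.Intr_538

open Crest.Agent.R96.Lu_538

noncomputable section

variable {E : Type*} [NormedAddCommGroup E] [NormedSpace ℝ E] [FiniteDimensional ℝ E]
  [MeasurableSpace E] [BorelSpace E] {μ : Measure E} [μ.IsAddHaarMeasure]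

/-- a good cell: `f ~ A`, `Df ~ L` off a small part, `A x = b + L (x - z)` -/
structure GC (Ω : Set E) (μ : Measure E) (f : E → E) (G : E → E →L[ℝ] E) (C : Set E)
    (κ e r : ℝ) (z b : E) (L : E →L[ℝ] E) (S : Set E) : Prop where
  sub : cel C z r ⊆ Ω
  low : ∀ v, κ * ‖v‖ ≤ ‖L v‖
  up : ‖L‖ ≤ κ⁻¹
  meas : MeasurableSet S
  sS : S ⊆ cel C z r
  big : μ (cel C z r \ S) ≤ ENNReal.ofReal (e * r ^ finrank ℝ E)
  cf : ∀ x ∈ S, ‖f x - (b + L (x - z))‖ ≤ e * r
  cG : ∀ x ∈ S, ‖G x - L‖ ≤ e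

/-- the good core of a cell -/
def core (C : Set E) (r : ℝ) (z : E) (S : Set E) (s : ℕ → Set E) (σ : ℝ) : Set E :=
  (S ∩ cel C z ((1 - σ) * r)) ∩ ⋃ k, s k

theorem core_sub {C : Set E} {r : ℝ} {z : E} {S : Set E} {s : ℕ → Set E} {σ : ℝ} :
    core C r z S s σ ⊆ S := fun _ hx => hx.1.1

theorem core_image {Ω : Set E} {f : E → E} {G : E → E →L[ℝ] E} {s : ℕ → Set E} {C : Set E}
    {a κ e r : ℝ} {z b : E} {L : E →L[ℝ] E} {S : Set E} (hC : Ref C a) (hκ : 0 < κ) (hr : 0 < r)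
    (hc : GC Ω μ f G C κ e r z b L S) {σ : ℝ} (hσ : 0 < σ) (hσ1 : σ ≤ 1) (he : e ≤ κ * a * σ) :
    f '' core C r z S s σ ⊆ par C L b r := by
  rintro _ ⟨x, ⟨⟨hxS, ⟨u, hu, rfl⟩⟩, -⟩, rfl⟩
  have h1 := hc.cf _ hxS
  refine par_thick hC hκ hc.low hr hσ hσ1 (y := b + ((1 - σ) * r) • L u) ⟨u, hu, rfl⟩ ?_
  have h2 : b + L (z + ((1 - σ) * r) • u - z) = b + ((1 - σ) * r) • L u := by
    rw [add_sub_cancel_left, map_smul]
  rw [← h2]
  refine h1.trans ?_
  gcongr

theorem core_big {Ω : Set E} {f : E → E} {G : E → E →L[ℝ] E} {s : ℕ → Set E} {C : Set E}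
    {a κ e r : ℝ} {z b : E} {L : E →L[ℝ] E} {S : Set E} (hC : Ref C a)
    (h : Lus Ω μ f G s) (hr : 0 < r) (he0 : 0 ≤ e)
    (hc : GC Ω μ f G C κ e r z b L S) {σ : ℝ} (hσ : 0 < σ) (hσ1 : σ ≤ 1) :
    ((1 - σ) ^ finrank ℝ E * (μ C).toReal - e) * r ^ finrank ℝ E ≤
      (μ (core C r z S s σ)).toReal := by
  set n := finrank ℝ E with hn
  have hsub : cel C z ((1 - σ) * r) ⊆ cel C z r :=
    cel_mono hC z (by nlinarith) (by nlinarith)
  have h1 : μ (cel C z ((1 - σ) * r)) ≤ μ (core C r z S s σ) + μ (cel C z r \ S) := by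
    have h2 : cel C z ((1 - σ) * r) ⊆
        (core C r z S s σ ∪ (cel C z r \ S)) ∪ (Ω \ ⋃ k, s k) := by
      intro x hx
      by_cases hxS : x ∈ S
      · by_cases hxU : x ∈ ⋃ k, s k
        · exact Or.inl (Or.inl ⟨⟨hxS, hx⟩, hxU⟩)
        · exact Or.inr ⟨hc.sub (hsub hx), hxU⟩
      · exact Or.inl (Or.inr ⟨hsub hx, hxS⟩)
    calc μ (cel C z ((1 - σ) * r))
        ≤ μ ((core C r z S s σ ∪ (cel C z r \ S)) ∪ (Ω \ ⋃ k, s k)) := measure_mono h2
      _ ≤ μ (core C r z S s σ ∪ (cel C z r \ S)) + μ (Ω \ ⋃ k, s k) := measure_union_le _ _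
      _ = μ (core C r z S s σ ∪ (cel C z r \ S)) := by rw [h.null, add_zero]
      _ ≤ _ := measure_union_le _ _
  have hfin : μ (core C r z S s σ) ≠ ∞ := by
    refine ((measure_mono (core_sub.trans hc.sS)).trans_lt ?_).ne
    exact (isCompact_cel hC.cpt z r).measure_lt_top
  have h3 := h1.trans (add_le_add le_rfl hc.big)
  rw [mu_cel C z (by nlinarith : 0 ≤ (1 - σ) * r)] at h3
  have h4 := ENNReal.toReal_mono (ENNReal.add_ne_top.2 ⟨hfin, ENNReal.ofReal_ne_top⟩) h3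
  rw [ENNReal.toReal_mul, ENNReal.toReal_ofReal (by positivity),
    ENNReal.toReal_add hfin ENNReal.ofReal_ne_top, ENNReal.toReal_ofReal (by positivity),
    mul_pow] at h4
  linarith

/-- **filling** -/
theorem fill {C : Set E} {a : ℝ} (hC : Ref C a) {κ : ℝ} (hκ : 0 < κ) {η : ℝ} (hη : 0 < η) :
    ∃ σ, 0 < σ ∧ σ < 1 ∧ ∃ e₀ > 0, ∀ {Ω : Set E} {f : E → E} {G : E → E →L[ℝ] E} {s : ℕ → Set E},
      Lus Ω μ f G s → InjOn f Ω → ∀ {e r : ℝ} {z b : E} {L : E →L[ℝ] E} {S : Set E},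
      0 ≤ e → e ≤ e₀ → 0 < r → GC Ω μ f G C κ e r z b L S →
      MeasurableSet (core C r z S s σ) ∧ MeasurableSet (f '' core C r z S s σ) ∧
        f '' core C r z S s σ ⊆ par C L b r ∧
        μ (par C L b r \ f '' core C r z S s σ) ≤ ENNReal.ofReal (η * r ^ finrank ℝ E) := by
  set n := finrank ℝ E with hn
  set m := (μ C).toReal with hm
  have hm0 : 0 < m := ENNReal.toReal_pos hC.mu_pos.ne' hC.mu_fin.ne
  obtain ⟨D, hD0, hD⟩ := det_bound (E := E) κ
  obtain ⟨e₁, he₁, hdu⟩ := det_unif (E := E) κ (η := min (κ ^ n) (η / (3 * m))) (by positivity)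
  set σ := min (1 / 2) (η / (3 * D * m * (n + 1))) with hσd
  have hσ0 : 0 < σ := by positivity
  have hσ1 : σ < 1 := lt_of_le_of_lt (min_le_left _ _) (by norm_num)
  have hσ2 : D * m * (1 - (1 - σ) ^ n) ≤ η / 3 := by
    have h1 : 1 + (n:ℝ) * (-σ) ≤ (1 + (-σ)) ^ n := one_add_mul_le_pow (by linarith) n
    have h2 : σ ≤ η / (3 * D * m * (n + 1)) := min_le_right _ _
    have h3 : 1 - (1 - σ) ^ n ≤ (n + 1) * σ := by
      have : (1 + (-σ)) ^ n = (1 - σ) ^ n := by ring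
      rw [this] at h1
      nlinarith
    calc D * m * (1 - (1 - σ) ^ n) ≤ D * m * ((n + 1) * σ) := by gcongr
      _ ≤ D * m * ((n + 1) * (η / (3 * D * m * (n + 1)))) := by gcongr
      _ = η / 3 := by field_simp
  refine ⟨σ, hσ0, hσ1, min e₁ (min (κ * a * σ) (η / (3 * D))), ?_, ?_⟩
  · have := hC.pos
    positivity
  intro Ω f G s h hinj e r z b L S he0 he hr hc
  have hee₁ : e ≤ e₁ := he.trans (min_le_left _ _)
  have heσ : e ≤ κ * a * σ := he.trans ((min_le_right _ _).trans (min_le_left _ _))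
  have heD : e ≤ η / (3 * D) := he.trans ((min_le_right _ _).trans (min_le_right _ _))
  have hcm : MeasurableSet (core C r z S s σ) :=
    (hc.meas.inter (isCompact_cel hC.cpt z _).isClosed.measurableSet).inter h.measU
  have hcU : core C r z S s σ ⊆ ⋃ k, s k := inter_subset_right
  have hfm := measurable_image h hinj hcm hcU
  have hfs : f '' core C r z S s σ ⊆ par C L b r := core_image hC hκ hr hc hσ0 hσ1.le heσ
  refine ⟨hcm, hfm, hfs, ?_⟩
  have hPfin : μ (par C L b r) ≠ ∞ := (isCompact_par hC.cpt L b r).measure_lt_top.ne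
  have hFfin : μ (f '' core C r z S s σ) ≠ ∞ :=
    ((measure_mono hfs).trans_lt hPfin.lt_top).ne
  rw [measure_sdiff hfs hfm.nullMeasurableSet hFfin]
  have hLD : |L.det| ≤ D := hD L hc.up
  have hLlow : κ ^ n ≤ |L.det| := det_low μ hκ hc.low
  set η₁ := min (κ ^ n) (η / (3 * m)) with hη₁
  have hη₁κ : η₁ ≤ κ ^ n := min_le_left _ _
  have hη₁m : η₁ * m ≤ η / 3 := by
    calc η₁ * m ≤ η / (3 * m) * m := by
          gcongr
          exact min_le_right _ _
      _ = η / 3 := by field_simp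
  -- lower bound of the image
  have h1 : ENNReal.ofReal (|L.det| - η₁) * μ (core C r z S s σ) ≤
      μ (f '' core C r z S s σ) := by
    rw [← area h hinj hcm hcU, ← setLIntegral_const]
    apply setLIntegral_mono_ae' hcm
    filter_upwards with x hx
    apply ENNReal.ofReal_le_ofReal
    have h2 := hdu L (G x) hc.up ((hc.cG x (core_sub hx)).trans hee₁)
    have h3 : |L.det| - |(G x).det| ≤ |(G x).det - L.det| := by
      have := abs_sub_abs_le_abs_sub L.det (G x).det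
      rwa [abs_sub_comm] at this
    linarith
  have h2 := ENNReal.toReal_mono hFfin h1
  rw [ENNReal.toReal_mul, ENNReal.toReal_ofReal (by linarith)] at h2
  have h3 := core_big hC h hr he0 hc hσ0 hσ1.le
  have h4 : (μ (par C L b r)).toReal = r ^ n * |L.det| * m := by
    rw [mu_par C L b hr.le, ENNReal.toReal_mul, ENNReal.toReal_ofReal (by positivity)]
  have h5 : (μ (par C L b r)).toReal - (μ (f '' core C r z S s σ)).toReal ≤ η * r ^ n := by
    have hrn : 0 < r ^ n := by positivity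
    set Q := (1 - σ) ^ n with hQ
    have hQ0 : 0 ≤ Q := by have := hσ1.le; positivity
    have hQ1 : Q ≤ 1 := pow_le_one₀ (by linarith) (by linarith)
    have h6 : (|L.det| - η₁) * ((Q * m - e) * r ^ n) ≤ (μ (f '' core C r z S s σ)).toReal := by
      refine le_trans ?_ h2
      apply mul_le_mul_of_nonneg_left h3
      linarith
    rw [h4]
    have h7 : r ^ n * |L.det| * m - (|L.det| - η₁) * ((Q * m - e) * r ^ n) ≤ η * r ^ n := by
      have h8 : r ^ n * |L.det| * m - (|L.det| - η₁) * ((Q * m - e) * r ^ n) =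
          (|L.det| * m * (1 - Q) + |L.det| * e + η₁ * (Q * m - e)) * r ^ n := by ring
      rw [h8]
      apply mul_le_mul_of_nonneg_right _ hrn.le
      have h9 : |L.det| * m * (1 - Q) ≤ η / 3 := by
        refine le_trans ?_ hσ2
        gcongr
      have h10 : |L.det| * e ≤ η / 3 := by
        calc |L.det| * e ≤ D * (η / (3 * D)) := by gcongr
          _ = η / 3 := by field_simp
      have h11 : η₁ * (Q * m - e) ≤ η / 3 := by
        refine le_trans ?_ hη₁m
        have hη₁0 : 0 ≤ η₁ := by positivity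
        apply mul_le_mul_of_nonneg_left _ hη₁0
        nlinarith
      linarith
    linarith
  have h6 : μ (f '' core C r z S s σ) ≤ μ (par C L b r) := measure_mono hfs
  rw [← ENNReal.ofReal_toReal (a := μ (par C L b r) - μ (f '' core C r z S s σ))
    (ne_top_of_le_ne_top hPfin tsub_le_self)]
  apply ENNReal.ofReal_le_ofReal
  rw [ENNReal.toReal_sub_of_le h6 hPfin]
  exact h5

/-- images of the cores of cells with null intersection are disjoint up to a null set -/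
theorem inter_null {Ω : Set E} {f : E → E} {G : E → E →L[ℝ] E} {s : ℕ → Set E}
    (h : Lus Ω μ f G s) (hinj : InjOn f Ω) {A B : Set E} (hA : A ⊆ ⋃ k, s k)
    (hB : B ⊆ ⋃ k, s k) (hAB : μ (A ∩ B) = 0) : μ (f '' A ∩ f '' B) = 0 := by
  have h1 : f '' A ∩ f '' B = f '' (A ∩ B) :=
    (hinj.image_inter (hA.trans h.subU) (hB.trans h.subU)).symm
  rw [h1]
  exact image_null h (inter_subset_left.trans hA) hAB

/-- **(i) disjointness of the shrunk parallelepipeds** -/
theorem disj {C : Set E} {a : ℝ} (hC : Ref C a) {κ : ℝ} (hκ : 0 < κ) {τ : ℝ} (hτ : 0 < τ)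
    (hτ1 : τ ≤ 1) : ∃ e₀ > 0, ∀ {Ω : Set E} {f : E → E} {G : E → E →L[ℝ] E} {s : ℕ → Set E},
      Lus Ω μ f G s → InjOn f Ω → ∀ {e r : ℝ} {z b : E} {L : E →L[ℝ] E} {S : Set E}
      {z' b' : E} {L' : E →L[ℝ] E} {S' : Set E},
      0 ≤ e → e ≤ e₀ → 0 < r → GC Ω μ f G C κ e r z b L S → GC Ω μ f G C κ e r z' b' L' S' →
      μ (cel C z r ∩ cel C z' r) = 0 →
      Disjoint (par C L b ((1 - τ) * r)) (par C L' b' ((1 - τ) * r)) := by
  set n := finrank ℝ E with hn
  set m := (μ (closedBall (0:E) 1)).toReal with hm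
  have hm0 : 0 < m := ENNReal.toReal_pos (Lu_538.mu_pos one_pos 0) (Lu_538.mu_fin 0 1)
  have ha := hC.pos
  obtain ⟨σ, hσ0, hσ1, e₀, he₀, hfill⟩ := fill (μ := μ) hC hκ
    (η := (κ * a * τ) ^ n * m / 4) (by positivity)
  refine ⟨e₀, he₀, ?_⟩
  intro Ω f G s h hinj e r z b L S z' b' L' S' he0 he hr hc hc' hnull
  obtain ⟨-, -, hs1, hf1⟩ := hfill h hinj he0 he hr hc
  obtain ⟨-, -, hs2, hf2⟩ := hfill h hinj he0 he hr hc'
  rw [Set.disjoint_left]
  intro y hy hy'
  have hball : closedBall y (κ * a * τ * r) ⊆ par C L b r ∩ par C L' b' r := by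
    intro w hw
    rw [mem_closedBall, dist_eq_norm] at hw
    exact ⟨par_thick hC hκ hc.low hr hτ hτ1 hy hw, par_thick hC hκ hc'.low hr hτ hτ1 hy' hw⟩
  have h1 : μ (closedBall y (κ * a * τ * r)) ≤
      ENNReal.ofReal ((κ * a * τ) ^ n * m / 4 * r ^ n) +
        ENNReal.ofReal ((κ * a * τ) ^ n * m / 4 * r ^ n) := by
    have h2 : closedBall y (κ * a * τ * r) ⊆
        ((par C L b r \ f '' core C r z S s σ) ∪ (par C L' b' r \ f '' core C r z' S' s σ)) ∪
          (f '' core C r z S s σ ∩ f '' core C r z' S' s σ) := by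
      intro w hw
      obtain ⟨hw1, hw2⟩ := hball hw
      by_cases hw3 : w ∈ f '' core C r z S s σ
      · by_cases hw4 : w ∈ f '' core C r z' S' s σ
        · exact Or.inr ⟨hw3, hw4⟩
        · exact Or.inl (Or.inr ⟨hw2, hw4⟩)
      · exact Or.inl (Or.inl ⟨hw1, hw3⟩)
    have h3 : μ (f '' core C r z S s σ ∩ f '' core C r z' S' s σ) = 0 := by
      apply inter_null h hinj inter_subset_right inter_subset_right
      refine measure_mono_null ?_ hnull
      rintro x ⟨hx, hx'⟩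
      exact ⟨hc.sS (core_sub hx), hc'.sS (core_sub hx')⟩
    refine (measure_mono h2).trans ((measure_union_le _ _).trans ?_)
    rw [h3, add_zero]
    exact (measure_union_le _ _).trans (add_le_add hf1 hf2)
  rw [Measure.addHaar_closedBall' μ y (by positivity), ← ENNReal.ofReal_add (by positivity)
    (by positivity)] at h1
  have h2 : ENNReal.ofReal ((κ * a * τ * r) ^ n) * μ (closedBall (0:E) 1) =
      ENNReal.ofReal ((κ * a * τ * r) ^ n * m) := by
    rw [ENNReal.ofReal_mul (by positivity), ENNReal.ofReal_toReal (Lu_538.mu_fin 0 1)]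
  rw [h2, ENNReal.ofReal_le_ofReal_iff (by positivity), mul_pow] at h1
  have h3 : 0 < (κ * a * τ) ^ n * r ^ n * m := by positivity
  nlinarith

end

end Crest.Agent.R96.Intr_538
end

-- ▼ part R96/Intr3_538
section

set_option autoImplicit false
set_option linter.unusedSectionVars false

open MeasureTheory Set Filter Metric Module
open scoped ENNReal NNReal Topology

namespace Crest.Agent.R96.Intr_538

open Crest.Agent.R96.Lu_538

noncomputable section

variable {E : Type*} [NormedAddCommGroup E] [NormedSpace ℝ E] [FiniteDimensional ℝ E]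
  [MeasurableSpace E] [BorelSpace E] {μ : Measure E} [μ.IsAddHaarMeasure]

/-- a measurable version of the critical set -/
theorem exists_crit {Ω : Set E} (hΩ : MeasurableSet Ω) {f : E → E} {G : E → E →L[ℝ] E}
    {s : ℕ → Set E} (h : Lus Ω μ f G s) (hG : AEStronglyMeasurable G (μ.restrict Ω)) :
    ∃ Z ⊆ ⋃ k, s k, MeasurableSet Z ∧ (∀ x ∈ Z, (G x).det = 0) ∧
      ∀ᵐ x ∂μ, x ∈ Ω → (G x).det = 0 → x ∈ Z := by
  have h6 : AEMeasurable (fun x => (G x).det) (μ.restrict Ω) :=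
    (ContinuousLinearMap.continuous_det (𝕜 := ℝ) (E := E)).measurable.comp_aemeasurable
      hG.aemeasurable
  have h7 : NullMeasurableSet {x | x ∈ (⋃ k, s k) ∧ (G x).det = 0} μ := by
    have h8 : NullMeasurableSet ((fun x => (G x).det) ⁻¹' {0}) (μ.restrict Ω) :=
      h6.nullMeasurable (measurableSet_singleton (0:ℝ))
    have h9 := (nullMeasurableSet_restrict hΩ.nullMeasurableSet).1 h8
    have h10 := h9.inter h.measU.nullMeasurableSet
    convert h10 using 1
    ext x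
    constructor
    · rintro ⟨h1, h2⟩
      exact ⟨⟨h2, h.subU h1⟩, h1⟩
    · rintro ⟨⟨h1, h2⟩, h3⟩
      exact ⟨h3, h1⟩
  obtain ⟨Z, hZ1, hZ2, hZ3⟩ := h7.exists_measurable_subset_ae_eq
  refine ⟨Z, fun x hx => (hZ1 hx).1, hZ2, fun x hx => (hZ1 hx).2, ?_⟩
  filter_upwards [hZ3.mem_iff, h.ae_mem] with x hx hx2 hxΩ hx0
  exact hx.2 ⟨hx2 hxΩ, hx0⟩

theorem aem_f {Ω : Set E} (hΩ : MeasurableSet Ω) {f : E → E} (hf : ContinuousOn f Ω)
    {m : Measure E} {A : Set E} (hA : A ⊆ Ω) : AEMeasurable f (m.restrict A) :=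
  (hf.aemeasurable hΩ).mono_measure (Measure.restrict_mono hA le_rfl)

/-- absolutely continuous part -/
theorem ac_part {Ω : Set E} (hΩ : MeasurableSet Ω) {f : E → E} {G : E → E →L[ℝ] E}
    {s : ℕ → Set E} (h : Lus Ω μ f G s) (hinj : InjOn f Ω) (hf : ContinuousOn f Ω)
    (hG : AEStronglyMeasurable G (μ.restrict Ω)) {m : Measure E} [IsFiniteMeasure m]
    (hm : m ≪ μ) {Z : Set E} (hZm : MeasurableSet Z)
    (hZ : ∀ᵐ x ∂μ, x ∈ Ω → (G x).det = 0 → x ∈ Z) {ε : ℝ≥0∞} (hε : ε ≠ 0) :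
    ∃ δ > 0, ∀ B : Set E, μ B < δ → m ((Ω \ Z) ∩ f ⁻¹' B) < ε := by
  have hfm : AEMeasurable f (m.restrict (Ω \ Z)) := aem_f hΩ hf sdiff_subset
  set ν : Measure E := Measure.map f (m.restrict (Ω \ Z)) with hν
  have hνf : IsFiniteMeasure ν := by rw [hν]; infer_instance
  have hac : ν ≪ μ := by
    apply Measure.AbsolutelyContinuous.mk
    intro V hV hV0
    rw [hν, Measure.map_apply_of_aemeasurable hfm hV]
    have h1 := h.ae_crit_of_null hinj hf hΩ hG hV0
    have h2 : ∀ᵐ x ∂m, x ∈ Ω → f x ∈ V → x ∈ Z := by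
      apply hm.ae_le
      filter_upwards [h1, hZ] with x h3 h4 h5 h6
      exact h4 h5 (h3 h5 h6)
    rw [Measure.restrict_apply₀' (hΩ.diff hZm).nullMeasurableSet]
    apply measure_mono_null _ (ae_iff.1 h2)
    rintro x ⟨hx1, hx2, hx3⟩
    simp only [mem_ofPred_eq, not_forall]
    exact ⟨hx2, hx1, hx3⟩
  have h1 : μ.withDensity (ν.rnDeriv μ) = ν := Measure.withDensity_rnDeriv_eq ν μ hac
  have h2 : ∫⁻ x, ν.rnDeriv μ x ∂μ ≠ ∞ := (Measure.lintegral_rnDeriv_lt_top ν μ).ne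
  obtain ⟨δ, hδ, h3⟩ := exists_pos_setLIntegral_lt_of_measure_lt h2 hε
  refine ⟨δ, hδ, fun B hB => ?_⟩
  set B' := toMeasurable μ B with hB'
  have hB'm : MeasurableSet B' := measurableSet_toMeasurable _ _
  have h4 : μ B' < δ := by rw [hB', measure_toMeasurable]; exact hB
  have h5 := h3 B' h4
  rw [← withDensity_apply _ hB'm, h1, hν, Measure.map_apply_of_aemeasurable hfm hB'm,
    Measure.restrict_apply₀' (hΩ.diff hZm).nullMeasurableSet] at h5
  refine lt_of_le_of_lt (measure_mono ?_) h5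
  rintro x ⟨hx1, hx2⟩
  exact ⟨subset_toMeasurable μ B hx2, hx1⟩

/-- singular part has density zero -/
theorem sing_part {Ω : Set E} (hΩ : MeasurableSet Ω) {f : E → E} {G : E → E →L[ℝ] E}
    {s : ℕ → Set E} (h : Lus Ω μ f G s) (hinj : InjOn f Ω) (hf : ContinuousOn f Ω)
    {m : Measure E} [IsFiniteMeasure m] {Z : Set E} (hZs : Z ⊆ ⋃ k, s k)
    (hZm : MeasurableSet Z) (hZ0 : ∀ x ∈ Z, (G x).det = 0) :
    ∃ ν : Measure E, IsFiniteMeasure ν ∧ (∀ B : Set E, MeasurableSet B →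
      ν B = m (Z ∩ f ⁻¹' B)) ∧ ν ⟂ₘ μ := by
  have hZΩ : Z ⊆ Ω := hZs.trans h.subU
  have hfm : AEMeasurable f (m.restrict Z) := aem_f hΩ hf hZΩ
  refine ⟨Measure.map f (m.restrict Z), inferInstance, ?_, ?_⟩
  · intro B hB
    rw [Measure.map_apply_of_aemeasurable hfm hB,
      Measure.restrict_apply₀' hZm.nullMeasurableSet, inter_comm]
  · have h1 : MeasurableSet (f '' Z) := measurable_image h hinj hZm hZs
    have h2 : μ (f '' Z) = 0 := crit_null h hZs hZ0
    refine Measure.MutuallySingular.symm ⟨f '' Z, h1, h2, ?_⟩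
    rw [Measure.map_apply_of_aemeasurable hfm h1.compl,
      Measure.restrict_apply₀' hZm.nullMeasurableSet]
    convert measure_empty (μ := m)
    ext x
    simp only [mem_inter_iff, mem_preimage, mem_compl_iff, mem_empty_iff_false, iff_false, not_and]
    intro hx hxZ
    exact hx (mem_image_of_mem f hxZ)

/-- the bad set at scale `ρ` -/
def Bad (μ ν : Measure E) (ε : ℝ≥0∞) (ρ : ℝ) : Set E :=
  {y | ε * μ (closedBall (0:E) ρ) < ν (closedBall y ρ)}



end

end Crest.Agent.R96.Intr_538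
end

-- ▼ part R96/Intr4_538
section

set_option autoImplicit false
set_option linter.unusedSectionVars false

open MeasureTheory Set Filter Metric Module
open scoped ENNReal NNReal Topology

namespace Crest.Agent.R96.Intr_538

open Crest.Agent.R96.Lu_538

noncomputable section

universe u

variable {E : Type*} [NormedAddCommGroup E] [NormedSpace ℝ E] [FiniteDimensional ℝ E]
  [MeasurableSpace E] [BorelSpace E] {μ : Measure E} [μ.IsAddHaarMeasure]

theorem card_bound {ι : Type*} (Q : Finset ι) {F : ι → Set E} {B : Set E} {c : ℝ} (hc : 0 ≤ c)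
    (hF : ∀ i ∈ Q, MeasurableSet (F i)) (hd : ∀ i ∈ Q, ∀ j ∈ Q, i ≠ j → μ (F i ∩ F j) = 0)
    (hl : ∀ i ∈ Q, ENNReal.ofReal c ≤ μ (F i)) (hB : ∀ i ∈ Q, F i ⊆ B) (hBf : μ B ≠ ∞) :
    (Q.card : ℝ) * c ≤ (μ B).toReal := by
  have h1 : ∑ i ∈ Q, ENNReal.ofReal c ≤ μ B := by
    calc ∑ i ∈ Q, ENNReal.ofReal c ≤ ∑ i ∈ Q, μ (F i) := Finset.sum_le_sum hl
      _ = μ (⋃ i ∈ Q, F i) := by
          rw [measure_biUnion_finset₀]
          · intro i hi j hj hij
            exact hd i hi j hj hij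
          · exact fun i hi => (hF i hi).nullMeasurableSet
      _ ≤ μ B := measure_mono (iUnion₂_subset hB)
  rw [Finset.sum_const, nsmul_eq_mul] at h1
  have h2 := ENNReal.toReal_mono hBf h1
  rw [ENNReal.toReal_mul, ENNReal.toReal_natCast, ENNReal.toReal_ofReal hc] at h2
  exact h2

/-- the image of the core of a good cell has measure bounded below -/
theorem image_low {C : Set E} {a : ℝ} (hC : Ref C a) {κ : ℝ} (hκ : 0 < κ) {L : E →L[ℝ] E}
    (hL : ∀ v, κ * ‖v‖ ≤ ‖L v‖) {b : E} {r η c : ℝ} (hr : 0 < r) (hη : 0 ≤ η) (hc : 0 ≤ c)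
    (hcη : c + η ≤ κ ^ finrank ℝ E * (μ C).toReal) {F : Set E}
    (hf : μ (par C L b r \ F) ≤ ENNReal.ofReal (η * r ^ finrank ℝ E)) :
    ENNReal.ofReal (c * r ^ finrank ℝ E) ≤ μ F := by
  set n := finrank ℝ E
  have h1 : ENNReal.ofReal ((c + η) * r ^ n) ≤ μ (par C L b r) := by
    rw [mu_par C L b hr.le, ← ENNReal.ofReal_toReal hC.mu_fin.ne,
      ← ENNReal.ofReal_mul (by positivity)]
    apply ENNReal.ofReal_le_ofReal
    have h2 := det_low μ hκ hL
    calc (c + η) * r ^ n ≤ (κ ^ n * (μ C).toReal) * r ^ n := by gcongr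
      _ ≤ (|L.det| * (μ C).toReal) * r ^ n := by gcongr
      _ = _ := by ring
  have h2 : μ (par C L b r) ≤ μ F + ENNReal.ofReal (η * r ^ n) := by
    calc μ (par C L b r) ≤ μ (F ∪ (par C L b r \ F)) := measure_mono (by
          intro x hx
          by_cases h : x ∈ F
          · exact Or.inl h
          · exact Or.inr ⟨hx, h⟩)
      _ ≤ μ F + μ (par C L b r \ F) := measure_union_le _ _
      _ ≤ _ := add_le_add le_rfl hf
  have h3 := h1.trans h2
  rw [add_mul, ENNReal.ofReal_add (by positivity) (by positivity)] at h3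
  exact (ENNReal.add_le_add_iff_right ENNReal.ofReal_ne_top).1 h3



end

end Crest.Agent.R96.Intr_538
end

-- ▼ part R96/Intr5_538
section

set_option autoImplicit false
set_option linter.unusedSectionVars false

open MeasureTheory Set Filter Metric Module
open scoped ENNReal NNReal Topology

namespace Crest.Agent.R96.Intr_538

open Crest.Agent.R96.Lu_538

noncomputable section

universe u

variable {E : Type*} [NormedAddCommGroup E] [NormedSpace ℝ E] [FiniteDimensional ℝ E]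
  [MeasurableSpace E] [BorelSpace E] {μ : Measure E} [μ.IsAddHaarMeasure]

/-- **filling**, uniform in the reference cell -/
theorem fillU (μ : Measure E) [μ.IsAddHaarMeasure] {a R : ℝ} (ha : 0 < a) (haR : a ≤ R) {κ : ℝ}
    (hκ : 0 < κ) {η : ℝ} (hη : 0 < η) :
    ∃ σ, 0 < σ ∧ σ < 1 ∧ ∃ e₀ > 0, ∀ {C : Set E}, Ref C a → C ⊆ closedBall 0 R →
      ∀ {Ω : Set E} {f : E → E} {G : E → E →L[ℝ] E} {s : ℕ → Set E},
      Lus Ω μ f G s → InjOn f Ω → ∀ {e r : ℝ} {z b : E} {L : E →L[ℝ] E} {S : Set E},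
      0 ≤ e → e ≤ e₀ → 0 < r → GC Ω μ f G C κ e r z b L S →
      MeasurableSet (core C r z S s σ) ∧ MeasurableSet (f '' core C r z S s σ) ∧
        f '' core C r z S s σ ⊆ par C L b r ∧
        μ (par C L b r \ f '' core C r z S s σ) ≤ ENNReal.ofReal (η * r ^ finrank ℝ E) := by
  set n := finrank ℝ E with hn
  have hR : 0 < R := ha.trans_le haR
  set m := (μ (closedBall (0:E) R)).toReal with hm
  have hm0 : 0 < m := ENNReal.toReal_pos (Lu_538.mu_pos hR 0) (Lu_538.mu_fin 0 R)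
  obtain ⟨D, hD0, hD⟩ := det_bound (E := E) κ
  obtain ⟨e₁, he₁, hdu⟩ := det_unif (E := E) κ (η := min (κ ^ n) (η / (3 * m))) (by positivity)
  set σ := min (1 / 2) (η / (3 * D * m * (n + 1))) with hσd
  have hσ0 : 0 < σ := by positivity
  have hσ1 : σ < 1 := lt_of_le_of_lt (min_le_left _ _) (by norm_num)
  have hσ2 : D * m * (1 - (1 - σ) ^ n) ≤ η / 3 := by
    have h1 : 1 + (n:ℝ) * (-σ) ≤ (1 + (-σ)) ^ n := one_add_mul_le_pow (by linarith) n
    have h2 : σ ≤ η / (3 * D * m * (n + 1)) := min_le_right _ _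
    have h3 : 1 - (1 - σ) ^ n ≤ (n + 1) * σ := by
      have : (1 + (-σ)) ^ n = (1 - σ) ^ n := by ring
      rw [this] at h1
      nlinarith
    calc D * m * (1 - (1 - σ) ^ n) ≤ D * m * ((n + 1) * σ) := by gcongr
      _ ≤ D * m * ((n + 1) * (η / (3 * D * m * (n + 1)))) := by gcongr
      _ = η / 3 := by field_simp
  refine ⟨σ, hσ0, hσ1, min e₁ (min (κ * a * σ) (η / (3 * D))), by positivity, ?_⟩
  intro C hC hCR Ω f G s h hinj e r z b L S he0 he hr hc
  set mC := (μ C).toReal with hmC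
  have hmC0 : 0 < mC := ENNReal.toReal_pos hC.mu_pos.ne' hC.mu_fin.ne
  have hmCm : mC ≤ m := ENNReal.toReal_mono (Lu_538.mu_fin 0 R) (measure_mono hCR)
  have hee₁ : e ≤ e₁ := he.trans (min_le_left _ _)
  have heσ : e ≤ κ * a * σ := he.trans ((min_le_right _ _).trans (min_le_left _ _))
  have heD : e ≤ η / (3 * D) := he.trans ((min_le_right _ _).trans (min_le_right _ _))
  have hcm : MeasurableSet (core C r z S s σ) :=
    (hc.meas.inter (isCompact_cel hC.cpt z _).isClosed.measurableSet).inter h.measU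
  have hcU : core C r z S s σ ⊆ ⋃ k, s k := inter_subset_right
  have hfm := measurable_image h hinj hcm hcU
  have hfs : f '' core C r z S s σ ⊆ par C L b r := core_image hC hκ hr hc hσ0 hσ1.le heσ
  refine ⟨hcm, hfm, hfs, ?_⟩
  have hPfin : μ (par C L b r) ≠ ∞ := (isCompact_par hC.cpt L b r).measure_lt_top.ne
  have hFfin : μ (f '' core C r z S s σ) ≠ ∞ :=
    ((measure_mono hfs).trans_lt hPfin.lt_top).ne
  rw [measure_sdiff hfs hfm.nullMeasurableSet hFfin]
  have hLD : |L.det| ≤ D := hD L hc.up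
  have hLlow : κ ^ n ≤ |L.det| := det_low μ hκ hc.low
  set η₁ := min (κ ^ n) (η / (3 * m)) with hη₁
  have hη₁κ : η₁ ≤ κ ^ n := min_le_left _ _
  have hη₁m : η₁ * m ≤ η / 3 := by
    calc η₁ * m ≤ η / (3 * m) * m := by
          gcongr
          exact min_le_right _ _
      _ = η / 3 := by field_simp
  have h1 : ENNReal.ofReal (|L.det| - η₁) * μ (core C r z S s σ) ≤
      μ (f '' core C r z S s σ) := by
    rw [← area h hinj hcm hcU, ← setLIntegral_const]
    apply setLIntegral_mono_ae' hcm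
    filter_upwards with x hx
    apply ENNReal.ofReal_le_ofReal
    have h2 := hdu L (G x) hc.up ((hc.cG x (core_sub hx)).trans hee₁)
    have h3 : |L.det| - |(G x).det| ≤ |(G x).det - L.det| := by
      have := abs_sub_abs_le_abs_sub L.det (G x).det
      rwa [abs_sub_comm] at this
    linarith
  have h2 := ENNReal.toReal_mono hFfin h1
  rw [ENNReal.toReal_mul, ENNReal.toReal_ofReal (by linarith)] at h2
  have h3 := core_big hC h hr he0 hc hσ0 hσ1.le
  have h4 : (μ (par C L b r)).toReal = r ^ n * |L.det| * mC := by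
    rw [mu_par C L b hr.le, ENNReal.toReal_mul, ENNReal.toReal_ofReal (by positivity)]
  have h5 : (μ (par C L b r)).toReal - (μ (f '' core C r z S s σ)).toReal ≤ η * r ^ n := by
    have hrn : 0 < r ^ n := by positivity
    set Q := (1 - σ) ^ n with hQ
    have hQ0 : 0 ≤ Q := by have := hσ1.le; positivity
    have hQ1 : Q ≤ 1 := pow_le_one₀ (by linarith) (by linarith)
    have h6 : (|L.det| - η₁) * ((Q * mC - e) * r ^ n) ≤ (μ (f '' core C r z S s σ)).toReal := by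
      refine le_trans ?_ h2
      apply mul_le_mul_of_nonneg_left h3
      linarith
    rw [h4]
    have h7 : r ^ n * |L.det| * mC - (|L.det| - η₁) * ((Q * mC - e) * r ^ n) ≤ η * r ^ n := by
      have h8 : r ^ n * |L.det| * mC - (|L.det| - η₁) * ((Q * mC - e) * r ^ n) =
          (|L.det| * mC * (1 - Q) + |L.det| * e + η₁ * (Q * mC - e)) * r ^ n := by ring
      rw [h8]
      apply mul_le_mul_of_nonneg_right _ hrn.le
      have h9 : |L.det| * mC * (1 - Q) ≤ η / 3 := by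
        refine le_trans ?_ hσ2
        gcongr
      have h10 : |L.det| * e ≤ η / 3 := by
        calc |L.det| * e ≤ D * (η / (3 * D)) := by gcongr
          _ = η / 3 := by field_simp
      have h11 : η₁ * (Q * mC - e) ≤ η / 3 := by
        refine le_trans ?_ hη₁m
        have hη₁0 : 0 ≤ η₁ := by positivity
        apply mul_le_mul_of_nonneg_left _ hη₁0
        nlinarith
      linarith
    linarith
  have h6 : μ (f '' core C r z S s σ) ≤ μ (par C L b r) := measure_mono hfs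
  rw [← ENNReal.ofReal_toReal (a := μ (par C L b r) - μ (f '' core C r z S s σ))
    (ne_top_of_le_ne_top hPfin tsub_le_self)]
  apply ENNReal.ofReal_le_ofReal
  rw [ENNReal.toReal_sub_of_le h6 hPfin]
  exact h5


/-! ### the bad set at all small scales -/

/-- the bad set at all scales below `ρ₀` -/
def BadU (μ ν : Measure E) (ε : ℝ≥0∞) (ρ₀ : ℝ) : Set E :=
  {y | ∃ ρ, 0 < ρ ∧ ρ < ρ₀ ∧ ε * μ (closedBall (0:E) ρ) < ν (ball y ρ)}

theorem isOpen_lt_ball (ν : Measure E) (c : ℝ≥0∞) (ρ : ℝ) : IsOpen {y : E | c < ν (ball y ρ)} := by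
  rw [Metric.isOpen_iff]
  intro y hy
  have hy' : c < ν (ball y ρ) := hy
  have h1 : ball y ρ = ⋃ k : ℕ, ball y (ρ - 1 / ((k:ℝ) + 1)) := by
    ext x
    simp only [mem_ball, mem_iUnion]
    constructor
    · intro hx
      obtain ⟨k, hk⟩ := exists_nat_one_div_lt (sub_pos.2 hx)
      exact ⟨k, by linarith⟩
    · rintro ⟨k, hk⟩
      have : (0:ℝ) < 1 / ((k:ℝ) + 1) := by positivity
      linarith
  have hmono : Monotone fun k : ℕ => ball y (ρ - 1 / ((k:ℝ) + 1)) := by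
    intro i j hij
    apply ball_subset_ball
    have h2 : 1 / ((j:ℝ) + 1) ≤ 1 / ((i:ℝ) + 1) := by
      apply one_div_le_one_div_of_le (by positivity)
      have : (i:ℝ) ≤ j := by exact_mod_cast hij
      linarith
    linarith
  rw [h1] at hy'
  have h2 := (tendsto_measure_iUnion_atTop (μ := ν) hmono).eventually_const_lt hy'
  obtain ⟨k, hk⟩ := h2.exists
  refine ⟨1 / ((k:ℝ) + 1), by positivity, fun y' hy'' => ?_⟩
  show c < ν (ball y' ρ)
  refine lt_of_lt_of_le hk (measure_mono ?_)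
  apply ball_subset_ball'
  rw [mem_ball, dist_comm] at hy''
  linarith

theorem isOpen_BadU (μ ν : Measure E) (ε : ℝ≥0∞) (ρ₀ : ℝ) : IsOpen (BadU μ ν ε ρ₀) := by
  have h1 : BadU μ ν ε ρ₀ = ⋃ ρ : ℝ, ⋃ _ : 0 < ρ ∧ ρ < ρ₀,
      {y : E | ε * μ (closedBall (0:E) ρ) < ν (ball y ρ)} := by
    ext y
    simp [BadU, and_assoc]
  rw [h1]
  exact isOpen_iUnion fun ρ => isOpen_iUnion fun _ => isOpen_lt_ball ν _ ρ

theorem exists_badU {ν : Measure E} [IsFiniteMeasure ν] (hν : ν ⟂ₘ μ) {ε : ℝ≥0∞} (hε : ε ≠ 0)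
    {Λ : Set E} (hΛ : MeasurableSet Λ) (hΛf : μ Λ ≠ ∞) {t : ℝ≥0∞} (ht : t ≠ 0) :
    ∃ ρ₀ > 0, μ (BadU μ ν ε ρ₀ ∩ Λ) < t := by
  have h1 : ∀ᵐ y ∂μ, Tendsto (fun r => ν (closedBall y r) / μ (closedBall y r)) (𝓝[>] 0) (𝓝 0) := by
    filter_upwards [Besicovitch.ae_tendsto_rnDeriv ν μ, hν.rnDeriv_ae_eq_zero] with y h2 h3
    rw [h3] at h2
    exact h2
  have h2 : μ (⋂ k : ℕ, (BadU μ ν ε (1 / ((k:ℝ) + 1)) ∩ Λ)) = 0 := by
    apply measure_mono_null _ (ae_iff.1 h1)
    intro y hy hcon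
    have h3 : ∀ᶠ r in 𝓝[>] (0:ℝ), ν (closedBall y r) / μ (closedBall y r) < ε :=
      hcon.eventually_lt_const (pos_iff_ne_zero.2 hε)
    obtain ⟨u, hu, hu2⟩ := (mem_nhdsGT_iff_exists_Ioo_subset).1 h3
    have hu0 : (0:ℝ) < u := hu
    obtain ⟨k, hk⟩ := exists_nat_one_div_lt hu0
    obtain ⟨⟨ρ, hρ0, hρ1, hρ2⟩, -⟩ := mem_iInter.1 hy k
    have h4 : ν (closedBall y ρ) / μ (closedBall y ρ) < ε := hu2 ⟨hρ0, hρ1.trans hk⟩
    rw [ENNReal.div_lt_iff (Or.inl (Lu_538.mu_pos hρ0 y)) (Or.inl (Lu_538.mu_fin y ρ)),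
      mu_center (μ := μ) y] at h4
    exact absurd (lt_of_lt_of_le hρ2 (measure_mono ball_subset_closedBall)) (not_lt.2 h4.le)
  have h3 : Tendsto (fun k : ℕ => μ (BadU μ ν ε (1 / ((k:ℝ) + 1)) ∩ Λ)) atTop (𝓝 0) := by
    rw [← h2]
    apply tendsto_measure_iInter_atTop
    · intro k
      exact ((isOpen_BadU μ ν ε _).measurableSet.inter hΛ).nullMeasurableSet
    · intro i j hij
      rintro y ⟨⟨ρ, hρ0, hρ1, hρ2⟩, hyΛ⟩
      refine ⟨⟨ρ, hρ0, hρ1.trans_le ?_, hρ2⟩, hyΛ⟩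
      apply one_div_le_one_div_of_le (by positivity)
      have : (i:ℝ) ≤ j := by exact_mod_cast hij
      linarith
    · exact ⟨0, ((measure_mono inter_subset_right).trans_lt hΛf.lt_top).ne⟩
  obtain ⟨k, hk⟩ := (h3.eventually_lt_const (pos_iff_ne_zero.2 ht)).exists
  exact ⟨1 / ((k:ℝ) + 1), by positivity, hk⟩

end

end Crest.Agent.R96.Intr_538
end

-- ▼ part R96/Intr6_538
section

set_option autoImplicit false
set_option linter.unusedSectionVars false

open MeasureTheory Set Filter Metric Module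
open scoped ENNReal NNReal Topology

namespace Crest.Agent.R96.Intr_538

open Crest.Agent.R96.Lu_538

noncomputable section

universe u

variable {E : Type*} [NormedAddCommGroup E] [NormedSpace ℝ E] [FiniteDimensional ℝ E]
  [MeasurableSpace E] [BorelSpace E] {μ : Measure E} [μ.IsAddHaarMeasure]

theorem sum_bound {ι : Type*} (Q : Finset ι) {F : ι → Set E} {B : Set E} {c : ι → ℝ}
    (hc : ∀ i ∈ Q, 0 ≤ c i)
    (hF : ∀ i ∈ Q, MeasurableSet (F i)) (hd : ∀ i ∈ Q, ∀ j ∈ Q, i ≠ j → μ (F i ∩ F j) = 0)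
    (hl : ∀ i ∈ Q, ENNReal.ofReal (c i) ≤ μ (F i)) (hB : ∀ i ∈ Q, F i ⊆ B) (hBf : μ B ≠ ∞) :
    ∑ i ∈ Q, c i ≤ (μ B).toReal := by
  have h1 : ∑ i ∈ Q, ENNReal.ofReal (c i) ≤ μ B := by
    calc ∑ i ∈ Q, ENNReal.ofReal (c i) ≤ ∑ i ∈ Q, μ (F i) := Finset.sum_le_sum hl
      _ = μ (⋃ i ∈ Q, F i) := by
          rw [measure_biUnion_finset₀]
          · intro i hi j hj hij
            exact hd i hi j hj hij
          · exact fun i hi => (hF i hi).nullMeasurableSet
      _ ≤ μ B := measure_mono (iUnion₂_subset hB)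
  rw [← ENNReal.ofReal_sum_of_nonneg hc] at h1
  have h2 := ENNReal.toReal_mono hBf h1
  rwa [ENNReal.toReal_ofReal (Finset.sum_nonneg hc)] at h2

/-- **(iii) NO INTRUDERS**, uniform version. -/
theorem intrU {Ω Λ : Set E} (hΩ : MeasurableSet Ω) {f : E → E} {G : E → E →L[ℝ] E}
    {s : ℕ → Set E} (h : Lus Ω μ f G s) (hinj : InjOn f Ω) (hf : ContinuousOn f Ω)
    (hG : AEStronglyMeasurable G (μ.restrict Ω)) (hΛ : MeasurableSet Λ) (hΛf : μ Λ ≠ ∞)
    (hfΛ : MapsTo f Ω Λ) {m : Measure E} [IsFiniteMeasure m] (hm : m ≪ μ)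
    {a R : ℝ} (ha : 0 < a) (haR : a ≤ R) {κ : ℝ} (hκ : 0 < κ) {ε : ℝ} (hε : 0 < ε) :
    ∃ e₀ > 0, ∃ r₀ > 0, ∀ {ι : Type u} (Q : Finset ι) (C : ι → Set E) (e r : ι → ℝ)
      (z b : ι → E) (L : ι → E →L[ℝ] E) (S : ι → Set E),
      (∀ i ∈ Q, Ref (C i) a) → (∀ i ∈ Q, C i ⊆ closedBall 0 R) →
      (∀ i ∈ Q, 0 ≤ e i) → (∀ i ∈ Q, e i ≤ e₀) → (∀ i ∈ Q, 0 < r i) → (∀ i ∈ Q, r i < r₀) →
      (∀ i ∈ Q, GC Ω μ f G (C i) κ (e i) (r i) (z i) (b i) (L i) (S i)) →
      (∀ i ∈ Q, ∀ j ∈ Q, i ≠ j → μ (cel (C i) (z i) (r i) ∩ cel (C j) (z j) (r j)) = 0) →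
      ∃ Q1 ⊆ Q, (∀ Q2 ⊆ Q, Disjoint Q1 Q2 → ∑ i ∈ Q2, r i ^ finrank ℝ E ≤ ε) ∧
        m ((Ω ∩ f ⁻¹' (⋃ i ∈ Q1, par (C i) (L i) (b i) (r i))) \
          ⋃ i ∈ Q1, cel (C i) (z i) (r i)) ≤ ENNReal.ofReal ε := by
  classical
  set n := finrank ℝ E with hn
  have hR : 0 < R := ha.trans_le haR
  set mC := (μ (closedBall (0:E) a)).toReal with hmCd
  have hmC : 0 < mC := ENNReal.toReal_pos (Lu_538.mu_pos ha 0) (Lu_538.mu_fin 0 a)
  set mB := (μ (closedBall (0:E) 1)).toReal with hmB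
  have hmB0 : 0 < mB := ENNReal.toReal_pos (Lu_538.mu_pos one_pos 0) (Lu_538.mu_fin 0 1)
  set c₀ := κ ^ n * mC / 2 with hc₀
  have hc₀0 : 0 < c₀ := by positivity
  set M := (μ Λ).toReal / c₀ + 1 with hM
  have hM0 : 0 < M := by positivity
  obtain ⟨Z, hZs, hZm, hZ0, hZae⟩ := exists_crit hΩ h hG
  obtain ⟨δ, hδ0, hδ⟩ := ac_part hΩ h hinj hf hG hm hZm hZae
    (ε := ENNReal.ofReal (ε / 2)) (by
      rw [Ne, ENNReal.ofReal_eq_zero, not_le]; positivity)
  obtain ⟨δ', hδ'0, hδ'⟩ : ∃ δ' : ℝ, 0 < δ' ∧ ENNReal.ofReal δ' < δ := by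
    obtain ⟨q, hq1, hq2⟩ := ENNReal.lt_iff_exists_nnreal_btwn.1 hδ0
    refine ⟨q, by exact_mod_cast hq1, by rwa [ENNReal.ofReal_coe_nnreal]⟩
  obtain ⟨ν, hνf, hν, hνs⟩ := sing_part (m := m) hΩ h hinj hf hZs hZm hZ0
  set cρ := 4 * R * κ⁻¹ with hcρ
  have hcρ0 : 0 < cρ := by positivity
  set ε₁ := ε / (2 * M * cρ ^ n * mB) with hε₁
  have hε₁0 : 0 < ε₁ := by positivity
  obtain ⟨ρ₀, hρ₀0, hρ₀⟩ := exists_badU (μ := μ) hνs (ε := ENNReal.ofReal ε₁) (by
    rw [Ne, ENNReal.ofReal_eq_zero, not_le]; positivity) hΛ hΛf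
    (t := ENNReal.ofReal (c₀ * ε)) (by rw [Ne, ENNReal.ofReal_eq_zero, not_le]; positivity)
  obtain ⟨σ, hσ0, hσ1, e₀, he₀, hfill⟩ := fillU μ ha haR hκ (η := min c₀ (δ' / (2 * M)))
    (by positivity)
  refine ⟨e₀, he₀, ρ₀ / cρ, by positivity, ?_⟩
  intro ι Q C e r z b L S hC hCR he0 he hr hrr hQ hdis
  set η := min c₀ (δ' / (2 * M)) with hη
  have hη0 : 0 < η := by positivity
  set F : ι → Set E := fun i => f '' core (C i) (r i) (z i) (S i) s σ with hF
  set P : ι → Set E := fun i => par (C i) (L i) (b i) (r i) with hP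
  have h1 := fun i (hi : i ∈ Q) => hfill (hC i hi) (hCR i hi) h hinj (he0 i hi) (he i hi)
    (hr i hi) (hQ i hi)
  have hFm : ∀ i ∈ Q, MeasurableSet (F i) := fun i hi => (h1 i hi).2.1
  have hFP : ∀ i ∈ Q, F i ⊆ P i := fun i hi => (h1 i hi).2.2.1
  have hPF : ∀ i ∈ Q, μ (P i \ F i) ≤ ENNReal.ofReal (η * r i ^ n) := fun i hi => (h1 i hi).2.2.2
  have hPm : ∀ i ∈ Q, MeasurableSet (P i) := fun i hi =>
    (isCompact_par (hC i hi).cpt _ _ _).isClosed.measurableSet
  have hFΛ : ∀ i ∈ Q, F i ⊆ Λ := by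
    intro i hi
    rintro _ ⟨x, hx, rfl⟩
    exact hfΛ (h.subU hx.2)
  have hFd : ∀ i ∈ Q, ∀ j ∈ Q, i ≠ j → μ (F i ∩ F j) = 0 := by
    intro i hi j hj hij
    apply inter_null h hinj inter_subset_right inter_subset_right
    refine measure_mono_null ?_ (hdis i hi j hj hij)
    rintro x ⟨hx, hx'⟩
    exact ⟨(hQ i hi).sS (core_sub hx), (hQ j hj).sS (core_sub hx')⟩
  have hmCi : ∀ i ∈ Q, mC ≤ (μ (C i)).toReal := fun i hi =>
    ENNReal.toReal_mono (hC i hi).mu_fin.ne (measure_mono (hC i hi).ball)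
  have hFl : ∀ i ∈ Q, ENNReal.ofReal (c₀ * r i ^ n) ≤ μ (F i) := fun i hi =>
    image_low (hC i hi) hκ (hQ i hi).low (hr i hi) hη0.le hc₀0.le
      (by
        have h2 : η ≤ c₀ := min_le_left _ _
        have h3 : κ ^ n * mC ≤ κ ^ n * (μ (C i)).toReal := by
          have := hmCi i hi
          gcongr
        rw [hc₀] at h2 ⊢; linarith) (hPF i hi)
  have hcard : ∀ Q' ⊆ Q, ∑ i ∈ Q', r i ^ n ≤ M := by
    intro Q' hQ'
    have h2 := sum_bound (μ := μ) Q' (c := fun i => c₀ * r i ^ n)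
      (fun i hi => by have := hr i (hQ' hi); positivity) (fun i hi => hFm i (hQ' hi))
      (fun i hi j hj => hFd i (hQ' hi) j (hQ' hj)) (fun i hi => hFl i (hQ' hi))
      (fun i hi => hFΛ i (hQ' hi)) hΛf
    rw [← Finset.mul_sum] at h2
    have h4 := (le_div_iff₀' hc₀0).2 h2
    rw [hM]; linarith
  set Q1 := Q.filter (fun i => ν (P i) ≤ ENNReal.ofReal ε₁ * μ (closedBall (0:E) (cρ * r i)))
    with hQ1
  have hQ1Q : Q1 ⊆ Q := Finset.filter_subset _ _
  refine ⟨Q1, hQ1Q, ?_, ?_⟩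
  · intro Q2 hQ2 hdisj
    have h3 : ∀ i ∈ Q2, F i ⊆ BadU μ ν (ENNReal.ofReal ε₁) ρ₀ ∩ Λ := by
      intro i hi y hy
      have hi1 : i ∉ Q1 := fun h => (Finset.disjoint_left.1 hdisj) h hi
      have hi2 : ¬ ν (P i) ≤ ENNReal.ofReal ε₁ * μ (closedBall (0:E) (cρ * r i)) := by
        intro hcon
        exact hi1 (Finset.mem_filter.2 ⟨hQ2 hi, hcon⟩)
      have hri := hr i (hQ2 hi)
      refine ⟨⟨cρ * r i, by positivity, ?_, ?_⟩, hFΛ i (hQ2 hi) hy⟩
      · rw [mul_comm]; exact (lt_div_iff₀ hcρ0).1 (hrr i (hQ2 hi))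
      · refine lt_of_lt_of_le (not_le.1 hi2) (measure_mono ?_)
        intro y' hy'
        rw [mem_ball]
        refine lt_of_le_of_lt (par_dist (hCR i (hQ2 hi)) (hQ i (hQ2 hi)).up hri.le
          (hFP i (hQ2 hi) hy) hy') ?_
        rw [hcρ]
        have : 0 < R * κ⁻¹ * r i := by positivity
        nlinarith
    have h5 := sum_bound (μ := μ) Q2 (c := fun i => c₀ * r i ^ n)
      (fun i hi => by have := hr i (hQ2 hi); positivity) (fun i hi => hFm i (hQ2 hi))
      (fun i hi j hj => hFd i (hQ2 hi) j (hQ2 hj)) (fun i hi => hFl i (hQ2 hi)) h3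
      (hρ₀.trans ENNReal.ofReal_lt_top).ne
    rw [← Finset.mul_sum] at h5
    have h6 : (μ (BadU μ ν (ENNReal.ofReal ε₁) ρ₀ ∩ Λ)).toReal ≤ c₀ * ε := by
      have := ENNReal.toReal_mono ENNReal.ofReal_ne_top hρ₀.le
      rwa [ENNReal.toReal_ofReal (by positivity)] at this
    exact le_of_mul_le_mul_left (h5.trans h6) hc₀0
  · set Zη := ⋃ i ∈ Q1, (P i \ F i) with hZη
    have hsub : (Ω ∩ f ⁻¹' (⋃ i ∈ Q1, P i)) \ ⋃ i ∈ Q1, cel (C i) (z i) (r i) ⊆
        ((Ω \ Z) ∩ f ⁻¹' Zη) ∪ (Z ∩ f ⁻¹' (⋃ i ∈ Q1, P i)) := by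
      rintro x ⟨⟨hxΩ, hxP⟩, hxc⟩
      by_cases hxZ : x ∈ Z
      · exact Or.inr ⟨hxZ, hxP⟩
      · refine Or.inl ⟨⟨hxΩ, hxZ⟩, ?_⟩
        rw [mem_preimage, mem_iUnion₂] at hxP
        obtain ⟨i, hi, hxi⟩ := hxP
        refine mem_iUnion₂.2 ⟨i, hi, hxi, ?_⟩
        rintro ⟨x', hx', hxx'⟩
        have h2 : x' = x := hinj (h.subU hx'.2) hxΩ hxx'
        subst h2
        exact hxc (mem_iUnion₂.2 ⟨i, hi, (hQ i (hQ1Q hi)).sS (core_sub hx')⟩)
    have hr0 : ∀ i ∈ Q1, 0 ≤ r i ^ n := fun i hi => by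
      have := hr i (hQ1Q hi); positivity
    have hA : m ((Ω \ Z) ∩ f ⁻¹' Zη) ≤ ENNReal.ofReal (ε / 2) := by
      apply (hδ Zη _).le
      refine lt_of_le_of_lt ?_ hδ'
      calc μ Zη ≤ ∑ i ∈ Q1, μ (P i \ F i) := measure_biUnion_finset_le _ _
        _ ≤ ∑ i ∈ Q1, ENNReal.ofReal (η * r i ^ n) :=
            Finset.sum_le_sum fun i hi => hPF i (hQ1Q hi)
        _ = ENNReal.ofReal (∑ i ∈ Q1, η * r i ^ n) := by
            rw [ENNReal.ofReal_sum_of_nonneg fun i hi => mul_nonneg hη0.le (hr0 i hi)]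
        _ ≤ ENNReal.ofReal δ' := by
            apply ENNReal.ofReal_le_ofReal
            have h2 : η ≤ δ' / (2 * M) := min_le_right _ _
            rw [← Finset.mul_sum]
            calc η * ∑ i ∈ Q1, r i ^ n ≤ (δ' / (2 * M)) * M := by
                  have := hcard Q1 hQ1Q
                  have h5 : 0 ≤ ∑ i ∈ Q1, r i ^ n := Finset.sum_nonneg hr0
                  gcongr
              _ = δ' / 2 := by field_simp
              _ ≤ δ' := by linarith
    have hB : m (Z ∩ f ⁻¹' (⋃ i ∈ Q1, P i)) ≤ ENNReal.ofReal (ε / 2) := by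
      rw [← hν _ (Finset.measurableSet_biUnion _ fun i hi => hPm i (hQ1Q hi))]
      calc ν (⋃ i ∈ Q1, P i) ≤ ∑ i ∈ Q1, ν (P i) := measure_biUnion_finset_le _ _
        _ ≤ ∑ i ∈ Q1, ENNReal.ofReal ε₁ * μ (closedBall (0:E) (cρ * r i)) :=
            Finset.sum_le_sum fun i hi => (Finset.mem_filter.1 hi).2
        _ = ∑ i ∈ Q1, ENNReal.ofReal (ε₁ * cρ ^ n * mB * r i ^ n) := by
            apply Finset.sum_congr rfl
            intro i hi
            have hri := hr i (hQ1Q hi)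
            rw [Measure.addHaar_closedBall' μ 0 (by positivity), ← ENNReal.ofReal_toReal
              (Lu_538.mu_fin (μ := μ) 0 1), ← ENNReal.ofReal_mul (by positivity),
              ← ENNReal.ofReal_mul (by positivity)]
            congr 1
            rw [mul_pow]
            ring
        _ = ENNReal.ofReal (∑ i ∈ Q1, ε₁ * cρ ^ n * mB * r i ^ n) := by
            rw [ENNReal.ofReal_sum_of_nonneg fun i hi => mul_nonneg (by positivity) (hr0 i hi)]
        _ ≤ ENNReal.ofReal (ε / 2) := by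
            apply ENNReal.ofReal_le_ofReal
            rw [← Finset.mul_sum]
            calc ε₁ * cρ ^ n * mB * ∑ i ∈ Q1, r i ^ n ≤ ε₁ * cρ ^ n * mB * M := by
                  have := hcard Q1 hQ1Q
                  gcongr
              _ = ε / 2 := by rw [hε₁]; field_simp
    calc m ((Ω ∩ f ⁻¹' (⋃ i ∈ Q1, P i)) \ ⋃ i ∈ Q1, cel (C i) (z i) (r i))
        ≤ m (((Ω \ Z) ∩ f ⁻¹' Zη) ∪ (Z ∩ f ⁻¹' (⋃ i ∈ Q1, P i))) := measure_mono hsub
      _ ≤ m ((Ω \ Z) ∩ f ⁻¹' Zη) + m (Z ∩ f ⁻¹' (⋃ i ∈ Q1, P i)) := measure_union_le _ _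
      _ ≤ ENNReal.ofReal (ε / 2) + ENNReal.ofReal (ε / 2) := add_le_add hA hB
      _ = ENNReal.ofReal ε := by
          rw [← ENNReal.ofReal_add (by positivity) (by positivity), add_halves]

/-! ### production of good cells -/

/-- Chebyshev: `L^p` closeness of `f` to `A` and of `G` to `L` gives a good cell. -/
theorem exists_GC {Ω : Set E} {f : E → E} {G : E → E →L[ℝ] E}
    (hf : ContinuousOn f Ω) (hG : AEStronglyMeasurable G (μ.restrict Ω)) {p : ℝ} (hp : 0 < p)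
    {C : Set E} (hC : IsCompact C) {κ e r : ℝ} (he : 0 < e) (hr : 0 < r) {z b : E} {L : E →L[ℝ] E}
    (hsub : cel C z r ⊆ Ω) (hlow : ∀ v, κ * ‖v‖ ≤ ‖L v‖) (hup : ‖L‖ ≤ κ⁻¹)
    (h1 : ∫⁻ x in cel C z r, ‖f x - (b + L (x - z))‖ₑ ^ p ∂μ ≤
      ENNReal.ofReal ((e * r) ^ p * (e / 2 * r ^ finrank ℝ E)))
    (h2 : ∫⁻ x in cel C z r, ‖G x - L‖ₑ ^ p ∂μ ≤
      ENNReal.ofReal (e ^ p * (e / 2 * r ^ finrank ℝ E))) :
    ∃ S, GC Ω μ f G C κ e r z b L S := by
  set q := cel C z r with hq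
  have hqm : MeasurableSet q := (isCompact_cel hC z r).isClosed.measurableSet
  have hfm : AEMeasurable (fun x => ‖f x - (b + L (x - z))‖ₑ ^ p) (μ.restrict q) := by
    have h3 : ContinuousOn (fun x => f x - (b + L (x - z))) q :=
      (hf.mono hsub).sub (by fun_prop)
    exact ((h3.aemeasurable hqm).enorm).pow_const p
  have hGm : AEMeasurable (fun x => ‖G x - L‖ₑ ^ p) (μ.restrict q) := by
    have h3 : AEStronglyMeasurable G (μ.restrict q) :=
      hG.mono_measure (Measure.restrict_mono hsub le_rfl)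
    exact ((h3.sub aestronglyMeasurable_const).enorm).pow_const p
  -- the two bad sets
  set B1 := {x | x ∈ q ∧ e * r < ‖f x - (b + L (x - z))‖} with hB1
  set B2 := {x | x ∈ q ∧ e < ‖G x - L‖} with hB2
  have key : ∀ {g : E → ℝ} {t : ℝ}, 0 < t → (∀ x, 0 ≤ g x) →
      AEMeasurable (fun x => ENNReal.ofReal (g x) ^ p) (μ.restrict q) →
      ∫⁻ x in q, ENNReal.ofReal (g x) ^ p ∂μ ≤ ENNReal.ofReal (t ^ p * (e / 2 * r ^ finrank ℝ E)) →
      μ {x | x ∈ q ∧ t < g x} ≤ ENNReal.ofReal (e / 2 * r ^ finrank ℝ E) := by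
    intro g t ht hg hgm hint
    have h3 := mul_meas_ge_le_lintegral₀ hgm (ENNReal.ofReal (t ^ p))
    have h4 : μ {x | x ∈ q ∧ t < g x} ≤
        (μ.restrict q) {x | ENNReal.ofReal (t ^ p) ≤ ENNReal.ofReal (g x) ^ p} := by
      rw [Measure.restrict_apply' hqm]
      apply measure_mono
      rintro x ⟨hx, hx2⟩
      refine ⟨?_, hx⟩
      show ENNReal.ofReal (t ^ p) ≤ ENNReal.ofReal (g x) ^ p
      rw [ENNReal.ofReal_rpow_of_nonneg (hg x) hp.le]
      apply ENNReal.ofReal_le_ofReal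
      exact Real.rpow_le_rpow ht.le hx2.le hp.le
    have h5 := (mul_le_mul_right h4 (ENNReal.ofReal (t ^ p))).trans (h3.trans hint)
    rw [ENNReal.ofReal_mul (by positivity)] at h5
    exact (ENNReal.mul_le_mul_iff_right (by
      rw [Ne, ENNReal.ofReal_eq_zero, not_le]; positivity) ENNReal.ofReal_ne_top).1 h5
  have hb1 : μ B1 ≤ ENNReal.ofReal (e / 2 * r ^ finrank ℝ E) := by
    apply key (g := fun x => ‖f x - (b + L (x - z))‖) (by positivity) (fun x => norm_nonneg _)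
    · simpa only [ofReal_norm] using hfm
    · simpa only [ofReal_norm] using h1
  have hb2 : μ B2 ≤ ENNReal.ofReal (e / 2 * r ^ finrank ℝ E) := by
    apply key (g := fun x => ‖G x - L‖) he (fun x => norm_nonneg _)
    · simpa only [ofReal_norm] using hGm
    · simpa only [ofReal_norm] using h2
  refine ⟨q \ toMeasurable μ (B1 ∪ B2), hsub, hlow, hup, hqm.diff (measurableSet_toMeasurable _ _),
    sdiff_subset, ?_, ?_, ?_⟩
  · rw [sdiff_sdiff_right_self]
    calc μ (q ∩ toMeasurable μ (B1 ∪ B2)) ≤ μ (toMeasurable μ (B1 ∪ B2)) :=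
          measure_mono inter_subset_right
      _ = μ (B1 ∪ B2) := measure_toMeasurable _
      _ ≤ μ B1 + μ B2 := measure_union_le _ _
      _ ≤ ENNReal.ofReal (e / 2 * r ^ finrank ℝ E) + ENNReal.ofReal (e / 2 * r ^ finrank ℝ E) :=
          add_le_add hb1 hb2
      _ = ENNReal.ofReal (e * r ^ finrank ℝ E) := by
          rw [← ENNReal.ofReal_add (by positivity) (by positivity)]
          congr 1
          ring
  · rintro x ⟨hx, hx2⟩
    by_contra hcon
    exact hx2 (subset_toMeasurable μ _ (Or.inl ⟨hx, not_le.1 hcon⟩))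
  · rintro x ⟨hx, hx2⟩
    by_contra hcon
    exact hx2 (subset_toMeasurable μ _ (Or.inr ⟨hx, not_le.1 hcon⟩))

/-- the parallelepiped of a good cell lies in `Λ` as soon as one good point has image far from
the complement -/
theorem par_sub {Ω Λ : Set E} {f : E → E} {G : E → E →L[ℝ] E} {C : Set E} {κ e r R : ℝ}
    {z b : E} {L : E →L[ℝ] E} {S : Set E} (hr : 0 < r) (hCR : C ⊆ closedBall 0 R)
    (hc : GC Ω μ f G C κ e r z b L S) {x : E} (hx : x ∈ S)
    (hΛ : closedBall (f x) (2 * R * κ⁻¹ * r + e * r) ⊆ Λ) : par C L b r ⊆ Λ := by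
  intro y hy
  apply hΛ
  obtain ⟨u, hu, rfl⟩ := hc.sS hx
  have h1 := hc.cf _ hx
  simp only [add_sub_cancel_left, map_smul] at h1
  have h2 := par_dist hCR hc.up (b := b) hr.le (⟨u, hu, rfl⟩ : b + r • L u ∈ par C L b r) hy
  rw [mem_closedBall]
  calc dist y (f (z + r • u)) ≤ dist y (b + r • L u) + dist (b + r • L u) (f (z + r • u)) :=
        dist_triangle _ _ _
    _ ≤ 2 * R * κ⁻¹ * r + e * r := by
        refine add_le_add h2 ?_
        rw [dist_comm, dist_eq_norm]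
        exact h1

end

end Crest.Agent.R96.Intr_538
end

-- ▼ part R96/Intr7_538
section

set_option autoImplicit false
set_option linter.unusedSectionVars false

open MeasureTheory Set Filter Metric Module
open scoped ENNReal NNReal Topology

namespace Crest.Agent.R96.Intr_538

open Crest.Agent.R96.Lu_538

noncomputable section

universe u

variable {E : Type*} [NormedAddCommGroup E] [NormedSpace ℝ E] [FiniteDimensional ℝ E]
  [MeasurableSpace E] [BorelSpace E] {μ : Measure E} [μ.IsAddHaarMeasure]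

/-- general thickening: `s ↦ s + t` -/
theorem par_thick' {C : Set E} {a : ℝ} (hC : Ref C a) {κ : ℝ} (hκ : 0 < κ) {L : E →L[ℝ] E}
    (hL : ∀ v, κ * ‖v‖ ≤ ‖L v‖) {b : E} {s t : ℝ} (hs : 0 ≤ s) (ht : 0 < t)
    {y y' : E} (hy : y ∈ par C L b s) (hyy : ‖y' - y‖ ≤ κ * a * t) :
    y' ∈ par C L b (s + t) := by
  have hst : 0 < s + t := by linarith
  have h1 : (1 - t / (s + t)) * (s + t) = s := by field_simp; ring
  refine par_thick hC hκ hL hst (σ := t / (s + t)) (by positivity)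
    ((div_le_one hst).2 (by linarith)) (y := y) (by rwa [h1]) ?_
  refine hyy.trans (le_of_eq ?_)
  field_simp

/-- the neighbourhood of size `ρ` of a point of a parallelepiped contains a ball of comparable
size inside the parallelepiped -/
theorem par_ball {C : Set E} {a R : ℝ} (hC : Ref C a) (hCR : C ⊆ closedBall 0 R) (haR : a ≤ R)
    {κ : ℝ} (hκ : 0 < κ)
    {L : E →L[ℝ] E} (hL : ∀ v, κ * ‖v‖ ≤ ‖L v‖) (hup : ‖L‖ ≤ κ⁻¹) {b : E} {r ρ : ℝ} (hr : 0 < r)
    (hρ : 0 < ρ) (hρr : ρ ≤ (κ⁻¹ * R + κ * a) * r) {y : E} (hy : y ∈ par C L b r) :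
    ∃ w, closedBall w (κ * a * (ρ / (κ⁻¹ * R + κ * a))) ⊆ par C L b r ∧
      closedBall w (κ * a * (ρ / (κ⁻¹ * R + κ * a))) ⊆ closedBall y ρ := by
  have ha := hC.pos
  have hR : 0 < R := ha.trans_le haR
  set k := κ⁻¹ * R + κ * a with hk
  have hk0 : 0 < k := by positivity
  obtain ⟨u, hu, rfl⟩ := hy
  set lam := ρ / k / r with hlam
  have hlam0 : 0 < lam := by positivity
  have hlam1 : lam ≤ 1 := by
    rw [hlam, div_div, div_le_one (by positivity)]
    exact hρr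
  refine ⟨b + ((1 - lam) * r) • L u, ?_, ?_⟩
  · intro w hw
    rw [mem_closedBall, dist_eq_norm] at hw
    refine par_thick hC hκ hL hr hlam0 hlam1 (y := b + ((1 - lam) * r) • L u) ⟨u, hu, rfl⟩
      (hw.trans (le_of_eq ?_))
    rw [hlam]
    field_simp
  · apply closedBall_subset_closedBall'
    rw [dist_eq_norm]
    have h1 : b + ((1 - lam) * r) • L u - (b + r • L u) = -((lam * r) • L u) := by
      have : (1 - lam) * r = r - lam * r := by ring
      rw [this, sub_smul]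
      abel
    rw [h1, norm_neg, norm_smul, Real.norm_eq_abs, abs_of_pos (by positivity)]
    have h2 : ‖L u‖ ≤ κ⁻¹ * R := by
      have h3 := mem_closedBall_zero_iff.1 (hCR hu)
      calc ‖L u‖ ≤ ‖L‖ * ‖u‖ := L.le_opNorm u
        _ ≤ κ⁻¹ * R := by gcongr
    have h3 : lam * r = ρ / k := by rw [hlam]; field_simp
    rw [h3]
    calc κ * a * (ρ / k) + ρ / k * ‖L u‖ ≤ κ * a * (ρ / k) + ρ / k * (κ⁻¹ * R) := by gcongr
      _ = ρ / k * k := by rw [hk]; ring
      _ = ρ := by field_simp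

/-- **strong disjointness**: the full parallelepiped of one cell does not meet the shrunk
parallelepiped of another one. -/
theorem disjS (μ : Measure E) [μ.IsAddHaarMeasure] {a R : ℝ} (ha : 0 < a) (haR : a ≤ R) {κ : ℝ}
    (hκ : 0 < κ) {τ : ℝ} (hτ : 0 < τ) (hτ1 : τ ≤ 1) {T : ℝ} (hT : 1 ≤ T) :
    ∃ e₀ > 0, ∀ {Ω : Set E} {f : E → E} {G : E → E →L[ℝ] E} {s : ℕ → Set E},
      Lus Ω μ f G s → InjOn f Ω → ∀ {C : Set E} {e r : ℝ} {z b : E} {L : E →L[ℝ] E} {S : Set E}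
      {C' : Set E} {e' r' : ℝ} {z' b' : E} {L' : E →L[ℝ] E} {S' : Set E},
      Ref C a → C ⊆ closedBall 0 R → Ref C' a → C' ⊆ closedBall 0 R →
      0 ≤ e → e ≤ e₀ → 0 ≤ e' → e' ≤ e₀ → 0 < r → 0 < r' → r' ≤ T * r → r ≤ T * r' →
      GC Ω μ f G C κ e r z b L S → GC Ω μ f G C' κ e' r' z' b' L' S' →
      μ (cel C z r ∩ cel C' z' r') = 0 →
      Disjoint (par C L b ((1 - τ) * r)) (par C' L' b' r') ∧
        ∀ x ∈ S', f x ∉ par C L b ((1 - τ) * r) := by
  set n := finrank ℝ E with hn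
  set m := (μ (closedBall (0:E) 1)).toReal with hm
  have hm0 : 0 < m := ENNReal.toReal_pos (Lu_538.mu_pos one_pos 0) (Lu_538.mu_fin 0 1)
  have hT0 : 0 < T := by linarith
  have hR : 0 < R := ha.trans_le haR
  set k := κ⁻¹ * R + κ * a with hk
  have hk0 : 0 < k := by positivity
  -- radius of the ball in units of r
  set c := κ * a * (κ * a * (τ / 2) / T / k) with hc_def
  have hc0 : 0 < c := by positivity
  obtain ⟨σ, hσ0, hσ1, e₀, he₀, hfill⟩ := fillU μ ha haR hκ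
    (η := (c / T) ^ n * m / 4) (by positivity)
  refine ⟨min e₀ (κ * a * (τ / 2) / T), by positivity, ?_⟩
  intro Ω f G s h hinj C e r z b L S C' e' r' z' b' L' S' hC hCR hC' hCR' he0 he he0' he' hr hr'
    hTr hTr' hc hc' hnull
  obtain ⟨-, -, hs1, hf1⟩ := hfill hC hCR h hinj he0 (he.trans (min_le_left _ _)) hr hc
  obtain ⟨-, -, hs2, hf2⟩ := hfill hC' hCR' h hinj he0' (he'.trans (min_le_left _ _)) hr' hc'
  -- main claim with τ / 2
  have main : Disjoint (par C L b ((1 - τ / 2) * r)) (par C' L' b' r') := by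
    rw [Set.disjoint_left]
    intro y hy hy'
    obtain ⟨w, hw1, hw2⟩ := par_ball hC' hCR' haR hκ hc'.low hc'.up hr'
      (ρ := κ * a * (τ / 2) / T * r) (by positivity) (by
        calc κ * a * (τ / 2) / T * r ≤ κ * a * (τ / 2) / T * (T * r') := by gcongr
          _ = κ * a * (τ / 2) * r' := by field_simp
          _ ≤ (κ⁻¹ * R + κ * a) * r' := by
              have h1 : κ * a * (τ / 2) ≤ κ * a * 1 := by gcongr; linarith
              have h2 : 0 ≤ κ⁻¹ * R := by positivity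
              gcongr
              linarith) hy'
    have hw3 : closedBall w (c * r) ⊆ par C L b r ∩ par C' L' b' r' := by
      have h3 : c * r = κ * a * (κ * a * (τ / 2) / T * r / (κ⁻¹ * R + κ * a)) := by
        rw [hc_def, hk]; ring
      rw [h3]
      intro x hx
      refine ⟨?_, hw1 hx⟩
      have h4 := hw2 hx
      rw [mem_closedBall, dist_eq_norm] at h4
      refine par_thick hC hκ hc.low hr (σ := τ / 2) (by positivity) (by linarith) hy (h4.trans ?_)
      have : κ * a * (τ / 2) / T ≤ κ * a * (τ / 2) := div_le_self (by positivity) hT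
      gcongr
    have h1 : μ (closedBall w (c * r)) ≤
        ENNReal.ofReal ((c / T) ^ n * m / 4 * r ^ n) +
          ENNReal.ofReal ((c / T) ^ n * m / 4 * r' ^ n) := by
      have h2 : closedBall w (c * r) ⊆
          ((par C L b r \ f '' core C r z S s σ) ∪ (par C' L' b' r' \ f '' core C' r' z' S' s σ)) ∪
            (f '' core C r z S s σ ∩ f '' core C' r' z' S' s σ) := by
        intro x hx
        obtain ⟨hx1, hx2⟩ := hw3 hx
        by_cases hx3 : x ∈ f '' core C r z S s σ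
        · by_cases hx4 : x ∈ f '' core C' r' z' S' s σ
          · exact Or.inr ⟨hx3, hx4⟩
          · exact Or.inl (Or.inr ⟨hx2, hx4⟩)
        · exact Or.inl (Or.inl ⟨hx1, hx3⟩)
      have h3 : μ (f '' core C r z S s σ ∩ f '' core C' r' z' S' s σ) = 0 := by
        apply inter_null h hinj inter_subset_right inter_subset_right
        refine measure_mono_null ?_ hnull
        rintro x ⟨hx, hx'⟩
        exact ⟨hc.sS (core_sub hx), hc'.sS (core_sub hx')⟩
      refine (measure_mono h2).trans ((measure_union_le _ _).trans ?_)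
      rw [h3, add_zero]
      exact (measure_union_le _ _).trans (add_le_add hf1 hf2)
    rw [Measure.addHaar_closedBall' μ w (by positivity), ← ENNReal.ofReal_add (by positivity)
      (by positivity)] at h1
    have h2 : ENNReal.ofReal ((c * r) ^ n) * μ (closedBall (0:E) 1) =
        ENNReal.ofReal ((c * r) ^ n * m) := by
      rw [ENNReal.ofReal_mul (by positivity), ENNReal.ofReal_toReal (Lu_538.mu_fin 0 1)]
    rw [h2, ENNReal.ofReal_le_ofReal_iff (by positivity)] at h1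
    have h3 : (c / T) ^ n * r' ^ n ≤ (c * r) ^ n := by
      rw [← mul_pow]
      apply pow_le_pow_left₀ (by positivity)
      calc c / T * r' ≤ c / T * (T * r) := by gcongr
        _ = c * r := by field_simp
    have h4 : (c / T) ^ n * r ^ n ≤ (c * r) ^ n := by
      rw [← mul_pow]
      apply pow_le_pow_left₀ (by positivity)
      have : c / T ≤ c := div_le_self hc0.le hT
      gcongr
    have h5 : 0 < (c * r) ^ n * m := by positivity
    nlinarith
  refine ⟨?_, ?_⟩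
  · rw [Set.disjoint_left] at main ⊢
    intro y hy hy'
    refine main ?_ hy'
    have h1 := par_thick' hC hκ hc.low (s := (1 - τ) * r) (t := τ / 2 * r) (by nlinarith)
      (by positivity) (y' := y) hy (by rw [sub_self, norm_zero]; positivity)
    have h2 : (1 - τ) * r + τ / 2 * r = (1 - τ / 2) * r := by ring
    rwa [h2] at h1
  · intro x hx hxP
    obtain ⟨u, hu, rfl⟩ := hc'.sS hx
    have h0 := hc'.cf _ hx
    simp only [add_sub_cancel_left, map_smul] at h0
    have h1 : b' + r' • L' u ∈ par C' L' b' r' := ⟨u, hu, rfl⟩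
    have h3 := par_thick' hC hκ hc.low (s := (1 - τ) * r) (t := τ / 2 * r) (by nlinarith)
      (by positivity) (y' := b' + r' • L' u) hxP (by
        rw [norm_sub_rev]
        refine h0.trans ?_
        calc e' * r' ≤ κ * a * (τ / 2) / T * (T * r) := by
              have := he'.trans (min_le_right _ _)
              gcongr
          _ = κ * a * (τ / 2 * r) := by field_simp)
    have h2 : (1 - τ) * r + τ / 2 * r = (1 - τ / 2) * r := by ring
    rw [h2] at h3
    exact Set.disjoint_left.1 main h3 h1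

end

end Crest.Agent.R96.Intr_538
end

-- ▼ part R96/Intr8_538
section

set_option autoImplicit false
set_option linter.unusedSectionVars false

open MeasureTheory Set Filter Metric Module
open scoped ENNReal NNReal Topology

namespace Crest.Agent.R96.Intr_538

open Crest.Agent.R96.Lu_538

noncomputable section

universe u

variable {E : Type*} [NormedAddCommGroup E] [NormedSpace ℝ E] [FiniteDimensional ℝ E]
  [MeasurableSpace E] [BorelSpace E] {μ : Measure E} [μ.IsAddHaarMeasure]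

theorem meas_pre {Ω : Set E} (hΩ : MeasurableSet Ω) {f : E → E} (hf : ContinuousOn f Ω)
    {B : Set E} (hB : MeasurableSet B) : MeasurableSet (Ω ∩ f ⁻¹' B) := by
  have h1 : Measurable (fun x : Ω => f x) := hf.domRestrict.measurable
  have h3 := hΩ.subtype_image (h1 hB)
  convert h3 using 1
  ext x
  simp [and_comm]

/-- `ε-δ` absolute continuity -/
theorem exists_ac {m : Measure E} [IsFiniteMeasure m] (hm : m ≪ μ) {ε : ℝ≥0∞} (hε : ε ≠ 0) :
    ∃ δ : ℝ, 0 < δ ∧ ∀ B : Set E, μ B ≤ ENNReal.ofReal δ → m B < ε := by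
  have h1 : μ.withDensity (m.rnDeriv μ) = m := Measure.withDensity_rnDeriv_eq m μ hm
  have h2 : ∫⁻ x, m.rnDeriv μ x ∂μ ≠ ∞ := (Measure.lintegral_rnDeriv_lt_top m μ).ne
  obtain ⟨δ, hδ, h3⟩ := exists_pos_setLIntegral_lt_of_measure_lt h2 hε
  obtain ⟨q, hq1, hq2⟩ := ENNReal.lt_iff_exists_nnreal_btwn.1 hδ
  refine ⟨q, by exact_mod_cast hq1, fun B hB => ?_⟩
  rw [ENNReal.ofReal_coe_nnreal] at hB
  set B' := toMeasurable μ B with hB'
  have hB'm : MeasurableSet B' := measurableSet_toMeasurable _ _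
  have h4 : μ B' < δ := by rw [hB', measure_toMeasurable]; exact hB.trans_lt hq2
  have h5 := h3 B' h4
  rw [← withDensity_apply _ hB'm, h1] at h5
  exact lt_of_le_of_lt (measure_mono (subset_toMeasurable μ B)) h5

/-- total size of a family of good cells -/
theorem sum_le {Ω Λ : Set E} {f : E → E} {G : E → E →L[ℝ] E}
    {s : ℕ → Set E} (h : Lus Ω μ f G s) (hinj : InjOn f Ω) (hΛf : μ Λ ≠ ∞)
    (hfΛ : MapsTo f Ω Λ) {a R : ℝ} (ha : 0 < a) (haR : a ≤ R) {κ : ℝ} (hκ : 0 < κ) :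
    ∃ M > 0, ∃ e₀ > 0, ∀ {ι : Type u} (Q : Finset ι) (C : ι → Set E) (e r : ι → ℝ)
      (z b : ι → E) (L : ι → E →L[ℝ] E) (S : ι → Set E),
      (∀ i ∈ Q, Ref (C i) a) → (∀ i ∈ Q, C i ⊆ closedBall 0 R) →
      (∀ i ∈ Q, 0 ≤ e i) → (∀ i ∈ Q, e i ≤ e₀) → (∀ i ∈ Q, 0 < r i) →
      (∀ i ∈ Q, GC Ω μ f G (C i) κ (e i) (r i) (z i) (b i) (L i) (S i)) →
      (∀ i ∈ Q, ∀ j ∈ Q, i ≠ j → μ (cel (C i) (z i) (r i) ∩ cel (C j) (z j) (r j)) = 0) →
      ∑ i ∈ Q, r i ^ finrank ℝ E ≤ M := by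
  set n := finrank ℝ E with hn
  have hR : 0 < R := ha.trans_le haR
  set mC := (μ (closedBall (0:E) a)).toReal with hmCd
  have hmC : 0 < mC := ENNReal.toReal_pos (Lu_538.mu_pos ha 0) (Lu_538.mu_fin 0 a)
  set c₀ := κ ^ n * mC / 2 with hc₀
  have hc₀0 : 0 < c₀ := by positivity
  obtain ⟨σ, hσ0, hσ1, e₀, he₀, hfill⟩ := fillU μ ha haR hκ (η := c₀) hc₀0
  refine ⟨(μ Λ).toReal / c₀ + 1, by positivity, e₀, he₀, ?_⟩
  intro ι Q C e r z b L S hC hCR he0 he hr hQ hdis
  have h1 := fun i (hi : i ∈ Q) => hfill (hC i hi) (hCR i hi) h hinj (he0 i hi) (he i hi)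
    (hr i hi) (hQ i hi)
  have h2 := sum_bound (μ := μ) Q (F := fun i => f '' core (C i) (r i) (z i) (S i) s σ)
    (B := Λ) (c := fun i => c₀ * r i ^ n)
    (fun i hi => by have := hr i hi; positivity) (fun i hi => (h1 i hi).2.1) ?_ ?_ ?_ hΛf
  · rw [← Finset.mul_sum] at h2
    have h4 := (le_div_iff₀' hc₀0).2 h2
    linarith
  · intro i hi j hj hij
    apply inter_null h hinj inter_subset_right inter_subset_right
    refine measure_mono_null ?_ (hdis i hi j hj hij)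
    rintro x ⟨hx, hx'⟩
    exact ⟨(hQ i hi).sS (core_sub hx), (hQ j hj).sS (core_sub hx')⟩
  · intro i hi
    refine image_low (hC i hi) hκ (hQ i hi).low (hr i hi) hc₀0.le hc₀0.le ?_ (h1 i hi).2.2.2
    have h3 : κ ^ n * mC ≤ κ ^ n * (μ (C i)).toReal := by
      have : mC ≤ (μ (C i)).toReal :=
        ENNReal.toReal_mono (hC i hi).mu_fin.ne (measure_mono (hC i hi).ball)
      gcongr
    rw [hc₀]; linarith
  · intro i hi
    rintro _ ⟨x, hx, rfl⟩
    exact hfΛ (h.subU hx.2)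

/-- **NO INTRUDERS, sum form.** -/
theorem intrSum {Ω Λ : Set E} (hΩ : MeasurableSet Ω) {f : E → E} {G : E → E →L[ℝ] E}
    {s : ℕ → Set E} (h : Lus Ω μ f G s) (hinj : InjOn f Ω) (hf : ContinuousOn f Ω)
    (hG : AEStronglyMeasurable G (μ.restrict Ω)) (hΛ : MeasurableSet Λ) (hΛf : μ Λ ≠ ∞)
    (hfΛ : MapsTo f Ω Λ) {m : Measure E} [IsFiniteMeasure m] (hm : m ≪ μ)
    {a R : ℝ} (ha : 0 < a) (haR : a ≤ R) {κ : ℝ} (hκ : 0 < κ) {τ : ℝ} (hτ : 0 < τ) (hτ1 : τ ≤ 1)
    {T : ℝ} (hT : 1 ≤ T) {ε : ℝ} (hε : 0 < ε) :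
    ∃ e₀ > 0, ∃ r₀ > 0, ∀ {ι : Type u} (Q : Finset ι) (C : ι → Set E) (e r : ι → ℝ)
      (z b : ι → E) (L : ι → E →L[ℝ] E) (S : ι → Set E),
      (∀ i ∈ Q, Ref (C i) a) → (∀ i ∈ Q, C i ⊆ closedBall 0 R) →
      (∀ i ∈ Q, 0 ≤ e i) → (∀ i ∈ Q, e i ≤ e₀) → (∀ i ∈ Q, 0 < r i) → (∀ i ∈ Q, r i < r₀) →
      (∀ i ∈ Q, ∀ j ∈ Q, r i ≤ T * r j) →
      (∀ i ∈ Q, GC Ω μ f G (C i) κ (e i) (r i) (z i) (b i) (L i) (S i)) →
      (∀ i ∈ Q, ∀ j ∈ Q, i ≠ j → μ (cel (C i) (z i) (r i) ∩ cel (C j) (z j) (r j)) = 0) →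
      (∀ i ∈ Q, ∀ j ∈ Q, i ≠ j →
        Disjoint (par (C i) (L i) (b i) ((1 - τ) * r i)) (par (C j) (L j) (b j) (r j))) ∧
      ∃ Q1 ⊆ Q, (∀ Q2 ⊆ Q, Disjoint Q1 Q2 → ∑ i ∈ Q2, r i ^ finrank ℝ E ≤ ε) ∧
        ∑ i ∈ Q1, m ((Ω ∩ f ⁻¹' par (C i) (L i) (b i) ((1 - τ) * r i)) \
          cel (C i) (z i) (r i)) ≤ ENNReal.ofReal ε := by
  classical
  set n := finrank ℝ E with hn
  obtain ⟨e₁, he₁, r₁, hr₁, H1⟩ := intrU.{u} hΩ h hinj hf hG hΛ hΛf hfΛ hm ha haR hκ
    (half_pos hε)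
  obtain ⟨e₂, he₂, H2⟩ := disjS μ ha haR hκ hτ hτ1 hT
  obtain ⟨M, hM, e₃, he₃, H3⟩ := sum_le.{u} h hinj hΛf hfΛ ha haR hκ
  obtain ⟨δ, hδ, H4⟩ := exists_ac hm (ε := ENNReal.ofReal (ε / 2)) (by
    rw [Ne, ENNReal.ofReal_eq_zero, not_le]; positivity)
  refine ⟨min (min e₁ e₂) (min e₃ (δ / M)), by positivity, r₁, hr₁, ?_⟩
  intro ι Q C e r z b L S hC hCR he0 he hr hrr hTr hQ hdis
  have he1 : ∀ i ∈ Q, e i ≤ e₁ := fun i hi =>
    (he i hi).trans ((min_le_left _ _).trans (min_le_left _ _))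
  have he2 : ∀ i ∈ Q, e i ≤ e₂ := fun i hi =>
    (he i hi).trans ((min_le_left _ _).trans (min_le_right _ _))
  have he3 : ∀ i ∈ Q, e i ≤ e₃ := fun i hi =>
    (he i hi).trans ((min_le_right _ _).trans (min_le_left _ _))
  have he4 : ∀ i ∈ Q, e i ≤ δ / M := fun i hi =>
    (he i hi).trans ((min_le_right _ _).trans (min_le_right _ _))
  have hD : ∀ i ∈ Q, ∀ j ∈ Q, i ≠ j →
      Disjoint (par (C i) (L i) (b i) ((1 - τ) * r i)) (par (C j) (L j) (b j) (r j)) ∧
        ∀ x ∈ S j, f x ∉ par (C i) (L i) (b i) ((1 - τ) * r i) := fun i hi j hj hij =>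
    H2 h hinj (hC i hi) (hCR i hi) (hC j hj) (hCR j hj) (he0 i hi) (he2 i hi) (he0 j hj)
      (he2 j hj) (hr i hi) (hr j hj) (hTr j hj i hi) (hTr i hi j hj) (hQ i hi) (hQ j hj)
      (hdis i hi j hj hij)
  refine ⟨fun i hi j hj hij => (hD i hi j hj hij).1, ?_⟩
  obtain ⟨Q1, hQ1, hQ1a, hQ1b⟩ := H1 Q C e r z b L S hC hCR he0 he1 hr hrr hQ hdis
  refine ⟨Q1, hQ1, fun Q2 hQ2 hdj => (hQ1a Q2 hQ2 hdj).trans (by linarith), ?_⟩
  set P : ι → Set E := fun i => par (C i) (L i) (b i) ((1 - τ) * r i) with hP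
  set q : ι → Set E := fun i => cel (C i) (z i) (r i) with hq
  have hPm : ∀ i ∈ Q, MeasurableSet (P i) := fun i hi =>
    (isCompact_par (hC i hi).cpt _ _ _).isClosed.measurableSet
  have hqm : ∀ i ∈ Q, MeasurableSet (q i) := fun i hi =>
    (isCompact_cel (hC i hi).cpt _ _).isClosed.measurableSet
  have hPP : ∀ i ∈ Q, P i ⊆ par (C i) (L i) (b i) (r i) := by
    intro i hi y hy
    have hri := hr i hi
    have h1 := par_thick' (hC i hi) hκ (hQ i hi).low (s := (1 - τ) * r i) (t := τ * r i)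
      (by nlinarith) (by positivity) (y' := y) hy (by
        rw [sub_self, norm_zero]; positivity)
    have h2 : (1 - τ) * r i + τ * r i = r i := by ring
    rwa [h2] at h1
  rw [← measure_biUnion_finset₀]
  · have hsub : (⋃ i ∈ Q1, (Ω ∩ f ⁻¹' P i) \ q i) ⊆
        ((Ω ∩ f ⁻¹' (⋃ i ∈ Q1, par (C i) (L i) (b i) (r i))) \ ⋃ i ∈ Q1, q i) ∪
          ⋃ j ∈ Q1, (q j \ S j) := by
      intro x hx
      obtain ⟨i, hi, ⟨hxΩ, hxP⟩, hxq⟩ := mem_iUnion₂.1 hx
      by_cases hxU : x ∈ ⋃ i ∈ Q1, q i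
      · obtain ⟨j, hj, hxj⟩ := mem_iUnion₂.1 hxU
        refine Or.inr (mem_iUnion₂.2 ⟨j, hj, hxj, ?_⟩)
        have hij : i ≠ j := by rintro rfl; exact hxq hxj
        intro hxS
        exact (hD i (hQ1 hi) j (hQ1 hj) hij).2 x hxS hxP
      · exact Or.inl ⟨⟨hxΩ, mem_iUnion₂.2 ⟨i, hi, hPP i (hQ1 hi) hxP⟩⟩, hxU⟩
    have hS : m (⋃ j ∈ Q1, (q j \ S j)) ≤ ENNReal.ofReal (ε / 2) := by
      apply (H4 _ _).le
      calc μ (⋃ j ∈ Q1, (q j \ S j)) ≤ ∑ j ∈ Q1, μ (q j \ S j) := measure_biUnion_finset_le _ _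
        _ ≤ ∑ j ∈ Q1, ENNReal.ofReal (e j * r j ^ n) :=
            Finset.sum_le_sum fun j hj => (hQ j (hQ1 hj)).big
        _ = ENNReal.ofReal (∑ j ∈ Q1, e j * r j ^ n) := by
            rw [ENNReal.ofReal_sum_of_nonneg]
            intro j hj
            have := hr j (hQ1 hj)
            have := he0 j (hQ1 hj)
            positivity
        _ ≤ ENNReal.ofReal δ := by
            apply ENNReal.ofReal_le_ofReal
            calc ∑ j ∈ Q1, e j * r j ^ n ≤ ∑ j ∈ Q1, δ / M * r j ^ n := by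
                  apply Finset.sum_le_sum
                  intro j hj
                  have := hr j (hQ1 hj)
                  have := he4 j (hQ1 hj)
                  gcongr
              _ = δ / M * ∑ j ∈ Q1, r j ^ n := by rw [Finset.mul_sum]
              _ ≤ δ / M * M := by
                  have h5 : ∑ j ∈ Q1, r j ^ n ≤ ∑ j ∈ Q, r j ^ n := by
                    apply Finset.sum_le_sum_of_subset_of_nonneg hQ1
                    intro j hj _
                    have := hr j hj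
                    positivity
                  have h6 := H3 Q C e r z b L S hC hCR he0 he3 hr hQ hdis
                  gcongr
                  exact h5.trans h6
              _ = δ := by field_simp
    refine (measure_mono hsub).trans ((measure_union_le _ _).trans ((add_le_add hQ1b hS).trans
      (le_of_eq ?_)))
    rw [← ENNReal.ofReal_add (by positivity) (by positivity), add_halves]
  · intro i hi j hj hij
    have h1 := (hD i (hQ1 hi) j (hQ1 hj) hij).1
    refine Disjoint.aedisjoint ?_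
    rw [Set.disjoint_left] at h1 ⊢
    rintro x ⟨⟨-, hx1⟩, -⟩ ⟨⟨-, hx2⟩, -⟩
    exact h1 hx1 (hPP j (hQ1 hj) hx2)
  · intro i hi
    exact ((meas_pre hΩ hf (hPm i (hQ1 hi))).diff (hqm i (hQ1 hi))).nullMeasurableSet

end

end Crest.Agent.R96.Intr_538
end

-- ▼ part R96/Intr12_538

set_option autoImplicit false
set_option linter.unusedSectionVars false

open MeasureTheory Set Filter Metric
open scoped ENNReal NNReal Topology

namespace Crest.Agent.R96.Coarse_538

open Crest.AnalysisR.VecCalc3 Crest.AnalysisR.Sobolev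
open Crest.Agent.R96.Acl_392 Crest.Agent.R96.Lu_538 Crest.Agent.R96.Intr_538

noncomputable section

/-- `f` is absolutely continuous along `x + ℝ e` in `Ω` with derivative `D (x + τ e) e`. -/
def ACV (Ω : Set R3) (f : R3 → R3) (D : R3 → R3 →L[ℝ] R3) (e x : R3) : Prop :=
  ∀ s t : ℝ, s ≤ t → x ∈ segIn Ω e s t →
    IntegrableOn (fun τ : ℝ => D (x + τ • e) e) (Icc s t) ∧
      f (x + t • e) - f (x + s • e) = ∫ τ in s..t, D (x + τ • e) e

theorem acv_countable {Ω : Set R3} (hΩ : IsOpen Ω) {f : R3 → R3} {G : Fin 3 → R3 → R3}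
    (hG : ∀ j, HasWeakGradOn Ω (fun x => f x j) (G j)) (hf : ContinuousOn f Ω)
    {ι : Type*} [Countable ι] (c e : ι → R3) :
    ∀ᵐ x : R3, ∀ i, ACV Ω f (Gmat G) (e i) (x + c i) := by
  have hfj : ∀ j : Fin 3, ContinuousOn (fun x => f x j) Ω := fun j =>
    (EuclideanSpace.proj (𝕜 := ℝ) j).continuous.comp_continuousOn hf
  have h1 : ∀ᵐ x : R3, ∀ j : Fin 3, ∀ i, ACLat Ω (fun x => f x j)
      (fun x => inner ℝ (G j x) (e i)) (e i) (x + c i) := by
    rw [ae_all_iff]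
    intro j
    exact acl_grad_countable hΩ (hG j) (hfj j) c e
  filter_upwards [h1] with x hx i s t hst hseg
  have h2 : ∀ j, IntegrableOn (fun τ : ℝ => inner ℝ (G j (x + c i + τ • e i)) (e i)) (Icc s t) ∧
      f (x + c i + t • e i) j - f (x + c i + s • e i) j =
        ∫ τ in s..t, inner ℝ (G j (x + c i + τ • e i)) (e i) := by
    intro j
    exact hx j i s t hst hseg
  have h5 : ∀ j, IntegrableOn (fun τ : ℝ => Gmat G (x + c i + τ • e i) (e i) j) (Icc s t) :=
    fun j => (h2 j).1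
  have h6 : IntegrableOn (fun τ : ℝ => Gmat G (x + c i + τ • e i) (e i)) (Icc s t) :=
    Integrable.of_eval_piLp h5
  refine ⟨h6, ?_⟩
  ext j
  rw [intervalIntegral.integral_of_le hst]
  have h3 : ∀ j, Integrable (fun τ : ℝ => Gmat G (x + c i + τ • e i) (e i) j)
      (volume.restrict (Ioc s t)) :=
    fun j => (h5 j).mono_set Ioc_subset_Icc_self
  have h4 := eval_integral_piLp h3 j
  rw [h4, ← intervalIntegral.integral_of_le hst]
  exact (h2 j).2

/-- increments of `f - A` -/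
theorem ACV.diff_le {Ω : Set R3} {f : R3 → R3} {D : R3 → R3 →L[ℝ] R3} {e x : R3}
    (h : ACV Ω f D e x) (L : R3 →L[ℝ] R3) {s t : ℝ} (hst : s ≤ t) (hx : x ∈ segIn Ω e s t) :
    ‖(f (x + t • e) - L (x + t • e)) - (f (x + s • e) - L (x + s • e))‖ₑ ≤
      ∫⁻ τ in Ioc s t, ‖D (x + τ • e) - L‖ₑ * ‖e‖ₑ := by
  obtain ⟨h1, h2⟩ := h s t hst hx
  have h3 : (f (x + t • e) - L (x + t • e)) - (f (x + s • e) - L (x + s • e)) =
      ∫ τ in s..t, (D (x + τ • e) - L) e := by
    have h4 : IntervalIntegrable (fun τ : ℝ => D (x + τ • e) e) volume s t := by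
      rw [intervalIntegrable_iff_integrableOn_Icc_of_le hst]
      exact h1
    have h5 : (fun τ : ℝ => (D (x + τ • e) - L) e) = fun τ : ℝ => D (x + τ • e) e - L e := rfl
    rw [h5, intervalIntegral.integral_sub h4 intervalIntegrable_const, ← h2,
      intervalIntegral.integral_const]
    simp only [map_add, map_smul]
    rw [sub_smul]
    abel
  rw [h3, intervalIntegral.integral_of_le hst]
  refine (enorm_integral_le_lintegral_enorm _).trans ?_
  apply lintegral_mono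
  intro τ
  exact (D (x + τ • e) - L).le_opNorm_enorm e

/-- reference cube -/
def Cb : Set R3 := {x | ∀ i, |x i| ≤ 1}

theorem mem_cel {z x : R3} {s : ℝ} (hs : 0 < s) : x ∈ cel Cb z s ↔ ∀ i, |x i - z i| ≤ s := by
  constructor
  · rintro ⟨u, hu, rfl⟩ i
    have h1 : (z + s • u) i - z i = s * u i := by simp
    rw [h1, abs_mul, abs_of_pos hs]
    have := hu i
    nlinarith
  · intro h
    refine ⟨s⁻¹ • (x - z), ?_, ?_⟩
    · intro i
      have h1 : (s⁻¹ • (x - z)) i = s⁻¹ * (x i - z i) := by simp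
      rw [h1, abs_mul, abs_of_pos (inv_pos.2 hs), inv_mul_le_iff₀ hs, mul_one]
      exact h i
    · show z + s • s⁻¹ • (x - z) = x
      rw [smul_smul, mul_inv_cancel₀ hs.ne', one_smul]; abel

theorem norm_coord_le (x : R3) (i : Fin 3) : |x i| ≤ ‖x‖ := by
  rw [EuclideanSpace.norm_eq]
  apply Real.abs_le_sqrt
  have h3 : ‖x i‖ ^ 2 ≤ ∑ i, ‖x i‖ ^ 2 :=
    Finset.single_le_sum (f := fun i => ‖x i‖ ^ 2) (fun i _ => by positivity) (Finset.mem_univ i)
  simpa using h3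

theorem norm_le_of_coord {x : R3} {c : ℝ} (hc : 0 ≤ c) (h : ∀ i, |x i| ≤ c) : ‖x‖ ≤ 2 * c := by
  rw [EuclideanSpace.norm_eq]
  apply Real.sqrt_le_iff.2
  refine ⟨by positivity, ?_⟩
  rw [Fin.sum_univ_three]
  have h1 : ∀ i, ‖x i‖ ^ 2 ≤ c ^ 2 := fun i => by
    rw [Real.norm_eq_abs]
    exact pow_le_pow_left₀ (abs_nonneg _) (h i) 2
  nlinarith [h1 0, h1 1, h1 2, sq_nonneg c]

theorem ref_Cb : Ref Cb 1 := by
  have hcl : IsClosed Cb := by
    have : Cb = ⋂ i : Fin 3, {x : R3 | |x i| ≤ 1} := by ext x; simp [Cb]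
    rw [this]
    refine isClosed_iInter fun i => isClosed_le ?_ continuous_const
    fun_prop
  refine ⟨?_, ?_, one_pos, ?_⟩
  · intro x hx y hy a b ha hb hab i
    have h1 : (a • x + b • y) i = a * x i + b * y i := by simp
    rw [h1]
    calc |a * x i + b * y i| ≤ |a * x i| + |b * y i| := abs_add_le _ _
      _ = a * |x i| + b * |y i| := by rw [abs_mul, abs_mul, abs_of_nonneg ha, abs_of_nonneg hb]
      _ ≤ a * 1 + b * 1 := by
          have := hx i; have := hy i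
          gcongr <;> assumption
      _ = 1 := by linarith
  · refine Metric.isCompact_of_isClosed_isBounded hcl ?_
    refine (isBounded_iff_forall_norm_le).2 ⟨2 * 1, fun x hx => norm_le_of_coord zero_le_one hx⟩
  · intro x hx i
    rw [mem_closedBall_zero_iff] at hx
    exact (norm_coord_le x i).trans hx

theorem Cb_sub : Cb ⊆ closedBall (0:R3) 2 := by
  intro x hx
  rw [mem_closedBall_zero_iff]
  have := norm_le_of_coord (x := x) zero_le_one hx
  linarith

theorem vol_cel {z : R3} {s : ℝ} (hs : 0 < s) :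
    volume (cel Cb z s) = ENNReal.ofReal ((2 * s) ^ 3) := by
  have h1 : cel Cb z s = {x : R3 | ∀ i, x i ∈ (fun i : Fin 3 => Icc (z i - s) (z i + s)) i} := by
    ext x
    rw [mem_cel hs]
    simp only [mem_ofPred_eq, mem_Icc, abs_le]
    refine forall_congr' fun i => ?_
    constructor
    · rintro ⟨h1, h2⟩; constructor <;> linarith
    · rintro ⟨h1, h2⟩; constructor <;> linarith
  rw [h1, vol_box fun _ => measurableSet_Icc]
  simp only [Real.volume_Icc]
  have h2 : ∀ i : Fin 3, z i + s - (z i - s) = 2 * s := fun i => by ring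
  simp only [h2, Finset.prod_const, Finset.card_univ, Fintype.card_fin]
  rw [ENNReal.ofReal_pow (by positivity)]

/-- half-open cube -/
def hcel (z : R3) (s : ℝ) : Set R3 := {x | ∀ i, x i ∈ Ico (z i - s) (z i + s)}

theorem hcel_sub {z : R3} {s : ℝ} (hs : 0 < s) : hcel z s ⊆ cel Cb z s := by
  intro x hx
  rw [mem_cel hs]
  intro i
  have := hx i
  rw [abs_le]
  constructor <;> linarith [this.1, this.2]

theorem meas_hcel (z : R3) (s : ℝ) : MeasurableSet (hcel z s) := by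
  have : hcel z s = ⋂ i : Fin 3, {x : R3 | x i ∈ Ico (z i - s) (z i + s)} := by
    ext x; simp [hcel]
  rw [this]
  refine MeasurableSet.iInter fun i => ?_
  have h1 : Measurable (fun a : R3 => a i) := by fun_prop
  exact measurableSet_Ico.preimage h1

theorem vol_hcel {z : R3} {s : ℝ} (hs : 0 < s) :
    volume (hcel z s) = ENNReal.ofReal ((2 * s) ^ 3) := by
  rw [hcel, vol_box (I := fun i => Ico (z i - s) (z i + s)) fun _ => measurableSet_Ico]
  simp only [Real.volume_Ico]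
  have h2 : ∀ i : Fin 3, z i + s - (z i - s) = 2 * s := fun i => by ring
  simp only [h2, Finset.prod_const, Finset.card_univ, Fintype.card_fin]
  rw [ENNReal.ofReal_pow (by positivity)]

theorem isClosed_cel (z : R3) (s : ℝ) : IsClosed (cel Cb z s) :=
  (isCompact_cel ref_Cb.cpt z s).isClosed

theorem hcel_ae {z : R3} {s : ℝ} (hs : 0 < s) : hcel z s =ᵐ[volume] cel Cb z s := by
  refine ae_eq_of_subset_of_measure_ge (hcel_sub hs) ?_ (meas_hcel z s).nullMeasurableSet ?_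
  · rw [vol_cel hs, vol_hcel hs]
  · rw [vol_cel hs]; exact ENNReal.ofReal_ne_top

/-- centres of the cubes of a grid of mesh `2s` -/
theorem hcel_disj {s : ℝ} (hs : 0 < s) (a : R3) {k l : Fin 3 → ℤ} (hkl : k ≠ l) :
    Disjoint (hcel (vt (2 * s) a k) s) (hcel (vt (2 * s) a l) s) := by
  rw [Set.disjoint_left]
  intro x hx hy
  apply hkl
  funext i
  have h1 := hx i
  have h2 := hy i
  simp only [mem_Ico, vt_apply] at h1 h2
  have h3 : (2 * s) * (k i : ℝ) < (2 * s) * (l i + 1) := by linarith [h1.1, h2.2]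
  have h4 : (2 * s) * (l i : ℝ) < (2 * s) * (k i + 1) := by linarith [h2.1, h1.2]
  have h5 : (k i : ℝ) < l i + 1 := lt_of_mul_lt_mul_left h3 (by positivity)
  have h6 : (l i : ℝ) < k i + 1 := lt_of_mul_lt_mul_left h4 (by positivity)
  have h7 : k i < l i + 1 := by exact_mod_cast h5
  have h8 : l i < k i + 1 := by exact_mod_cast h6
  omega

theorem cel_null {s : ℝ} (hs : 0 < s) (a : R3) {k l : Fin 3 → ℤ} (hkl : k ≠ l) :
    volume (cel Cb (vt (2 * s) a k) s ∩ cel Cb (vt (2 * s) a l) s) = 0 := by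
  have h1 := (hcel_ae (z := vt (2 * s) a k) hs).inter (hcel_ae (z := vt (2 * s) a l) hs)
  rw [← measure_congr h1, (hcel_disj hs a hkl).inter_eq, measure_empty]

theorem exists_hcel {s : ℝ} (hs : 0 < s) (a x : R3) : ∃ k, x ∈ hcel (vt (2 * s) a k) s := by
  refine ⟨fun i => ⌊(x i - a i + s) / (2 * s)⌋, fun i => ?_⟩
  have h1 := Int.floor_le ((x i - a i + s) / (2 * s))
  have h2 := Int.lt_floor_add_one ((x i - a i + s) / (2 * s))
  rw [le_div_iff₀ (by positivity)] at h1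
  rw [div_lt_iff₀ (by positivity)] at h2
  rw [vt_apply, mem_Ico]
  constructor <;> nlinarith

end

end Crest.Agent.R96.Coarse_538
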