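import Mathlib
import Crest.Agent.R96.Acl3_392
import Crest.Agent.R96.Grid1_392
import Crest.Agent.R96.Intr12_538

-- ▼ part R96/Poi1_392
section

set_option autoImplicit false
set_option linter.unusedSectionVars false

open MeasureTheory Set Filter
open scoped ENNReal Topology Pointwise

namespace Crest.Agent.R96.Poi_392

open Crest.Agent.R96.Acl_392 Crest.Agent.R96.Grid_392

noncomputable section

/-- Jensen's inequality for powers, lower integrals. -/
theorem jensen {α : Type*} [MeasurableSpace α] {ν : Measure α} [IsProbabilityMeasure ν] {p : ℝ}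
    (hp : 1 ≤ p) {f : α → ℝ≥0∞} (hf : AEMeasurable f ν) :
    (∫⁻ a, f a ∂ν) ^ p ≤ ∫⁻ a, f a ^ p ∂ν := by
  rcases eq_or_lt_of_le hp with h1 | h1
  · rw [← h1]; simp
  · have hpq : p.HolderConjugate (Real.conjExponent p) := Real.HolderConjugate.conjExponent h1
    have h2 := ENNReal.lintegral_mul_le_Lp_mul_Lq ν hpq hf (aemeasurable_const (b := (1:ℝ≥0∞)))
    simp only [Pi.mul_apply, mul_one, ENNReal.one_rpow, lintegral_const, measure_univ] at h2
    have h3 := ENNReal.rpow_le_rpow h2 (by linarith : (0:ℝ) ≤ p)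
    rw [← ENNReal.rpow_mul, one_div, inv_mul_cancel₀ (by linarith : p ≠ 0), ENNReal.rpow_one] at h3
    exact h3

variable {E : Type*} [NormedAddCommGroup E] [InnerProductSpace ℝ E] [FiniteDimensional ℝ E]
  [MeasurableSpace E] [BorelSpace E] {μ : Measure E} [μ.IsAddHaarMeasure]

/-- `G` is the weak gradient of `v` on `Ω` (all directions), abstract form. -/
structure WG (Ω : Set E) (μ : Measure E) (v : E → ℝ) (G : E → E) : Prop where
  lG : LocallyIntegrableOn G Ω μ
  wd : ∀ e : E, WD Ω μ v (fun x => inner ℝ (G x) e) e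

/-- the increment in direction `e` on a convex set -/
theorem increment {Ω : Set E} (hΩ : IsOpen Ω) {v : E → ℝ} {G : E → E} (h : WG Ω μ v G)
    {Q : Set E} (hQc : Convex ℝ Q) (hQo : IsOpen Q) (hQΩ : Q ⊆ Ω) {p : ℝ} (hp : 1 ≤ p) (e : E) :
    ∀ᵐ x ∂μ, x ∈ Q → x + e ∈ Q → ‖v (x + e) - v x‖ₑ ^ p ≤
      ‖e‖ₑ ^ p * pc (volume.restrict (Icc (0:ℝ) 1)) (fun τ : ℝ => τ • e)
        (Q.indicator fun y => ‖G y‖ₑ ^ p) x := by
  have h1 := acl_fix hΩ (h.wd e) (zero_le_one' ℝ)
  have hGm : AEStronglyMeasurable G (μ.restrict Q) :=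
    (h.lG.mono_set hQΩ).aestronglyMeasurable
  have hF : AEMeasurable (Q.indicator fun y => ‖G y‖ₑ) μ :=
    (aemeasurable_indicator_iff hQo.measurableSet).2 hGm.enorm
  have h2 : ∀ᵐ x ∂μ, AEMeasurable (fun τ : ℝ => Q.indicator (fun y => ‖G y‖ₑ) (x + τ • e))
      (volume.restrict (Icc (0:ℝ) 1)) := by
    have h3 := aemeasurable_shear (ν := volume.restrict (Icc (0:ℝ) 1)) (μ := μ)
      (γ := fun τ : ℝ => τ • e) (measurable_id.smul_const e) hF
    have h4 : AEMeasurable (fun q : E × ℝ => Q.indicator (fun y => ‖G y‖ₑ) (q.1 + q.2 • e))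
        (μ.prod (volume.restrict (Icc (0:ℝ) 1))) := h3.prod_swap
    filter_upwards [h4.aestronglyMeasurable.prodMk_left] with x hx using hx.aemeasurable
  filter_upwards [h1, h2] with x hx hxm hxQ hxeQ
  have hseg : ∀ τ ∈ Icc (0:ℝ) 1, x + τ • e ∈ Q := by
    intro τ hτ
    have h5 := hQc.add_smul_mem hxQ hxeQ hτ
    exact h5
  obtain ⟨-, h6⟩ := hx (fun τ hτ => hQΩ (hseg τ hτ))
  rw [one_smul, zero_smul, add_zero] at h6
  rw [h6]
  have hprob : IsProbabilityMeasure (volume.restrict (Icc (0:ℝ) 1)) := by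
    constructor
    rw [Measure.restrict_apply_univ, Real.volume_Icc]
    simp
  have h7 : ‖∫ τ in (0:ℝ)..1, inner ℝ (G (x + τ • e)) e‖ₑ ≤
      ‖e‖ₑ * ∫⁻ τ in Icc (0:ℝ) 1, Q.indicator (fun y => ‖G y‖ₑ) (x + τ • e) := by
    rw [intervalIntegral.integral_of_le zero_le_one, ← integral_Icc_eq_integral_Ioc]
    calc ‖∫ τ in Icc (0:ℝ) 1, inner ℝ (G (x + τ • e)) e‖ₑ
        ≤ ∫⁻ τ in Icc (0:ℝ) 1, ‖inner ℝ (G (x + τ • e)) e‖ₑ := enorm_integral_le_lintegral_enorm _
      _ ≤ ∫⁻ τ in Icc (0:ℝ) 1, ‖e‖ₑ * Q.indicator (fun y => ‖G y‖ₑ) (x + τ • e) := by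
          apply setLIntegral_mono_ae' measurableSet_Icc
          filter_upwards with τ hτ
          rw [indicator_of_mem (hseg τ hτ)]
          have h8 : ‖(inner ℝ (G (x + τ • e)) e : ℝ)‖ ≤ ‖e‖ * ‖G (x + τ • e)‖ := by
            rw [mul_comm]; exact norm_inner_le_norm _ _
          rw [← ofReal_norm, ← ofReal_norm, ← ofReal_norm,
            ← ENNReal.ofReal_mul (norm_nonneg _)]
          exact ENNReal.ofReal_le_ofReal h8
      _ = ‖e‖ₑ * ∫⁻ τ in Icc (0:ℝ) 1, Q.indicator (fun y => ‖G y‖ₑ) (x + τ • e) :=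
          lintegral_const_mul'' _ hxm
  calc ‖∫ τ in (0:ℝ)..1, inner ℝ (G (x + τ • e)) e‖ₑ ^ p
      ≤ (‖e‖ₑ * ∫⁻ τ in Icc (0:ℝ) 1, Q.indicator (fun y => ‖G y‖ₑ) (x + τ • e)) ^ p :=
        ENNReal.rpow_le_rpow h7 (by linarith)
    _ = ‖e‖ₑ ^ p * (∫⁻ τ in Icc (0:ℝ) 1, Q.indicator (fun y => ‖G y‖ₑ) (x + τ • e)) ^ p :=
        ENNReal.mul_rpow_of_nonneg _ _ (by linarith)
    _ ≤ ‖e‖ₑ ^ p * ∫⁻ τ in Icc (0:ℝ) 1, (Q.indicator (fun y => ‖G y‖ₑ) (x + τ • e)) ^ p := by
        gcongr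
        exact jensen hp hxm
    _ = _ := by
        congr 1
        apply lintegral_congr
        intro τ
        by_cases hτ : x + τ • e ∈ Q
        · rw [indicator_of_mem hτ, indicator_of_mem hτ]
        · rw [indicator_of_notMem hτ, indicator_of_notMem hτ, ENNReal.zero_rpow_of_pos (by linarith)]

/-- **(B1) Poincaré inequality**, double integral form, on bounded convex open sets. -/
theorem poincare {Ω : Set E} (hΩ : IsOpen Ω) {v : E → ℝ} {G : E → E} (h : WG Ω μ v G)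
    (hvc : ContinuousOn v Ω) {Q : Set E} (hQc : Convex ℝ Q) (hQo : IsOpen Q) (hQΩ : Q ⊆ Ω)
    {p : ℝ} (hp : 1 ≤ p) :
    ∫⁻ x in Q, ∫⁻ y in Q, ‖v y - v x‖ₑ ^ p ∂μ ∂μ ≤
      μ (Q - Q) * Metric.ediam Q ^ p * ∫⁻ x in Q, ‖G x‖ₑ ^ p ∂μ := by
  have hQm := hQo.measurableSet
  set u : E → ℝ := Q.indicator v with hu
  have hum : Measurable u := by
    classical
    have h1 := ContinuousOn.measurable_piecewise (hvc.mono hQΩ)
      (continuousOn_const (c := (0:ℝ)) (s := Qᶜ)) hQm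
    have h2 : Q.piecewise v (fun _ => (0:ℝ)) = Q.indicator v := by
      funext x
      by_cases hx : x ∈ Q
      · rw [piecewise_eq_of_mem _ _ _ hx, indicator_of_mem hx]
      · rw [piecewise_eq_of_notMem _ _ _ hx, indicator_of_notMem hx]
    rw [hu, ← h2]
    exact h1
  set W : E → E → ℝ≥0∞ := fun x e =>
    Q.indicator 1 x * (Q.indicator 1 (x + e) * ‖u (x + e) - u x‖ₑ ^ p) with hW
  have hWm : Measurable (Function.uncurry W) := by
    have hi : Measurable (Q.indicator (1 : E → ℝ≥0∞)) := measurable_one.indicator hQm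
    apply Measurable.mul (hi.comp measurable_fst)
    apply Measurable.mul (hi.comp (measurable_fst.add measurable_snd))
    apply Measurable.pow_const
    exact ((hum.comp (measurable_fst.add measurable_snd)).sub (hum.comp measurable_fst)).enorm
  have hstep1 : ∫⁻ x in Q, ∫⁻ y in Q, ‖v y - v x‖ₑ ^ p ∂μ ∂μ = ∫⁻ x, ∫⁻ e, W x e ∂μ ∂μ := by
    rw [← lintegral_indicator hQm]
    apply lintegral_congr
    intro x
    by_cases hx : x ∈ Q
    · rw [indicator_of_mem hx]
      have h3 : ∫⁻ e, W x e ∂μ = ∫⁻ e, Q.indicator (fun y => ‖v y - v x‖ₑ ^ p) (x + e) ∂μ := by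
        apply lintegral_congr
        intro e
        simp only [hW, indicator_of_mem hx, Pi.one_apply, one_mul]
        by_cases hxe : x + e ∈ Q
        · rw [indicator_of_mem hxe, indicator_of_mem hxe, Pi.one_apply, one_mul, hu,
            indicator_of_mem hxe, indicator_of_mem hx]
        · rw [indicator_of_notMem hxe, indicator_of_notMem hxe, zero_mul]
      rw [h3, lintegral_add_left_eq_self (μ := μ) (fun y => Q.indicator (fun y => ‖v y - v x‖ₑ ^ p) y) x,
        lintegral_indicator hQm]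
    · rw [indicator_of_notMem hx]
      simp [hW, indicator_of_notMem hx]
  rw [hstep1, lintegral_lintegral_swap hWm.aemeasurable]
  have hGm : AEStronglyMeasurable G (μ.restrict Q) := (h.lG.mono_set hQΩ).aestronglyMeasurable
  have hF : AEMeasurable (Q.indicator fun y => ‖G y‖ₑ ^ p) μ :=
    (aemeasurable_indicator_iff hQm).2 (hGm.enorm.pow_const p)
  have hprob : (volume.restrict (Icc (0:ℝ) 1)) univ = 1 := by
    rw [Measure.restrict_apply_univ, Real.volume_Icc]
    simp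
  have hstep2 : ∀ e, ∫⁻ x, W x e ∂μ ≤
      (Q - Q).indicator (fun _ => Metric.ediam Q ^ p * ∫⁻ x in Q, ‖G x‖ₑ ^ p ∂μ) e := by
    intro e
    by_cases he : e ∈ Q - Q
    · rw [indicator_of_mem he]
      obtain ⟨a, ha, b, hb, hab⟩ := Set.mem_sub.1 he
      have hed : ‖e‖ₑ ≤ Metric.ediam Q := by
        rw [← hab, ← edist_eq_enorm_sub]
        exact Metric.edist_le_ediam_of_mem ha hb
      have h4 : ∫⁻ x, W x e ∂μ ≤ ∫⁻ x, Metric.ediam Q ^ p *
          pc (volume.restrict (Icc (0:ℝ) 1)) (fun τ : ℝ => τ • e)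
            (Q.indicator fun y => ‖G y‖ₑ ^ p) x ∂μ := by
        apply lintegral_mono_ae
        filter_upwards [increment hΩ h hQc hQo hQΩ hp e] with x hx
        by_cases hxQ : x ∈ Q
        · by_cases hxe : x + e ∈ Q
          · have h5 := hx hxQ hxe
            simp only [hW, indicator_of_mem hxQ, indicator_of_mem hxe, Pi.one_apply, one_mul, hu]
            refine h5.trans ?_
            gcongr
          · simp [hW, indicator_of_notMem hxe]
        · simp [hW, indicator_of_notMem hxQ]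
      refine h4.trans ?_
      have hγ : Measurable (fun τ : ℝ => τ • e) := measurable_id.smul_const e
      rw [lintegral_const_mul'' _ (aemeasurable_pc hγ hF), lintegral_pc hγ hF, hprob, one_mul,
        lintegral_indicator hQm]
    · rw [indicator_of_notMem he]
      rw [nonpos_iff_eq_zero]
      have : (fun x => W x e) = fun _ => 0 := by
        funext x
        by_cases hxQ : x ∈ Q
        · have hxe : x + e ∉ Q := by
            intro hxe
            apply he
            exact Set.mem_sub.2 ⟨x + e, hxe, x, hxQ, by abel⟩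
          simp [hW, indicator_of_notMem hxe]
        · simp [hW, indicator_of_notMem hxQ]
      rw [this, lintegral_zero]
  calc ∫⁻ e, ∫⁻ x, W x e ∂μ ∂μ
      ≤ ∫⁻ e, (Q - Q).indicator
        (fun _ => Metric.ediam Q ^ p * ∫⁻ x in Q, ‖G x‖ₑ ^ p ∂μ) e ∂μ := lintegral_mono hstep2
    _ = μ (Q - Q) * Metric.ediam Q ^ p * ∫⁻ x in Q, ‖G x‖ₑ ^ p ∂μ := by
        rw [lintegral_indicator (hQo.sub_right).measurableSet, lintegral_const,
          Measure.restrict_apply_univ]
        ring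

end

end Crest.Agent.R96.Poi_392
end

-- ▼ part R96/Poi2_392
section

set_option autoImplicit false
set_option linter.unusedSectionVars false

open MeasureTheory Set Filter
open scoped ENNReal Topology NNReal

namespace Crest.Agent.R96.Poi_392

noncomputable section

variable {E : Type*} [NormedAddCommGroup E] [NormedSpace ℝ E] [FiniteDimensional ℝ E]
  [MeasurableSpace E] [BorelSpace E] {μ : Measure E} [μ.IsAddHaarMeasure]
  {F : Type*} [NormedAddCommGroup F] [NormedSpace ℝ F] [CompleteSpace F]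

theorem isProb {Q : Set E} (h0 : μ Q ≠ 0) (h1 : μ Q ≠ ∞) :
    IsProbabilityMeasure ((μ Q)⁻¹ • μ.restrict Q) := by
  constructor
  rw [Measure.smul_apply, Measure.restrict_apply_univ, smul_eq_mul, ENNReal.inv_mul_cancel h0 h1]

/-- Jensen: the `p`-energy of the average is at most the `p`-energy. -/
theorem lintegral_average_le {Q : Set E} (h0 : μ Q ≠ 0) (h1 : μ Q ≠ ∞) {p : ℝ} (hp : 1 ≤ p)
    {H : E → F} (hH : AEStronglyMeasurable H (μ.restrict Q)) :
    μ Q * ‖⨍ y in Q, H y ∂μ‖ₑ ^ p ≤ ∫⁻ x in Q, ‖H x‖ₑ ^ p ∂μ := by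
  have := isProb (μ := μ) h0 h1
  rw [setAverage_eq']
  have h2 : ‖∫ x, H x ∂((μ Q)⁻¹ • μ.restrict Q)‖ₑ ^ p ≤
      ∫⁻ x, ‖H x‖ₑ ^ p ∂((μ Q)⁻¹ • μ.restrict Q) := by
    refine le_trans (ENNReal.rpow_le_rpow (enorm_integral_le_lintegral_enorm _) (by linarith)) ?_
    exact jensen hp (hH.enorm.smul_measure _)
  calc μ Q * ‖∫ x, H x ∂((μ Q)⁻¹ • μ.restrict Q)‖ₑ ^ p
      ≤ μ Q * ∫⁻ x, ‖H x‖ₑ ^ p ∂((μ Q)⁻¹ • μ.restrict Q) := by gcongr
    _ = ∫⁻ x in Q, ‖H x‖ₑ ^ p ∂μ := by
        rw [lintegral_smul_measure, smul_eq_mul, ← mul_assoc, ENNReal.mul_inv_cancel h0 h1, one_mul]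

theorem add_three_rpow_le {p : ℝ} (hp : 0 ≤ p) (a b c : ℝ≥0∞) :
    (a + b + c) ^ p ≤ 3 ^ p * (a ^ p + b ^ p + c ^ p) := by
  have h1 : a + b + c ≤ 3 * max a (max b c) := by
    have ha : a ≤ max a (max b c) := le_max_left _ _
    have hb : b ≤ max a (max b c) := le_trans (le_max_left _ _) (le_max_right _ _)
    have hc : c ≤ max a (max b c) := le_trans (le_max_right _ _) (le_max_right _ _)
    calc a + b + c ≤ max a (max b c) + max a (max b c) + max a (max b c) := by gcongr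
      _ = 3 * max a (max b c) := by ring
  calc (a + b + c) ^ p ≤ (3 * max a (max b c)) ^ p := ENNReal.rpow_le_rpow h1 hp
    _ = 3 ^ p * (max a (max b c)) ^ p := ENNReal.mul_rpow_of_nonneg _ _ hp
    _ ≤ 3 ^ p * (a ^ p + b ^ p + c ^ p) := by
        gcongr
        rcases max_choice a (max b c) with h | h
        · rw [h, add_assoc]; exact le_self_add
        · rw [h]
          rcases max_choice b c with h' | h'
          · rw [h']
            calc b ^ p ≤ a ^ p + b ^ p := le_add_self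
              _ ≤ _ := le_self_add
          · rw [h']; exact le_add_self

/-- **(B3)** cell averages converge in `L^p`. -/
theorem cell_average {p : ℝ} (hp : 1 ≤ p) {G : E → F} (hG : MemLp G (ENNReal.ofReal p) μ)
    {ε : ℝ≥0∞} (hε : ε ≠ 0) (ι : Type*) [Countable ι] :
    ∃ r : ℝ, 0 < r ∧ ∀ Q : ι → Set E, (∀ i, MeasurableSet (Q i)) →
      Pairwise (fun i j => Disjoint (Q i) (Q j)) → (∀ i, μ (Q i) ≠ 0) → (∀ i, μ (Q i) ≠ ∞) →
      (∀ i, ∀ x ∈ Q i, ∀ y ∈ Q i, dist x y ≤ r) →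
      ∑' i, ∫⁻ x in Q i, ‖G x - ⨍ y in Q i, G y ∂μ‖ₑ ^ p ∂μ ≤ ε := by
  have hp0 : 0 < p := by linarith
  have hpt : ENNReal.ofReal p ≠ ∞ := ENNReal.ofReal_ne_top
  have hp0' : ENNReal.ofReal p ≠ 0 := by simpa using hp0
  have htoR : (ENNReal.ofReal p).toReal = p := ENNReal.toReal_ofReal hp0.le
  by_cases hεt : ε = ∞
  · exact ⟨1, one_pos, fun Q _ _ _ _ _ => by rw [hεt]; exact le_top⟩
  -- constants
  have h3 : (3 : ℝ≥0∞) ^ p ≠ ∞ := ENNReal.rpow_ne_top_of_nonneg hp0.le (by norm_num)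
  have h30 : (3 : ℝ≥0∞) ^ p ≠ 0 := by
    have : (0:ℝ≥0∞) < 3 ^ p := ENNReal.rpow_pos (by norm_num) (by norm_num)
    exact this.ne'
  set δ₀ : ℝ≥0∞ := ε / (3 ^ p) / 3 with hδ₀
  have hδ₀0 : δ₀ ≠ 0 := by
    rw [hδ₀]
    exact (ENNReal.div_pos (ENNReal.div_pos hε h3).ne' (by norm_num)).ne'
  have hδ₀t : δ₀ ≠ ∞ := by
    rw [hδ₀]
    exact ENNReal.div_ne_top (ENNReal.div_ne_top hεt h30) (by norm_num)
  have hsum : (3:ℝ≥0∞) ^ p * (δ₀ + δ₀ + δ₀) = ε := by
    have : δ₀ + δ₀ + δ₀ = ε / 3 ^ p := by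
      rw [hδ₀]
      exact ENNReal.add_thirds _
    rw [this, ENNReal.mul_div_cancel h30 h3]
  obtain ⟨g, hgc, hgd, hgcont, hgL⟩ := hG.exists_hasCompactSupport_eLpNorm_sub_le hpt
    (ε := δ₀ ^ (1 / p)) (by
      have : 0 < δ₀ ^ (1 / p) := ENNReal.rpow_pos (pos_iff_ne_zero.2 hδ₀0) hδ₀t
      exact this.ne')
  -- total difference
  have hdiff : ∫⁻ x, ‖G x - g x‖ₑ ^ p ∂μ ≤ δ₀ := by
    have h4 : eLpNorm (G - g) (ENNReal.ofReal p) μ ^ p ≤ δ₀ := by
      have := ENNReal.rpow_le_rpow hgd hp0.le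
      rwa [← ENNReal.rpow_mul, one_div, inv_mul_cancel₀ hp0.ne', ENNReal.rpow_one] at this
    rw [eLpNorm_eq_lintegral_rpow_enorm_toReal hp0' hpt, htoR, ← ENNReal.rpow_mul, one_div,
      inv_mul_cancel₀ hp0.ne', ENNReal.rpow_one] at h4
    exact h4
  -- uniform continuity
  set K : Set E := Metric.cthickening 1 (tsupport g) with hK
  have hKc : IsCompact K := hgc.isCompact.cthickening
  have hKt : μ K ≠ ∞ := hKc.measure_lt_top.ne
  obtain ⟨η, hη0, hη⟩ : ∃ η : ℝ, 0 < η ∧ ENNReal.ofReal η ^ p * μ K ≤ δ₀ := by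
    have h5 : Tendsto (fun η : ℝ => ENNReal.ofReal η ^ p * μ K) (𝓝[>] 0) (𝓝 0) := by
      have h6 : Tendsto (fun η : ℝ => ENNReal.ofReal η ^ p * μ K) (𝓝[>] 0)
          (𝓝 (ENNReal.ofReal 0 ^ p * μ K)) := by
        apply ENNReal.Tendsto.mul_const
        · have : Continuous fun η : ℝ => ENNReal.ofReal η ^ p :=
            (ENNReal.continuous_rpow_const).comp ENNReal.continuous_ofReal
          exact (this.tendsto 0).mono_left nhdsWithin_le_nhds
        · exact Or.inr hKt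
      rwa [ENNReal.ofReal_zero, ENNReal.zero_rpow_of_pos hp0, zero_mul] at h6
    have h7 : ∀ᶠ η : ℝ in 𝓝[>] 0, ENNReal.ofReal η ^ p * μ K ≤ δ₀ :=
      h5.eventually (ge_mem_nhds (pos_iff_ne_zero.2 hδ₀0))
    obtain ⟨η, h8, h9⟩ := (h7.and self_mem_nhdsWithin).exists
    exact ⟨η, h9, h8⟩
  have huc : UniformContinuous g := hgcont.uniformContinuous_of_tendsto_cocompact
    (hgc.is_zero_at_infty)
  obtain ⟨r₀, hr₀, hr⟩ := Metric.uniformContinuous_iff.1 huc η hη0
  refine ⟨min 1 (r₀ / 2), by positivity, ?_⟩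
  intro Q hQm hQd hQ0 hQt hQr
  -- pointwise estimate of `g - g_Q`
  have hgint : ∀ i, IntegrableOn g (Q i) μ := fun i => by
    have : MemLp g (ENNReal.ofReal p) (μ.restrict (Q i)) := hgL.restrict _
    have hfin : IsFiniteMeasure (μ.restrict (Q i)) := ⟨by
      rw [Measure.restrict_apply_univ]; exact lt_top_iff_ne_top.2 (hQt i)⟩
    exact this.integrable (by simpa using ENNReal.ofReal_le_ofReal hp)
  have hGint : ∀ i, IntegrableOn G (Q i) μ := fun i => by
    have : MemLp G (ENNReal.ofReal p) (μ.restrict (Q i)) := hG.restrict _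
    have hfin : IsFiniteMeasure (μ.restrict (Q i)) := ⟨by
      rw [Measure.restrict_apply_univ]; exact lt_top_iff_ne_top.2 (hQt i)⟩
    exact this.integrable (by simpa using ENNReal.ofReal_le_ofReal hp)
  have hgQ : ∀ i, ∀ x ∈ Q i, ‖g x - ⨍ y in Q i, g y ∂μ‖ₑ ≤ K.indicator (fun _ => ENNReal.ofReal η) x := by
    intro i x hx
    have hb : ∀ y ∈ Q i, ‖g y - g x‖ ≤ η := by
      intro y hy
      have h10 := hQr i y hy x hx
      have h11 : dist y x < r₀ := by
        have := min_le_right (1:ℝ) (r₀ / 2)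
        linarith
      have := hr h11
      rw [dist_eq_norm] at this
      exact this.le
    by_cases hxK : x ∈ K
    · rw [indicator_of_mem hxK]
      have hmem : ⨍ y in Q i, g y ∂μ ∈ Metric.closedBall (g x) η := by
        refine (convex_closedBall (g x) η).set_average_mem Metric.isClosed_closedBall (hQ0 i) (hQt i) ?_
          (hgint i)
        filter_upwards [ae_restrict_mem (hQm i)] with y hy
        rw [mem_closedBall_iff_norm]
        exact hb y hy
      rw [mem_closedBall_iff_norm, norm_sub_rev] at hmem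
      rw [← ofReal_norm]
      exact ENNReal.ofReal_le_ofReal hmem
    · rw [indicator_of_notMem hxK]
      have hz : ∀ y ∈ Q i, g y = 0 := by
        intro y hy
        by_contra hne
        apply hxK
        have h12 : y ∈ tsupport g := subset_tsupport _ hne
        apply Metric.mem_cthickening_of_dist_le x y 1 _ h12
        have := hQr i x hx y hy
        exact this.trans (min_le_left _ _)
      have h13 : ⨍ y in Q i, g y ∂μ = 0 := by
        have h14 : ∫ y in Q i, g y ∂μ = 0 := by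
          rw [setIntegral_congr_fun (hQm i) hz]; simp
        rw [setAverage_eq, h14, smul_zero]
      rw [h13, hz x hx]
      simp
  have hcell : ∀ i, ∫⁻ x in Q i, ‖G x - ⨍ y in Q i, G y ∂μ‖ₑ ^ p ∂μ ≤
      3 ^ p * (∫⁻ x in Q i, ‖G x - g x‖ₑ ^ p ∂μ +
        ∫⁻ x in Q i, (K.indicator (fun _ => ENNReal.ofReal η) x) ^ p ∂μ +
        ∫⁻ x in Q i, ‖G x - g x‖ₑ ^ p ∂μ) := by
    intro i
    have hm1 : AEMeasurable (fun x => ‖G x - g x‖ₑ ^ p) (μ.restrict (Q i)) :=
      (((hGint i).sub (hgint i)).aestronglyMeasurable.enorm.pow_const p)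
    have hm2 : AEMeasurable (fun x => (K.indicator (fun _ => ENNReal.ofReal η) x) ^ p)
        (μ.restrict (Q i)) :=
      ((measurable_const.indicator hKc.measurableSet).pow_const p).aemeasurable
    have hm12 : AEMeasurable (fun x => ‖G x - g x‖ₑ ^ p +
        (K.indicator (fun _ => ENNReal.ofReal η) x) ^ p) (μ.restrict (Q i)) := hm1.add hm2
    calc ∫⁻ x in Q i, ‖G x - ⨍ y in Q i, G y ∂μ‖ₑ ^ p ∂μ
        ≤ ∫⁻ x in Q i, 3 ^ p * (‖G x - g x‖ₑ ^ p +
            (K.indicator (fun _ => ENNReal.ofReal η) x) ^ p +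
            ‖⨍ y in Q i, (g y - G y) ∂μ‖ₑ ^ p) ∂μ := by
          apply setLIntegral_mono_ae' (hQm i)
          filter_upwards with x hx
          refine le_trans (ENNReal.rpow_le_rpow ?_ hp0.le) (add_three_rpow_le hp0.le _ _ _)
          have h15 : G x - ⨍ y in Q i, G y ∂μ = (G x - g x) + (g x - ⨍ y in Q i, g y ∂μ) +
              ⨍ y in Q i, (g y - G y) ∂μ := by
            have h16 : ⨍ y in Q i, (g y - G y) ∂μ = ⨍ y in Q i, g y ∂μ - ⨍ y in Q i, G y ∂μ := by
              rw [setAverage_eq, setAverage_eq, setAverage_eq, integral_sub (hgint i) (hGint i),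
                smul_sub]
            rw [h16]; abel
          rw [h15]
          refine (enorm_add_le _ _).trans ?_
          gcongr
          refine (enorm_add_le _ _).trans ?_
          gcongr
          exact hgQ i x hx
      _ = 3 ^ p * (∫⁻ x in Q i, ‖G x - g x‖ₑ ^ p ∂μ +
            ∫⁻ x in Q i, (K.indicator (fun _ => ENNReal.ofReal η) x) ^ p ∂μ +
            ‖⨍ y in Q i, (g y - G y) ∂μ‖ₑ ^ p * μ (Q i)) := by
          rw [lintegral_const_mul' _ _ h3, lintegral_add_left' hm12,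
            lintegral_add_left' hm1, lintegral_const, Measure.restrict_apply_univ]
      _ ≤ _ := by
          gcongr
          rw [mul_comm]
          refine (lintegral_average_le (hQ0 i) (hQt i) hp
            ((hgint i).sub (hGint i)).aestronglyMeasurable).trans (le_of_eq ?_)
          apply lintegral_congr
          intro x
          show ‖g x - G x‖ₑ ^ p = _
          rw [← enorm_neg, neg_sub]
  have hS : ∀ f : E → ℝ≥0∞, ∑' i, ∫⁻ x in Q i, f x ∂μ ≤ ∫⁻ x, f x ∂μ := by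
    intro f
    rw [← lintegral_iUnion hQm hQd]
    exact setLIntegral_le_lintegral _ _
  calc ∑' i, ∫⁻ x in Q i, ‖G x - ⨍ y in Q i, G y ∂μ‖ₑ ^ p ∂μ
      ≤ ∑' i, 3 ^ p * (∫⁻ x in Q i, ‖G x - g x‖ₑ ^ p ∂μ +
        ∫⁻ x in Q i, (K.indicator (fun _ => ENNReal.ofReal η) x) ^ p ∂μ +
        ∫⁻ x in Q i, ‖G x - g x‖ₑ ^ p ∂μ) := ENNReal.tsum_le_tsum hcell
    _ = 3 ^ p * (∑' i, ∫⁻ x in Q i, ‖G x - g x‖ₑ ^ p ∂μ +
        ∑' i, ∫⁻ x in Q i, (K.indicator (fun _ => ENNReal.ofReal η) x) ^ p ∂μ +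
        ∑' i, ∫⁻ x in Q i, ‖G x - g x‖ₑ ^ p ∂μ) := by
        rw [ENNReal.tsum_mul_left, ENNReal.tsum_add, ENNReal.tsum_add]
    _ ≤ 3 ^ p * (δ₀ + δ₀ + δ₀) := by
        gcongr
        · exact (hS _).trans hdiff
        · refine (hS _).trans ?_
          have h17 : (fun x => (K.indicator (fun _ => ENNReal.ofReal η) x) ^ p) =
              K.indicator (fun _ => ENNReal.ofReal η ^ p) := by
            funext x
            by_cases hx : x ∈ K
            · rw [indicator_of_mem hx, indicator_of_mem hx]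
            · rw [indicator_of_notMem hx, indicator_of_notMem hx, ENNReal.zero_rpow_of_pos hp0]
          rw [h17, lintegral_indicator hKc.measurableSet, lintegral_const,
            Measure.restrict_apply_univ]
          exact hη
        · exact (hS _).trans hdiff
    _ = ε := hsum

end

end Crest.Agent.R96.Poi_392
end

-- ▼ part R96/Poi3_392
section

set_option autoImplicit false
set_option linter.unusedSectionVars false

open MeasureTheory Set Filter
open scoped ENNReal Topology Pointwise ContDiff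

namespace Crest.Agent.R96.Poi_392

open Crest.Agent.R96.Acl_392 Crest.Agent.R96.Grid_392

noncomputable section

variable {E : Type*} [NormedAddCommGroup E] [InnerProductSpace ℝ E] [FiniteDimensional ℝ E]
  [MeasurableSpace E] [BorelSpace E] {μ : Measure E} [μ.IsAddHaarMeasure]

/-- integrability of (locally integrable) times (continuous, compactly supported in Ω) -/
theorem integrable_mul_test {Ω : Set E} {u : E → ℝ} (hu : LocallyIntegrableOn u Ω μ) {φ : E → ℝ}
    (hφ : Continuous φ) (hc : HasCompactSupport φ) (hs : tsupport φ ⊆ Ω) :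
    Integrable (fun x => u x * φ x) μ := by
  have h1 : IntegrableOn u (tsupport φ) μ := hu.integrableOn_compact_subset hs hc
  obtain ⟨C, hC⟩ := hφ.bounded_above_of_compact_support hc
  have h2 : Integrable ((tsupport φ).indicator u) μ :=
    h1.integrable_indicator (isClosed_tsupport φ).measurableSet
  have h3 := h2.bdd_mul hφ.aestronglyMeasurable (Eventually.of_forall hC)
  refine h3.congr (Eventually.of_forall fun x => ?_)
  by_cases hx : x ∈ tsupport φ
  · simp only [indicator_of_mem hx]; ring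
  · have : φ x = 0 := image_eq_zero_of_notMem_tsupport hx
    simp [this]

theorem fderiv_test {φ : E → ℝ} (hφ : ContDiff ℝ ∞ φ) (hc : HasCompactSupport φ) (e : E) :
    Continuous (fun x => fderiv ℝ φ x e) ∧ HasCompactSupport (fun x => fderiv ℝ φ x e) ∧
      tsupport (fun x => fderiv ℝ φ x e) ⊆ tsupport φ := by
  have h1 : Continuous (fderiv ℝ φ) := hφ.continuous_fderiv (by simp)
  have h2 : tsupport (fun x => fderiv ℝ φ x e) ⊆ tsupport φ := by
    apply closure_minimal _ (isClosed_tsupport φ)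
    intro x hx
    have h3 : fderiv ℝ φ x ≠ 0 := by
      intro h0
      apply hx
      show fderiv ℝ φ x _ = 0
      rw [h0]; rfl
    exact tsupport_fderiv_subset ℝ (subset_tsupport _ h3)
  exact ⟨h1.clm_apply continuous_const, hc.of_isClosed_subset (isClosed_tsupport _) h2, h2⟩

/-- `WD` is linear -/
theorem wd_sub {Ω : Set E} {v w g k : E → ℝ} {e : E} (h : WD Ω μ v g e) (h' : WD Ω μ w k e) :
    WD Ω μ (fun x => v x - w x) (fun x => g x - k x) e := by
  refine ⟨h.lv.sub h'.lv, h.lg.sub h'.lg, ?_⟩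
  intro φ hφ hc hs
  obtain ⟨f1, f2, f3⟩ := fderiv_test hφ hc e
  have i1 := integrable_mul_test h.lv f1 f2 (f3.trans hs)
  have i2 := integrable_mul_test h'.lv f1 f2 (f3.trans hs)
  have i3 := integrable_mul_test h.lg hφ.continuous hc hs
  have i4 := integrable_mul_test h'.lg hφ.continuous hc hs
  have e1 : ∫ x, (v x - w x) * fderiv ℝ φ x e ∂μ =
      ∫ x, v x * fderiv ℝ φ x e ∂μ - ∫ x, w x * fderiv ℝ φ x e ∂μ := by
    rw [← integral_sub i1 i2]
    congr 1; funext x; ring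
  have e2 : ∫ x, (g x - k x) * φ x ∂μ = ∫ x, g x * φ x ∂μ - ∫ x, k x * φ x ∂μ := by
    rw [← integral_sub i3 i4]
    congr 1; funext x; ring
  rw [e1, e2, h.weak φ hφ hc hs, h'.weak φ hφ hc hs]
  ring

/-- a linear function has its weak derivative -/
theorem wd_linear (Ω : Set E) (A e : E) :
    WD Ω μ (fun x => inner ℝ A x) (fun _ => inner ℝ A e) e := by
  have hcont : Continuous (fun x : E => (inner ℝ A x : ℝ)) := continuous_const.inner continuous_id
  refine ⟨hcont.locallyIntegrable.locallyIntegrableOn _,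
    (locallyIntegrable_const _).locallyIntegrableOn _, ?_⟩
  intro φ hφ hc hs
  obtain ⟨f1, f2, f3⟩ := fderiv_test hφ hc e
  have hd : Differentiable ℝ (fun x : E => (inner ℝ A x : ℝ)) := (innerSL ℝ A).differentiable
  have hfd : ∀ x, fderiv ℝ (fun x : E => (inner ℝ A x : ℝ)) x e = inner ℝ A e := by
    intro x
    have : (fun x : E => (inner ℝ A x : ℝ)) = innerSL ℝ A := rfl
    rw [this, ContinuousLinearMap.fderiv]
    rfl
  have hl1 : LocallyIntegrableOn (fun x : E => (inner ℝ A x : ℝ)) univ μ :=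
    hcont.locallyIntegrable.locallyIntegrableOn _
  have hl2 : LocallyIntegrableOn (fun _ : E => (inner ℝ A e : ℝ)) univ μ :=
    (locallyIntegrable_const _).locallyIntegrableOn _
  have h1 := integral_mul_fderiv_eq_neg_fderiv_mul_of_integrable (μ := μ) (v := e)
    (f := fun x : E => (inner ℝ A x : ℝ)) (g := φ)
    (by simp only [hfd]; exact integrable_mul_test hl2 hφ.continuous hc (subset_univ _))
    (integrable_mul_test hl1 f1 f2 (subset_univ _))
    (integrable_mul_test hl1 hφ.continuous hc (subset_univ _)) (fun x _ => hd x)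
    (fun x _ => hφ.differentiable (by simp) x)
  rw [h1]
  simp only [hfd]

/-- subtracting a linear function from a function with weak gradient -/
theorem wg_sub_linear {Ω : Set E} {v : E → ℝ} {G : E → E} (h : WG Ω μ v G) (A : E) :
    WG Ω μ (fun x => v x - inner ℝ A x) (fun x => G x - A) := by
  refine ⟨h.lG.sub ((locallyIntegrable_const A).locallyIntegrableOn _), ?_⟩
  intro e
  have := wd_sub (h.wd e) (wd_linear (μ := μ) Ω A e)
  convert! this using 1
  funext x
  rw [inner_sub_left]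

/-- **Poincaré, mean value form**, on a bounded convex open set. -/
theorem poincare_mean {Ω : Set E} (hΩ : IsOpen Ω) {v : E → ℝ} {G : E → E} (h : WG Ω μ v G)
    (hvc : ContinuousOn v Ω) {Q : Set E} (hQc : Convex ℝ Q) (hQo : IsOpen Q) (hQΩ : Q ⊆ Ω)
    (hQ0 : μ Q ≠ 0) (hQ1 : μ Q ≠ ⊤) (hvi : IntegrableOn v Q μ) {p : ℝ} (hp : 1 ≤ p) :
    μ Q * ∫⁻ x in Q, ‖v x - ⨍ y in Q, v y ∂μ‖ₑ ^ p ∂μ ≤
      μ (Q - Q) * Metric.ediam Q ^ p * ∫⁻ x in Q, ‖G x‖ₑ ^ p ∂μ := by
  refine le_trans ?_ (poincare hΩ h hvc hQc hQo hQΩ hp)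
  have hfin : IsFiniteMeasure (μ.restrict Q) := ⟨by
    rw [Measure.restrict_apply_univ]; exact lt_top_iff_ne_top.2 hQ1⟩
  rw [← lintegral_const_mul' _ _ hQ1]
  apply lintegral_mono
  intro x
  have hi : Integrable (fun y => v y - v x) (μ.restrict Q) := hvi.sub (integrable_const _)
  have h1 := lintegral_average_le (μ := μ) hQ0 hQ1 hp hi.aestronglyMeasurable
  have h2 : ⨍ y in Q, (v y - v x) ∂μ = (⨍ y in Q, v y ∂μ) - v x := by
    have := isProb (μ := μ) hQ0 hQ1
    have hi' : Integrable v ((μ Q)⁻¹ • μ.restrict Q) :=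
      hvi.smul_measure (ENNReal.inv_ne_top.2 hQ0)
    rw [setAverage_eq', setAverage_eq', integral_sub hi' (integrable_const _), integral_const]
    simp
  rw [h2] at h1
  have h3 : ‖v x - ⨍ y in Q, v y ∂μ‖ₑ = ‖(⨍ y in Q, v y ∂μ) - v x‖ₑ := by
    rw [← enorm_neg, neg_sub]
  simp only [h3]
  exact h1

/-- **affine approximation** on a bounded convex cell -/
theorem affine_approx {Ω : Set E} (hΩ : IsOpen Ω) {v : E → ℝ} {G : E → E} (h : WG Ω μ v G)
    (hvc : ContinuousOn v Ω) {Q : Set E} (hQc : Convex ℝ Q) (hQo : IsOpen Q) (hQΩ : Q ⊆ Ω)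
    (hQ0 : μ Q ≠ 0) (hQb : Bornology.IsBounded Q) (hvi : IntegrableOn v Q μ) {p : ℝ} (hp : 1 ≤ p)
    (A : E) :
    ∃ c : ℝ, μ Q * ∫⁻ x in Q, ‖v x - (inner ℝ A x + c)‖ₑ ^ p ∂μ ≤
      μ (Q - Q) * Metric.ediam Q ^ p * ∫⁻ x in Q, ‖G x - A‖ₑ ^ p ∂μ := by
  have hQ1 : μ Q ≠ ⊤ := hQb.measure_lt_top.ne
  have hcont : Continuous (fun x : E => (inner ℝ A x : ℝ)) := continuous_const.inner continuous_id
  have hli : IntegrableOn (fun x : E => (inner ℝ A x : ℝ)) Q μ :=
    (hcont.continuousOn.integrableOn_compact hQb.isCompact_closure).mono_set subset_closure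
  have h1 := poincare_mean hΩ (wg_sub_linear h A) (hvc.sub hcont.continuousOn) hQc hQo hQΩ hQ0 hQ1
    (hvi.sub hli) hp
  refine ⟨⨍ y in Q, (v y - inner ℝ A y) ∂μ, ?_⟩
  refine le_trans (le_of_eq ?_) h1
  congr 1
  apply lintegral_congr
  intro x
  rw [sub_add_eq_sub_sub]

end

end Crest.Agent.R96.Poi_392
end

-- ▼ part R96/Intr13_538

set_option autoImplicit false
set_option linter.unusedSectionVars false

open MeasureTheory Set Filter Metric
open scoped ENNReal NNReal Topology Pointwise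

namespace Crest.Agent.R96.Coarse_538

open Crest.AnalysisR.VecCalc3 Crest.AnalysisR.Sobolev
open Crest.Agent.R96.Acl_392 Crest.Agent.R96.Lu_538 Crest.Agent.R96.Intr_538
open Crest.Agent.R96.Poi_392

noncomputable section

theorem wg_of_grad {Ω : Set R3} (hΩ : IsOpen Ω) {v : R3 → ℝ} {G : R3 → R3}
    (h : HasWeakGradOn Ω v G) : WG Ω volume v G :=
  ⟨h.2.1, fun e => wd_of_grad hΩ h e⟩

/-- the open cube -/
def ocel (z : R3) (s : ℝ) : Set R3 := {x | ∀ i, x i ∈ Ioo (z i - s) (z i + s)}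

theorem ocel_sub {z : R3} {s : ℝ} (hs : 0 < s) : ocel z s ⊆ cel Cb z s := by
  intro x hx
  rw [mem_cel hs]
  intro i
  have := hx i
  rw [abs_le]
  constructor <;> linarith [this.1, this.2]

theorem isOpen_ocel (z : R3) (s : ℝ) : IsOpen (ocel z s) := by
  have : ocel z s = ⋂ i : Fin 3, {x : R3 | x i ∈ Ioo (z i - s) (z i + s)} := by
    ext x; simp [ocel]
  rw [this]
  refine isOpen_iInter_of_finite fun i => ?_
  have h1 : Continuous (fun a : R3 => a i) := by fun_prop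
  exact isOpen_Ioo.preimage h1

theorem convex_ocel (z : R3) (s : ℝ) : Convex ℝ (ocel z s) := by
  have : ocel z s = ⋂ i : Fin 3, (EuclideanSpace.proj (𝕜 := ℝ) i : R3 →L[ℝ] ℝ) ⁻¹'
      (Ioo (z i - s) (z i + s)) := by
    ext x; simp [ocel]
  rw [this]
  exact convex_iInter fun i =>
    (convex_Ioo _ _).is_linear_preimage (EuclideanSpace.proj (𝕜 := ℝ) i : R3 →L[ℝ] ℝ).isLinear

theorem vol_ocel {z : R3} {s : ℝ} (hs : 0 < s) :
    volume (ocel z s) = ENNReal.ofReal ((2 * s) ^ 3) := by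
  rw [ocel, vol_box (I := fun i => Ioo (z i - s) (z i + s)) fun _ => measurableSet_Ioo]
  simp only [Real.volume_Ioo]
  have h2 : ∀ i : Fin 3, z i + s - (z i - s) = 2 * s := fun i => by ring
  simp only [h2, Finset.prod_const, Finset.card_univ, Fintype.card_fin]
  rw [ENNReal.ofReal_pow (by positivity)]

theorem ocel_ae {z : R3} {s : ℝ} (hs : 0 < s) : ocel z s =ᵐ[volume] cel Cb z s := by
  refine ae_eq_of_subset_of_measure_ge (ocel_sub hs) ?_
    (isOpen_ocel z s).measurableSet.nullMeasurableSet ?_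
  · rw [vol_cel hs, vol_ocel hs]
  · rw [vol_cel hs]; exact ENNReal.ofReal_ne_top

theorem dist_cel {z x y : R3} {s : ℝ} (hs : 0 < s) (hx : x ∈ cel Cb z s) (hy : y ∈ cel Cb z s) :
    dist x y ≤ 4 * s := by
  rw [mem_cel hs] at hx hy
  have h1 := norm_le_of_coord (x := x - y) (c := 2 * s) (by positivity) (fun i => by
    have h1 := abs_le.1 (hx i)
    have h2 := abs_le.1 (hy i)
    rw [PiLp.sub_apply, abs_le]
    constructor <;> linarith [h1.1, h1.2, h2.1, h2.2])
  rw [dist_eq_norm]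
  linarith

/-- rows of a linear map -/
theorem exists_rows (L : R3 →L[ℝ] R3) : ∃ A : Fin 3 → R3, gmatL A = L := by
  refine ⟨fun j => (InnerProductSpace.toDual ℝ R3).symm
    ((EuclideanSpace.proj (𝕜 := ℝ) j : R3 →L[ℝ] ℝ).comp L), ?_⟩
  ext w j
  rw [gmatL_apply, InnerProductSpace.toDual_symm_apply]
  rfl

/-- constant in `exists_aff` -/
def Caff (p : ℝ) : ℝ≥0∞ := (3 : ℝ≥0∞) ^ (p - 1) * (3 * (8 * 4 ^ p))

theorem Caff_ne_top {p : ℝ} (hp : 1 ≤ p) : Caff p ≠ ∞ := by
  have h1 : (3 : ℝ≥0∞) ^ (p - 1) ≠ ∞ := ENNReal.rpow_ne_top_of_nonneg (by linarith) (by simp)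
  have h2 : (4 : ℝ≥0∞) ^ p ≠ ∞ := ENNReal.rpow_ne_top_of_nonneg (by linarith) (by simp)
  exact ENNReal.mul_ne_top h1 (ENNReal.mul_ne_top (by simp) (ENNReal.mul_ne_top (by simp) h2))

theorem exists_aff {Ω : Set R3} (hΩ : IsOpen Ω) {f : R3 → R3} {G : Fin 3 → R3 → R3}
    (hG : ∀ j, HasWeakGradOn Ω (fun x => f x j) (G j)) (hf : ContinuousOn f Ω) {p : ℝ}
    (hp : 1 ≤ p) {z : R3} {s : ℝ} (hs : 0 < s) (hsub : cel Cb z s ⊆ Ω) (L : R3 →L[ℝ] R3) :
    ∃ b : R3, ∫⁻ x in cel Cb z s, ‖f x - (b + L (x - z))‖ₑ ^ p ≤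
      Caff p * ENNReal.ofReal s ^ p * ∫⁻ x in cel Cb z s, ‖Gmat G x - L‖ₑ ^ p := by
  have hp0 : 0 < p := by linarith
  obtain ⟨A, hA⟩ := exists_rows L
  set Q := ocel z s with hQ
  have hQΩ : Q ⊆ Ω := (ocel_sub hs).trans hsub
  have hQ0 : volume Q ≠ 0 := by
    rw [hQ, vol_ocel hs, Ne, ENNReal.ofReal_eq_zero, not_le]; positivity
  have hQt : volume Q ≠ ∞ := by rw [hQ, vol_ocel hs]; exact ENNReal.ofReal_ne_top
  have hQb : Bornology.IsBounded Q :=
    (isCompact_cel ref_Cb.cpt z s).isBounded.subset (ocel_sub hs)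
  have hvol : volume (Q - Q) ≤ 8 * volume Q := by
    have h1 : Q - Q ⊆ cel Cb 0 (2 * s) := by
      rintro _ ⟨x, hx, y, hy, rfl⟩
      rw [mem_cel (by positivity)]
      intro i
      have h1 := hx i
      have h2 := hy i
      simp only [PiLp.sub_apply, PiLp.zero_apply, sub_zero, abs_le]
      constructor <;> linarith [h1.1, h1.2, h2.1, h2.2]
    refine (measure_mono h1).trans ?_
    rw [vol_cel (by positivity), hQ, vol_ocel hs]
    have h8 : (8:ℝ≥0∞) = ENNReal.ofReal 8 := by simp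
    rw [h8, ← ENNReal.ofReal_mul (by norm_num)]
    apply ENNReal.ofReal_le_ofReal
    nlinarith
  have hdiam : Metric.ediam Q ≤ 4 * ENNReal.ofReal s := by
    refine ediam_le fun x hx y hy => ?_
    rw [edist_dist]
    have h4 : (4:ℝ≥0∞) = ENNReal.ofReal 4 := by simp
    rw [h4, ← ENNReal.ofReal_mul (by norm_num)]
    exact ENNReal.ofReal_le_ofReal (dist_cel hs (ocel_sub hs hx) (ocel_sub hs hy))
  have key : ∀ j : Fin 3, ∃ c : ℝ, ∫⁻ x in Q, ‖f x j - (inner ℝ (A j) x + c)‖ₑ ^ p ≤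
      (8 * 4 ^ p) * ENNReal.ofReal s ^ p * ∫⁻ x in Q, ‖Gmat G x - L‖ₑ ^ p := by
    intro j
    have hfj : ContinuousOn (fun x => f x j) Ω :=
      (EuclideanSpace.proj (𝕜 := ℝ) j).continuous.comp_continuousOn hf
    have hint : IntegrableOn (fun x => f x j) Q :=
      ((hfj.mono hsub).integrableOn_compact (isCompact_cel ref_Cb.cpt z s)).mono_set (ocel_sub hs)
    obtain ⟨c, hc⟩ := affine_approx hΩ (wg_of_grad hΩ (hG j)) hfj (convex_ocel z s)
      (isOpen_ocel z s) hQΩ hQ0 hQb hint hp (A j)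
    refine ⟨c, ?_⟩
    have h1 : ∫⁻ x in Q, ‖G j x - A j‖ₑ ^ p ≤ ∫⁻ x in Q, ‖Gmat G x - L‖ₑ ^ p := by
      apply lintegral_mono
      intro x
      apply ENNReal.rpow_le_rpow _ hp0.le
      have h2 : Gmat G x - L = gmatL (fun j => G j x - A j) := by
        rw [← hA, Gmat, ← map_sub]; rfl
      rw [h2]
      have h3 := norm_row_le (fun j => G j x - A j) j
      rw [← ofReal_norm, ← ofReal_norm]
      exact ENNReal.ofReal_le_ofReal h3
    have h2 : volume Q * ∫⁻ x in Q, ‖f x j - (inner ℝ (A j) x + c)‖ₑ ^ p ≤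
        volume Q * ((8 * 4 ^ p) * ENNReal.ofReal s ^ p * ∫⁻ x in Q, ‖Gmat G x - L‖ₑ ^ p) := by
      refine hc.trans ?_
      calc volume (Q - Q) * ediam Q ^ p * ∫⁻ x in Q, ‖G j x - A j‖ₑ ^ p
          ≤ (8 * volume Q) * (4 * ENNReal.ofReal s) ^ p * ∫⁻ x in Q, ‖Gmat G x - L‖ₑ ^ p := by
            gcongr
        _ = _ := by rw [ENNReal.mul_rpow_of_nonneg _ _ hp0.le]; ring
    exact (ENNReal.mul_le_mul_iff_right hQ0 hQt).1 h2
  choose c hc using key
  refine ⟨WithLp.toLp 2 c + L z, ?_⟩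
  have hr : ∀ g : R3 → ℝ≥0∞, ∫⁻ x in cel Cb z s, g x = ∫⁻ x in Q, g x := fun g =>
    setLIntegral_congr (ocel_ae hs).symm
  rw [hr, hr]
  have hcont : ∀ j : Fin 3, ContinuousOn (fun x => f x j - (inner ℝ (A j) x + c j)) Q := by
    intro j
    have hfj : ContinuousOn (fun x => f x j) Ω :=
      (EuclideanSpace.proj (𝕜 := ℝ) j).continuous.comp_continuousOn hf
    exact (hfj.mono hQΩ).sub (by fun_prop)
  calc ∫⁻ x in Q, ‖f x - (WithLp.toLp 2 c + L z + L (x - z))‖ₑ ^ p
      ≤ ∫⁻ x in Q, (3 : ℝ≥0∞) ^ (p - 1) * ∑ j, ‖f x j - (inner ℝ (A j) x + c j)‖ₑ ^ p := by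
        apply lintegral_mono
        intro x
        have h1 : ‖f x - (WithLp.toLp 2 c + L z + L (x - z))‖ₑ ≤
            ∑ j, ‖f x j - (inner ℝ (A j) x + c j)‖ₑ := by
          set y : R3 := f x - (WithLp.toLp 2 c + L z + L (x - z)) with hy
          have h2 : ∀ j, y j = f x j - (inner ℝ (A j) x + c j) := by
            intro j
            have h3 : L x j = inner ℝ (A j) x := by rw [← hA, gmatL_apply]
            rw [hy, map_sub]
            simp only [PiLp.sub_apply, PiLp.add_apply]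
            rw [h3]; ring
          have h3 : ‖y‖ ≤ ∑ j, ‖y j‖ := by
            rw [EuclideanSpace.norm_eq]
            apply Real.sqrt_le_iff.2
            refine ⟨Finset.sum_nonneg fun _ _ => norm_nonneg _, ?_⟩
            exact Finset.sum_sq_le_sq_sum_of_nonneg (s := Finset.univ) fun j _ => norm_nonneg (y j)
          rw [← ofReal_norm]
          refine (ENNReal.ofReal_le_ofReal h3).trans ?_
          rw [ENNReal.ofReal_sum_of_nonneg fun _ _ => norm_nonneg _]
          apply Finset.sum_le_sum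
          intro j _
          rw [ofReal_norm, h2 j]
        refine (ENNReal.rpow_le_rpow h1 hp0.le).trans ?_
        have h2 := ENNReal.rpow_sum_le_const_mul_sum_rpow Finset.univ
          (fun j : Fin 3 => ‖f x j - (inner ℝ (A j) x + c j)‖ₑ) hp
        simpa using h2
    _ = (3 : ℝ≥0∞) ^ (p - 1) * ∑ j, ∫⁻ x in Q, ‖f x j - (inner ℝ (A j) x + c j)‖ₑ ^ p := by
        rw [lintegral_const_mul' _ _ (ENNReal.rpow_ne_top_of_nonneg (by linarith) (by simp)),
          lintegral_finsetSum']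
        intro j _
        exact (((hcont j).aemeasurable (isOpen_ocel z s).measurableSet).enorm).pow_const p
    _ ≤ (3 : ℝ≥0∞) ^ (p - 1) * ∑ j : Fin 3, ((8 * 4 ^ p) * ENNReal.ofReal s ^ p *
          ∫⁻ x in Q, ‖Gmat G x - L‖ₑ ^ p) := by
        gcongr with j
        exact hc j
    _ = Caff p * ENNReal.ofReal s ^ p * ∫⁻ x in Q, ‖Gmat G x - L‖ₑ ^ p := by
        rw [Finset.sum_const, Finset.card_univ, Fintype.card_fin, nsmul_eq_mul, Caff]
        push_cast
        ring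

theorem exists_kappa {m : Measure R3} [IsFiniteMeasure m] {D : R3 → R3 →L[ℝ] R3}
    (hD : AEStronglyMeasurable D m) {ε : ℝ≥0∞} (hε : ε ≠ 0) :
    ∃ κ : ℝ, 0 < κ ∧ κ ≤ 1 ∧ m {x | (D x).det ≠ 0 ∧
      ¬ ((∀ v, 2 * κ * ‖v‖ ≤ ‖D x v‖) ∧ ‖D x‖ ≤ (2 * κ)⁻¹)} ≤ ε := by
  set B : ℕ → Set (R3 →L[ℝ] R3) := fun n => {A | A.det ≠ 0 ∧
    ¬ ((∀ v, 2 * (1 / ((n:ℝ) + 1)) * ‖v‖ ≤ ‖A v‖) ∧ ‖A‖ ≤ (2 * (1 / ((n:ℝ) + 1)))⁻¹)} with hB
  have hBm : ∀ n, MeasurableSet (B n) := by
    intro n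
    have h1 : IsClosed {A : R3 →L[ℝ] R3 | A.det = 0} :=
      isClosed_eq (ContinuousLinearMap.continuous_det (𝕜 := ℝ) (E := R3)) continuous_const
    have h2 : IsClosed {A : R3 →L[ℝ] R3 | ∀ v, 2 * (1 / ((n:ℝ) + 1)) * ‖v‖ ≤ ‖A v‖} := by
      have : {A : R3 →L[ℝ] R3 | ∀ v, 2 * (1 / ((n:ℝ) + 1)) * ‖v‖ ≤ ‖A v‖} =
          ⋂ v : R3, {A : R3 →L[ℝ] R3 | 2 * (1 / ((n:ℝ) + 1)) * ‖v‖ ≤ ‖A v‖} := by
        ext A; simp
      rw [this]
      refine isClosed_iInter fun v => isClosed_le continuous_const ?_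
      exact (ContinuousLinearMap.apply ℝ R3 v).continuous.norm
    have h3 : IsClosed {A : R3 →L[ℝ] R3 | ‖A‖ ≤ (2 * (1 / ((n:ℝ) + 1)))⁻¹} :=
      isClosed_le continuous_norm continuous_const
    exact h1.measurableSet.compl.inter ((h2.inter h3).measurableSet.compl)
  have hanti : Antitone B := by
    intro n k hnk A hA
    have hc : (1:ℝ) / ((k:ℝ) + 1) ≤ 1 / ((n:ℝ) + 1) := by
      have : (n:ℝ) ≤ k := by exact_mod_cast hnk
      gcongr
    refine ⟨hA.1, fun h => hA.2 ⟨fun v => ?_, ?_⟩⟩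
    · refine le_trans ?_ (h.1 v)
      gcongr
    · refine h.2.trans ?_
      gcongr
  have hint : ⋂ n, B n = ∅ := by
    rw [eq_empty_iff_forall_notMem]
    intro A hA
    rw [mem_iInter] at hA
    have hdet := (hA 0).1
    have hker : (A : R3 →ₗ[ℝ] R3).ker = ⊥ := by
      have h0 : LinearMap.det (A : R3 →ₗ[ℝ] R3) ≠ 0 := hdet
      have := (LinearMap.equivOfDetNeZero (A : R3 →ₗ[ℝ] R3) h0).injective
      rw [LinearMap.ker_eq_bot]
      exact this
    obtain ⟨K, hK, hKA⟩ := LinearMap.exists_antilipschitzWith (A : R3 →ₗ[ℝ] R3) hker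
    have hK0 : (0:ℝ) < K := by exact_mod_cast hK
    have hlow : ∀ v, ‖v‖ ≤ K * ‖A v‖ := by
      intro v
      have := hKA.le_mul_dist v 0
      simpa using this
    obtain ⟨n, hn⟩ := exists_nat_gt (max (2 * (K:ℝ)) (2 * ‖A‖))
    have hn1 : 2 * (K:ℝ) < n := (le_max_left _ _).trans_lt hn
    have hn2 : 2 * ‖A‖ < n := (le_max_right _ _).trans_lt hn
    refine (hA n).2 ⟨fun v => ?_, ?_⟩
    · have h1 := hlow v
      have h2 : (0:ℝ) < (n:ℝ) + 1 := by positivity
      rw [mul_one_div, div_mul_eq_mul_div, div_le_iff₀ h2]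
      nlinarith [norm_nonneg (A v), norm_nonneg v]
    · rw [mul_one_div, inv_div, le_div_iff₀ (by norm_num)]
      nlinarith
  have h1 : Tendsto (fun n => m (D ⁻¹' B n)) atTop (𝓝 (m (⋂ n, D ⁻¹' B n))) := by
    apply tendsto_measure_iInter_atTop
    · intro n
      exact hD.aemeasurable.nullMeasurable (hBm n)
    · intro n k hnk x hx
      exact hanti hnk hx
    · exact ⟨0, measure_ne_top _ _⟩
  have h2 : ⋂ n, D ⁻¹' B n = ∅ := by
    rw [← preimage_iInter, hint, preimage_empty]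
  rw [h2, measure_empty] at h1
  have h3 := (ENNReal.tendsto_nhds_zero.1 h1) ε (pos_iff_ne_zero.2 hε)
  obtain ⟨n, hn⟩ := h3.exists
  refine ⟨1 / ((n:ℝ) + 1), by positivity, ?_, hn⟩
  rw [div_le_one (by positivity)]
  linarith [Nat.cast_nonneg (α := ℝ) n]

end

end Crest.Agent.R96.Coarse_538
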