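import Mathlib
import Crest.Agent.R96.Intr14_538
import Crest.Agent.R96.Intr13_538
import Crest.Agent.R96.Intr12_538

-- ▼ part R96/Intr15_538
section

set_option autoImplicit false
set_option linter.unusedSectionVars false
set_option maxHeartbeats 400000

open MeasureTheory Set Filter Metric Module
open scoped ENNReal NNReal Topology

namespace Crest.Agent.R96.Coarse_538

open Crest.AnalysisR.VecCalc3 Crest.AnalysisR.Sobolev
open Crest.Agent.R96.Acl_392 Crest.Agent.R96.Lu_538 Crest.Agent.R96.Intr_538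
open Crest.Agent.R96.Poi_392

noncomputable section

/-- volume of the union of few cubes -/
theorem vol_bad_le {s θ ε₁ c : ℝ} (hs : 0 < s) (hθ : 0 < θ) (hc : 8 * ε₁ / θ ≤ c)
    {a : R3} (B : Finset (Fin 3 → ℤ)) {I : (Fin 3 → ℤ) → ℝ≥0∞} (hε₁ : 0 ≤ ε₁)
    (h1 : ∀ k ∈ B, ENNReal.ofReal (θ * s ^ 3) ≤ I k) (h2 : ∑ k ∈ B, I k ≤ ENNReal.ofReal ε₁) :
    volume (⋃ k ∈ B, cel Cb (vt (2 * s) a k) s) ≤ ENNReal.ofReal c := by
  have h3 : (B.card : ℝ≥0∞) * ENNReal.ofReal (θ * s ^ 3) ≤ ENNReal.ofReal ε₁ := by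
    calc (B.card : ℝ≥0∞) * ENNReal.ofReal (θ * s ^ 3)
        = ∑ k ∈ B, ENNReal.ofReal (θ * s ^ 3) := by rw [Finset.sum_const, nsmul_eq_mul]
      _ ≤ ∑ k ∈ B, I k := Finset.sum_le_sum h1
      _ ≤ _ := h2
  calc volume (⋃ k ∈ B, cel Cb (vt (2 * s) a k) s)
      ≤ ∑ k ∈ B, volume (cel Cb (vt (2 * s) a k) s) := measure_biUnion_finset_le _ _
    _ = (B.card : ℝ≥0∞) * ENNReal.ofReal ((2 * s) ^ 3) := by
        simp only [vol_cel hs, Finset.sum_const, nsmul_eq_mul]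
    _ = ((B.card : ℝ≥0∞) * ENNReal.ofReal (θ * s ^ 3)) * ENNReal.ofReal (8 / θ) := by
        rw [mul_assoc, ← ENNReal.ofReal_mul (by positivity)]
        congr 2
        field_simp
        ring
    _ ≤ ENNReal.ofReal ε₁ * ENNReal.ofReal (8 / θ) := by gcongr
    _ = ENNReal.ofReal (8 * ε₁ / θ) := by
        rw [← ENNReal.ofReal_mul hε₁]
        congr 1
        ring
    _ ≤ ENNReal.ofReal c := ENNReal.ofReal_le_ofReal hc

theorem vol_small_le {Ω : Set R3} (hΩf : volume Ω ≠ ∞) {s e c : ℝ} (hs : 0 < s) (he : 0 ≤ e)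
    (hc : e * (volume Ω).toReal ≤ c) {a : R3} (T : Finset (Fin 3 → ℤ))
    (hT : ∀ k ∈ T, cel Cb (vt (2 * s) a k) s ⊆ Ω) {E : (Fin 3 → ℤ) → Set R3}
    (hE : ∀ k ∈ T, volume (E k) ≤ ENNReal.ofReal (e * s ^ 3)) :
    volume (⋃ k ∈ T, E k) ≤ ENNReal.ofReal c := by
  have hcard := card_inside hΩf hs a T hT
  set V := (volume Ω).toReal
  calc volume (⋃ k ∈ T, E k) ≤ ∑ k ∈ T, volume (E k) := measure_biUnion_finset_le _ _
    _ ≤ ∑ k ∈ T, ENNReal.ofReal (e * s ^ 3) := Finset.sum_le_sum hE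
    _ = ENNReal.ofReal (T.card * (e * s ^ 3)) := by
        rw [Finset.sum_const, nsmul_eq_mul, ENNReal.ofReal_mul (Nat.cast_nonneg _),
          ENNReal.ofReal_natCast]
    _ ≤ ENNReal.ofReal c := by
        apply ENNReal.ofReal_le_ofReal
        have h1 : (T.card : ℝ) * s ^ 3 ≤ V := by
          have h2 : (2 * s) ^ 3 = 8 * s ^ 3 := by ring
          rw [h2] at hcard
          have h3 : 0 ≤ (T.card : ℝ) * s ^ 3 := by positivity
          nlinarith
        calc (T.card : ℝ) * (e * s ^ 3) = e * (T.card * s ^ 3) := by ring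
          _ ≤ e * V := by gcongr
          _ ≤ c := hc

/-- the covering of `{det ≠ 0}` at a fixed scale -/
theorem cover_step {p : ℝ} (hp : 1 ≤ p) {Ω : Set R3} (hΩ : IsOpen Ω)
    (hΩb : Bornology.IsBounded Ω) {f : R3 → R3} {G : Fin 3 → R3 → R3}
    (hf : ContinuousOn f Ω) (hG : ∀ j, HasWeakGradOn Ω (fun x => f x j) (G j))
    (hGm : AEStronglyMeasurable (Gmat G) (volume.restrict Ω))
    {κ e s ρ θ ε₁ c : ℝ} (heκ : e ≤ κ) (heκ' : e ≤ (2 * κ)⁻¹) (he0 : 0 < e) (hs : 0 < s)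
    (hρ : 4 * s ≤ ρ) (hθ0 : 0 < θ) (hε₁ : 0 ≤ ε₁) (hc : 8 * ε₁ / θ ≤ c)
    (hc' : e * (volume Ω).toReal ≤ c)
    (hθ1 : θ ≤ e ^ p * (e / 2)) (hθ2 : Caff p * ENNReal.ofReal θ ≤ ENNReal.ofReal (e ^ p * (e / 2)))
    {K₀ : Set R3} (hρΩ : cthickening ρ K₀ ⊆ Ω) {a : R3}
    (hsum : ∀ T : Finset (Fin 3 → ℤ), (∀ k ∈ T, cel Cb (vt (2 * s) a k) s ⊆ Ω) →
      ∑ k ∈ T, ∫⁻ x in cel Cb (vt (2 * s) a k) s, ‖Gmat G x - Lav Ω G s (vt (2 * s) a k)‖ₑ ^ p ≤
        ENNReal.ofReal ε₁) :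
    ∃ (Q : Finset (Fin 3 → ℤ)) (b : (Fin 3 → ℤ) → R3) (S : (Fin 3 → ℤ) → Set R3),
      (∀ k ∈ Q, GC Ω volume f (Gmat G) Cb κ e s (vt (2 * s) a k) (b k)
        (Lav Ω G s (vt (2 * s) a k)) (S k) ∧ (S k ∩ K₀).Nonempty) ∧
      (∀ k ∈ Q, ∫⁻ x in cel Cb (vt (2 * s) a k) s,
        ‖f x - (b k + Lav Ω G s (vt (2 * s) a k) (x - vt (2 * s) a k))‖ₑ ^ p ≤
        Caff p * ENNReal.ofReal s ^ p * ∫⁻ x in cel Cb (vt (2 * s) a k) s,
          ‖Gmat G x - Lav Ω G s (vt (2 * s) a k)‖ₑ ^ p) ∧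
      volume ((Ω ∩ {x | (Gmat G x).det ≠ 0}) \ ⋃ k ∈ Q, cel Cb (vt (2 * s) a k) s) ≤
        (volume (Ω \ K₀) + ENNReal.ofReal c) + (ENNReal.ofReal c + volume (Ω ∩ NN G κ)) := by
  classical
  have hp0 : 0 < p := by linarith
  have hΩf : volume Ω ≠ ∞ := hΩb.measure_lt_top.ne
  set T := (finite_inside hΩb hs a).toFinset with hT
  have hTΩ : ∀ k ∈ T, cel Cb (vt (2 * s) a k) s ⊆ Ω := fun k hk =>
    (Set.Finite.mem_toFinset _).1 hk
  have hTI := hsum T hTΩ
  have hb : ∀ k, ∃ b : R3, cel Cb (vt (2 * s) a k) s ⊆ Ω →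
      ∫⁻ x in cel Cb (vt (2 * s) a k) s,
        ‖f x - (b + Lav Ω G s (vt (2 * s) a k) (x - vt (2 * s) a k))‖ₑ ^ p ≤
        Caff p * ENNReal.ofReal s ^ p * ∫⁻ x in cel Cb (vt (2 * s) a k) s,
          ‖Gmat G x - Lav Ω G s (vt (2 * s) a k)‖ₑ ^ p := by
    intro k
    by_cases hk : cel Cb (vt (2 * s) a k) s ⊆ Ω
    · obtain ⟨b, hb⟩ := exists_aff hΩ hG hf hp hs hk (Lav Ω G s (vt (2 * s) a k))
      exact ⟨b, fun _ => hb⟩
    · exact ⟨0, fun h => absurd h hk⟩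
  choose b hb using hb
  obtain ⟨Q, hQ⟩ : ∃ Q : Finset (Fin 3 → ℤ), ∀ k, k ∈ Q ↔ k ∈ T ∧
      ∃ S, GC Ω volume f (Gmat G) Cb κ e s (vt (2 * s) a k) (b k)
        (Lav Ω G s (vt (2 * s) a k)) S ∧ (S ∩ K₀).Nonempty :=
    ⟨T.filter fun k => ∃ S, GC Ω volume f (Gmat G) Cb κ e s (vt (2 * s) a k) (b k)
        (Lav Ω G s (vt (2 * s) a k)) S ∧ (S ∩ K₀).Nonempty, fun k => Finset.mem_filter⟩
  have hS : ∀ k, ∃ S, k ∈ Q → GC Ω volume f (Gmat G) Cb κ e s (vt (2 * s) a k) (b k)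
      (Lav Ω G s (vt (2 * s) a k)) S ∧ (S ∩ K₀).Nonempty := by
    intro k
    by_cases hk : k ∈ Q
    · obtain ⟨S, hS⟩ := ((hQ k).1 hk).2
      exact ⟨S, fun _ => hS⟩
    · exact ⟨∅, fun h => absurd h hk⟩
  choose S hS using hS
  refine ⟨Q, b, S, hS, fun k hk => hb k (hTΩ k ((hQ k).1 hk).1), ?_⟩
  set B1 := T.filter fun k => ENNReal.ofReal (θ * s ^ 3) <
    ∫⁻ x in cel Cb (vt (2 * s) a k) s, ‖Gmat G x - Lav Ω G s (vt (2 * s) a k)‖ₑ ^ p with hB1
  have hvB1 : volume (⋃ k ∈ B1, cel Cb (vt (2 * s) a k) s) ≤ ENNReal.ofReal c := by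
    apply vol_bad_le hs hθ0 hc B1 hε₁
    · intro k hk
      exact (Finset.mem_filter.1 hk).2.le
    · exact (Finset.sum_le_sum_of_subset (Finset.filter_subset _ _)).trans hTI
  have key : ∀ k, ∃ E : Set R3, k ∈ T → k ∉ B1 → k ∉ Q →
      volume E ≤ ENNReal.ofReal (e * s ^ 3) ∧
        cel Cb (vt (2 * s) a k) s ∩ K₀ ∩ {x | (Gmat G x).det ≠ 0} ⊆ E ∪ (Ω ∩ NN G κ) := by
    intro k
    by_cases hkT : k ∈ T
    swap
    · exact ⟨∅, fun h => absurd h hkT⟩
    by_cases hkB : k ∈ B1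
    · exact ⟨∅, fun _ h => absurd hkB h⟩
    by_cases hkQ : k ∈ Q
    · exact ⟨∅, fun _ _ h => absurd hkQ h⟩
    have hIk : ∫⁻ x in cel Cb (vt (2 * s) a k) s, ‖Gmat G x - Lav Ω G s (vt (2 * s) a k)‖ₑ ^ p ≤
        ENNReal.ofReal (θ * s ^ 3) := by
      by_contra h
      exact hkB (Finset.mem_filter.2 ⟨hkT, not_le.1 h⟩)
    have hsub := hTΩ k hkT
    have hJ : ∫⁻ x in cel Cb (vt (2 * s) a k) s,
        ‖f x - (b k + Lav Ω G s (vt (2 * s) a k) (x - vt (2 * s) a k))‖ₑ ^ p ≤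
        ENNReal.ofReal ((e * s) ^ p * (e / 2 * s ^ 3)) := by
      refine (hb k hsub).trans ?_
      calc Caff p * ENNReal.ofReal s ^ p * ∫⁻ x in cel Cb (vt (2 * s) a k) s,
            ‖Gmat G x - Lav Ω G s (vt (2 * s) a k)‖ₑ ^ p
          ≤ Caff p * ENNReal.ofReal s ^ p * ENNReal.ofReal (θ * s ^ 3) := by gcongr
        _ = (Caff p * ENNReal.ofReal θ) * ENNReal.ofReal (s ^ p * s ^ 3) := by
            rw [ENNReal.ofReal_rpow_of_pos hs, ENNReal.ofReal_mul hθ0.le,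
              ENNReal.ofReal_mul (by positivity : 0 ≤ s ^ p)]
            ring
        _ ≤ ENNReal.ofReal (e ^ p * (e / 2)) * ENNReal.ofReal (s ^ p * s ^ 3) := by gcongr
        _ = ENNReal.ofReal ((e * s) ^ p * (e / 2 * s ^ 3)) := by
            rw [← ENNReal.ofReal_mul (by positivity), Real.mul_rpow he0.le hs.le]
            congr 1
            ring
    have hI : ∫⁻ x in cel Cb (vt (2 * s) a k) s,
        ‖Gmat G x - Lav Ω G s (vt (2 * s) a k)‖ₑ ^ p ≤
        ENNReal.ofReal (e ^ p * (e / 2 * s ^ 3)) := by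
      refine hIk.trans (ENNReal.ofReal_le_ofReal ?_)
      calc θ * s ^ 3 ≤ e ^ p * (e / 2) * s ^ 3 := by gcongr
        _ = _ := by ring
    rcases cube_dich hp0 hf hGm heκ heκ' he0 hs hsub hJ hI K₀ with h | ⟨E, hE1, hE2⟩
    · exact absurd ((hQ k).2 ⟨hkT, h⟩) hkQ
    · exact ⟨E, fun _ _ _ => ⟨hE1, hE2⟩⟩
  choose E hE using key
  set T' := (T.filter fun k => k ∉ B1).filter fun k => k ∉ Q with hT'
  have hT'm : ∀ k, k ∈ T' ↔ (k ∈ T ∧ k ∉ B1) ∧ k ∉ Q := by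
    intro k
    rw [hT', Finset.mem_filter, Finset.mem_filter]
  have hvE : volume (⋃ k ∈ T', E k) ≤ ENNReal.ofReal c := by
    apply vol_small_le hΩf hs he0.le hc' T'
    · intro k hk
      exact hTΩ k ((hT'm k).1 hk).1.1
    · intro k hk
      have h := (hT'm k).1 hk
      exact (hE k h.1.1 h.1.2 h.2).1
  have hcov : (Ω ∩ {x | (Gmat G x).det ≠ 0}) \ ⋃ k ∈ Q, cel Cb (vt (2 * s) a k) s ⊆
      ((Ω \ K₀) ∪ (⋃ k ∈ B1, cel Cb (vt (2 * s) a k) s)) ∪
        ((⋃ k ∈ T', E k) ∪ (Ω ∩ NN G κ)) := by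
    rintro x ⟨⟨hxΩ, hxd⟩, hxQ⟩
    by_cases hxK : x ∈ K₀
    swap
    · left; left; exact ⟨hxΩ, hxK⟩
    obtain ⟨k, hk⟩ := exists_hcel hs a x
    have hxk : x ∈ cel Cb (vt (2 * s) a k) s := hcel_sub hs hk
    have hkT : k ∈ T := by
      rw [hT, Set.Finite.mem_toFinset]
      intro y hy
      apply hρΩ
      exact mem_cthickening_of_dist_le y x ρ K₀ hxK ((dist_cel hs hy hxk).trans hρ)
    have hkQ : k ∉ Q := fun h => hxQ (mem_iUnion₂.2 ⟨k, h, hxk⟩)
    by_cases hkB : k ∈ B1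
    · left; right; exact mem_iUnion₂.2 ⟨k, hkB, hxk⟩
    · right
      rcases (hE k hkT hkB hkQ).2 ⟨⟨hxk, hxK⟩, hxd⟩ with h | h
      · left
        exact mem_iUnion₂.2 ⟨k, (hT'm k).2 ⟨⟨hkT, hkB⟩, hkQ⟩, h⟩
      · right; exact h
  refine (measure_mono hcov).trans ((measure_union_le _ _).trans ?_)
  refine add_le_add ((measure_union_le _ _).trans ?_) ((measure_union_le _ _).trans ?_)
  · gcongr
  · gcongr

theorem good_cubes {p : ℝ} (hp : 1 ≤ p) {Ω Λ : Set R3} (hΩ : IsOpen Ω)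
    (hΩb : Bornology.IsBounded Ω) (hΛ : IsOpen Λ) {f : R3 → R3} {G : Fin 3 → R3 → R3}
    (hf : ContinuousOn f Ω) (hfΛ : MapsTo f Ω Λ)
    (hG : ∀ j, HasWeakGradOn Ω (fun x => f x j) (G j))
    (hGp : ∀ j, MemLp (G j) (ENNReal.ofReal p) (volume.restrict Ω)) {ε : ℝ} (hε : 0 < ε) :
    ∃ κ : ℝ, 0 < κ ∧ κ ≤ 1 ∧ ∃ K ⊆ Ω, IsCompact K ∧ ∃ K' ⊆ Λ, IsCompact K' ∧
      ∀ e : ℝ, 0 < e → ∀ δ : ℝ, 0 < δ → ∃ s₀ : ℝ, 0 < s₀ ∧ ∀ s : ℝ, 0 < s → s < s₀ → ∀ a : R3,
        ∃ (Q : Finset (Fin 3 → ℤ)) (b : (Fin 3 → ℤ) → R3) (L : (Fin 3 → ℤ) → R3 →L[ℝ] R3)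
          (S : (Fin 3 → ℤ) → Set R3),
          (∀ k ∈ Q, GC Ω volume f (Gmat G) Cb κ e s (vt (2 * s) a k) (b k) (L k) (S k)) ∧
          (∀ k ∈ Q, cel Cb (vt (2 * s) a k) s ⊆ K) ∧ (∀ k ∈ Q, par Cb (L k) (b k) s ⊆ K') ∧
          ∑ k ∈ Q, ∫⁻ x in cel Cb (vt (2 * s) a k) s, ‖Gmat G x - L k‖ₑ ^ p ≤
            ENNReal.ofReal δ ∧
          ∑ k ∈ Q, ∫⁻ x in cel Cb (vt (2 * s) a k) s,
            ‖f x - (b k + L k (x - vt (2 * s) a k))‖ₑ ^ p ≤ ENNReal.ofReal (δ * s ^ p) ∧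
          volume ((Ω ∩ {x | (Gmat G x).det ≠ 0}) \ ⋃ k ∈ Q, cel Cb (vt (2 * s) a k) s) ≤
            ENNReal.ofReal ε := by
  have hp0 : 0 < p := by linarith
  have hΩf : volume Ω ≠ ∞ := hΩb.measure_lt_top.ne
  have hfin : IsFiniteMeasure (volume.restrict Ω) := ⟨by
    rw [Measure.restrict_apply_univ]; exact hΩb.measure_lt_top⟩
  have hGm : AEStronglyMeasurable (Gmat G) (volume.restrict Ω) := aesm_Gmat fun j => (hGp j).1
  set V := (volume Ω).toReal with hV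
  have hV0 : 0 ≤ V := ENNReal.toReal_nonneg
  obtain ⟨κ, hκ, hκ1, hN⟩ := exists_kappa hGm (ε := ENNReal.ofReal (ε / 5)) (by
    rw [Ne, ENNReal.ofReal_eq_zero, not_le]; positivity)
  have hN' : volume (Ω ∩ NN G κ) ≤ ENNReal.ofReal (ε / 5) := by
    rw [inter_comm, ← Measure.restrict_apply₀' hΩ.measurableSet.nullMeasurableSet]
    exact hN
  obtain ⟨K₀, hK₀Ω, hK₀, hK₀v⟩ := hΩ.measurableSet.exists_isCompact_sdiff_lt hΩf
    (ε := ENNReal.ofReal (ε / 5)) (by rw [Ne, ENNReal.ofReal_eq_zero, not_le]; positivity)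
  obtain ⟨ρ, hρ, hρΩ⟩ := hK₀.exists_cthickening_subset_open hΩ hK₀Ω
  have hfK : IsCompact (f '' K₀) := hK₀.image_of_continuousOn (hf.mono hK₀Ω)
  obtain ⟨ρ', hρ', hρ'Λ⟩ := hfK.exists_cthickening_subset_open hΛ (by
    rintro _ ⟨x, hx, rfl⟩; exact hfΛ (hK₀Ω hx))
  refine ⟨κ, hκ, hκ1, cthickening ρ K₀, hρΩ, hK₀.cthickening, cthickening ρ' (f '' K₀), hρ'Λ,
    hfK.cthickening, ?_⟩
  intro e₁ he₁ δ hδ
  obtain ⟨e, he0, hee1, heκ, heκ', heV⟩ : ∃ e : ℝ, 0 < e ∧ e ≤ e₁ ∧ e ≤ κ ∧ e ≤ (2 * κ)⁻¹ ∧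
      e * V ≤ ε / 5 := by
    refine ⟨min (min e₁ κ) (min ((2 * κ)⁻¹) (ε / (5 * (V + 1)))), by positivity,
      (min_le_left _ _).trans (min_le_left _ _), (min_le_left _ _).trans (min_le_right _ _),
      (min_le_right _ _).trans (min_le_left _ _), ?_⟩
    have h1 : min (min e₁ κ) (min ((2 * κ)⁻¹) (ε / (5 * (V + 1)))) ≤ ε / (5 * (V + 1)) :=
      (min_le_right _ _).trans (min_le_right _ _)
    calc min (min e₁ κ) (min ((2 * κ)⁻¹) (ε / (5 * (V + 1)))) * V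
        ≤ ε / (5 * (V + 1)) * (V + 1) := by
          have : V ≤ V + 1 := by linarith
          gcongr
      _ = ε / 5 := by field_simp
  obtain ⟨Cp, hCp1, hCpC⟩ : ∃ Cp : ℝ, 1 ≤ Cp ∧ Caff p ≤ ENNReal.ofReal Cp := by
    refine ⟨(Caff p).toReal + 1, ?_, ?_⟩
    · have : 0 ≤ (Caff p).toReal := ENNReal.toReal_nonneg
      linarith
    · rw [← ENNReal.ofReal_toReal (Caff_ne_top hp)]
      exact ENNReal.ofReal_le_ofReal (by simp)
  have hCp0 : 0 < Cp := by linarith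
  obtain ⟨θ, hθ0, hθ1, hθ2⟩ : ∃ θ : ℝ, 0 < θ ∧ θ ≤ e ^ p * (e / 2) ∧
      Caff p * ENNReal.ofReal θ ≤ ENNReal.ofReal (e ^ p * (e / 2)) := by
    refine ⟨e ^ p * (e / 2) / Cp, by positivity, div_le_self (by positivity) hCp1, ?_⟩
    calc Caff p * ENNReal.ofReal (e ^ p * (e / 2) / Cp)
        ≤ ENNReal.ofReal Cp * ENNReal.ofReal (e ^ p * (e / 2) / Cp) := by gcongr
      _ = ENNReal.ofReal (e ^ p * (e / 2)) := by
          rw [← ENNReal.ofReal_mul hCp0.le]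
          congr 1
          field_simp
  obtain ⟨ε₁, hε₁0, hε₁δ, hε₁θ⟩ : ∃ ε₁ : ℝ, 0 < ε₁ ∧ ε₁ ≤ δ / Cp ∧ 8 * ε₁ / θ ≤ ε / 5 := by
    refine ⟨min (δ / Cp) (θ * ε / 40), by positivity, min_le_left _ _, ?_⟩
    rw [div_le_iff₀ hθ0]
    have := min_le_right (δ / Cp) (θ * ε / 40)
    linarith
  obtain ⟨r, hr, hcell⟩ := cell_sum hp hΩ hGp hε₁0
  refine ⟨min (min (r / 4) (ρ / 4)) (ρ' / (2 * 2 * κ⁻¹ + e)), by positivity, ?_⟩
  intro s hs hss a
  have hs1 : 4 * s ≤ r := by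
    have := hss.le.trans ((min_le_left _ _).trans (min_le_left _ _)); linarith
  have hs2 : 4 * s ≤ ρ := by
    have := hss.le.trans ((min_le_left _ _).trans (min_le_right _ _)); linarith
  have hs3 : 2 * 2 * κ⁻¹ * s + e * s ≤ ρ' := by
    have h1 := hss.le.trans (min_le_right _ _)
    rw [le_div_iff₀ (by positivity)] at h1
    linarith
  obtain ⟨Q, b, S, hQ1, hQ2, hQ3⟩ := cover_step hp hΩ hΩb hf hG hGm heκ heκ' he0 hs hs2 hθ0
    hε₁0.le hε₁θ heV hθ1 hθ2 hρΩ (a := a) (hcell s hs hs1 a)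
  have hQΩ : ∀ k ∈ Q, cel Cb (vt (2 * s) a k) s ⊆ Ω := fun k hk => (hQ1 k hk).1.sub
  refine ⟨Q, b, fun k => Lav Ω G s (vt (2 * s) a k), S,
    fun k hk => GC.mono_e hs hee1 (hQ1 k hk).1, ?_, ?_, ?_, ?_, ?_⟩
  · intro k hk x hx
    obtain ⟨hgc, y, hyS, hyK⟩ := hQ1 k hk
    refine mem_cthickening_of_dist_le x y ρ K₀ hyK ?_
    exact (dist_cel hs hx (hgc.sS hyS)).trans hs2
  · intro k hk
    obtain ⟨hgc, y, hyS, hyK⟩ := hQ1 k hk
    refine par_sub (R := 2) hs Cb_sub hgc hyS ?_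
    intro w hw
    refine mem_cthickening_of_dist_le w (f y) ρ' _ ⟨y, hyK, rfl⟩ ?_
    exact (mem_closedBall.1 hw).trans hs3
  · refine (hcell s hs hs1 a Q hQΩ).trans (ENNReal.ofReal_le_ofReal ?_)
    exact hε₁δ.trans (div_le_self hδ.le hCp1)
  · calc ∑ k ∈ Q, ∫⁻ x in cel Cb (vt (2 * s) a k) s,
          ‖f x - (b k + Lav Ω G s (vt (2 * s) a k) (x - vt (2 * s) a k))‖ₑ ^ p
        ≤ ∑ k ∈ Q, Caff p * ENNReal.ofReal s ^ p * ∫⁻ x in cel Cb (vt (2 * s) a k) s,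
          ‖Gmat G x - Lav Ω G s (vt (2 * s) a k)‖ₑ ^ p := Finset.sum_le_sum hQ2
      _ ≤ ENNReal.ofReal Cp * ENNReal.ofReal s ^ p * ENNReal.ofReal (δ / Cp) := by
          rw [← Finset.mul_sum]
          gcongr
          exact (hcell s hs hs1 a Q hQΩ).trans (ENNReal.ofReal_le_ofReal hε₁δ)
      _ = ENNReal.ofReal (δ * s ^ p) := by
          rw [ENNReal.ofReal_rpow_of_pos hs, ← ENNReal.ofReal_mul hCp0.le,
            ← ENNReal.ofReal_mul (by positivity)]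
          congr 1
          field_simp
  · refine hQ3.trans ?_
    calc (volume (Ω \ K₀) + ENNReal.ofReal (ε / 5)) +
          (ENNReal.ofReal (ε / 5) + volume (Ω ∩ NN G κ))
        ≤ (ENNReal.ofReal (ε / 5) + ENNReal.ofReal (ε / 5)) +
          (ENNReal.ofReal (ε / 5) + ENNReal.ofReal (ε / 5)) := by
          gcongr
      _ ≤ ENNReal.ofReal ε := by
          rw [← ENNReal.ofReal_add (by positivity) (by positivity),
            ← ENNReal.ofReal_add (by positivity) (by positivity)]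
          apply ENNReal.ofReal_le_ofReal
          linarith

end

end Crest.Agent.R96.Coarse_538
end

-- ▼ part R96/Intr9_538
section

set_option autoImplicit false
set_option linter.unusedSectionVars false

open MeasureTheory Set Filter Metric
open scoped ENNReal NNReal Topology

namespace Crest.Agent.R96.Intr_538

noncomputable section

/-- measure of the image of a compact set under a function with an integrable upper gradient -/
theorem volume_image_le {u : ℝ → ℝ} {h : ℝ → ℝ≥0∞}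
    (hu : ∀ s t, 0 ≤ s → s ≤ t → t ≤ 1 → edist (u s) (u t) ≤ ∫⁻ τ in Ioc s t, h τ)
    (hfin : ∫⁻ τ in Ioc (0:ℝ) 1, h τ ≠ ∞) {K : Set ℝ} (hK : IsCompact K) (hK1 : K ⊆ Icc 0 1) :
    volume (u '' K) ≤ ∫⁻ τ in Ioc (0:ℝ) 1 ∩ K, h τ := by
  set ν : Measure ℝ := (volume.restrict (Ioc (0:ℝ) 1)).withDensity h with hν
  have hνf : IsFiniteMeasure ν := isFiniteMeasure_withDensity hfin
  have hνA : ∀ A : Set ℝ, MeasurableSet A → ν A = ∫⁻ τ in Ioc (0:ℝ) 1 ∩ A, h τ := by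
    intro A hA
    rw [hν, withDensity_apply _ hA, Measure.restrict_restrict hA, inter_comm]
  rw [← hνA K hK.isClosed.measurableSet]
  refine ENNReal.le_of_forall_pos_le_add fun ε hε _ => ?_
  obtain ⟨O, hKO, hO, hνO⟩ := K.exists_isOpen_le_add ν (ε := (ε : ℝ≥0∞)) (by positivity)
  refine le_trans ?_ hνO
  obtain ⟨δ, hδ, hδO⟩ := hK.exists_thickening_subset_open hO hKO
  obtain ⟨n, hn⟩ := exists_nat_one_div_lt hδ
  set N : ℕ := n + 1 with hN
  have hN0 : (0:ℝ) < N := by positivity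
  have hNδ : 1 / (N:ℝ) < δ := by rw [hN]; push_cast; exact hn
  classical
  set I : Finset ℕ := (Finset.range N).filter fun k => (Icc ((k:ℝ) / N) ((k+1:ℝ) / N) ∩ K).Nonempty
    with hI
  have hcov : u '' K ⊆ ⋃ k ∈ I, u '' Icc ((k:ℝ) / N) ((k+1:ℝ) / N) := by
    rintro _ ⟨x, hx, rfl⟩
    obtain ⟨hx0, hx1⟩ := hK1 hx
    -- index
    obtain ⟨k, hkN, hk1, hk2⟩ : ∃ k : ℕ, k < N ∧ (k:ℝ) / N ≤ x ∧ x ≤ (k + 1:ℝ) / N := by
      rcases eq_or_lt_of_le hx1 with h1 | h1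
      · refine ⟨n, by omega, ?_, ?_⟩
        · rw [h1, div_le_one hN0, hN]; push_cast; linarith
        · rw [h1, le_div_iff₀ hN0, hN]; push_cast; linarith
      · refine ⟨⌊x * N⌋₊, ?_, ?_, ?_⟩
        · rw [Nat.floor_lt (by positivity)]
          calc x * N < 1 * N := by gcongr
            _ = N := one_mul _
        · rw [div_le_iff₀ hN0]
          exact Nat.floor_le (by positivity)
        · rw [le_div_iff₀ hN0]
          exact (Nat.lt_floor_add_one _).le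
    refine mem_iUnion₂.2 ⟨k, ?_, mem_image_of_mem u ⟨hk1, hk2⟩⟩
    rw [hI, Finset.mem_filter, Finset.mem_range]
    exact ⟨hkN, x, ⟨hk1, hk2⟩, hx⟩
  have hbd : ∀ k ∈ I, volume (u '' Icc ((k:ℝ) / N) ((k+1:ℝ) / N)) ≤
      ν (Ioc ((k:ℝ) / N) ((k+1:ℝ) / N)) := by
    intro k hk
    have hkN : k < N := Finset.mem_range.1 (Finset.mem_filter.1 hk).1
    have hk1 : ((k:ℝ) + 1) / N ≤ 1 := by
      rw [div_le_one hN0]
      exact_mod_cast hkN
    have hk0 : (0:ℝ) ≤ (k:ℝ) / N := by positivity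
    refine (Real.volume_le_diam _).trans (ediam_le ?_)
    rintro _ ⟨s, hs, rfl⟩ _ ⟨t, ht, rfl⟩
    have key : ∀ {s t : ℝ}, s ∈ Icc ((k:ℝ) / N) ((k+1:ℝ) / N) →
        t ∈ Icc ((k:ℝ) / N) ((k+1:ℝ) / N) → s ≤ t →
        edist (u s) (u t) ≤ ν (Ioc ((k:ℝ) / N) ((k+1:ℝ) / N)) := by
      intro s t hs ht hst
      refine (hu s t (hk0.trans hs.1) hst (ht.2.trans hk1)).trans ?_
      rw [hνA _ measurableSet_Ioc]
      apply lintegral_mono_set
      intro τ hτ
      exact ⟨⟨hk0.trans_lt (hs.1.trans_lt hτ.1), hτ.2.trans (ht.2.trans hk1)⟩,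
        hs.1.trans_lt hτ.1, hτ.2.trans ht.2⟩
    rcases le_total s t with h1 | h1
    · exact key hs ht h1
    · rw [edist_comm]; exact key ht hs h1
  calc volume (u '' K) ≤ volume (⋃ k ∈ I, u '' Icc ((k:ℝ) / N) ((k+1:ℝ) / N)) :=
        measure_mono hcov
    _ ≤ ∑ k ∈ I, volume (u '' Icc ((k:ℝ) / N) ((k+1:ℝ) / N)) := measure_biUnion_finset_le _ _
    _ ≤ ∑ k ∈ I, ν (Ioc ((k:ℝ) / N) ((k+1:ℝ) / N)) := Finset.sum_le_sum hbd
    _ = ν (⋃ k ∈ I, Ioc ((k:ℝ) / N) ((k+1:ℝ) / N)) := by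
        rw [measure_biUnion_finset]
        · intro i _ j _ hij
          rw [Function.onFun, Set.disjoint_left]
          intro τ h1 h2
          apply hij
          have h3 : ∀ {i j : ℕ}, τ ∈ Ioc ((i:ℝ) / N) ((i+1:ℝ) / N) →
              τ ∈ Ioc ((j:ℝ) / N) ((j+1:ℝ) / N) → i ≤ j := by
            intro i j h1 h2
            have h4 : (i:ℝ) / N < (j + 1:ℝ) / N := h1.1.trans_le h2.2
            rw [div_lt_div_iff_of_pos_right hN0] at h4
            have h5 : i < j + 1 := by exact_mod_cast h4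
            omega
          exact le_antisymm (h3 h1 h2) (h3 h2 h1)
        · exact fun i _ => measurableSet_Ioc
    _ ≤ ν O := by
        apply measure_mono
        apply iUnion₂_subset
        intro k hk τ hτ
        apply hδO
        obtain ⟨-, y, hy, hyK⟩ := Finset.mem_filter.1 hk
        rw [mem_thickening_iff]
        refine ⟨y, hyK, lt_of_le_of_lt ?_ hNδ⟩
        rw [Real.dist_eq, abs_le]
        have h6 : ((k:ℝ) + 1) / N = k / N + 1 / N := by ring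
        have h7 := hτ.1
        have h8 := hτ.2
        have h9 := hy.1
        have h10 := hy.2
        constructor <;> linarith


end

end Crest.Agent.R96.Intr_538
end

-- ▼ part R96/Intr16_538
section

set_option autoImplicit false
set_option linter.unusedSectionVars false
set_option maxHeartbeats 400000

open MeasureTheory Set Filter Metric
open scoped ENNReal NNReal Topology

namespace Crest.Agent.R96.Intr_538

noncomputable section

theorem path_lemma₃ {E F : Type*} [NormedAddCommGroup E] [NormedSpace ℝ E] [PseudoMetricSpace F]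
    {ι : Type*} [Countable ι] (x v : ι → E) {f : E → F} {g : E → ℝ≥0∞} {P P' : Set F}
    {Z U : Set E} {ρ : ℝ}
    (hρ : 0 < ρ) (hP : IsClosed P) (hball : ∀ y ∈ P', ball y ρ ⊆ P)
    (hU : IsPreconnected U) (hf : ContinuousOn f U) (hZ : IsClosed Z)
    (hseg : ∀ i, ∀ τ ∈ Icc (0:ℝ) 1, x i + τ • v i ∈ U)
    (hcov : ∀ z ∈ U, z ∉ Z → f z ∈ P → ∃ i, ∃ τ ∈ Icc (0:ℝ) 1, z = x i + τ • v i)
    (hgrad : ∀ i, ∀ s t : ℝ, 0 ≤ s → s ≤ t → t ≤ 1 →
      edist (f (x i + s • v i)) (f (x i + t • v i)) ≤ ∫⁻ τ in Ioc s t, g (x i + τ • v i))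
    (hfin : ∀ i, ∫⁻ τ in Ioc (0:ℝ) 1, g (x i + τ • v i) ≠ ∞)
    (hfr : ∀ z ∈ U, z ∈ Z → z ∈ closure (U \ Z) → f z ∉ P)
    (hsum : ∑' i, ∫⁻ τ in Ioc (0:ℝ) 1 ∩ {τ | f (x i + τ • v i) ∈ P ∧ x i + τ • v i ∉ Z},
      g (x i + τ • v i) < ENNReal.ofReal ρ)
    {x₀ : E} (hx₀ : x₀ ∈ U) (hx₀Z : x₀ ∉ Z) (hy₀ : f x₀ ∈ P') :
    f '' U ⊆ P ∧ Disjoint U Z := by
  classical
  have hP'ne : P'.Nonempty := ⟨_, hy₀⟩
  set φ : F → ℝ := fun y => min ρ (infDist y P') with hφ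
  have hφc : Continuous φ := continuous_const.min (continuous_infDist_pt P')
  have hφL : ∀ y y', edist (φ y) (φ y') ≤ edist y y' := by
    intro y y'
    have h1 : LipschitzWith 1 φ := (lipschitz_infDist_pt P').const_min ρ
    simpa using h1 y y'
  have hφoff : ∀ y, y ∉ P → φ y = ρ := by
    intro y hy
    apply min_eq_left
    rw [le_infDist hP'ne]
    intro y' hy'
    by_contra hlt
    exact hy (hball y' hy' (not_le.1 hlt))
  have hφon : ∀ y ∈ P', φ y = 0 := by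
    intro y hy
    rw [hφ]
    simp only [infDist_zero_of_mem hy]
    exact min_eq_right hρ.le
  set ψ : E → ℝ := fun z => if z ∈ Z then ρ else φ (f z) with hψ
  have hψc : ContinuousOn ψ U := by
    intro z hz
    have h0 : ContinuousWithinAt (fun z => φ (f z)) U z :=
      hφc.continuousAt.comp_continuousWithinAt (hf z hz)
    by_cases hzZ : z ∈ Z
    · by_cases hcl : z ∈ closure (U \ Z)
      · have h1 : φ (f z) = ρ := hφoff _ (hfr z hz hzZ hcl)
        have h2 : ψ z = ρ := if_pos hzZ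
        rw [ContinuousWithinAt, h2]
        rw [ContinuousWithinAt, h1] at h0
        rw [Metric.tendsto_nhds] at h0 ⊢
        intro ε hε
        filter_upwards [h0 ε hε] with y hy
        by_cases hyZ : y ∈ Z
        · have : ψ y = ρ := if_pos hyZ
          rw [this, dist_self]; exact hε
        · have : ψ y = φ (f y) := if_neg hyZ
          rw [this]; exact hy
      · have h2 : ψ =ᶠ[𝓝[U] z] fun _ => ρ := by
          have h3 : (closure (U \ Z))ᶜ ∈ 𝓝 z := isClosed_closure.isOpen_compl.mem_nhds hcl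
          filter_upwards [mem_nhdsWithin_of_mem_nhds h3, self_mem_nhdsWithin] with y hy hyU
          have : y ∈ Z := by
            by_contra hyZ
            exact hy (subset_closure ⟨hyU, hyZ⟩)
          exact if_pos this
        have h4 : ψ z = ρ := if_pos hzZ
        exact (continuousWithinAt_const (b := ρ)).congr_of_eventuallyEq h2 h4
    · have h2 : ψ =ᶠ[𝓝[U] z] fun z => φ (f z) := by
        have h3 : Zᶜ ∈ 𝓝 z := hZ.isOpen_compl.mem_nhds hzZ
        filter_upwards [mem_nhdsWithin_of_mem_nhds h3] with y hy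
        exact if_neg hy
      exact h0.congr_of_eventuallyEq h2 (if_neg hzZ)
  have hψ0 : ψ x₀ = 0 := by
    rw [hψ]; simp only [if_neg hx₀Z]; exact hφon _ hy₀
  -- main claim
  have claim : ∀ x₁ ∈ U, ψ x₁ ≠ ρ := by
    intro x₁ hx₁ hx₁ρ
    have hconn : IsPreconnected (ψ '' U) := hU.image _ hψc
    have hIcc : Icc 0 ρ ⊆ ψ '' U := by
      apply hconn.Icc_subset
      · exact ⟨x₀, hx₀, hψ0⟩
      · exact ⟨x₁, hx₁, hx₁ρ⟩
    set K : ι → Set ℝ := fun i => Icc 0 1 ∩ {τ | f (x i + τ • v i) ∈ P ∧ x i + τ • v i ∉ Z}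
      with hK
    have hcov' : ψ '' U ⊆ {ρ} ∪ ⋃ i, (fun τ => φ (f (x i + τ • v i))) '' K i := by
      rintro _ ⟨z, hz, rfl⟩
      by_cases hzZ : z ∈ Z
      · left; exact if_pos hzZ
      · have h1 : ψ z = φ (f z) := if_neg hzZ
        by_cases hzP : f z ∈ P
        · right
          rw [h1]
          obtain ⟨i, τ, hτ, rfl⟩ := hcov z hz hzZ hzP
          exact mem_iUnion.2 ⟨i, τ, ⟨hτ, hzP, hzZ⟩, rfl⟩
        · left
          rw [h1]
          exact hφoff _ hzP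
    have hvol : ENNReal.ofReal ρ ≤ ∑' i,
        ∫⁻ τ in Ioc (0:ℝ) 1 ∩ {τ | f (x i + τ • v i) ∈ P ∧ x i + τ • v i ∉ Z},
          g (x i + τ • v i) := by
      calc ENNReal.ofReal ρ = volume (Icc 0 ρ) := by rw [Real.volume_Icc, sub_zero]
        _ ≤ volume ({ρ} ∪ ⋃ i, (fun τ => φ (f (x i + τ • v i))) '' K i) :=
            measure_mono (hIcc.trans hcov')
        _ ≤ volume {ρ} + volume (⋃ i, (fun τ => φ (f (x i + τ • v i))) '' K i) :=
            measure_union_le _ _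
        _ = volume (⋃ i, (fun τ => φ (f (x i + τ • v i))) '' K i) := by
            rw [Real.volume_singleton, zero_add]
        _ ≤ ∑' i, volume ((fun τ => φ (f (x i + τ • v i))) '' K i) :=
            measure_iUnion_le _
        _ ≤ ∑' i, ∫⁻ τ in Ioc (0:ℝ) 1 ∩ {τ | f (x i + τ • v i) ∈ P ∧ x i + τ • v i ∉ Z},
              g (x i + τ • v i) := by
            apply ENNReal.tsum_le_tsum
            intro i
            have hmU : ∀ τ ∈ Icc (0:ℝ) 1, x i + τ • v i ∈ U := hseg i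
            have hci : ContinuousOn (fun τ : ℝ => f (x i + τ • v i)) (Icc 0 1) := by
              apply hf.comp (by fun_prop)
              intro τ hτ
              exact hmU τ hτ
            have hA : IsClosed (Icc (0:ℝ) 1 ∩ {τ | f (x i + τ • v i) ∈ P}) :=
              hci.preimage_isClosed_of_isClosed isClosed_Icc hP
            have hKcl : IsClosed (K i) := by
              apply isClosed_of_closure_subset
              intro τ hτ
              have h1 : τ ∈ Icc (0:ℝ) 1 ∩ {τ | f (x i + τ • v i) ∈ P} := by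
                apply closure_minimal _ hA hτ
                rintro σ ⟨h1, h2, -⟩
                exact ⟨h1, h2⟩
              refine ⟨h1.1, h1.2, fun hzZ => ?_⟩
              refine hfr _ (hmU τ h1.1) hzZ ?_ h1.2
              have hγ : Continuous (fun τ : ℝ => x i + τ • v i) := by fun_prop
              refine map_mem_closure (f := fun τ : ℝ => x i + τ • v i) hγ hτ ?_
              rintro σ ⟨h3, -, h4⟩
              exact ⟨hmU σ h3, h4⟩
            have hKc : IsCompact (K i) :=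
              isCompact_Icc.of_isClosed_subset hKcl inter_subset_left
            have h1 := volume_image_le (u := fun τ => φ (f (x i + τ • v i)))
              (h := fun τ => g (x i + τ • v i))
              (fun s t hs hst ht => (hφL _ _).trans (hgrad i s t hs hst ht)) (hfin i) hKc
              inter_subset_left
            refine h1.trans (lintegral_mono_set ?_)
            rintro τ ⟨h2, h3⟩
            exact ⟨h2, h3.2⟩
    exact absurd hsum (not_lt.2 hvol)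
  have hZd : ∀ z ∈ U, z ∉ Z := fun z hz hzZ => claim z hz (if_pos hzZ)
  refine ⟨?_, ?_⟩
  · rintro _ ⟨x₁, hx₁, rfl⟩
    by_contra hx₁P
    apply claim x₁ hx₁
    have : ψ x₁ = φ (f x₁) := if_neg (hZd x₁ hx₁)
    rw [this]
    exact hφoff _ hx₁P
  · exact Set.disjoint_left.2 hZd

end

end Crest.Agent.R96.Intr_538

namespace Crest.Agent.R96.Coarse_538

open Crest.AnalysisR.VecCalc3 Crest.AnalysisR.Sobolev
open Crest.Agent.R96.Acl_392 Crest.Agent.R96.Lu_538 Crest.Agent.R96.Intr_538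

noncomputable section

/-- the edge in direction `i` at the vertex `k` of the grid of mesh `t` through `a` -/
def edge (t : ℝ) (a : R3) (k : Fin 3 → ℤ) (i : Fin 3) : Set R3 :=
  (fun τ : ℝ => vt t a k + τ • (t • ed i)) '' Icc 0 1

/-- the 1-skeleton of the grid -/
def skel (t : ℝ) (a : R3) : Set R3 := ⋃ k, ⋃ i, edge t a k i


end

end Crest.Agent.R96.Coarse_538
end

-- ▼ part R96/Intr17_538
section

set_option autoImplicit false
set_option linter.unusedSectionVars false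
set_option maxHeartbeats 400000

open MeasureTheory Set Filter Metric
open scoped ENNReal NNReal Topology

namespace Crest.Agent.R96.Coarse_538

open Crest.AnalysisR.VecCalc3 Crest.AnalysisR.Sobolev
open Crest.Agent.R96.Acl_392 Crest.Agent.R96.Lu_538 Crest.Agent.R96.Intr_538

noncomputable section

theorem le_young {p η : ℝ} (hp : 1 ≤ p) (hη : 0 < η) (h : ℝ≥0∞) :
    h ≤ ENNReal.ofReal η + ENNReal.ofReal (η ^ (1 - p)) * h ^ p := by
  have hp0 : 0 < p := by linarith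
  rcases eq_or_ne h ∞ with rfl | hh
  · rw [ENNReal.top_rpow_of_pos hp0, ENNReal.mul_top]
    · simp
    · rw [Ne, ENNReal.ofReal_eq_zero, not_le]; positivity
  · obtain ⟨x, hx⟩ : ∃ x : ℝ≥0, (x : ℝ≥0∞) = h := ⟨h.toNNReal, ENNReal.coe_toNNReal hh⟩
    have hx' : h = ENNReal.ofReal (x : ℝ) := by rw [← hx, ENNReal.ofReal_coe_nnreal]
    rw [hx', ENNReal.ofReal_rpow_of_nonneg x.coe_nonneg hp0.le, ← ENNReal.ofReal_mul (by positivity),
      ← ENNReal.ofReal_add hη.le (by positivity)]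
    apply ENNReal.ofReal_le_ofReal
    rcases le_or_gt (x : ℝ) η with hxη | hxη
    · have : 0 ≤ η ^ (1 - p) * (x:ℝ) ^ p := by positivity
      linarith
    · have hx0 : (0:ℝ) < x := hη.trans hxη
      have h1 : η ^ (1 - p) * (x:ℝ) ^ p = x * ((x:ℝ) / η) ^ (p - 1) := by
        rw [Real.div_rpow hx0.le hη.le, Real.rpow_sub hη, Real.rpow_one, Real.rpow_sub hx0,
          Real.rpow_sub hη, Real.rpow_one, Real.rpow_one]
        field_simp
      have h2 : 1 ≤ ((x:ℝ) / η) ^ (p - 1) := by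
        apply Real.one_le_rpow _ (by linarith)
        rw [le_div_iff₀ hη]; linarith
      rw [h1]
      nlinarith

/-- Jensen without measurability, constant 2 -/
theorem jensen2 {p η : ℝ} (hp : 1 ≤ p) (hη : 0 < η) {h : ℝ → ℝ≥0∞}
    (h1 : ∫⁻ τ in Ioc (0:ℝ) 1, h τ ^ p ≤ ENNReal.ofReal (η ^ p)) :
    ∫⁻ τ in Ioc (0:ℝ) 1, h τ ≤ ENNReal.ofReal (2 * η) := by
  calc ∫⁻ τ in Ioc (0:ℝ) 1, h τ
      ≤ ∫⁻ τ in Ioc (0:ℝ) 1, (ENNReal.ofReal η + ENNReal.ofReal (η ^ (1 - p)) * h τ ^ p) :=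
        lintegral_mono fun τ => le_young hp hη (h τ)
    _ = ENNReal.ofReal η + ENNReal.ofReal (η ^ (1 - p)) * ∫⁻ τ in Ioc (0:ℝ) 1, h τ ^ p := by
        rw [lintegral_add_left measurable_const, lintegral_const_mul' _ _ ENNReal.ofReal_ne_top]
        simp
    _ ≤ ENNReal.ofReal η + ENNReal.ofReal (η ^ (1 - p)) * ENNReal.ofReal (η ^ p) := by gcongr
    _ = ENNReal.ofReal (2 * η) := by
        rw [← ENNReal.ofReal_mul (by positivity), ← Real.rpow_add hη,
          ← ENNReal.ofReal_add hη.le (by positivity)]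
        congr 1
        have : (1 - p) + p = 1 := by ring
        rw [this, Real.rpow_one]
        ring


theorem pt_apply (w : R3) (i l : Fin 3) (t σ : ℝ) :
    (w + σ • (t • ed i)) l = w l + if l = i then σ * t else 0 := by
  rw [PiLp.add_apply, PiLp.smul_apply, PiLp.smul_apply, ed]
  by_cases h : l = i
  · subst h
    simp
  · simp [h]





end

end Crest.Agent.R96.Coarse_538
end

-- ▼ part R96/Intr18_538
section

set_option autoImplicit false
set_option linter.unusedSectionVars false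
set_option maxHeartbeats 400000

open MeasureTheory Set Filter Metric
open scoped ENNReal NNReal Topology

namespace Crest.Agent.R96.Coarse_538

open Crest.AnalysisR.VecCalc3 Crest.AnalysisR.Sobolev
open Crest.Agent.R96.Acl_392 Crest.Agent.R96.Lu_538 Crest.Agent.R96.Intr_538

noncomputable section

/-- the intruder density of the cube: `‖D‖` on the part of `Ω` outside the cube which is sent into
the shrunken parallelepiped. -/
def Fin1 (Ω : Set R3) (f : R3 → R3) (D : R3 → R3 →L[ℝ] R3) (z b : R3) (L : R3 →L[ℝ] R3)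
    (s τ : ℝ) : R3 → ℝ≥0∞ :=
  ((Ω ∩ f ⁻¹' par Cb L b ((1 - τ) * s)) \ cel Cb z s).indicator fun x => ‖D x‖ₑ



/-- **perfect cube** for the grid of mesh `t` through `a`. -/
structure Perf (p : ℝ) (Ω : Set R3) (f : R3 → R3) (D : R3 → R3 →L[ℝ] R3) (κ τ η t s : ℝ)
    (a z b : R3) (L : R3 →L[ℝ] R3) : Prop where
  sub : cel Cb z s ⊆ Ω
  low : ∀ v, κ * ‖v‖ ≤ ‖L v‖
  up : ‖L‖ ≤ κ⁻¹
  /-- the map is close to `x ↦ b + L (x - z)` on the fine 1-skeleton in the cube -/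
  near : ∀ x ∈ skel t a, x ∈ cel Cb z s → ‖f x - (b + L (x - z))‖ ≤ η * t
  /-- near-optimal energy on the edges (and parts of edges) in the cube -/
  edgeD : ∀ k i, ∫⁻ σ in Ioc (0:ℝ) 1, (cel Cb z s).indicator (fun x => ‖D x - L‖ₑ ^ p)
    (vt t a k + σ • (t • ed i)) ≤ ENNReal.ofReal (η ^ p)
  /-- no intruders on any connected set which near `f ⁻¹ (par (1-τ)s)` is a union of edges -/
  noint : ∀ U ⊆ Ω, IsPreconnected U →
    (∀ x ∈ U, f x ∈ par Cb L b ((1 - τ) * s) → ∃ k i, edge t a k i ⊆ U ∧ x ∈ edge t a k i) →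
    (∃ y ∈ U, y ∈ cel Cb z s ∨ f y ∉ par Cb L b ((1 - τ) * s)) →
    ∀ x ∈ U, f x ∈ par Cb L b ((1 - 2 * τ) * s) → x ∈ cel Cb z s


end

end Crest.Agent.R96.Coarse_538
end

-- ▼ part R96/Intr19_538
section

set_option autoImplicit false
set_option linter.unusedSectionVars false
set_option maxHeartbeats 400000

open MeasureTheory Set Filter Metric Module
open scoped ENNReal NNReal Topology

namespace Crest.Agent.R96.Coarse_538

open Crest.AnalysisR.VecCalc3 Crest.AnalysisR.Sobolev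
open Crest.Agent.R96.Acl_392 Crest.Agent.R96.Lu_538 Crest.Agent.R96.Intr_538
open Crest.Agent.R96.Poi_392

noncomputable section



theorem aem_Fin1 {Ω : Set R3} (hΩ : IsOpen Ω) {f : R3 → R3} (hf : ContinuousOn f Ω)
    {D : R3 → R3 →L[ℝ] R3} (hD : AEStronglyMeasurable D (volume.restrict Ω)) (z b : R3)
    (L : R3 →L[ℝ] R3) (s τ : ℝ) :
    MeasurableSet ((Ω ∩ f ⁻¹' par Cb L b ((1 - τ) * s)) \ cel Cb z s) ∧
      AEMeasurable (Fin1 Ω f D z b L s τ) volume := by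
  have hX : MeasurableSet ((Ω ∩ f ⁻¹' par Cb L b ((1 - τ) * s)) \ cel Cb z s) :=
    (meas_pre hΩ.measurableSet hf
      (isCompact_par ref_Cb.cpt L b _).isClosed.measurableSet).diff
      (isClosed_cel z s).measurableSet
  refine ⟨hX, (aemeasurable_indicator_iff hX).2 ?_⟩
  have h1 : AEStronglyMeasurable D
      (volume.restrict ((Ω ∩ f ⁻¹' par Cb L b ((1 - τ) * s)) \ cel Cb z s)) :=
    hD.mono_measure (Measure.restrict_mono (fun x hx => hx.1.1) le_rfl)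
  exact h1.enorm

theorem aem_F2 {p : ℝ} {Ω : Set R3} {D : R3 → R3 →L[ℝ] R3}
    (hD : AEStronglyMeasurable D (volume.restrict Ω)) {z : R3} {s : ℝ} (hsub : cel Cb z s ⊆ Ω)
    (L : R3 →L[ℝ] R3) :
    AEMeasurable ((cel Cb z s).indicator (fun x => ‖D x - L‖ₑ ^ p)) volume := by
  refine (aemeasurable_indicator_iff (isClosed_cel z s).measurableSet).2 ?_
  have h1 : AEStronglyMeasurable D (volume.restrict (cel Cb z s)) :=
    hD.mono_measure (Measure.restrict_mono hsub le_rfl)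
  exact ((h1.sub aestronglyMeasurable_const).enorm).pow_const p

theorem aem_F3 {p : ℝ} {Ω : Set R3} {f : R3 → R3} (hf : ContinuousOn f Ω) {z : R3} {s : ℝ}
    (hsub : cel Cb z s ⊆ Ω) (b : R3) (L : R3 →L[ℝ] R3) :
    AEMeasurable ((cel Cb z s).indicator (fun x => ‖f x - (b + L (x - z))‖ₑ ^ p)) volume := by
  refine (aemeasurable_indicator_iff (isClosed_cel z s).measurableSet).2 ?_
  have h3 : ContinuousOn (fun x => f x - (b + L (x - z))) (cel Cb z s) :=
    (hf.mono hsub).sub (by fun_prop)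
  exact ((h3.aemeasurable (isClosed_cel z s).measurableSet).enorm).pow_const p


end

end Crest.Agent.R96.Coarse_538
end

-- ▼ part R96/Intr20_538

set_option autoImplicit false
set_option linter.unusedSectionVars false
set_option maxHeartbeats 400000

open MeasureTheory Set Filter Metric Module
open scoped ENNReal NNReal Topology

namespace Crest.Agent.R96.Coarse_538

open Crest.AnalysisR.VecCalc3 Crest.AnalysisR.Sobolev
open Crest.Agent.R96.Acl_392 Crest.Agent.R96.Lu_538 Crest.Agent.R96.Intr_538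
open Crest.Agent.R96.Poi_392

noncomputable section

theorem Perf.mono {p : ℝ} (hp : 0 < p) {Ω : Set R3} {f : R3 → R3} {D : R3 → R3 →L[ℝ] R3}
    {κ τ η η' t s : ℝ} {a z b : R3} {L : R3 →L[ℝ] R3} (ht : 0 ≤ t) (hη' : 0 ≤ η')
    (hηη : η' ≤ η) (h : Perf p Ω f D κ τ η' t s a z b L) : Perf p Ω f D κ τ η t s a z b L :=
  ⟨h.sub, h.low, h.up, fun x hx hxq => (h.near x hx hxq).trans (by gcongr), fun k i =>
    (h.edgeD k i).trans (ENNReal.ofReal_le_ofReal (Real.rpow_le_rpow hη' hηη hp.le)), h.noint⟩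

theorem lint_Gmat {p : ℝ} (hp : 1 ≤ p) {Ω : Set R3} (hΩf : volume Ω ≠ ∞)
    {G : Fin 3 → R3 → R3}
    (hGp : ∀ j, MemLp (G j) (ENNReal.ofReal p) (volume.restrict Ω)) :
    ∫⁻ x in Ω, ‖Gmat G x‖ₑ ≠ ∞ := by
  have hfin : IsFiniteMeasure (volume.restrict Ω) := ⟨by
    rw [Measure.restrict_apply_univ]; exact lt_top_iff_ne_top.2 hΩf⟩
  have h1 : MemLp (Gmat G) (ENNReal.ofReal p) (volume.restrict Ω) := memLp_Gmat hGp
  have h2 : 1 ≤ ENNReal.ofReal p := by
    rw [← ENNReal.ofReal_one]; exact ENNReal.ofReal_le_ofReal hp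
  have h3 : Integrable (Gmat G) (volume.restrict Ω) := h1.integrable h2
  exact h3.2.ne



end

end Crest.Agent.R96.Coarse_538
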