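import Mathlib
import Crest.Agent.R96.Intr20_538

-- ▼ part R96/Intr21_538
section

set_option autoImplicit false
set_option linter.unusedSectionVars false
set_option maxHeartbeats 400000

open MeasureTheory Set Filter Metric Module
open scoped ENNReal NNReal Topology

namespace Crest.Agent.R96.Coarse_538

open Crest.AnalysisR.VecCalc3 Crest.AnalysisR.Sobolev
open Crest.Agent.R96.Acl_392 Crest.Agent.R96.Lu_538 Crest.Agent.R96.Intr_538
open Crest.Agent.R96.Poi_392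

noncomputable section

/-- the segment `e` of the family, translated by `a` -/
def seg {ι : Type*} (x v : ι → R3) (a : R3) (e : ι) : Set R3 :=
  (fun σ : ℝ => a + x e + σ • v e) '' Icc 0 1

/-- sum over all segments of the translated family -/
def skf {ι : Type*} (x v : ι → R3) (F : R3 → ℝ≥0∞) (a : R3) : ℝ≥0∞ :=
  ∑' e, ∫⁻ σ in Ioc (0:ℝ) 1, F (a + x e + σ • v e)

theorem skf_eq {ι : Type*} (x v : ι → R3) (F : R3 → ℝ≥0∞) (a : R3) (e : ι) :
    ∫⁻ σ in Ioc (0:ℝ) 1, F (a + x e + σ • v e) =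
      Grid_392.pc (volume.restrict (Ioc (0:ℝ) 1)) (fun σ : ℝ => x e + σ • v e) F a := by
  simp only [Grid_392.pc, add_assoc]

theorem aemeasurable_skf {ι : Type*} [Countable ι] (x v : ι → R3) {F : R3 → ℝ≥0∞}
    (hF : AEMeasurable F volume) : AEMeasurable (skf x v F) volume := by
  have h1 : ∀ e, AEMeasurable (fun a => ∫⁻ σ in Ioc (0:ℝ) 1, F (a + x e + σ • v e)) volume := by
    intro e
    simp only [skf_eq]
    exact Grid_392.aemeasurable_pc (ν := volume.restrict (Ioc (0:ℝ) 1))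
      (γ := fun σ : ℝ => x e + σ • v e) (by fun_prop) hF
  exact AEMeasurable.tsum h1

/-- **density** of a family of segments with respect to the set `D` of translates -/
def Dens {ι : Type*} (D : Set R3) (n : ℝ≥0∞) (x v : ι → R3) : Prop :=
  ∀ F : R3 → ℝ≥0∞, AEMeasurable F volume → ∫⁻ a in D, skf x v F a ≤ n * ∫⁻ y, F y

/-- the density of one segment -/
theorem tonelli_seg {D : Set R3} (hD : MeasurableSet D) (x v : R3) {F : R3 → ℝ≥0∞}
    (hF : AEMeasurable F volume) :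
    ∫⁻ a in D, ∫⁻ σ in Ioc (0:ℝ) 1, F (a + x + σ • v) =
      ∫⁻ y, F y * ∫⁻ σ in Ioc (0:ℝ) 1, D.indicator 1 (y - (x + σ • v)) := by
  set ν := (volume : Measure ℝ).restrict (Ioc (0:ℝ) 1) with hν
  have hγ : Measurable (fun σ : ℝ => x + σ • v) := by fun_prop
  have hF1 : AEMeasurable (fun p : ℝ × R3 => F (p.2 + (x + p.1 • v))) (ν.prod volume) :=
    Grid_392.aemeasurable_shear (ν := ν) (μ := volume) hγ hF
  have hF2 : AEMeasurable (fun p : R3 × ℝ => F (p.1 + (x + p.2 • v))) (volume.prod ν) :=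
    hF1.prod_swap
  have hD1 : Measurable (fun p : R3 × ℝ => D.indicator (1 : R3 → ℝ≥0∞) p.1) :=
    (measurable_one.indicator hD).comp measurable_fst
  calc ∫⁻ a in D, ∫⁻ σ in Ioc (0:ℝ) 1, F (a + x + σ • v)
      = ∫⁻ a, ∫⁻ σ, D.indicator (1 : R3 → ℝ≥0∞) a * F (a + (x + σ • v)) ∂ν := by
        rw [← lintegral_indicator hD]
        apply lintegral_congr
        intro a
        by_cases ha : a ∈ D
        · simp only [indicator_of_mem ha, Pi.one_apply, one_mul, add_assoc]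
          rfl
        · simp [indicator_of_notMem ha]
    _ = ∫⁻ σ, (∫⁻ a, D.indicator (1 : R3 → ℝ≥0∞) a * F (a + (x + σ • v))) ∂ν := by
        apply lintegral_lintegral_swap
        exact hD1.aemeasurable.mul hF2
    _ = ∫⁻ σ, (∫⁻ y, D.indicator (1 : R3 → ℝ≥0∞) (y - (x + σ • v)) * F y) ∂ν := by
        apply lintegral_congr
        intro σ
        rw [← lintegral_add_right_eq_self
          (fun y => D.indicator (1 : R3 → ℝ≥0∞) (y - (x + σ • v)) * F y) (x + σ • v)]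
        simp only [add_sub_cancel_right]
    _ = ∫⁻ y, ∫⁻ σ, D.indicator (1 : R3 → ℝ≥0∞) (y - (x + σ • v)) * F y ∂ν := by
        apply lintegral_lintegral_swap
        have h1 : Measurable (fun p : ℝ × R3 => D.indicator (1 : R3 → ℝ≥0∞)
            (p.2 - (x + p.1 • v))) :=
          (measurable_one.indicator hD).comp (by fun_prop)
        exact h1.aemeasurable.mul (hF.comp_quasiMeasurePreserving
          Measure.quasiMeasurePreserving_snd)
    _ = ∫⁻ y, F y * ∫⁻ σ in Ioc (0:ℝ) 1, D.indicator 1 (y - (x + σ • v)) := by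
        apply lintegral_congr
        intro y
        rw [lintegral_mul_const'']
        · rw [mul_comm]
        · have h1 : Measurable (fun σ : ℝ => D.indicator (1 : R3 → ℝ≥0∞) (y - (x + σ • v))) :=
            (measurable_one.indicator hD).comp (by fun_prop)
          exact h1.aemeasurable

/-- **criterion**: every point lies in at most `n` of the sets `x e + [0,1] v e + D`. -/
theorem dens_of {ι : Type*} [Countable ι] {D : Set R3} (hD : MeasurableSet D) {n : ℕ}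
    {x v : ι → R3}
    (h : ∀ y : R3, {e | ∃ σ ∈ Icc (0:ℝ) 1, y - (x e + σ • v e) ∈ D}.encard ≤ n) :
    Dens D n x v := by
  intro F hF
  have h1 : ∀ e, AEMeasurable (fun a => ∫⁻ σ in Ioc (0:ℝ) 1, F (a + x e + σ • v e))
      (volume.restrict D) := by
    intro e
    simp only [skf_eq]
    exact (Grid_392.aemeasurable_pc (ν := volume.restrict (Ioc (0:ℝ) 1))
      (γ := fun σ : ℝ => x e + σ • v e) (by fun_prop) hF).restrict
  simp only [skf]
  rw [lintegral_tsum h1]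
  simp only [tonelli_seg hD _ _ hF]
  have hm : ∀ e, AEMeasurable (fun y => F y * ∫⁻ σ in Ioc (0:ℝ) 1,
      D.indicator (1 : R3 → ℝ≥0∞) (y - (x e + σ • v e))) volume := by
    intro e
    apply hF.mul
    have h2 : Measurable (fun p : R3 × ℝ => D.indicator (1 : R3 → ℝ≥0∞)
        (p.1 - (x e + p.2 • v e))) :=
      (measurable_one.indicator hD).comp (by fun_prop)
    exact (h2.lintegral_prod_right').aemeasurable
  rw [← lintegral_tsum hm, ← lintegral_const_mul'' _ hF]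
  apply lintegral_mono
  intro y
  simp only
  rw [ENNReal.tsum_mul_left, mul_comm]
  gcongr
  classical
  calc ∑' e, ∫⁻ σ in Ioc (0:ℝ) 1, D.indicator (1 : R3 → ℝ≥0∞) (y - (x e + σ • v e))
      ≤ ∑' e, {e | ∃ σ ∈ Icc (0:ℝ) 1, y - (x e + σ • v e) ∈ D}.indicator (1 : ι → ℝ≥0∞) e := by
        apply ENNReal.tsum_le_tsum
        intro e
        by_cases he : ∃ σ ∈ Icc (0:ℝ) 1, y - (x e + σ • v e) ∈ D
        · have he' : e ∈ {e | ∃ σ ∈ Icc (0:ℝ) 1, y - (x e + σ • v e) ∈ D} := he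
          rw [indicator_of_mem he']
          calc ∫⁻ σ in Ioc (0:ℝ) 1, D.indicator (1 : R3 → ℝ≥0∞) (y - (x e + σ • v e))
              ≤ ∫⁻ σ in Ioc (0:ℝ) 1, 1 := by
                apply lintegral_mono
                intro σ
                exact indicator_le_self' (fun _ _ => zero_le) _
            _ = (1 : ι → ℝ≥0∞) e := by simp
        · have he' : e ∉ {e | ∃ σ ∈ Icc (0:ℝ) 1, y - (x e + σ • v e) ∈ D} := he
          rw [indicator_of_notMem he']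
          rw [nonpos_iff_eq_zero]
          rw [setLIntegral_congr_fun (g := fun _ => 0) measurableSet_Ioc]
          · simp
          · intro σ hσ
            simp only
            rw [indicator_of_notMem]
            intro hm
            exact he ⟨σ, ⟨hσ.1.le, hσ.2⟩, hm⟩
    _ = ({e | ∃ σ ∈ Icc (0:ℝ) 1, y - (x e + σ • v e) ∈ D}.encard : ℝ≥0∞) := by
        rw [← tsum_subtype, Pi.one_def, ENNReal.tsum_set_one]
    _ ≤ ((n : ℕ∞) : ℝ≥0∞) := by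
        exact_mod_cast h y
    _ = (n : ℝ≥0∞) := by simp

end

end Crest.Agent.R96.Coarse_538
end

-- ▼ part R96/Intr22_538
section

set_option autoImplicit false
set_option linter.unusedSectionVars false
set_option maxHeartbeats 400000

open MeasureTheory Set Filter Metric Module
open scoped ENNReal NNReal Topology

namespace Crest.Agent.R96.Coarse_538

open Crest.AnalysisR.VecCalc3 Crest.AnalysisR.Sobolev
open Crest.Agent.R96.Acl_392 Crest.Agent.R96.Lu_538 Crest.Agent.R96.Intr_538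
open Crest.Agent.R96.Poi_392

noncomputable section

/-- closeness on a segment inside a good cube -/
theorem near_seg {p : ℝ} (hp : 1 ≤ p) {Ω : Set R3} {f : R3 → R3} {D : R3 → R3 →L[ℝ] R3}
    {t η : ℝ} (ht : 0 < t) (hη : 0 < η) {q : Set R3} {w v z b : R3} {L : R3 →L[ℝ] R3}
    (hv : ‖v‖ ≤ t) (hA : ACV Ω f D v w) (hsub : q ⊆ Ω)
    (hin : ∀ σ ∈ Icc (0:ℝ) 1, w + σ • v ∈ q)
    (hI : ∫⁻ σ in Ioc (0:ℝ) 1, q.indicator (fun x => ‖D x - L‖ₑ ^ p) (w + σ • v) ≤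
      ENNReal.ofReal (η ^ p))
    (hJ : ∫⁻ σ in Ioc (0:ℝ) 1, q.indicator (fun x => ‖f x - (b + L (x - z))‖ₑ ^ p) (w + σ • v) ≤
      ENNReal.ofReal ((η * t) ^ p))
    {σ : ℝ} (hσ : σ ∈ Icc (0:ℝ) 1) :
    ‖f (w + σ • v) - (b + L (w + σ • v - z))‖ ≤ 5 * η * t := by
  have hp0 : 0 < p := by linarith
  have hI' : ∫⁻ τ in Ioc (0:ℝ) 1, ‖D (w + τ • v) - L‖ₑ ≤ ENNReal.ofReal (2 * η) := by
    apply jensen2 hp hη
    refine le_trans (le_of_eq ?_) hI
    apply setLIntegral_congr_fun measurableSet_Ioc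
    intro τ hτ
    simp only
    rw [indicator_of_mem (hin τ ⟨hτ.1.le, hτ.2⟩)]
  have hosc : ∀ σ₁ σ₂ : ℝ, 0 ≤ σ₁ → σ₁ ≤ σ₂ → σ₂ ≤ 1 →
      ‖(f (w + σ₂ • v) - L (w + σ₂ • v)) - (f (w + σ₁ • v) - L (w + σ₁ • v))‖ ≤ 2 * η * t := by
    intro σ₁ σ₂ h1 h12 h2
    have h3 := hA.diff_le L h12 (fun σ hσ => hsub (hin σ ⟨h1.trans hσ.1, hσ.2.trans h2⟩))
    have hv' : ‖v‖ₑ ≤ ENNReal.ofReal t := by
      rw [← ofReal_norm]; exact ENNReal.ofReal_le_ofReal hv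
    have h4 : ∫⁻ τ in Ioc σ₁ σ₂, ‖D (w + τ • v) - L‖ₑ * ‖v‖ₑ ≤ ENNReal.ofReal (2 * η * t) := by
      calc ∫⁻ τ in Ioc σ₁ σ₂, ‖D (w + τ • v) - L‖ₑ * ‖v‖ₑ
          ≤ ∫⁻ τ in Ioc (0:ℝ) 1, ‖D (w + τ • v) - L‖ₑ * ‖v‖ₑ := by
            apply lintegral_mono_set
            exact Ioc_subset_Ioc h1 h2
        _ = (∫⁻ τ in Ioc (0:ℝ) 1, ‖D (w + τ • v) - L‖ₑ) * ‖v‖ₑ :=
            lintegral_mul_const' _ _ enorm_ne_top
        _ ≤ ENNReal.ofReal (2 * η) * ENNReal.ofReal t := by gcongr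
        _ = ENNReal.ofReal (2 * η * t) := by rw [← ENNReal.ofReal_mul (by positivity)]
    have h5 := h3.trans h4
    rw [← ofReal_norm] at h5
    exact (ENNReal.ofReal_le_ofReal_iff (by positivity)).1 h5
  obtain ⟨σ', hσ', hσb⟩ : ∃ σ' ∈ Icc (0:ℝ) 1,
      ‖f (w + σ' • v) - (b + L (w + σ' • v - z))‖ ≤ 3 * η * t := by
    by_contra hcon
    push Not at hcon
    have h1 : ∫⁻ τ in Ioc (0:ℝ) 1, ‖f (w + τ • v) - (b + L (w + τ • v - z))‖ₑ ≤
        ENNReal.ofReal (2 * (η * t)) := by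
      apply jensen2 hp (by positivity)
      refine le_trans (le_of_eq ?_) hJ
      apply setLIntegral_congr_fun measurableSet_Ioc
      intro τ hτ
      simp only
      rw [indicator_of_mem (hin τ ⟨hτ.1.le, hτ.2⟩)]
    have h2 : ENNReal.ofReal (3 * η * t) ≤ ∫⁻ τ in Ioc (0:ℝ) 1,
        ‖f (w + τ • v) - (b + L (w + τ • v - z))‖ₑ := by
      calc ENNReal.ofReal (3 * η * t) = ∫⁻ τ in Ioc (0:ℝ) 1, ENNReal.ofReal (3 * η * t) := by
            simp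
        _ ≤ _ := by
            apply setLIntegral_mono' measurableSet_Ioc
            intro τ hτ
            rw [← ofReal_norm]
            exact ENNReal.ofReal_le_ofReal (hcon τ ⟨hτ.1.le, hτ.2⟩).le
    have h3 := (ENNReal.ofReal_le_ofReal_iff (by positivity)).1 (h2.trans h1)
    have : 0 < η * t := by positivity
    nlinarith
  have hfinal : ‖(f (w + σ • v) - L (w + σ • v)) - (f (w + σ' • v) - L (w + σ' • v))‖ ≤
      2 * η * t := by
    rcases le_total σ' σ with h1 | h1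
    · exact hosc σ' σ hσ'.1 h1 hσ.2
    · rw [norm_sub_rev]
      exact hosc σ σ' hσ.1 h1 hσ'.2
  have heq : f (w + σ • v) - (b + L (w + σ • v - z)) =
      ((f (w + σ • v) - L (w + σ • v)) - (f (w + σ' • v) - L (w + σ' • v))) +
      (f (w + σ' • v) - (b + L (w + σ' • v - z))) := by
    rw [map_sub, map_sub]
    abel
  rw [heq]
  refine (norm_add_le _ _).trans ?_
  linarith

/-- a short segment meeting the shrunken cube lies in the cube -/
theorem seg_in {z w v : R3} {s t β : ℝ} (hs : 0 < s) (hβ : 0 < β) (hβt : β + t ≤ s)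
    (hv : ‖v‖ ≤ t) {σ σ' : ℝ} (hσ : σ ∈ Icc (0:ℝ) 1) (hσ' : σ' ∈ Icc (0:ℝ) 1)
    (h : w + σ • v ∈ cel Cb z β) : w + σ' • v ∈ cel Cb z s := by
  rw [mem_cel hβ] at h
  rw [mem_cel hs]
  intro i
  have h1 := h i
  have h2 : |(σ' - σ) * v i| ≤ t := by
    rw [abs_mul]
    have h3 : |σ' - σ| ≤ 1 := by
      rw [abs_le]
      constructor <;> linarith [hσ.1, hσ.2, hσ'.1, hσ'.2]
    have h4 := (norm_coord_le v i).trans hv
    calc |σ' - σ| * |v i| ≤ 1 * t := by gcongr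
      _ = t := one_mul t
  have h3 : (w + σ' • v) i - z i = ((w + σ • v) i - z i) + (σ' - σ) * v i := by
    simp only [PiLp.add_apply, PiLp.smul_apply, smul_eq_mul]
    ring
  rw [h3]
  exact (abs_add_le _ _).trans (by linarith)

/-- frontier, general sizes -/
theorem frontier_off' {f : R3 → R3} {κ α β c : ℝ} (hκ : 0 < κ) (hα : 0 ≤ α) (hc : 0 < c)
    (hβ : 0 < β) (hαβ : α + c < β)
    {z b : R3} {L : R3 →L[ℝ] R3} (hL : ∀ v, κ * ‖v‖ ≤ ‖L v‖) {U : Set R3} {y : R3}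
    (hyc : y ∈ closure (U \ cel Cb z β))
    (hclose : ‖f y - (b + L (y - z))‖ ≤ κ * c) : f y ∉ par Cb L b α := by
  intro hP
  have h1 : b + L (y - z) ∈ par Cb L b (α + c) := by
    apply par_thick' ref_Cb hκ hL hα hc hP
    rw [norm_sub_rev, mul_one]
    exact hclose
  obtain ⟨u, hu, hu'⟩ := h1
  have h2 : L ((α + c) • u) = L (y - z) := by
    rw [map_smul]
    exact add_left_cancel hu'
  have h3 := inj_of_low hκ hL h2
  have h4 : y ∈ ocel z β := by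
    intro i
    have h5 : y i - z i = (α + c) * u i := by
      have := congrArg (fun v : R3 => v i) h3
      simp only [PiLp.smul_apply, PiLp.sub_apply, smul_eq_mul] at this
      exact this.symm
    have h6 : |u i| ≤ 1 := hu i
    have h7 : |y i - z i| ≤ α + c := by
      rw [h5, abs_mul, abs_of_nonneg (by linarith)]
      nlinarith
    rw [abs_le] at h7
    constructor <;> linarith [h7.1, h7.2]
  obtain ⟨y', hy'1, hy'2⟩ := mem_closure_iff_nhds.1 hyc _ ((isOpen_ocel z β).mem_nhds h4)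
  exact hy'2.2 (ocel_sub hβ hy'1)

/-- points near the affine image of the parallelepiped lie in the cube -/
theorem in_cel_of_par {f : R3 → R3} {κ α β c : ℝ} (hκ : 0 < κ) (hα : 0 ≤ α) (hc : 0 < c)
    (hβ : 0 < β) (hαβ : α + c ≤ β)
    {z b : R3} {L : R3 →L[ℝ] R3} (hL : ∀ v, κ * ‖v‖ ≤ ‖L v‖) {y : R3}
    (hP : f y ∈ par Cb L b α) (hclose : ‖f y - (b + L (y - z))‖ ≤ κ * c) : y ∈ cel Cb z β := by
  have h1 : b + L (y - z) ∈ par Cb L b (α + c) := by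
    apply par_thick' ref_Cb hκ hL hα hc hP
    rw [norm_sub_rev, mul_one]
    exact hclose
  obtain ⟨u, hu, hu'⟩ := h1
  have h2 : L ((α + c) • u) = L (y - z) := by
    rw [map_smul]
    exact add_left_cancel hu'
  have h3 := inj_of_low hκ hL h2
  rw [mem_cel hβ]
  intro i
  have h5 : y i - z i = (α + c) * u i := by
    have := congrArg (fun v : R3 => v i) h3
    simp only [PiLp.smul_apply, PiLp.sub_apply, smul_eq_mul] at this
    exact this.symm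
  have h6 : |u i| ≤ 1 := hu i
  rw [h5, abs_mul, abs_of_nonneg (by linarith)]
  nlinarith

/-- intruder density, general sizes -/
def FinG (Ω : Set R3) (f : R3 → R3) (D : R3 → R3 →L[ℝ] R3) (z b : R3) (L : R3 →L[ℝ] R3)
    (α β : ℝ) : R3 → ℝ≥0∞ :=
  ((Ω ∩ f ⁻¹' par Cb L b α) \ cel Cb z β).indicator fun x => ‖D x‖ₑ

theorem noint_gen {ι : Type*} [Countable ι] {x v : ι → R3} {a : R3}
    {Ω : Set R3} {f : R3 → R3} {D : R3 → R3 →L[ℝ] R3} (hf : ContinuousOn f Ω)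
    {κ α α' β c t : ℝ} (hκ : 0 < κ) (hα' : 0 ≤ α') (hαα' : α' < α) (hc : 0 < c) (hβ : 0 < β)
    (hαβ : α + c < β)
    {z b : R3} {L : R3 →L[ℝ] R3} (hL : ∀ v, κ * ‖v‖ ≤ ‖L v‖) (hv : ∀ e, ‖v e‖ ≤ t)
    (hA : ∀ e, ACV Ω f D (v e) (a + x e))
    (hfinD : ∀ e, ∫⁻ σ in Ioc (0:ℝ) 1, Ω.indicator (fun x => ‖D x‖ₑ) (a + x e + σ • v e) ≠ ∞)
    (hnear : ∀ e, ∀ y ∈ seg x v a e, y ∈ cel Cb z β → ‖f y - (b + L (y - z))‖ ≤ κ * c)
    (hF : skf x v (FinG Ω f D z b L α β) a * ENNReal.ofReal t < ENNReal.ofReal (κ * (α - α')))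
    {U : Set R3} (hUΩ : U ⊆ Ω) (hU : IsPreconnected U)
    (hcov : ∀ y ∈ U, f y ∈ par Cb L b α → ∃ e, seg x v a e ⊆ U ∧ y ∈ seg x v a e)
    (hy : ∃ y ∈ U, y ∈ cel Cb z β ∨ f y ∉ par Cb L b α) {y : R3} (hyU : y ∈ U)
    (hyP : f y ∈ par Cb L b α') : y ∈ cel Cb z β := by
  by_contra hxq
  have hα : 0 ≤ α := by linarith
  have hPc : IsClosed (par Cb L b α) := (isCompact_par ref_Cb.cpt L b _).isClosed
  have hZc : IsClosed (cel Cb z β) := isClosed_cel z β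
  have hfU : ContinuousOn f U := hf.mono hUΩ
  have hseg : ∀ i : {e // seg x v a e ⊆ U}, ∀ τ ∈ Icc (0:ℝ) 1,
      a + x i.1 + τ • v i.1 ∈ U := fun i σ hσ => i.2 ⟨σ, hσ, rfl⟩
  have key := path_lemma₃ (ι := {e // seg x v a e ⊆ U})
    (fun i => a + x i.1) (fun i => v i.1) (f := f)
    (g := fun x => ‖D x‖ₑ * ENNReal.ofReal t) (P := par Cb L b α) (P' := par Cb L b α')
    (Z := cel Cb z β) (U := U) (ρ := κ * (α - α')) (mul_pos hκ (by linarith)) hPc ?_ hU hfU hZc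
    hseg ?_ ?_ ?_ ?_ ?_ hyU hxq hyP
  · obtain ⟨y', hyU', hy1 | hy1⟩ := hy
    · exact Set.disjoint_left.1 key.2 hyU' hy1
    · exact hy1 (key.1 (mem_image_of_mem f hyU'))
  · intro y hy y' hy'
    have h1 : α' + (α - α') = α := by ring
    rw [← h1]
    apply par_thick' ref_Cb hκ hL hα' (by linarith) hy
    rw [mul_one, ← dist_eq_norm]
    exact (mem_ball.1 hy').le
  · intro z' hz' _ hz'P
    obtain ⟨e, h1, σ, hσ, rfl⟩ := hcov z' hz' hz'P
    exact ⟨⟨e, h1⟩, σ, hσ, rfl⟩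
  · rintro ⟨e, he⟩ s' t' hs' hst' ht'
    simp only
    have h1 := (hA e).diff_le 0 hst' (fun σ hσ => hUΩ (he ⟨σ, ⟨hs'.trans hσ.1, hσ.2.trans ht'⟩,
      rfl⟩))
    rw [edist_comm, edist_eq_enorm_sub]
    simp only [zero_apply, sub_zero] at h1
    refine h1.trans ?_
    have hv' : ‖v e‖ₑ ≤ ENNReal.ofReal t := by
      rw [← ofReal_norm]; exact ENNReal.ofReal_le_ofReal (hv e)
    gcongr
  · rintro ⟨e, he⟩
    simp only
    have h1 : ∫⁻ σ in Ioc (0:ℝ) 1, ‖D (a + x e + σ • v e)‖ₑ * ENNReal.ofReal t =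
        (∫⁻ σ in Ioc (0:ℝ) 1, Ω.indicator (fun x => ‖D x‖ₑ) (a + x e + σ • v e)) *
          ENNReal.ofReal t := by
      rw [← lintegral_mul_const' _ _ ENNReal.ofReal_ne_top]
      apply setLIntegral_congr_fun measurableSet_Ioc
      intro σ hσ
      simp only
      rw [indicator_of_mem]
      exact hUΩ (he ⟨σ, ⟨hσ.1.le, hσ.2⟩, rfl⟩)
    rw [h1]
    exact ENNReal.mul_ne_top (hfinD e) ENNReal.ofReal_ne_top
  · intro z' hz' hz'q hz'c hz'P
    obtain ⟨e, h1, h2⟩ := hcov z' hz' hz'P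
    exact frontier_off' hκ hα hc hβ hαβ hL hz'c (hnear e z' h2 hz'q) hz'P
  · refine lt_of_le_of_lt ?_ hF
    rw [skf, ← ENNReal.tsum_mul_right]
    refine le_trans ?_ (ENNReal.tsum_comp_le_tsum_of_injective
      (f := fun i : {e // seg x v a e ⊆ U} => i.1)
      Subtype.val_injective _)
    apply ENNReal.tsum_le_tsum
    rintro ⟨e, he⟩
    simp only
    set γ : ℝ → R3 := fun σ => a + x e + σ • v e with hγ
    have hγc : Continuous γ := by fun_prop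
    have hγU : ∀ σ ∈ Icc (0:ℝ) 1, γ σ ∈ U := fun σ hσ => he ⟨σ, hσ, rfl⟩
    have hSm : MeasurableSet (Ioc (0:ℝ) 1 ∩ {σ | f (γ σ) ∈ par Cb L b α ∧ γ σ ∉ cel Cb z β}) := by
      have h1 : IsClosed (Icc (0:ℝ) 1 ∩ {σ | f (γ σ) ∈ par Cb L b α}) := by
        have hci : ContinuousOn (fun σ => f (γ σ)) (Icc 0 1) :=
          hfU.comp hγc.continuousOn hγU
        exact hci.preimage_isClosed_of_isClosed isClosed_Icc hPc
      have h2 : Ioc (0:ℝ) 1 ∩ {σ | f (γ σ) ∈ par Cb L b α ∧ γ σ ∉ cel Cb z β} =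
          (Ioc (0:ℝ) 1 ∩ (Icc (0:ℝ) 1 ∩ {σ | f (γ σ) ∈ par Cb L b α})) ∩
            (γ ⁻¹' (cel Cb z β)ᶜ) := by
        ext σ
        simp only [mem_inter_iff, mem_ofPred_eq, mem_preimage, mem_compl_iff, mem_Ioc, mem_Icc]
        constructor
        · rintro ⟨⟨h3, h4⟩, h5, h6⟩
          exact ⟨⟨⟨h3, h4⟩, ⟨h3.le, h4⟩, h5⟩, h6⟩
        · rintro ⟨⟨⟨h3, h4⟩, -, h5⟩, h6⟩
          exact ⟨⟨h3, h4⟩, h5, h6⟩
      rw [h2]
      exact (measurableSet_Ioc.inter h1.measurableSet).inter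
        (hZc.isOpen_compl.preimage hγc).measurableSet
    calc ∫⁻ σ in Ioc (0:ℝ) 1 ∩ {σ | f (γ σ) ∈ par Cb L b α ∧ γ σ ∉ cel Cb z β},
          ‖D (γ σ)‖ₑ * ENNReal.ofReal t
        = ∫⁻ σ in Ioc (0:ℝ) 1 ∩ {σ | f (γ σ) ∈ par Cb L b α ∧ γ σ ∉ cel Cb z β},
          FinG Ω f D z b L α β (γ σ) * ENNReal.ofReal t := by
          apply setLIntegral_congr_fun hSm
          rintro σ ⟨h1, h2, h3⟩
          simp only
          rw [FinG, indicator_of_mem]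
          exact ⟨⟨hUΩ (hγU σ ⟨h1.1.le, h1.2⟩), h2⟩, h3⟩
      _ ≤ ∫⁻ σ in Ioc (0:ℝ) 1, FinG Ω f D z b L α β (γ σ) * ENNReal.ofReal t :=
          lintegral_mono_set inter_subset_left
      _ = (∫⁻ σ in Ioc (0:ℝ) 1, FinG Ω f D z b L α β (γ σ)) * ENNReal.ofReal t :=
          lintegral_mul_const' _ _ ENNReal.ofReal_ne_top

/-- **perfect cube** for the family of segments `(x, v)` translated by `a`.
`0 < σ₀ < τ`: the inner cube is `cel Cb z ((1-σ₀)s)`, the target is shrunken by `τ`, `2τ`. -/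
structure PerfG {ι : Type*} (x v : ι → R3) (p : ℝ) (Ω : Set R3) (f : R3 → R3)
    (D : R3 → R3 →L[ℝ] R3) (κ τ σ₀ η t s : ℝ) (a z b : R3) (L : R3 →L[ℝ] R3) : Prop where
  sub : cel Cb z s ⊆ Ω
  low : ∀ v, κ * ‖v‖ ≤ ‖L v‖
  up : ‖L‖ ≤ κ⁻¹
  near : ∀ e, ∀ y ∈ seg x v a e, y ∈ cel Cb z ((1 - σ₀) * s) → ∀ y' ∈ seg x v a e,
    y' ∈ cel Cb z s ∧ ‖f y' - (b + L (y' - z))‖ ≤ η * t
  edgeD : ∀ e, ∫⁻ σ in Ioc (0:ℝ) 1, (cel Cb z s).indicator (fun x => ‖D x - L‖ₑ ^ p)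
    (a + x e + σ • v e) ≤ ENNReal.ofReal (η ^ p)
  noint : ∀ U ⊆ Ω, IsPreconnected U →
    (∀ y ∈ U, f y ∈ par Cb L b ((1 - τ) * s) → ∃ e, seg x v a e ⊆ U ∧ y ∈ seg x v a e) →
    (∃ y ∈ U, y ∈ cel Cb z ((1 - σ₀) * s) ∨ f y ∉ par Cb L b ((1 - τ) * s)) →
    ∀ y ∈ U, f y ∈ par Cb L b ((1 - 2 * τ) * s) → y ∈ cel Cb z ((1 - σ₀) * s)

theorem perfG_of {ι : Type*} [Countable ι] {x v : ι → R3} {p : ℝ} (hp : 1 ≤ p) {Ω : Set R3}
    {f : R3 → R3} {D : R3 → R3 →L[ℝ] R3} (hf : ContinuousOn f Ω)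
    {κ τ σ₀ s t η : ℝ} (hκ : 0 < κ) (hτ : 0 < τ) (hτ1 : 2 * τ ≤ 1) (hσ₀τ : σ₀ < τ)
    (hσ₀ : 0 < σ₀) (ht : 0 < t)
    (hts : t ≤ σ₀ * s) (hs : 0 < s)
    (hη : 0 < η) (hηκ : η * t ≤ κ * ((τ - σ₀) / 2 * s))
    {a z b : R3} {L : R3 →L[ℝ] R3} (hL : ∀ v, κ * ‖v‖ ≤ ‖L v‖) (hLu : ‖L‖ ≤ κ⁻¹)
    (hsub : cel Cb z s ⊆ Ω) (hv : ∀ e, ‖v e‖ ≤ t)
    (hA : ∀ e, ACV Ω f D (v e) (a + x e))
    (hfinD : ∀ e, ∫⁻ σ in Ioc (0:ℝ) 1, Ω.indicator (fun x => ‖D x‖ₑ) (a + x e + σ • v e) ≠ ∞)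
    (hF1 : skf x v (FinG Ω f D z b L ((1 - τ) * s) ((1 - σ₀) * s)) a <
      ENNReal.ofReal (κ * (τ * s) / t))
    (hF2 : skf x v ((cel Cb z s).indicator (fun x => ‖D x - L‖ₑ ^ p)) a ≤
      ENNReal.ofReal ((η / 5) ^ p))
    (hF3 : skf x v ((cel Cb z s).indicator (fun x => ‖f x - (b + L (x - z))‖ₑ ^ p)) a ≤
      ENNReal.ofReal ((η / 5 * t) ^ p)) :
    PerfG x v p Ω f D κ τ σ₀ η t s a z b L := by
  have hp0 : 0 < p := by linarith
  have hβ : 0 < (1 - σ₀) * s := mul_pos (by linarith) hs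
  have hI : ∀ e, ∫⁻ σ in Ioc (0:ℝ) 1, (cel Cb z s).indicator (fun x => ‖D x - L‖ₑ ^ p)
      (a + x e + σ • v e) ≤ ENNReal.ofReal ((η / 5) ^ p) := fun e => (ENNReal.le_tsum e).trans hF2
  have hJ : ∀ e, ∫⁻ σ in Ioc (0:ℝ) 1, (cel Cb z s).indicator
      (fun x => ‖f x - (b + L (x - z))‖ₑ ^ p)
      (a + x e + σ • v e) ≤ ENNReal.ofReal ((η / 5 * t) ^ p) := fun e =>
    (ENNReal.le_tsum e).trans hF3
  have hnear : ∀ e, ∀ y ∈ seg x v a e, y ∈ cel Cb z ((1 - σ₀) * s) → ∀ y' ∈ seg x v a e,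
      y' ∈ cel Cb z s ∧ ‖f y' - (b + L (y' - z))‖ ≤ η * t := by
    rintro e _ ⟨σ, hσ, rfl⟩ hy _ ⟨σ', hσ', rfl⟩
    have hin : ∀ σ' ∈ Icc (0:ℝ) 1, a + x e + σ' • v e ∈ cel Cb z s := fun σ' hσ' =>
      seg_in hs hβ (by nlinarith) (hv e) hσ hσ' hy
    refine ⟨hin σ' hσ', ?_⟩
    refine (near_seg hp ht (η := η / 5) (by positivity) (hv e) (hA e) hsub hin (hI e) (hJ e)
      hσ').trans (le_of_eq ?_)
    ring
  refine ⟨hsub, hL, hLu, hnear, ?_, ?_⟩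
  · intro e
    refine (hI e).trans (ENNReal.ofReal_le_ofReal ?_)
    apply Real.rpow_le_rpow (by positivity) _ hp0.le
    linarith
  · intro U hUΩ hU hcov hy y hyU hyP
    refine noint_gen (α := (1 - τ) * s) (α' := (1 - 2 * τ) * s) (c := (τ - σ₀) / 2 * s) (t := t)
      hf hκ (mul_nonneg (by linarith) hs.le) (by nlinarith) (mul_pos (by linarith) hs) hβ
      (by nlinarith) hL hv hA hfinD (fun e y hy hyβ => ((hnear e y hy hyβ y hy).2).trans hηκ)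
      ?_ hUΩ hU hcov hy hyU hyP
    have ht0 : ENNReal.ofReal t ≠ 0 := by
      rw [Ne, ENNReal.ofReal_eq_zero, not_le]; exact ht
    calc skf x v (FinG Ω f D z b L ((1 - τ) * s) ((1 - σ₀) * s)) a * ENNReal.ofReal t
        < ENNReal.ofReal (κ * (τ * s) / t) * ENNReal.ofReal t :=
          ENNReal.mul_lt_mul_left ht0 ENNReal.ofReal_ne_top hF1
      _ = ENNReal.ofReal (κ * ((1 - τ) * s - (1 - 2 * τ) * s)) := by
          rw [← ENNReal.ofReal_mul (by positivity)]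
          congr 1
          field_simp
          ring

end

end Crest.Agent.R96.Coarse_538
end

-- ▼ part R96/Intr23_538
section

set_option autoImplicit false
set_option linter.unusedSectionVars false
set_option maxHeartbeats 400000

open MeasureTheory Set Filter Metric Module
open scoped ENNReal NNReal Topology

namespace Crest.Agent.R96.Coarse_538

open Crest.AnalysisR.VecCalc3 Crest.AnalysisR.Sobolev
open Crest.Agent.R96.Acl_392 Crest.Agent.R96.Lu_538 Crest.Agent.R96.Intr_538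
open Crest.Agent.R96.Poi_392

noncomputable section

open Classical in
/-- for most translates few functionals are large -/
theorem few_bad_G {κi : Type*} [Countable κi] {x v : κi → R3} {D : Set R3}
    (hD : MeasurableSet D) {n : ℝ≥0∞} (hn : Dens D n x v) {ι : Type*} (J : Finset ι)
    {F : ι → R3 → ℝ≥0∞}
    (hF : ∀ j ∈ J, AEMeasurable (F j) volume) {c : ι → ℝ≥0∞} (hc0 : ∀ j ∈ J, c j ≠ 0)
    (hc1 : ∀ j ∈ J, c j ≠ ∞) {m : ℝ≥0∞} (hm0 : m ≠ 0) (hm1 : m ≠ ∞) :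
    ∃ B : Set R3, volume B ≤ (n * ∑ j ∈ J, (∫⁻ x, F j x) / c j) / m ∧
      ∀ a ∈ D, a ∉ B →
        ((J.filter fun j => c j ≤ skf x v (F j) a).card : ℝ≥0∞) ≤ m := by
  set nn : R3 → ℝ≥0∞ := fun a => ∑ j ∈ J, (c j)⁻¹ * skf x v (F j) a with hnn
  have hnm : AEMeasurable nn volume := by
    apply Finset.aemeasurable_fun_sum
    intro j hj
    exact (aemeasurable_skf x v (hF j hj)).const_mul _
  have hint : ∫⁻ a in D, nn a ≤ n * ∑ j ∈ J, (∫⁻ x, F j x) / c j := by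
    rw [hnn]
    rw [lintegral_finsetSum' _ (fun j hj =>
      ((aemeasurable_skf x v (hF j hj)).const_mul _).restrict), Finset.mul_sum]
    apply Finset.sum_le_sum
    intro j hj
    rw [lintegral_const_mul' _ _ (ENNReal.inv_ne_top.2 (hc0 j hj)), ENNReal.div_eq_inv_mul]
    calc (c j)⁻¹ * ∫⁻ a in D, skf x v (F j) a ≤ (c j)⁻¹ * (n * ∫⁻ x, F j x) := by
          gcongr
          exact hn (F j) (hF j hj)
      _ = n * ((c j)⁻¹ * ∫⁻ x, F j x) := by ring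
  refine ⟨D ∩ {a | m ≤ nn a}, ?_, ?_⟩
  · have h1 := mul_meas_ge_le_lintegral₀ (hnm.restrict (s := D)) m
    rw [Measure.restrict_apply₀' hD.nullMeasurableSet, inter_comm] at h1
    rw [ENNReal.le_div_iff_mul_le (Or.inl hm0) (Or.inl hm1), mul_comm]
    exact h1.trans hint
  · intro a ha haB
    have h1 : nn a < m := by
      by_contra h
      exact haB ⟨ha, not_lt.1 h⟩
    refine le_trans ?_ h1.le
    calc ((J.filter fun j => c j ≤ skf x v (F j) a).card : ℝ≥0∞)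
        = ∑ j ∈ J.filter fun j => c j ≤ skf x v (F j) a, 1 := by
          rw [Finset.sum_const, nsmul_eq_mul, mul_one]
      _ ≤ ∑ j ∈ J.filter fun j => c j ≤ skf x v (F j) a, (c j)⁻¹ * skf x v (F j) a := by
          apply Finset.sum_le_sum
          intro j hj
          obtain ⟨hjJ, hi⟩ := Finset.mem_filter.1 hj
          calc (1 : ℝ≥0∞) = (c j)⁻¹ * c j := (ENNReal.inv_mul_cancel (hc0 j hjJ) (hc1 j hjJ)).symm
            _ ≤ (c j)⁻¹ * skf x v (F j) a := by gcongr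
      _ ≤ nn a := Finset.sum_le_sum_of_subset (Finset.filter_subset _ _)

/-- almost every translate is ACL on all segments, with finite energy -/
theorem ae_good_G {κi : Type*} [Countable κi] {x v : κi → R3} {DD : Set R3}
    (hDD : MeasurableSet DD) {n : ℝ≥0∞} (hnt : n ≠ ∞) (hn : Dens DD n x v)
    {Ω : Set R3} (hΩ : IsOpen Ω) {f : R3 → R3} {G : Fin 3 → R3 → R3}
    (hG : ∀ j, HasWeakGradOn Ω (fun x => f x j) (G j)) (hf : ContinuousOn f Ω)
    (hGm : AEStronglyMeasurable (Gmat G) (volume.restrict Ω))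
    (hGi : ∫⁻ x in Ω, ‖Gmat G x‖ₑ ≠ ∞) :
    ∀ᵐ a : R3, a ∈ DD → (∀ e, ACV Ω f (Gmat G) (v e) (a + x e)) ∧
      ∀ e, ∫⁻ σ in Ioc (0:ℝ) 1, Ω.indicator (fun x => ‖Gmat G x‖ₑ) (a + x e + σ • v e) ≠ ∞ := by
  have h1 := acv_countable hΩ hG hf x v
  have hm : AEMeasurable (Ω.indicator fun x => ‖Gmat G x‖ₑ) volume :=
    (aemeasurable_indicator_iff hΩ.measurableSet).2 hGm.enorm
  have h2 : ∀ᵐ a ∂(volume.restrict DD),
      skf x v (Ω.indicator fun x => ‖Gmat G x‖ₑ) a < ∞ := by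
    apply ae_lt_top' (aemeasurable_skf x v hm).restrict
    refine ne_top_of_le_ne_top ?_ (hn _ hm)
    rw [lintegral_indicator hΩ.measurableSet]
    exact ENNReal.mul_ne_top hnt hGi
  have h3 := (ae_restrict_iff' hDD).1 h2
  filter_upwards [h1, h3] with a ha1 ha3 haD
  exact ⟨ha1, fun e => ((ENNReal.le_tsum e).trans_lt (ha3 haD)).ne⟩

theorem aem_FinG {Ω : Set R3} (hΩ : IsOpen Ω) {f : R3 → R3} (hf : ContinuousOn f Ω)
    {D : R3 → R3 →L[ℝ] R3} (hD : AEStronglyMeasurable D (volume.restrict Ω)) (z b : R3)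
    (L : R3 →L[ℝ] R3) (α β : ℝ) :
    MeasurableSet ((Ω ∩ f ⁻¹' par Cb L b α) \ cel Cb z β) ∧
      AEMeasurable (FinG Ω f D z b L α β) volume := by
  have hX : MeasurableSet ((Ω ∩ f ⁻¹' par Cb L b α) \ cel Cb z β) :=
    (meas_pre hΩ.measurableSet hf
      (isCompact_par ref_Cb.cpt L b _).isClosed.measurableSet).diff
      (isClosed_cel z β).measurableSet
  refine ⟨hX, (aemeasurable_indicator_iff hX).2 ?_⟩
  have h1 : AEStronglyMeasurable D
      (volume.restrict ((Ω ∩ f ⁻¹' par Cb L b α) \ cel Cb z β)) :=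
    hD.mono_measure (Measure.restrict_mono (fun x hx => hx.1.1) le_rfl)
  exact h1.enorm

/-- the shell contributes only bad points -/
theorem shell_le {Ω : Set R3} {f : R3 → R3} {D : R3 → R3 →L[ℝ] R3} {κ e s τ σ₀ : ℝ}
    (hκ : 0 < κ) (he : 0 < e) (hs : 0 < s) (hτ1 : τ ≤ 1) (hσ₀ : σ₀ < 1) (heκ : e ≤ κ * (τ - σ₀))
    {z b : R3} {L : R3 →L[ℝ] R3} {S : Set R3} (hgc : GC Ω volume f D Cb κ e s z b L S) (y : R3) :
    FinG Ω f D z b L ((1 - τ) * s) ((1 - σ₀) * s) y ≤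
      Fin1 Ω f D z b L s τ y + (cel Cb z s \ S).indicator (fun x => ‖D x‖ₑ) y := by
  by_cases hy : y ∈ (Ω ∩ f ⁻¹' par Cb L b ((1 - τ) * s)) \ cel Cb z ((1 - σ₀) * s)
  swap
  · rw [FinG, indicator_of_notMem hy]; exact zero_le
  rw [FinG, indicator_of_mem hy]
  by_cases hyq : y ∈ cel Cb z s
  · have hyS : y ∉ S := by
      intro hyS
      apply hy.2
      refine in_cel_of_par (c := e * s / κ) hκ (mul_nonneg (by linarith) hs.le) (by positivity)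
        (mul_pos (by linarith) hs) ?_ hgc.low hy.1.2 ?_
      · have h1 : e * s / κ ≤ (τ - σ₀) * s := by
          rw [div_le_iff₀ hκ]
          nlinarith
        linarith
      · refine (hgc.cf y hyS).trans (le_of_eq ?_)
        field_simp
    have h2 : y ∈ cel Cb z s \ S := ⟨hyq, hyS⟩
    rw [indicator_of_mem h2]
    exact le_add_self
  · have h1 : y ∈ (Ω ∩ f ⁻¹' par Cb L b ((1 - τ) * s)) \ cel Cb z s := ⟨hy.1, hyq⟩
    rw [Fin1, indicator_of_mem h1]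
    exact le_self_add

/-- sum over the shells -/
theorem sum_shell {Ω : Set R3} (hΩf : volume Ω ≠ ∞) {D : R3 → R3 →L[ℝ] R3}
    {f : R3 → R3} {κ e s : ℝ} (he : 0 < e) (hs : 0 < s)
    {m : Measure R3} [IsFiniteMeasure m] (hm : m ≪ volume) {ε₁ : ℝ≥0∞} {δ' : ℝ}
    (hac : ∀ B : Set R3, volume B ≤ ENNReal.ofReal δ' → m B < ε₁)
    (heδ : e * (volume Ω).toReal ≤ δ') {a₀ : R3} (Q : Finset (Fin 3 → ℤ))
    {b : (Fin 3 → ℤ) → R3} {L : (Fin 3 → ℤ) → R3 →L[ℝ] R3} {S : (Fin 3 → ℤ) → Set R3}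
    (hgc : ∀ k ∈ Q, GC Ω volume f D Cb κ e s (vt (2 * s) a₀ k) (b k) (L k) (S k)) :
    ∑ k ∈ Q, m (cel Cb (vt (2 * s) a₀ k) s \ S k) ≤ ε₁ := by
  have h1 : volume (⋃ k ∈ Q, (cel Cb (vt (2 * s) a₀ k) s \ S k)) ≤ ENNReal.ofReal δ' := by
    apply vol_small_le hΩf hs he.le heδ Q (fun k hk => (hgc k hk).sub)
    intro k hk
    have := (hgc k hk).big
    rwa [fr3] at this
  have h2 : m (⋃ k ∈ Q, (cel Cb (vt (2 * s) a₀ k) s \ S k)) =
      ∑ k ∈ Q, m (cel Cb (vt (2 * s) a₀ k) s \ S k) := by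
    apply measure_biUnion_finset₀
    · intro k hk l hl hkl
      apply hm
      have h3 := cel_null hs a₀ hkl
      exact measure_mono_null (inter_subset_inter sdiff_subset sdiff_subset) h3
    · intro k hk
      exact ((isClosed_cel _ _).measurableSet.diff (hgc k hk).meas).nullMeasurableSet
  rw [← h2]
  exact (hac _ h1).le

/-- **one scale, arbitrary segments** -/
theorem one_scale_G {p : ℝ} (hp : 1 ≤ p) {Ω : Set R3} (hΩ : IsOpen Ω) {f : R3 → R3}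
    {G : Fin 3 → R3 → R3} (hf : ContinuousOn f Ω)
    (hG : ∀ j, HasWeakGradOn Ω (fun x => f x j) (G j))
    (hGm : AEStronglyMeasurable (Gmat G) (volume.restrict Ω))
    (hGi : ∫⁻ x in Ω, ‖Gmat G x‖ₑ ≠ ∞)
    {κ τ σ₀ η s t : ℝ} (hκ : 0 < κ) (hτ : 0 < τ) (hτ1 : 2 * τ ≤ 1) (hσ₀τ : σ₀ < τ)
    (hσ₀ : 0 < σ₀) (ht : 0 < t) (hts : t ≤ σ₀ * s) (hs : 0 < s)
    (hη : 0 < η) (hηκ : η * t ≤ κ * ((τ - σ₀) / 2 * s)) {a₀ : R3}
    (Q₀ : Finset (Fin 3 → ℤ)) (b : (Fin 3 → ℤ) → R3) (L : (Fin 3 → ℤ) → R3 →L[ℝ] R3)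
    (hsub : ∀ k ∈ Q₀, cel Cb (vt (2 * s) a₀ k) s ⊆ Ω)
    (hL : ∀ k ∈ Q₀, ∀ v, κ * ‖v‖ ≤ ‖L k v‖) (hLu : ∀ k ∈ Q₀, ‖L k‖ ≤ κ⁻¹)
    {κi : Type*} [Countable κi] {x v : κi → R3} {DD : Set R3}
    (hDD : MeasurableSet DD) {n : ℝ≥0∞} (hnt : n ≠ ∞) (hn : Dens DD n x v)
    (hv : ∀ e, ‖v e‖ ≤ t)
    {m : ℝ≥0∞} (hm0 : m ≠ 0) (hm1 : m ≠ ∞) :
    ∃ B : Set R3, volume B ≤ (n * ((∑ k ∈ Q₀, ∫⁻ x, FinG Ω f (Gmat G) (vt (2 * s) a₀ k) (b k) (L k)
        ((1 - τ) * s) ((1 - σ₀) * s) x) / ENNReal.ofReal (κ * (τ * s) / t) +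
      ((∑ k ∈ Q₀, ∫⁻ x in cel Cb (vt (2 * s) a₀ k) s, ‖Gmat G x - L k‖ₑ ^ p) /
        ENNReal.ofReal ((η / 5) ^ p) +
      (∑ k ∈ Q₀, ∫⁻ x in cel Cb (vt (2 * s) a₀ k) s,
        ‖f x - (b k + L k (x - vt (2 * s) a₀ k))‖ₑ ^ p) /
        ENNReal.ofReal ((η / 5 * t) ^ p)))) / m ∧
      ∀ a ∈ DD, a ∉ B → ∃ Q ⊆ Q₀, ((Q₀ \ Q).card : ℝ≥0∞) ≤ m ∧
        ∀ k ∈ Q, PerfG x v p Ω f (Gmat G) κ τ σ₀ η t s a (vt (2 * s) a₀ k) (b k) (L k) := by
  classical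
  -- the functionals
  set F : (Fin 3 → ℤ) × Fin 3 → R3 → ℝ≥0∞ := fun q =>
    match q.2 with
    | 0 => FinG Ω f (Gmat G) (vt (2 * s) a₀ q.1) (b q.1) (L q.1) ((1 - τ) * s) ((1 - σ₀) * s)
    | 1 => (cel Cb (vt (2 * s) a₀ q.1) s).indicator (fun x => ‖Gmat G x - L q.1‖ₑ ^ p)
    | 2 => (cel Cb (vt (2 * s) a₀ q.1) s).indicator
        (fun x => ‖f x - (b q.1 + L q.1 (x - vt (2 * s) a₀ q.1))‖ₑ ^ p) with hFdef
  set c : (Fin 3 → ℤ) × Fin 3 → ℝ≥0∞ := fun q =>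
    match q.2 with
    | 0 => ENNReal.ofReal (κ * (τ * s) / t)
    | 1 => ENNReal.ofReal ((η / 5) ^ p)
    | 2 => ENNReal.ofReal ((η / 5 * t) ^ p) with hcdef
  set J : Finset ((Fin 3 → ℤ) × Fin 3) := Q₀ ×ˢ Finset.univ with hJ
  have hF : ∀ j ∈ J, AEMeasurable (F j) volume := by
    rintro ⟨k, l⟩ hj
    have hk : k ∈ Q₀ := (Finset.mem_product.1 hj).1
    fin_cases l
    · exact (aem_FinG hΩ hf hGm _ _ _ _ _).2
    · exact aem_F2 hGm (hsub k hk) _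
    · exact aem_F3 hf (hsub k hk) _ _
  have hc0 : ∀ j ∈ J, c j ≠ 0 := by
    rintro ⟨k, l⟩ -
    fin_cases l
    · show ENNReal.ofReal (κ * (τ * s) / t) ≠ 0
      rw [Ne, ENNReal.ofReal_eq_zero, not_le]; positivity
    · show ENNReal.ofReal ((η / 5) ^ p) ≠ 0
      rw [Ne, ENNReal.ofReal_eq_zero, not_le]; positivity
    · show ENNReal.ofReal ((η / 5 * t) ^ p) ≠ 0
      rw [Ne, ENNReal.ofReal_eq_zero, not_le]; positivity
  have hc1 : ∀ j ∈ J, c j ≠ ∞ := by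
    rintro ⟨k, l⟩ -
    fin_cases l
    · exact ENNReal.ofReal_ne_top
    · exact ENNReal.ofReal_ne_top
    · exact ENNReal.ofReal_ne_top
  obtain ⟨B, hB1, hB2⟩ := few_bad_G hDD hn J hF hc0 hc1 hm0 hm1
  have hae := ae_good_G hDD hnt hn hΩ hG hf hGm hGi
  set N : Set R3 := {a | ¬ (a ∈ DD → (∀ e, ACV Ω f (Gmat G) (v e) (a + x e)) ∧
      ∀ e, ∫⁻ σ in Ioc (0:ℝ) 1, Ω.indicator (fun x => ‖Gmat G x‖ₑ) (a + x e + σ • v e) ≠ ∞)}
    with hN
  have hN0 : volume N = 0 := hae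
  refine ⟨B ∪ N, ?_, ?_⟩
  · refine (measure_union_le _ _).trans ?_
    rw [hN0, add_zero]
    refine hB1.trans (le_of_eq ?_)
    congr 2
    rw [hJ, Finset.sum_product]
    have h1 : ∀ k ∈ Q₀, ∑ l : Fin 3, (∫⁻ x, F (k, l) x) / c (k, l) =
        (∫⁻ x, FinG Ω f (Gmat G) (vt (2 * s) a₀ k) (b k) (L k) ((1 - τ) * s) ((1 - σ₀) * s) x) /
          ENNReal.ofReal (κ * (τ * s) / t) +
        ((∫⁻ x in cel Cb (vt (2 * s) a₀ k) s, ‖Gmat G x - L k‖ₑ ^ p) /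
          ENNReal.ofReal ((η / 5) ^ p) +
        (∫⁻ x in cel Cb (vt (2 * s) a₀ k) s,
          ‖f x - (b k + L k (x - vt (2 * s) a₀ k))‖ₑ ^ p) / ENNReal.ofReal ((η / 5 * t) ^ p)) := by
      intro k _
      rw [Fin.sum_univ_three, add_assoc]
      congr 2
      · congr 1
        exact lintegral_indicator (isClosed_cel _ _).measurableSet _
      · congr 1
        exact lintegral_indicator (isClosed_cel _ _).measurableSet _
    rw [Finset.sum_congr rfl h1]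
    simp only [Finset.sum_add_distrib, ENNReal.div_eq_inv_mul, Finset.mul_sum]
  · intro a haD haB
    rw [mem_union, not_or] at haB
    have hgood := (not_not.1 haB.2) haD
    have hcard := hB2 a haD haB.1
    set Q := Q₀.filter fun k => ∀ l, skf x v (F (k, l)) a < c (k, l) with hQ
    refine ⟨Q, Finset.filter_subset _ _, ?_, ?_⟩
    · refine le_trans ?_ hcard
      have h1 : Q₀ \ Q ⊆ (J.filter fun j => c j ≤ skf x v (F j) a).image Prod.fst := by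
        intro k hk
        rw [Finset.mem_sdiff, hQ, Finset.mem_filter] at hk
        have h2 : ∃ l, c (k, l) ≤ skf x v (F (k, l)) a := by
          by_contra h
          push Not at h
          exact hk.2 ⟨hk.1, h⟩
        obtain ⟨l, hi⟩ := h2
        exact Finset.mem_image.2 ⟨(k, l), Finset.mem_filter.2
          ⟨Finset.mem_product.2 ⟨hk.1, Finset.mem_univ _⟩, hi⟩, rfl⟩
      exact_mod_cast (Finset.card_le_card h1).trans Finset.card_image_le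
    · intro k hk
      obtain ⟨hk0, hk1⟩ := Finset.mem_filter.1 hk
      exact perfG_of hp hf hκ hτ hτ1 hσ₀τ hσ₀ ht hts hs hη hηκ (hL k hk0) (hLu k hk0)
        (hsub k hk0) hv hgood.1 hgood.2 (hk1 0) (hk1 1).le (hk1 2).le

end

end Crest.Agent.R96.Coarse_538
end

-- ▼ part R96/Intr24_538

set_option autoImplicit false
set_option linter.unusedSectionVars false
set_option maxHeartbeats 400000

open MeasureTheory Set Filter Metric Module
open scoped ENNReal NNReal Topology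

namespace Crest.Agent.R96.Coarse_538

open Crest.AnalysisR.VecCalc3 Crest.AnalysisR.Sobolev
open Crest.Agent.R96.Acl_392 Crest.Agent.R96.Lu_538 Crest.Agent.R96.Intr_538
open Crest.Agent.R96.Poi_392

noncomputable section

theorem PerfG.mono {ι : Type*} {x v : ι → R3} {p : ℝ} (hp : 0 < p) {Ω : Set R3} {f : R3 → R3}
    {D : R3 → R3 →L[ℝ] R3}
    {κ τ σ₀ η η' t s : ℝ} {a z b : R3} {L : R3 →L[ℝ] R3} (ht : 0 ≤ t) (hη' : 0 ≤ η')
    (hηη : η' ≤ η) (h : PerfG x v p Ω f D κ τ σ₀ η' t s a z b L) :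
    PerfG x v p Ω f D κ τ σ₀ η t s a z b L :=
  ⟨h.sub, h.low, h.up, fun e y hy hyq y' hy' => ⟨(h.near e y hy hyq y' hy').1,
    (h.near e y hy hyq y' hy').2.trans (by gcongr)⟩, fun e =>
    (h.edgeD e).trans (ENNReal.ofReal_le_ofReal (Real.rpow_le_rpow hη' hηη hp.le)), h.noint⟩

/-- arithmetic of the bad set -/
theorem arith_bad_G {p : ℝ} {X1 X2 X3 VD : ℝ≥0∞} {κ τ η s N θ δ ε₁ δ₁ n : ℝ} (hκ : 0 < κ)
    (hτ : 0 < τ) (hη : 0 < η) (hs : 0 < s) (hN : 0 < N) (hδ : 0 < δ) (hδ₁ : 0 < δ₁)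
    (hε₁ : 0 < ε₁) (hn : 0 < n) (hθ : 0 < θ) (hVD : ENNReal.ofReal ((s / N) ^ 3) ≤ VD)
    (h1 : X1 ≤ ENNReal.ofReal (2 * ε₁)) (h2 : X2 ≤ ENNReal.ofReal δ₁)
    (h3 : X3 ≤ ENNReal.ofReal (δ₁ * s ^ p))
    (hε : 2 * ε₁ / (κ * τ * N) ≤ θ * δ / (16 * n * N ^ 3))
    (hδd : δ₁ * ((1 + N ^ p) / (η / 5) ^ p) ≤ θ * δ / (16 * n * N ^ 3)) :
    (ENNReal.ofReal n * (X1 / ENNReal.ofReal (κ * (τ * s) / (s / N)) +
      (X2 / ENNReal.ofReal ((η / 5) ^ p) + X3 / ENNReal.ofReal ((η / 5 * (s / N)) ^ p)))) /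
      ENNReal.ofReal (δ / (2 * s) ^ 3) ≤ ENNReal.ofReal θ * VD := by
  have hA : X1 / ENNReal.ofReal (κ * (τ * s) / (s / N)) ≤
      ENNReal.ofReal (2 * ε₁ / (κ * τ * N)) := by
    calc X1 / ENNReal.ofReal (κ * (τ * s) / (s / N))
        ≤ ENNReal.ofReal (2 * ε₁) / ENNReal.ofReal (κ * (τ * s) / (s / N)) := by gcongr
      _ = ENNReal.ofReal (2 * ε₁ / (κ * τ * N)) := by
          rw [← ENNReal.ofReal_div_of_pos (by positivity)]
          congr 1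
          field_simp
  have hB : X2 / ENNReal.ofReal ((η / 5) ^ p) ≤ ENNReal.ofReal (δ₁ / (η / 5) ^ p) := by
    calc X2 / ENNReal.ofReal ((η / 5) ^ p) ≤ ENNReal.ofReal δ₁ / ENNReal.ofReal ((η / 5) ^ p) := by
          gcongr
      _ = _ := by rw [← ENNReal.ofReal_div_of_pos (by positivity)]
  have hC : X3 / ENNReal.ofReal ((η / 5 * (s / N)) ^ p) ≤
      ENNReal.ofReal (δ₁ * N ^ p / (η / 5) ^ p) := by
    calc X3 / ENNReal.ofReal ((η / 5 * (s / N)) ^ p)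
        ≤ ENNReal.ofReal (δ₁ * s ^ p) / ENNReal.ofReal ((η / 5 * (s / N)) ^ p) := by gcongr
      _ = _ := by
          rw [← ENNReal.ofReal_div_of_pos (by positivity)]
          congr 1
          have h4 : s = (s / N) * N := by field_simp
          have h5 : s ^ p = (s / N) ^ p * N ^ p := by
            rw [← Real.mul_rpow (by positivity) (by positivity), ← h4]
          rw [h5, Real.mul_rpow (by positivity) (by positivity)]
          have h6 : 0 < (s / N) ^ p := by positivity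
          field_simp
  calc (ENNReal.ofReal n * (X1 / ENNReal.ofReal (κ * (τ * s) / (s / N)) +
      (X2 / ENNReal.ofReal ((η / 5) ^ p) + X3 / ENNReal.ofReal ((η / 5 * (s / N)) ^ p)))) /
      ENNReal.ofReal (δ / (2 * s) ^ 3)
      ≤ (ENNReal.ofReal n * (ENNReal.ofReal (2 * ε₁ / (κ * τ * N)) +
          (ENNReal.ofReal (δ₁ / (η / 5) ^ p) +
          ENNReal.ofReal (δ₁ * N ^ p / (η / 5) ^ p)))) /
        ENNReal.ofReal (δ / (2 * s) ^ 3) := by gcongr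
    _ = ENNReal.ofReal (n * (2 * ε₁ / (κ * τ * N) + (δ₁ / (η / 5) ^ p +
          δ₁ * N ^ p / (η / 5) ^ p)) / (δ / (2 * s) ^ 3)) := by
        rw [← ENNReal.ofReal_add (by positivity) (by positivity),
          ← ENNReal.ofReal_add (by positivity) (by positivity),
          ← ENNReal.ofReal_mul hn.le]
        exact (ENNReal.ofReal_div_of_pos (by positivity)).symm
    _ ≤ ENNReal.ofReal (θ * (s / N) ^ 3) := by
        apply ENNReal.ofReal_le_ofReal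
        rw [div_le_iff₀ (by positivity)]
        have h7 : δ₁ / (η / 5) ^ p + δ₁ * N ^ p / (η / 5) ^ p =
            δ₁ * ((1 + N ^ p) / (η / 5) ^ p) := by ring
        rw [h7]
        calc n * (2 * ε₁ / (κ * τ * N) + δ₁ * ((1 + N ^ p) / (η / 5) ^ p))
            ≤ n * (θ * δ / (16 * n * N ^ 3) + θ * δ / (16 * n * N ^ 3)) := by gcongr
          _ = θ * (s / N) ^ 3 * (δ / (2 * s) ^ 3) := by
              field_simp
              ring
    _ = ENNReal.ofReal θ * ENNReal.ofReal ((s / N) ^ 3) := by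
        rw [← ENNReal.ofReal_mul hθ.le]
    _ ≤ ENNReal.ofReal θ * VD := by gcongr

/-- **COARSE SELECTION, ARBITRARY SEGMENTS.**  `t = s / N` bounds the length of the segments, `D` is
the set of translates (`volume D ≥ t³`), `n` the density of the family with respect to `D`. -/
theorem coarse_G {p : ℝ} (hp : 1 ≤ p) {Ω Λ : Set R3} (hΩ : IsOpen Ω)
    (hΩb : Bornology.IsBounded Ω) (hΛ : IsOpen Λ) (hΛf : volume Λ ≠ ∞) {f : R3 → R3}
    {G : Fin 3 → R3 → R3} (hinj : InjOn f Ω)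
    (hf : ContinuousOn f Ω) (hfΛ : MapsTo f Ω Λ)
    (hG : ∀ j, HasWeakGradOn Ω (fun x => f x j) (G j))
    (hGp : ∀ j, MemLp (G j) (ENNReal.ofReal p) (volume.restrict Ω)) {ε : ℝ} (hε : 0 < ε) :
    ∃ κ : ℝ, 0 < κ ∧ κ ≤ 1 ∧ ∃ K ⊆ Ω, IsCompact K ∧ ∃ K' ⊆ Λ, IsCompact K' ∧
      ∀ N n τ σ₀ η θ δ e₁ : ℝ, 0 < N → 0 < n → 0 < σ₀ → σ₀ < τ → 2 * τ ≤ 1 → 1 ≤ σ₀ * N →
        0 < η → 0 < θ → 0 < δ → 0 < e₁ →
        ∃ s₀ : ℝ, 0 < s₀ ∧ ∀ s : ℝ, 0 < s → s < s₀ → ∀ a₀ : R3,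
        ∃ (Q₀ : Finset (Fin 3 → ℤ)) (b : (Fin 3 → ℤ) → R3) (L : (Fin 3 → ℤ) → R3 →L[ℝ] R3)
          (S : (Fin 3 → ℤ) → Set R3),
          (∀ k ∈ Q₀, GC Ω volume f (Gmat G) Cb κ e₁ s (vt (2 * s) a₀ k) (b k) (L k) (S k)) ∧
          (∀ k ∈ Q₀, cel Cb (vt (2 * s) a₀ k) s ⊆ K) ∧ (∀ k ∈ Q₀, par Cb (L k) (b k) s ⊆ K') ∧
          (∀ k ∈ Q₀, ∀ l ∈ Q₀, k ≠ l →
            Disjoint (par Cb (L k) (b k) ((1 - τ) * s)) (par Cb (L l) (b l) s)) ∧
          ∑ k ∈ Q₀, ∫⁻ x in cel Cb (vt (2 * s) a₀ k) s, ‖Gmat G x - L k‖ₑ ^ p ≤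
            ENNReal.ofReal e₁ ∧
          volume ((Ω ∩ {x | (Gmat G x).det ≠ 0}) \ ⋃ k ∈ Q₀, cel Cb (vt (2 * s) a₀ k) s) ≤
            ENNReal.ofReal ε ∧
          ∀ (κi : Type) [Countable κi] (x v : κi → R3) (D : Set R3), MeasurableSet D →
            ENNReal.ofReal ((s / N) ^ 3) ≤ volume D → (∀ e, ‖v e‖ ≤ s / N) →
            Dens D (ENNReal.ofReal n) x v →
            ∃ B : Set R3, volume B ≤ ENNReal.ofReal θ * volume D ∧
              ∀ a ∈ D, a ∉ B → ∃ Q ⊆ Q₀, ((Q₀ \ Q).card : ℝ) * (2 * s) ^ 3 ≤ δ ∧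
                ∀ k ∈ Q, PerfG x v p Ω f (Gmat G) κ τ σ₀ η (s / N) s a (vt (2 * s) a₀ k)
                  (b k) (L k) := by
  classical
  have hp0 : 0 < p := by linarith
  have hΩf : volume Ω ≠ ∞ := hΩb.measure_lt_top.ne
  have hGm : AEStronglyMeasurable (Gmat G) (volume.restrict Ω) := aesm_Gmat fun j => (hGp j).1
  have hGi := lint_Gmat hp hΩf hGp
  obtain ⟨κ, hκ, hκ1, K, hK, hKc, K', hK', hK'c, Hgood⟩ :=
    good_cubes hp hΩ hΩb hΛ hf hfΛ hG hGp (half_pos hε)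
  refine ⟨κ, hκ, hκ1, K, hK, hKc, K', hK', hK'c, ?_⟩
  intro N n τ σ₀ η θ δ e₁ hN0 hn hσ₀ hσ₀τ hτ1 hσN hη hθ hδ he₁
  have hτ : 0 < τ := hσ₀.trans hσ₀τ
  set mm : Measure R3 := (volume.restrict Ω).withDensity (fun x => ‖Gmat G x‖ₑ) with hmm
  have hmmf : IsFiniteMeasure mm := isFiniteMeasure_withDensity hGi
  have hmmac : mm ≪ volume :=
    (withDensity_absolutelyContinuous _ _).trans Measure.absolutelyContinuous_restrict
  have hmmA : ∀ A : Set R3, MeasurableSet A → A ⊆ Ω → mm A = ∫⁻ x in A, ‖Gmat G x‖ₑ := by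
    intro A hA hAΩ
    rw [hmm, withDensity_apply _ hA, Measure.restrict_restrict hA, inter_eq_left.2 hAΩ]
  obtain ⟨sL, hLus⟩ := exists_lus_R3 hΩ hG hf
  -- tolerances
  obtain ⟨η', hη'0, hη'η, hη'κ⟩ : ∃ η' : ℝ, 0 < η' ∧ η' ≤ η ∧ η' ≤ κ * ((τ - σ₀) / 2) * N := by
    have : 0 < κ * ((τ - σ₀) / 2) * N := mul_pos (mul_pos hκ (by linarith)) hN0
    exact ⟨min η (κ * ((τ - σ₀) / 2) * N), lt_min hη this, min_le_left _ _, min_le_right _ _⟩
  obtain ⟨ε₁, hε₁0, hε₁a, hε₁b⟩ : ∃ ε₁ : ℝ, 0 < ε₁ ∧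
      2 * ε₁ / (κ * τ * N) ≤ θ * δ / (16 * n * N ^ 3) ∧ 8 * ε₁ ≤ ε / 2 := by
    refine ⟨min (θ * δ / (16 * n * N ^ 3) * (κ * τ * N) / 2) (ε / 16), by positivity, ?_, ?_⟩
    · rw [div_le_iff₀ (by positivity)]
      have := min_le_left (θ * δ / (16 * n * N ^ 3) * (κ * τ * N) / 2) (ε / 16)
      linarith
    · have := min_le_right (θ * δ / (16 * n * N ^ 3) * (κ * τ * N) / 2) (ε / 16)
      linarith
  obtain ⟨δ₁, hδ₁0, hδ₁a, hδ₁e⟩ : ∃ δ₁ : ℝ, 0 < δ₁ ∧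
      δ₁ * ((1 + N ^ p) / (η' / 5) ^ p) ≤ θ * δ / (16 * n * N ^ 3) ∧ δ₁ ≤ e₁ := by
    refine ⟨min (θ * δ / (16 * n * N ^ 3) / ((1 + N ^ p) / (η' / 5) ^ p)) e₁, by positivity, ?_,
      min_le_right _ _⟩
    rw [← le_div_iff₀ (by positivity)]
    exact min_le_left _ _
  obtain ⟨e₀, he₀, r₀, hr₀, Hintr⟩ := intrSum.{0} hΩ.measurableSet hLus hinj hf hGm
    hΛ.measurableSet hΛf hfΛ hmmac (a := 1) (R := 2) one_pos (by norm_num) hκ hτ
    (by linarith : τ ≤ 1) (T := 1) le_rfl hε₁0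
  obtain ⟨δ', hδ', hac⟩ := exists_ac hmmac (ε := ENNReal.ofReal ε₁) (by
    rw [Ne, ENNReal.ofReal_eq_zero, not_le]; positivity)
  set V := (volume Ω).toReal with hV
  have hV0 : 0 ≤ V := ENNReal.toReal_nonneg
  obtain ⟨e, he0, hee₀, hee₁, heτ, heV⟩ : ∃ e : ℝ, 0 < e ∧ e ≤ e₀ ∧ e ≤ e₁ ∧
      e ≤ κ * (τ - σ₀) ∧ e * V ≤ δ' := by
    have h1 : 0 < κ * (τ - σ₀) := mul_pos hκ (by linarith)
    refine ⟨min (min e₀ e₁) (min (κ * (τ - σ₀)) (δ' / (V + 1))),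
      lt_min (lt_min he₀ he₁) (lt_min h1 (by positivity)),
      (min_le_left _ _).trans (min_le_left _ _), (min_le_left _ _).trans (min_le_right _ _),
      (min_le_right _ _).trans (min_le_left _ _), ?_⟩
    have h2 : min (min e₀ e₁) (min (κ * (τ - σ₀)) (δ' / (V + 1))) ≤ δ' / (V + 1) :=
      (min_le_right _ _).trans (min_le_right _ _)
    have h3 : 0 ≤ δ' / (V + 1) := by positivity
    calc min (min e₀ e₁) (min (κ * (τ - σ₀)) (δ' / (V + 1))) * V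
        ≤ δ' / (V + 1) * (V + 1) := by
          have : V ≤ V + 1 := by linarith
          gcongr
      _ = δ' := by field_simp
  obtain ⟨s₁, hs₁, Hs⟩ := Hgood e he0 δ₁ hδ₁0
  refine ⟨min s₁ r₀, lt_min hs₁ hr₀, ?_⟩
  intro s hs hss a₀
  have hss1 : s < s₁ := hss.trans_le (min_le_left _ _)
  have hss2 : s < r₀ := hss.trans_le (min_le_right _ _)
  obtain ⟨Q, b, L, S, hQgc, hQK, hQK', hQD, hQF, hQl⟩ := Hs s hs hss1 a₀
  obtain ⟨hdisj, Q₀, hQ₀Q, hQ₀s, hQ₀m⟩ := Hintr Q (fun _ => Cb) (fun _ => e) (fun _ => s)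
    (fun k => vt (2 * s) a₀ k) b L S (fun _ _ => ref_Cb) (fun _ _ => Cb_sub) (fun _ _ => he0.le)
    (fun _ _ => hee₀) (fun _ _ => hs) (fun _ _ => hss2) (fun _ _ _ _ => by rw [one_mul])
    hQgc (fun k _ l _ hkl => cel_null hs a₀ hkl)
  have hQ₀gc : ∀ k ∈ Q₀, GC Ω volume f (Gmat G) Cb κ e s (vt (2 * s) a₀ k) (b k) (L k) (S k) :=
    fun k hk => hQgc k (hQ₀Q hk)
  set t := s / N with ht
  have ht0 : 0 < t := by positivity
  have hts : t ≤ σ₀ * s := by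
    rw [ht, div_le_iff₀ hN0]
    nlinarith
  have hηκ : η' * t ≤ κ * ((τ - σ₀) / 2 * s) := by
    calc η' * t ≤ κ * ((τ - σ₀) / 2) * N * t := by gcongr
      _ = κ * ((τ - σ₀) / 2 * s) := by rw [ht]; field_simp
  refine ⟨Q₀, b, L, S, fun k hk => GC.mono_e hs hee₁ (hQ₀gc k hk), fun k hk => hQK k (hQ₀Q hk),
    fun k hk => hQK' k (hQ₀Q hk),
    fun k hk l hl hkl => hdisj k (hQ₀Q hk) l (hQ₀Q hl) hkl,
    ((Finset.sum_le_sum_of_subset hQ₀Q).trans hQD).trans (ENNReal.ofReal_le_ofReal hδ₁e), ?_, ?_⟩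
  · -- leftover
    have h1 : (Ω ∩ {x | (Gmat G x).det ≠ 0}) \ ⋃ k ∈ Q₀, cel Cb (vt (2 * s) a₀ k) s ⊆
        ((Ω ∩ {x | (Gmat G x).det ≠ 0}) \ ⋃ k ∈ Q, cel Cb (vt (2 * s) a₀ k) s) ∪
          ⋃ k ∈ Q \ Q₀, cel Cb (vt (2 * s) a₀ k) s := by
      rintro x ⟨hx1, hx2⟩
      by_cases hxQ : x ∈ ⋃ k ∈ Q, cel Cb (vt (2 * s) a₀ k) s
      · right
        obtain ⟨k, hk, hxk⟩ := mem_iUnion₂.1 hxQ
        refine mem_iUnion₂.2 ⟨k, Finset.mem_sdiff.2 ⟨hk, fun hk0 => ?_⟩, hxk⟩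
        exact hx2 (mem_iUnion₂.2 ⟨k, hk0, hxk⟩)
      · left; exact ⟨hx1, hxQ⟩
    have h2 := hQ₀s (Q \ Q₀) Finset.sdiff_subset Finset.disjoint_sdiff
    rw [fr3, Finset.sum_const, nsmul_eq_mul] at h2
    have h3 : volume (⋃ k ∈ Q \ Q₀, cel Cb (vt (2 * s) a₀ k) s) ≤ ENNReal.ofReal (ε / 2) := by
      calc volume (⋃ k ∈ Q \ Q₀, cel Cb (vt (2 * s) a₀ k) s)
          ≤ ∑ k ∈ Q \ Q₀, volume (cel Cb (vt (2 * s) a₀ k) s) := measure_biUnion_finset_le _ _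
        _ = ENNReal.ofReal ((Q \ Q₀).card * (2 * s) ^ 3) := by
            simp only [vol_cel hs, Finset.sum_const, nsmul_eq_mul]
            rw [ENNReal.ofReal_mul (Nat.cast_nonneg _), ENNReal.ofReal_natCast]
        _ ≤ ENNReal.ofReal (ε / 2) := by
            apply ENNReal.ofReal_le_ofReal
            calc ((Q \ Q₀).card : ℝ) * (2 * s) ^ 3 = 8 * ((Q \ Q₀).card * s ^ 3) := by ring
              _ ≤ 8 * ε₁ := by gcongr
              _ ≤ ε / 2 := hε₁b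
    calc _ ≤ volume ((Ω ∩ {x | (Gmat G x).det ≠ 0}) \ ⋃ k ∈ Q, cel Cb (vt (2 * s) a₀ k) s) +
          volume (⋃ k ∈ Q \ Q₀, cel Cb (vt (2 * s) a₀ k) s) :=
          (measure_mono h1).trans (measure_union_le _ _)
      _ ≤ ENNReal.ofReal (ε / 2) + ENNReal.ofReal (ε / 2) := add_le_add hQl h3
      _ = ENNReal.ofReal ε := by
          rw [← ENNReal.ofReal_add (by positivity) (by positivity)]
          congr 1; ring
  · -- translates
    intro κi _ x v D hD hVD hv hdens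
    have hm0 : ENNReal.ofReal (δ / (2 * s) ^ 3) ≠ 0 := by
      rw [Ne, ENNReal.ofReal_eq_zero, not_le]; positivity
    obtain ⟨B, hB, hB'⟩ := one_scale_G hp hΩ hf hG hGm hGi hκ hτ hτ1 hσ₀τ hσ₀ ht0 hts hs hη'0 hηκ
      (a₀ := a₀) Q₀ b L (fun k hk => (hQ₀gc k hk).sub) (fun k hk => (hQ₀gc k hk).low)
      (fun k hk => (hQ₀gc k hk).up) hD ENNReal.ofReal_ne_top hdens hv hm0 ENNReal.ofReal_ne_top
    refine ⟨B, ?_, ?_⟩
    · refine hB.trans ?_
      refine arith_bad_G hκ hτ hη'0 hs hN0 hδ hδ₁0 hε₁0 hn hθ hVD ?_ ?_ ?_ hε₁a hδ₁a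
      · have h5 : ∀ k ∈ Q₀, ∫⁻ y, FinG Ω f (Gmat G) (vt (2 * s) a₀ k) (b k) (L k) ((1 - τ) * s)
            ((1 - σ₀) * s) y ≤ mm ((Ω ∩ f ⁻¹' par Cb (L k) (b k) ((1 - τ) * s)) \
              cel Cb (vt (2 * s) a₀ k) s) + mm (cel Cb (vt (2 * s) a₀ k) s \ S k) := by
          intro k hk
          obtain ⟨hX, hXm⟩ := aem_Fin1 hΩ hf hGm (vt (2 * s) a₀ k) (b k) (L k) s τ
          have hS : MeasurableSet (cel Cb (vt (2 * s) a₀ k) s \ S k) :=
            (isClosed_cel _ _).measurableSet.diff (hQ₀gc k hk).meas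
          rw [hmmA _ hX (fun x hx => hx.1.1),
            hmmA _ hS (sdiff_subset.trans (hQ₀gc k hk).sub)]
          calc ∫⁻ y, FinG Ω f (Gmat G) (vt (2 * s) a₀ k) (b k) (L k) ((1 - τ) * s)
                ((1 - σ₀) * s) y
              ≤ ∫⁻ y, (Fin1 Ω f (Gmat G) (vt (2 * s) a₀ k) (b k) (L k) s τ y +
                (cel Cb (vt (2 * s) a₀ k) s \ S k).indicator (fun x => ‖Gmat G x‖ₑ) y) :=
                lintegral_mono fun y => shell_le hκ he0 hs (by linarith) (by linarith) heτ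
                  (hQ₀gc k hk) y
            _ = _ := by
                rw [lintegral_add_left' hXm, lintegral_indicator hS, Fin1, lintegral_indicator hX]
        refine (Finset.sum_le_sum h5).trans ?_
        rw [Finset.sum_add_distrib]
        have h6 := sum_shell hΩf he0 hs hmmac hac heV Q₀ hQ₀gc
        calc _ ≤ ENNReal.ofReal ε₁ + ENNReal.ofReal ε₁ := add_le_add hQ₀m h6
          _ = ENNReal.ofReal (2 * ε₁) := by
              rw [← ENNReal.ofReal_add hε₁0.le hε₁0.le]; congr 1; ring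
      · exact (Finset.sum_le_sum_of_subset hQ₀Q).trans hQD
      · exact (Finset.sum_le_sum_of_subset hQ₀Q).trans hQF
    · intro a haD haB
      obtain ⟨Q', hQ'1, hQ'2, hQ'3⟩ := hB' a haD haB
      refine ⟨Q', hQ'1, ?_, fun k hk => (hQ'3 k hk).mono hp0 ht0.le hη'0.le hη'η⟩
      have h1 : ((Q₀ \ Q').card : ℝ≥0∞) = ENNReal.ofReal ((Q₀ \ Q').card : ℝ) := by
        rw [ENNReal.ofReal_natCast]
      rw [h1] at hQ'2
      have h2 := (ENNReal.ofReal_le_ofReal_iff (by positivity)).1 hQ'2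
      rwa [le_div_iff₀ (by positivity)] at h2

end

end Crest.Agent.R96.Coarse_538
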