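import Mathlib
import Crest.Agent.R096.Ub4_113
import Crest.Agent.R096.Gau2_812
import Crest.Agent.R096.Tgr3_335
import Crest.Agent.R96.Intr24_538
import Crest.Agent.R096.Cel1_715

-- ▼ part R96/Gdt1_538
section

set_option autoImplicit false
set_option linter.unusedSectionVars false
set_option maxHeartbeats 400000

open MeasureTheory Set Filter Metric
open scoped ENNReal NNReal Topology

namespace Crest.Agent.R96.Gdt_538

/-- oscillation of an almost increasing function -/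
theorem osc_le {φ F : ℝ → ℝ} {a b : ℝ} (hab : a ≤ b) (hφ : ContinuousOn φ (Icc a b))
    (hF : MonotoneOn F (Icc a b))
    (h : ∀ x ∈ Icc a b, ∀ y ∈ Icc a b, x ≤ y → φ x ≤ φ y + (F y - F x)) :
    volume (φ '' Icc a b) ≤ ENNReal.ofReal (φ b - φ a + 2 * (F b - F a)) ∧
      0 ≤ φ b - φ a + 2 * (F b - F a) := by
  have hne : (Icc a b).Nonempty := nonempty_Icc.2 hab
  obtain ⟨q, hq, hqm⟩ := isCompact_Icc.exists_isMinOn hne hφ
  obtain ⟨p, hp, hpm⟩ := isCompact_Icc.exists_isMaxOn hne hφ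
  have ha : a ∈ Icc a b := left_mem_Icc.2 hab
  have hb : b ∈ Icc a b := right_mem_Icc.2 hab
  have h1 : φ '' Icc a b ⊆ Icc (φ q) (φ p) := by
    rintro _ ⟨x, hx, rfl⟩
    exact ⟨hqm hx, hpm hx⟩
  have hpq : φ p - φ q ≤ φ b - φ a + 2 * (F b - F a) := by
    have e1 := h a ha b hb hab
    have f1 := hF ha hp hp.1
    have f2 := hF hp hb hp.2
    have f3 := hF ha hq hq.1
    have f4 := hF hq hb hq.2
    rcases le_total p q with hle | hle
    · have e2 := h p hp q hq hle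
      linarith
    · have e2 := h p hp b hb hp.2
      have e3 := h a ha q hq hq.1
      have f5 := hF hq hp hle
      linarith
  have h0 : φ q ≤ φ p := hqm hp
  refine ⟨(measure_mono h1).trans ?_, by linarith⟩
  rw [Real.volume_Icc]
  exact ENNReal.ofReal_le_ofReal hpq

/-- one partition -/
theorem count_le {φ F : ℝ → ℝ} {α β : ℝ} (hαβ : α < β) (hφ : ContinuousOn φ (Icc α β))
    (hF : MonotoneOn F (Icc α β))
    (h : ∀ x ∈ Icc α β, ∀ y ∈ Icc α β, x ≤ y → φ x ≤ φ y + (F y - F x)) {n : ℕ} (hn : 0 < n) :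
    volume {t | t ∈ Ioo (φ α) (φ β) ∧ ∃ x ∈ Icc α β, ∃ y ∈ Icc α β, (β - α) / n < y - x ∧
      φ x = t ∧ φ y = t} ≤ ENNReal.ofReal (2 * (F β - F α)) := by
  classical
  set δ : ℝ := (β - α) / n with hδ
  have hn' : (0:ℝ) < n := by exact_mod_cast hn
  have hδ0 : 0 < δ := div_pos (by linarith) hn'
  have hnδ : n * δ = β - α := by rw [hδ]; field_simp
  set p : ℕ → ℝ := fun i => α + i * δ with hp
  have hp0 : p 0 = α := by simp [hp]
  have hpn : p n = β := by simp only [hp]; linarith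
  have hps : ∀ i, p (i + 1) = p i + δ := fun i => by simp only [hp]; push_cast; ring
  have hpm : Monotone p := monotone_nat_of_le_succ fun i => by rw [hps]; linarith
  have hpI : ∀ i ≤ n, p i ∈ Icc α β := fun i hi => by
    refine ⟨?_, ?_⟩
    · rw [← hp0]; exact hpm (Nat.zero_le _)
    · rw [← hpn]; exact hpm hi
  have hsub : ∀ i < n, Icc (p i) (p (i + 1)) ⊆ Icc α β := fun i hi =>
    Icc_subset_Icc (hpI i hi.le).1 (hpI (i + 1) hi).2
  set J : ℕ → Set ℝ := fun i => φ '' Icc (p i) (p (i + 1)) with hJ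
  have hJm : ∀ i < n, MeasurableSet (J i) := fun i hi =>
    (isCompact_Icc.image_of_continuousOn (hφ.mono (hsub i hi))).isClosed.measurableSet
  have hJv : ∀ i < n, volume (J i) ≤
      ENNReal.ofReal (φ (p (i + 1)) - φ (p i) + 2 * (F (p (i + 1)) - F (p i))) ∧
      0 ≤ φ (p (i + 1)) - φ (p i) + 2 * (F (p (i + 1)) - F (p i)) := fun i hi =>
    osc_le (by rw [hps]; linarith) (hφ.mono (hsub i hi)) (hF.mono (hsub i hi))
      fun x hx y hy hxy => h x (hsub i hi hx) y (hsub i hi hy) hxy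
  have hex : ∀ x ∈ Icc α β, ∃ i < n, x ∈ Icc (p i) (p (i + 1)) := by
    intro x hx
    by_contra hcon
    push Not at hcon
    have : ∀ i ≤ n, p i ≤ x := by
      intro i
      induction i with
      | zero => intro _; rw [hp0]; exact hx.1
      | succ i ih =>
        intro hi
        by_contra h1
        exact hcon i (by omega) ⟨ih (by omega), (not_le.1 h1).le⟩
    have h2 := this n le_rfl
    have h3 := hpI n le_rfl
    have h4 : x = β := le_antisymm hx.2 (by rw [← hpn]; exact h2)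
    obtain ⟨m, rfl⟩ : ∃ m, n = m + 1 := ⟨n - 1, by omega⟩
    exact hcon m (by omega) ⟨this m (by omega), by rw [hpn, h4]⟩
  set D : Set ℝ := {t | t ∈ Ioo (φ α) (φ β) ∧ ∃ x ∈ Icc α β, ∃ y ∈ Icc α β, δ < y - x ∧
      φ x = t ∧ φ y = t} with hD
  rcases le_or_gt (φ β) (φ α) with hle | hlt
  · have : D = ∅ := by
      rw [eq_empty_iff_forall_notMem]
      rintro t ⟨ht, -⟩
      linarith [ht.1, ht.2]
    rw [this, measure_empty]
    exact zero_le
  set N : ℝ → ℝ≥0∞ := fun t => ∑ i ∈ Finset.range n, (J i).indicator 1 t with hN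
  have hNm : Measurable N := Finset.measurable_sum _ fun i hi =>
    measurable_one.indicator (hJm i (Finset.mem_range.1 hi))
  have hNi : ∫⁻ t, N t ≤ ENNReal.ofReal (φ β - φ α + 2 * (F β - F α)) := by
    rw [hN, lintegral_finsetSum _ fun i hi =>
      measurable_one.indicator (hJm i (Finset.mem_range.1 hi))]
    calc ∑ i ∈ Finset.range n, ∫⁻ t, (J i).indicator 1 t
        = ∑ i ∈ Finset.range n, volume (J i) := Finset.sum_congr rfl fun i hi =>
          lintegral_indicator_one (hJm i (Finset.mem_range.1 hi))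
      _ ≤ ∑ i ∈ Finset.range n,
          ENNReal.ofReal (φ (p (i + 1)) - φ (p i) + 2 * (F (p (i + 1)) - F (p i))) :=
          Finset.sum_le_sum fun i hi => (hJv i (Finset.mem_range.1 hi)).1
      _ = ENNReal.ofReal (∑ i ∈ Finset.range n,
          (φ (p (i + 1)) - φ (p i) + 2 * (F (p (i + 1)) - F (p i)))) :=
          (ENNReal.ofReal_sum_of_nonneg fun i hi => (hJv i (Finset.mem_range.1 hi)).2).symm
      _ = ENNReal.ofReal (φ β - φ α + 2 * (F β - F α)) := by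
          congr 1
          rw [Finset.sum_add_distrib, Finset.sum_range_sub (fun i => φ (p i)),
            ← Finset.mul_sum, Finset.sum_range_sub (fun i => F (p i)), hp0, hpn]
  have hN1 : ∀ t ∈ Ioo (φ α) (φ β), 1 ≤ N t := by
    intro t ht
    obtain ⟨x, hx, rfl⟩ := intermediate_value_Icc hαβ.le hφ ⟨ht.1.le, ht.2.le⟩
    obtain ⟨i, hi, hxi⟩ := hex x hx
    calc (1 : ℝ≥0∞) = (J i).indicator 1 (φ x) := by
          rw [indicator_of_mem (mem_image_of_mem φ hxi)]; rfl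
      _ ≤ N (φ x) := Finset.single_le_sum (f := fun i => (J i).indicator (1 : ℝ → ℝ≥0∞) (φ x))
          (fun _ _ => zero_le) (Finset.mem_range.2 hi)
  have hN2 : ∀ t ∈ D, 2 ≤ N t := by
    rintro t ⟨ht, x, hx, y, hy, hxy, rfl, hyt⟩
    obtain ⟨i, hi, hxi⟩ := hex x hx
    obtain ⟨j, hj, hyj⟩ := hex y hy
    have hij : i ≠ j := by
      rintro rfl
      have := hps i
      linarith [hxi.1, hyj.2]
    have h1 : (J i).indicator (1 : ℝ → ℝ≥0∞) (φ x) = 1 := by
      rw [indicator_of_mem (mem_image_of_mem φ hxi)]; rfl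
    have h2 : (J j).indicator (1 : ℝ → ℝ≥0∞) (φ x) = 1 := by
      rw [indicator_of_mem]
      · rfl
      · rw [← hyt]; exact mem_image_of_mem φ hyj
    calc (2 : ℝ≥0∞) = ∑ k ∈ ({i, j} : Finset ℕ), (J k).indicator (1 : ℝ → ℝ≥0∞) (φ x) := by
          rw [Finset.sum_pair hij, h1, h2]; norm_num
      _ ≤ N (φ x) := Finset.sum_le_sum_of_subset_of_nonneg
          (by
            intro k hk
            rw [Finset.mem_insert, Finset.mem_singleton] at hk
            rcases hk with rfl | rfl <;> exact Finset.mem_range.2 ‹_›)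
          (fun _ _ _ => zero_le)
  set A : Set ℝ := Ioo (φ α) (φ β) ∩ {t | 2 ≤ N t} with hA
  have hAm : MeasurableSet A := measurableSet_Ioo.inter (measurableSet_le measurable_const hNm)
  have hDA : D ⊆ A := fun t ht => ⟨ht.1, hN2 t ht⟩
  have h1 : volume A + volume (Ioo (φ α) (φ β)) ≤ ∫⁻ t, N t := by
    rw [← lintegral_indicator_one hAm, ← lintegral_indicator_one measurableSet_Ioo,
      ← lintegral_add_left (measurable_one.indicator hAm)]
    apply lintegral_mono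
    intro t
    simp only
    by_cases htI : t ∈ Ioo (φ α) (φ β)
    · by_cases htA : t ∈ A
      · rw [indicator_of_mem htI, indicator_of_mem htA]
        calc (1 : ℝ → ℝ≥0∞) t + (1 : ℝ → ℝ≥0∞) t = 2 := by
              simp only [Pi.one_apply]; norm_num
          _ ≤ N t := htA.2
      · rw [indicator_of_mem htI, indicator_of_notMem htA, zero_add]
        exact hN1 t htI
    · rw [indicator_of_notMem htI, indicator_of_notMem fun hh => htI hh.1, add_zero]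
      exact zero_le
  rw [Real.volume_Ioo] at h1
  have h2 := h1.trans hNi
  have h00 : 0 ≤ 2 * (F β - F α) := by
    have := hF (left_mem_Icc.2 hαβ.le) (right_mem_Icc.2 hαβ.le) hαβ.le
    linarith
  rw [show φ β - φ α + 2 * (F β - F α) = 2 * (F β - F α) + (φ β - φ α) by ring,
    ENNReal.ofReal_add h00 (by linarith)] at h2
  exact (measure_mono hDA).trans (ENNReal.le_of_add_le_add_right ENNReal.ofReal_ne_top h2)

/-- **levels taken twice** -/
theorem double_levels {φ F : ℝ → ℝ} {α β : ℝ} (hφ : ContinuousOn φ (Icc α β))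
    (hF : MonotoneOn F (Icc α β))
    (h : ∀ x ∈ Icc α β, ∀ y ∈ Icc α β, x ≤ y → φ x ≤ φ y + (F y - F x)) :
    volume {t | t ∈ Ioo (φ α) (φ β) ∧ ∃ x ∈ Icc α β, ∃ y ∈ Icc α β, x ≠ y ∧
      φ x = t ∧ φ y = t} ≤ ENNReal.ofReal (2 * (F β - F α)) := by
  rcases lt_or_ge α β with hαβ | hαβ
  · set D : ℕ → Set ℝ := fun n => {t | t ∈ Ioo (φ α) (φ β) ∧ ∃ x ∈ Icc α β, ∃ y ∈ Icc α β,
      (β - α) / (n + 1 : ℕ) < y - x ∧ φ x = t ∧ φ y = t} with hD
    have hmono : Monotone D := by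
      intro m n hmn t ht
      obtain ⟨ht, x, hx, y, hy, hxy, e1, e2⟩ := ht
      refine ⟨ht, x, hx, y, hy, lt_of_le_of_lt ?_ hxy, e1, e2⟩
      have h1 : (0:ℝ) < (m + 1 : ℕ) := by positivity
      have h2 : ((m + 1 : ℕ) : ℝ) ≤ (n + 1 : ℕ) := by exact_mod_cast Nat.succ_le_succ hmn
      exact div_le_div_of_nonneg_left (by linarith) h1 h2
    have hsub : {t | t ∈ Ioo (φ α) (φ β) ∧ ∃ x ∈ Icc α β, ∃ y ∈ Icc α β, x ≠ y ∧
        φ x = t ∧ φ y = t} ⊆ ⋃ n, D n := by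
      rintro t ⟨ht, x, hx, y, hy, hxy, e1, e2⟩
      have key : ∀ x ∈ Icc α β, ∀ y ∈ Icc α β, x < y → φ x = t → φ y = t → t ∈ ⋃ n, D n := by
        intro x hx y hy hlt e1 e2
        obtain ⟨n, hn⟩ := exists_nat_gt ((β - α) / (y - x))
        refine mem_iUnion.2 ⟨n, ht, x, hx, y, hy, ?_, e1, e2⟩
        have hyx : 0 < y - x := by linarith
        rw [div_lt_iff₀ hyx] at hn
        rw [div_lt_iff₀ (by positivity)]
        push_cast
        nlinarith
      rcases lt_or_gt_of_ne hxy with h1 | h1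
      · exact key x hx y hy h1 e1 e2
      · exact key y hy x hx h1 e2 e1
    refine (measure_mono hsub).trans ?_
    rw [hmono.measure_iUnion]
    exact iSup_le fun n => count_le hαβ hφ hF h (Nat.succ_pos n)
  · have : {t | t ∈ Ioo (φ α) (φ β) ∧ ∃ x ∈ Icc α β, ∃ y ∈ Icc α β, x ≠ y ∧
        φ x = t ∧ φ y = t} = ∅ := by
      rw [eq_empty_iff_forall_notMem]
      rintro t ⟨-, x, hx, y, hy, hxy, -⟩
      apply hxy
      have h1 : x = α := le_antisymm (hx.2.trans hαβ) hx.1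
      have h2 : y = α := le_antisymm (hy.2.trans hαβ) hy.1
      rw [h1, h2]
    rw [this, measure_empty]
    exact zero_le

end Crest.Agent.R96.Gdt_538
end

-- ▼ part R96/Gdt2_538
section

set_option autoImplicit false
set_option linter.unusedSectionVars false
set_option maxHeartbeats 400000

open MeasureTheory Set Filter Metric
open scoped ENNReal NNReal Topology

namespace Crest.Agent.R96.Gdt_538

open Crest.Agent.R096.Ub_113 (gau le_gau exists_gau convex_gau continuous_gau)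

variable {E : Type*} [NormedAddCommGroup E] [NormedSpace ℝ E] [FiniteDimensional ℝ E]

/-- the gauge is Lipschitz -/
theorem gau_lip {G : Finset ((E →L[ℝ] ℝ) × ℝ)} {hG : G.Nonempty} {Λ : ℝ}
    (hΛ : ∀ h ∈ G, ‖h.1‖ ≤ Λ) (y z : E) : gau G hG y ≤ gau G hG z + Λ * ‖y - z‖ := by
  obtain ⟨h, hh, e⟩ := exists_gau G hG y
  have h1 := le_gau G hG (y := z) hh
  have h2 : h.1 (y - z) ≤ Λ * ‖y - z‖ :=
    (le_abs_self _).trans ((h.1.le_opNorm (y - z)).trans
      (mul_le_mul_of_nonneg_right (hΛ h hh) (norm_nonneg _)))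
  rw [map_sub] at h2
  rw [e]
  linarith

/-- **one edge**: few levels are taken twice -/
theorem edge_once {G : Finset ((E →L[ℝ] ℝ) × ℝ)} {hG : G.Nonempty} {Λ : ℝ} (hΛ0 : 0 ≤ Λ)
    (hΛ : ∀ h ∈ G, ‖h.1‖ ≤ Λ) {γ δ : ℝ → E} (hγ : ContinuousOn γ (Icc 0 1)) {p v : E}
    (hδ : ∀ x, δ x = p + x • v) {ε : ℝ} (hε : 0 < ε)
    (hnear : ∀ x ∈ Icc (0:ℝ) 1, ‖γ x - δ x‖ ≤ ε) {F : ℝ → ℝ} (hF : MonotoneOn F (Icc 0 1))
    (hBV : ∀ x ∈ Icc (0:ℝ) 1, ∀ y ∈ Icc (0:ℝ) 1, x ≤ y →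
      ‖(γ y - δ y) - (γ x - δ x)‖ ≤ F y - F x)
    (hp : gau G hG p ≤ 1) {a0 b0 : ℝ} (ha : 1 + 3 * (Λ * ε) < a0)
    (hb : b0 ≤ gau G hG (γ 1)) :
    volume {t | t ∈ Ioo a0 b0 ∧ ∃ x ∈ Icc (0:ℝ) 1, ∃ y ∈ Icc (0:ℝ) 1, x ≠ y ∧
      gau G hG (γ x) = t ∧ gau G hG (γ y) = t} ≤ ENNReal.ofReal (2 * (Λ * (F 1 - F 0))) := by
  set u := gau G hG with hu
  have hΛε : 0 ≤ Λ * ε := by positivity
  have h01 : (0:ℝ) ∈ Icc (0:ℝ) 1 := ⟨le_rfl, zero_le_one⟩
  have h11 : (1:ℝ) ∈ Icc (0:ℝ) 1 := ⟨zero_le_one, le_rfl⟩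
  have hF01 : 0 ≤ F 1 - F 0 := by have := hF h01 h11 zero_le_one; linarith
  have huc : Continuous u := continuous_gau G hG
  set ψ : ℝ → ℝ := fun x => u (δ x) with hψ
  set φ : ℝ → ℝ := fun x => u (γ x) with hφ
  have hδc : Continuous δ := by
    have : δ = fun x => p + x • v := funext hδ
    rw [this]; fun_prop
  have hψc : Continuous ψ := huc.comp hδc
  have hφc : ContinuousOn φ (Icc 0 1) := huc.comp_continuousOn hγ
  have hψ0 : ψ 0 ≤ 1 := by simp only [hψ, hδ, zero_smul, add_zero]; exact hp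
  have hφψ : ∀ x ∈ Icc (0:ℝ) 1, φ x ≤ ψ x + Λ * ε := fun x hx =>
    (gau_lip hΛ (γ x) (δ x)).trans (by
      have := mul_le_mul_of_nonneg_left (hnear x hx) hΛ0
      linarith)
  have hψφ : ∀ x ∈ Icc (0:ℝ) 1, ψ x ≤ φ x + Λ * ε := fun x hx =>
    (gau_lip hΛ (δ x) (γ x)).trans (by
      have := mul_le_mul_of_nonneg_left (hnear x hx) hΛ0
      rw [norm_sub_rev]
      linarith)
  have hconv : ∀ x y : ℝ, 0 ≤ x → x ≤ y → 0 < y → ψ x ≤ max 1 (ψ y) := by
    intro x y hx hxy hy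
    have h1 := convex_gau G hG
    have h2 := h1.2 (mem_univ (δ 0)) (mem_univ (δ y))
      (show (0:ℝ) ≤ 1 - x / y by rw [sub_nonneg, div_le_one hy]; exact hxy)
      (show (0:ℝ) ≤ x / y by positivity) (by ring)
    have h3 : (1 - x / y) • δ 0 + (x / y) • δ y = δ x := by
      rw [hδ, hδ, hδ, zero_smul, add_zero, smul_add, smul_smul, div_mul_cancel₀ _ hy.ne',
        ← add_assoc, ← add_smul]
      simp
    rw [h3] at h2
    simp only [smul_eq_mul] at h2
    have hq0 : 0 ≤ x / y := by positivity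
    have hq1 : x / y ≤ 1 := by rw [div_le_one hy]; exact hxy
    have h4 : gau G hG (δ 0) ≤ max 1 (ψ y) := hψ0.trans (le_max_left _ _)
    have h5 : gau G hG (δ y) ≤ max 1 (ψ y) := le_max_right _ _
    calc ψ x ≤ (1 - x / y) * gau G hG (δ 0) + x / y * gau G hG (δ y) := h2
      _ ≤ (1 - x / y) * max 1 (ψ y) + x / y * max 1 (ψ y) :=
          add_le_add (mul_le_mul_of_nonneg_left h4 (by linarith))
            (mul_le_mul_of_nonneg_left h5 hq0)
      _ = max 1 (ψ y) := by ring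
  rcases le_or_gt b0 a0 with hab | hab
  · have : {t | t ∈ Ioo a0 b0 ∧ ∃ x ∈ Icc (0:ℝ) 1, ∃ y ∈ Icc (0:ℝ) 1, x ≠ y ∧
        u (γ x) = t ∧ u (γ y) = t} = ∅ := by
      rw [eq_empty_iff_forall_notMem]
      rintro t ⟨ht, -⟩
      linarith [ht.1, ht.2]
    rw [this, measure_empty]
    exact zero_le
  -- the first point where `ψ` reaches `1 + 2 Λ ε'`
  set c : ℝ := (1 + 3 * (Λ * ε) + a0) / 2 - Λ * ε with hc
  have hc1 : 1 + 2 * (Λ * ε) < c := by rw [hc]; linarith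
  have hc2 : c + Λ * ε < a0 := by rw [hc]; linarith
  have hψ1 : c ≤ ψ 1 := by
    have := hφψ 1 h11
    have h2 : b0 ≤ φ 1 := hb
    linarith
  obtain ⟨σ, hσ, hσc⟩ := intermediate_value_Icc zero_le_one hψc.continuousOn
    (show c ∈ Icc (ψ 0) (ψ 1) from ⟨by linarith, hψ1⟩)
  have hσ0 : 0 < σ := by
    rcases hσ.1.eq_or_lt with h | h
    · rw [← h] at hσc; linarith
    · exact h
  have hge : ∀ x ∈ Icc σ 1, c ≤ ψ x := by
    intro x hx
    have h1 := hconv σ x hσ0.le hx.1 (hσ0.trans_le hx.1)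
    rw [hσc] at h1
    rcases le_max_iff.1 h1 with h | h
    · linarith
    · exact h
  have hlt : ∀ x ∈ Icc (0:ℝ) 1, c < ψ x → σ ≤ x := by
    intro x hx hcx
    by_contra hcon
    have h1 := hconv x σ hx.1 (not_le.1 hcon).le hσ0
    rw [hσc] at h1
    rcases le_max_iff.1 h1 with h | h
    · linarith
    · linarith
  have hone : ∀ x ∈ Icc σ 1, ∀ y ∈ Icc σ 1, x ≤ y → φ x ≤ φ y + (Λ * F y - Λ * F x) := by
    intro x hx y hy hxy
    have hx' : x ∈ Icc (0:ℝ) 1 := ⟨hσ0.le.trans hx.1, hx.2⟩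
    have hy' : y ∈ Icc (0:ℝ) 1 := ⟨hσ0.le.trans hy.1, hy.2⟩
    obtain ⟨h, hh, e⟩ := exists_gau G hG (γ x)
    have e1 : φ x = h.1 (γ x) - h.2 := e
    -- slope
    have h1 : h.1 (γ x) - h.1 (δ x) ≤ Λ * ε := by
      rw [← map_sub]
      exact (le_abs_self _).trans ((h.1.le_opNorm _).trans
        (mul_le_mul (hΛ h hh) (hnear x hx') (norm_nonneg _) hΛ0))
    have h2 := hψφ x hx'
    have h3 := hge x hx
    have h4 : h.1 (δ 0) - h.2 ≤ 1 := (le_gau G hG (y := δ 0) hh).trans hψ0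
    have h5 : 0 ≤ h.1 v := by
      have h6 : h.1 (δ x) = h.1 (δ 0) + x * h.1 v := by
        rw [hδ, hδ, zero_smul, add_zero, map_add, map_smul, smul_eq_mul]
      have h7 : 0 < x := hσ0.trans_le hx.1
      by_contra hneg
      rw [not_le] at hneg
      have : x * h.1 v < 0 := mul_neg_of_pos_of_neg h7 hneg
      linarith
    have h6 : h.1 (δ y) - h.1 (δ x) = (y - x) * h.1 v := by
      rw [hδ, hδ, map_add, map_add, map_smul, map_smul, smul_eq_mul, smul_eq_mul]; ring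
    have h7 : 0 ≤ (y - x) * h.1 v := mul_nonneg (by linarith) h5
    have h8 : -(Λ * (F y - F x)) ≤ h.1 ((γ y - δ y) - (γ x - δ x)) := by
      have h9 : |h.1 ((γ y - δ y) - (γ x - δ x))| ≤ Λ * (F y - F x) :=
        (h.1.le_opNorm _).trans (mul_le_mul (hΛ h hh) (hBV x hx' y hy' hxy) (norm_nonneg _) hΛ0)
      exact (abs_le.1 h9).1
    rw [map_sub, map_sub, map_sub] at h8
    have h10 : h.1 (γ y) - h.2 ≤ φ y := le_gau G hG (y := γ y) hh
    linarith
  have hmono : MonotoneOn (fun x => Λ * F x) (Icc σ 1) := fun x hx y hy hxy =>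
    mul_le_mul_of_nonneg_left (hF ⟨hσ0.le.trans hx.1, hx.2⟩ ⟨hσ0.le.trans hy.1, hy.2⟩ hxy) hΛ0
  have h1 := double_levels (φ := φ) (F := fun x => Λ * F x) (α := σ) (β := 1)
    (hφc.mono (Icc_subset_Icc_left hσ0.le)) hmono hone
  refine (measure_mono ?_).trans (h1.trans (ENNReal.ofReal_le_ofReal ?_))
  · rintro t ⟨ht, x, hx, y, hy, hxy, e1, e2⟩
    have key : ∀ x ∈ Icc (0:ℝ) 1, u (γ x) = t → x ∈ Icc σ 1 := by
      intro x hx e
      refine ⟨hlt x hx ?_, hx.2⟩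
      have h2 := hφψ x hx
      have h3 : φ x = t := e
      linarith [ht.1]
    refine ⟨⟨?_, ?_⟩, x, key x hx e1, y, key y hy e2, hxy, e1, e2⟩
    · have h2 := hφψ σ ⟨hσ0.le, hσ.2⟩
      rw [hσc] at h2
      linarith [ht.1]
    · exact lt_of_lt_of_le ht.2 hb
  · have h2 : F 0 ≤ F σ := hF h01 ⟨hσ0.le, hσ.2⟩ hσ0.le
    have h3 : Λ * F 0 ≤ Λ * F σ := mul_le_mul_of_nonneg_left h2 hΛ0
    linarith

end Crest.Agent.R96.Gdt_538
end

-- ▼ part R96/Gdt3_538
section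

set_option autoImplicit false
set_option linter.unusedSectionVars false
set_option maxHeartbeats 400000

open MeasureTheory Set Filter Metric
open scoped ENNReal NNReal Topology

namespace Crest.Agent.R96.Gdt_538

open Crest.Agent.R096.Msh_715
open Crest.Agent.R096.Sk2_855 (sk1)
open Crest.Agent.R096.Ub_113 (gau le_gau exists_gau convex_gau continuous_gau)
open Crest.Agent.R096.Sk3_812

variable {E : Type} [NormedAddCommGroup E] [NormedSpace ℝ E] [FiniteDimensional ℝ E]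
variable {Om La : Set E} {ι : Type*}

/-- the Lipschitz constant of the gauge from the inradius -/
theorem GH_norm {H : Finset ((E →L[ℝ] ℝ) × ℝ)} {c : E} (hc : c ∈ I H) (A : E ≃ᵃ[ℝ] E)
    {ρ κ : ℝ} (hρ : 0 < ρ) (hκ : 0 < κ) (hB : closedBall c ρ ⊆ P H)
    (hA : ∀ v, κ * ‖v‖ ≤ ‖A.linear v‖) : ∀ h ∈ GH H c A, ‖h.1‖ ≤ (κ * ρ)⁻¹ := by
  classical
  intro g hg
  unfold GH at hg
  obtain ⟨h, hh, rfl⟩ := Finset.mem_image.1 hg
  have hd : 0 < h.2 - h.1 c := sub_pos.2 (hc h hh)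
  refine ContinuousLinearMap.opNorm_le_bound _ (by positivity) fun w => ?_
  simp only [ContinuousLinearMap.smul_apply, ContinuousLinearMap.comp_apply, smul_eq_mul,
    LinearMap.coe_toContinuousLinearMap', LinearEquiv.coe_coe]
  set z : E := A.symm.linear w with hz
  have hzw : κ * ‖z‖ ≤ ‖w‖ := by
    have := hA z
    have h2 : A.linear z = w := by
      rw [hz]
      exact A.linear.apply_symm_apply w
    rwa [h2] at this
  have h1 : ρ * |h.1 z| ≤ (h.2 - h.1 c) * ‖z‖ := by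
    rcases eq_or_ne z 0 with h0 | h0
    · rw [h0]; simp
    · have hz0 : 0 < ‖z‖ := norm_pos_iff.2 h0
      have key : ∀ σ : ℝ, |σ| ≤ 1 → ρ * (σ * h.1 z) ≤ (h.2 - h.1 c) * ‖z‖ := by
        intro σ hσ
        have h2 : c + (ρ / ‖z‖ * σ) • z ∈ closedBall c ρ := by
          rw [mem_closedBall, dist_eq_norm, add_sub_cancel_left, norm_smul, Real.norm_eq_abs,
            abs_mul, abs_of_pos (by positivity : 0 < ρ / ‖z‖)]
          calc ρ / ‖z‖ * |σ| * ‖z‖ = ρ * |σ| := by field_simp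
            _ ≤ ρ * 1 := by gcongr
            _ = ρ := mul_one _
        have h3 := hB h2 h hh
        rw [map_add, map_smul, smul_eq_mul] at h3
        have h4 : ρ / ‖z‖ * σ * h.1 z ≤ h.2 - h.1 c := by linarith
        calc ρ * (σ * h.1 z) = ρ / ‖z‖ * σ * h.1 z * ‖z‖ := by field_simp
          _ ≤ (h.2 - h.1 c) * ‖z‖ := by gcongr
      rcases abs_cases (h.1 z) with ⟨e, -⟩ | ⟨e, -⟩
      · rw [e]
        have := key 1 (by simp)
        linarith
      · rw [e]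
        have := key (-1) (by simp)
        linarith
  rw [Real.norm_eq_abs, abs_mul, abs_of_pos (inv_pos.2 hd), inv_mul_le_iff₀ hd, mul_inv]
  have h2 : |h.1 z| ≤ (h.2 - h.1 c) * ‖z‖ / ρ := by
    rw [le_div_iff₀ hρ]; linarith
  refine h2.trans ?_
  have h3 : ‖z‖ ≤ κ⁻¹ * ‖w‖ := by rw [le_inv_mul_iff₀ hκ]; exact hzw
  calc (h.2 - h.1 c) * ‖z‖ / ρ ≤ (h.2 - h.1 c) * (κ⁻¹ * ‖w‖) / ρ := by gcongr
    _ = (h.2 - h.1 c) * (κ⁻¹ * ρ⁻¹ * ‖w‖) := by field_simp

/-- **near + gap + bounded variation ⟹ good tile**, levels `1 + β`, `1 + 3 β` -/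
theorem goodT_of {T : Tiling Om ι} {f : E → E} {i : ι} (hne : (T.H i).Nonempty) {c : E}
    (hc : c ∈ I (T.H i)) (A : E ≃ᵃ[ℝ] E) (hf : ContinuousOn f Om) {N : Set E}
    {Λ ε β η' : ℝ} (hΛ0 : 0 ≤ Λ) (hΛ : ∀ h ∈ GH (T.H i) c A, ‖h.1‖ ≤ Λ) (hε : 0 < ε)
    (hβ : 0 < β) (hΛε : 4 * (Λ * ε) ≤ β)
    (sub : ∀ y, ug (T.H i) hne c A y ≤ 1 + 3 * β → y ∈ La)
    (hN : P (T.H i) ⊆ N) (hNc : ∀ x, Crs T i x → T.cc x ⊆ N)
    (near : ∀ x ∈ sk1 T, x ∈ N → ‖f x - A x‖ ≤ ε)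
    (out : ∀ x ∈ sk1 T, ug (T.H i) hne c A (f x) ≤ 1 + 3 * β → x ∈ N)
    (gap : ∀ x ∈ sk1 T, x ∈ N → x ∉ P (T.H i) → ¬ Crs T i x →
      1 + 4 * β ≤ ug (T.H i) hne c A (A x))
    (tg : Tg T i)
    (bv : ∀ x, Crs T i x → ∀ p q, T.cc x = segment ℝ p q →
      ∃ F : ℝ → ℝ, MonotoneOn F (Icc 0 1) ∧ F 1 - F 0 ≤ η' ∧
        ∀ s ∈ Icc (0:ℝ) 1, ∀ t ∈ Icc (0:ℝ) 1, s ≤ t →
          ‖(f (p + t • (q - p)) - A (p + t • (q - p))) -
            (f (p + s • (q - p)) - A (p + s • (q - p)))‖ ≤ F t - F s)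
    (count : (Nat.card (KT T i) : ℝ) * (2 * (Λ * η')) < 2 * β) :
    GoodT T La f i (ug (T.H i) hne c A) (A c) (1 + β) (1 + 3 * β) := by
  set u := ug (T.H i) hne c A with hu
  have hΛε0 : 0 ≤ Λ * ε := by positivity
  have hlip : ∀ y z, u y ≤ u z + Λ * ‖y - z‖ := fun y z => gau_lip hΛ y z
  have hn1 : ∀ x ∈ sk1 T, x ∈ N → u (f x) ≤ u (A x) + Λ * ε := fun x hx hxN =>
    (hlip (f x) (A x)).trans (by
      have := mul_le_mul_of_nonneg_left (near x hx hxN) hΛ0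
      linarith)
  have hn2 : ∀ x ∈ sk1 T, x ∈ N → u (A x) ≤ u (f x) + Λ * ε := fun x hx hxN =>
    (hlip (A x) (f x)).trans (by
      have := mul_le_mul_of_nonneg_left (near x hx hxN) hΛ0
      rw [norm_sub_rev]
      linarith)
  have htile : ∀ x, x ∈ P (T.H i) → u (A x) ≤ 1 := fun x hx => by
    rw [hu, ug_le_one_iff hne hc A, A.symm_apply_apply]; exact hx
  have houtv : ∀ x, Crs T i x → ∀ w ∈ T.cc x, T.dim w = 0 → w ∉ P (T.H i) →
      1 + 4 * β - Λ * ε ≤ u (f w) := by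
    intro x hx w hw hw0 hwi
    have hwO : w ∈ Om := T.cc_sub_Om hx.1 hw
    have hws : w ∈ sk1 T := ⟨hwO, by rw [hw0]; exact zero_le_one⟩
    have h1 := gap w hws (hNc x hx hw) hwi (fun h => by
      have h2 := h.2.1
      rw [hw0] at h2
      exact absurd h2 (by norm_num))
    have h2 := hn2 w hws (hNc x hx hw)
    linarith
  refine ⟨ug_spec hne hc A (T.cpt i), by linarith, sub, ?_, ?_, ?_, tg, ?_⟩
  · intro x hx h1 h2
    have hxN := out x hx h2
    have h3 := hn1 x hx hxN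
    have h4 := hn2 x hx hxN
    by_contra hcon
    by_cases hxi : x ∈ P (T.H i)
    · have := htile x hxi
      linarith
    · have := gap x hx hxN hxi hcon
      linarith
  · intro x hx hxi
    have h1 := hn1 x hx (hN hxi)
    have h2 := htile x hxi
    linarith
  · intro x hx w hw hw0 hwi
    have := houtv x hx w hw hw0 hwi
    linarith
  · -- levels crossed once
    set a := 1 + β with ha
    set b := 1 + 3 * β with hb
    set Bad : KT T i → Set ℝ := fun k => {t | t ∈ Ioo a b ∧ ∃ z ∈ T.cc k.e, ∃ z' ∈ T.cc k.e,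
      z ≠ z' ∧ u (f z) = t ∧ u (f z') = t} with hBad
    have hbad : ∀ k, volume (Bad k) ≤ ENNReal.ofReal (2 * (Λ * η')) := by
      intro k
      have hk := k.crs
      obtain ⟨p, q, hpq, hp0, hq0, hp, hq⟩ :=
        (Crest.Agent.R096.Tgr_335.Crs.ends (T := T) (i := i) (e := k.e)
          ⟨hk.1, hk.2.1, hk.2.2.1, hk.2.2.2⟩)
      obtain ⟨F, hF, hF1, hFb⟩ := bv _ hk p q hpq
      have hmem : ∀ s ∈ Icc (0:ℝ) 1, p + s • (q - p) ∈ T.cc k.e := by
        intro s hs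
        rw [hpq, segment_eq_image']
        exact ⟨s, hs, rfl⟩
      have hsk : T.cc k.e ⊆ sk1 T := cc_sub_sk1 hk.1 hk.2.1
      have hlin : ∀ s : ℝ, A (p + s • (q - p)) = A p + s • A.linear (q - p) := by
        intro s
        have h1 := A.map_vadd p (s • (q - p))
        simp only [vadd_eq_add, map_smul] at h1
        rw [add_comm p, h1, add_comm]
      have h1 := edge_once (hG := GH_ne hne c A) hΛ0 hΛ
        (γ := fun s => f (p + s • (q - p))) (δ := fun s => A (p + s • (q - p)))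
        (hf.comp (by fun_prop) fun s hs => T.cc_sub_Om hk.1 (hmem s hs))
        (p := A p) (v := A.linear (q - p)) hlin hε
        (fun s hs => near _ (hsk (hmem s hs)) (hNc _ hk (hmem s hs)))
        hF hFb (htile p hp) (a0 := a) (b0 := b) (by rw [ha]; linarith)
        (by
          have h2 := houtv _ hk q (by rw [hpq]; exact right_mem_segment _ _ _) hq0 hq
          have h3 : (p + (1:ℝ) • (q - p)) = q := by rw [one_smul]; abel
          rw [h3, hb]
          have h4 : u (f q) = gau (GH (T.H i) c A) (GH_ne hne c A) (f q) := rfl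
          rw [← h4]
          linarith)
      refine (measure_mono ?_).trans (h1.trans (ENNReal.ofReal_le_ofReal ?_))
      · rintro t ⟨ht, z, hz, z', hz', hzz, e1, e2⟩
        rw [hpq, segment_eq_image'] at hz hz'
        obtain ⟨s, hs, rfl⟩ := hz
        obtain ⟨s', hs', rfl⟩ := hz'
        refine ⟨ht, s, hs, s', hs', ?_, e1, e2⟩
        rintro rfl
        exact hzz rfl
      · have := mul_le_mul_of_nonneg_left hF1 hΛ0
        linarith
    intro hfin
    have hcov : Ioo a b ⊆ {t | t ∈ Ioo a b ∧ ∀ x, Crs T i x → ∀ z ∈ T.cc x, ∀ z' ∈ T.cc x,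
        u (f z) = t → u (f z') = t → z = z'} ∪ ⋃ k, Bad k := by
      intro t ht
      by_cases h : ∀ x, Crs T i x → ∀ z ∈ T.cc x, ∀ z' ∈ T.cc x,
        u (f z) = t → u (f z') = t → z = z'
      · exact Or.inl ⟨ht, h⟩
      · right
        push Not at h
        obtain ⟨x, hx, z, hz, z', hz', e1, e2, hzz⟩ := h
        obtain ⟨k, hk⟩ := exists_KT hx
        have hcc : T.cc x = T.cc k.e := T.cc_eq_of_mem_oc k.eOm hk
        rw [hcc] at hz hz'
        exact mem_iUnion.2 ⟨k, ht, z, hz, z', hz', hzz, e1, e2⟩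
    have h1 : volume (Ioo a b) ≤ ENNReal.ofReal ((Nat.card (KT T i) : ℝ) * (2 * (Λ * η'))) := by
      refine (measure_mono hcov).trans ((measure_union_le _ _).trans ?_)
      rw [hfin.measure_zero, zero_add]
      cases nonempty_fintype (KT T i)
      refine (measure_iUnion_fintype_le _ _).trans ?_
      refine (Finset.sum_le_sum fun k _ => hbad k).trans ?_
      rw [Finset.sum_const, Finset.card_univ, nsmul_eq_mul, Nat.card_eq_fintype_card,
        ENNReal.ofReal_mul (Nat.cast_nonneg _), ENNReal.ofReal_natCast]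
    rw [Real.volume_Ioo] at h1
    have h2 : b - a = 2 * β := by rw [ha, hb]; ring
    rw [h2] at h1
    have h3 := (ENNReal.ofReal_lt_ofReal_iff (by linarith : 0 < 2 * β)).2 count
    exact absurd h1 (not_le.2 h3)

end Crest.Agent.R96.Gdt_538
end

-- ▼ part R96/Gdt4_538

set_option autoImplicit false
set_option linter.unusedSectionVars false
set_option maxHeartbeats 400000

open MeasureTheory Set Filter Metric
open scoped ENNReal NNReal Topology

namespace Crest.Agent.R96.Gdt_538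

open Crest.Agent.R096.Msh_715
open Crest.Agent.R096.Sk2_855 (sk1)
open Crest.Agent.R096.Sk3_812
open Crest.AnalysisR.VecCalc3 (R3)
open Crest.Agent.R96.Coarse_538 Crest.Agent.R96.Intr_538 Crest.Agent.R96.Lu_538

section skeleton

variable {E : Type*} [NormedAddCommGroup E] [NormedSpace ℝ E] [FiniteDimensional ℝ E]
variable {Om : Set E} {ι : Type*}

/-- the 1-skeleton of a connected union of cells is connected -/
theorem isPreconnected_sk1 (T : Tiling Om ι) {C : Set E} (hC : IsPreconnected C) (hCO : C ⊆ Om)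
    (hcc : ∀ x ∈ C, T.cc x ⊆ C) : IsPreconnected (sk1 T ∩ C) := by
  rcases (sk1 T ∩ C).eq_empty_or_nonempty with h0 | ⟨x0, hx0, hx0C⟩
  · rw [h0]; exact isPreconnected_empty
  obtain ⟨v0, hv0, hd0⟩ := T.exists_vertex (hCO hx0C)
  have hv0C : v0 ∈ C := hcc x0 hx0C hv0
  have hedge : ∀ e ∈ C, T.dim e = 1 → T.cc e ⊆ sk1 T ∩ C := fun e he h1 z hz =>
    ⟨⟨T.cc_sub_Om (hCO he) hz, by rw [← h1]; exact T.dim_le hz⟩, hcc e he hz⟩
  set φ : E → Prop := fun w => ∃ S ⊆ sk1 T ∩ C, v0 ∈ S ∧ w ∈ S ∧ IsPreconnected S with hφ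
  have hv0s : v0 ∈ sk1 T ∩ C := ⟨⟨hCO hv0C, by rw [hd0]; exact zero_le_one⟩, hv0C⟩
  have hφ0 : φ v0 := ⟨{v0}, by simpa using hv0s, rfl, rfl, isPreconnected_singleton⟩
  have step : ∀ e ∈ C, T.dim e = 1 → ∀ a ∈ T.cc e, ∀ b ∈ T.cc e, φ a → φ b := by
    rintro e he h1 a ha b hb ⟨S, hS, h2, h3, h4⟩
    exact ⟨S ∪ T.cc e, union_subset hS (hedge e he h1), Or.inl h2, Or.inr hb,
      IsPreconnected.union a h3 ha h4 (T.convex_cc e).isPreconnected⟩
  have hall : ∀ w ∈ C, T.dim w = 0 → φ w := by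
    intro w hw hw0
    have h1 := T.const_of_preconnected (φ := φ) hC hCO hcc (fun e he h1 a b hab => by
      have ha : a ∈ T.cc e := by rw [hab]; exact left_mem_segment _ _ _
      have hb : b ∈ T.cc e := by rw [hab]; exact right_mem_segment _ _ _
      exact propext ⟨step e he h1 a ha b hb, step e he h1 b hb a ha⟩) v0 hv0C w hw hd0 hw0
    exact h1 ▸ hφ0
  refine isPreconnected_of_forall v0 fun y hy => ?_
  have hy1 : T.dim y ≤ 1 := hy.1.2
  rcases Nat.eq_zero_or_pos (T.dim y) with h0 | h0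
  · obtain ⟨S, h1, h2, h3, h4⟩ := hall y hy.2 h0
    exact ⟨S, h1, h2, h3, h4⟩
  · have h1 : T.dim y = 1 := by omega
    obtain ⟨w, hw, hw0⟩ := T.exists_vertex (hCO hy.2)
    obtain ⟨S, h2, h3, h4, h5⟩ := step y hy.2 h1 w hw y (T.self_mem_cc y)
      (hall w (hcc y hy.2 hw) hw0)
    exact ⟨S, h2, h3, h4, h5⟩

/-- the ends of a segment -/
theorem seg_ends {p q p' q' : E} (hne : p' ≠ q') (h : segment ℝ p q = segment ℝ p' q') :
    (p = p' ∧ q = q') ∨ (p = q' ∧ q = p') := by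
  have hp : p ∈ segment ℝ p' q' := h ▸ left_mem_segment _ _ _
  have hq : q ∈ segment ℝ p' q' := h ▸ right_mem_segment _ _ _
  have hp' : p' ∈ segment ℝ p q := h ▸ left_mem_segment _ _ _
  have hq' : q' ∈ segment ℝ p q := h ▸ right_mem_segment _ _ _
  rw [segment_eq_image'] at hp hq hp' hq'
  obtain ⟨s, hs, rfl⟩ := hp
  obtain ⟨t, ht, rfl⟩ := hq
  obtain ⟨s', hs', e1⟩ := hp'
  obtain ⟨t', ht', e2⟩ := hq'
  simp only at e1 e2 ⊢
  set d := q' - p' with hd
  have hd0 : d ≠ 0 := sub_ne_zero.2 hne.symm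
  have e1' : (s + s' * (t - s)) • d = (0:ℝ) • d := by
    have h1 : p' + s • d + s' • (p' + t • d - (p' + s • d)) = p' + (s + s' * (t - s)) • d := by
      module
    rw [h1] at e1
    have h2 : (s + s' * (t - s)) • d = p' + (s + s' * (t - s)) • d - p' := by abel
    rw [h2, e1, zero_smul, sub_self]
  have e2' : (s + t' * (t - s)) • d = (1:ℝ) • d := by
    have h1 : p' + s • d + t' • (p' + t • d - (p' + s • d)) = p' + (s + t' * (t - s)) • d := by
      module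
    rw [h1] at e2
    have h2 : (s + t' * (t - s)) • d = p' + (s + t' * (t - s)) • d - p' := by abel
    rw [h2, e2, one_smul]
  have f1 : s + s' * (t - s) = 0 := smul_left_injective ℝ hd0 e1'
  have f2 : s + t' * (t - s) = 1 := smul_left_injective ℝ hd0 e2'
  have hs0 := hs.1
  have hs1 := hs.2
  have ht0 := ht.1
  have ht1 := ht.2
  have a1 := hs'.1
  have a2 := hs'.2
  have b1 := ht'.1
  have b2 := ht'.2
  have g1 : s = 0 ∨ t = 0 := by
    by_contra hcon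
    push Not at hcon
    have p1 : 0 < s := lt_of_le_of_ne hs0 (Ne.symm hcon.1)
    have p2 : 0 < t := lt_of_le_of_ne ht0 (Ne.symm hcon.2)
    have : 0 < (1 - s') * s + s' * t := by
      rcases a2.eq_or_lt with h3 | h3
      · rw [h3]; linarith
      · have := mul_pos (sub_pos.2 h3) p1
        have := mul_nonneg a1 p2.le
        linarith
    linarith [show (1 - s') * s + s' * t = s + s' * (t - s) by ring]
  have g2 : s = 1 ∨ t = 1 := by
    by_contra hcon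
    push Not at hcon
    have p1 : s < 1 := lt_of_le_of_ne hs1 hcon.1
    have p2 : t < 1 := lt_of_le_of_ne ht1 hcon.2
    have : (1 - t') * s + t' * t < 1 := by
      rcases b2.eq_or_lt with h3 | h3
      · rw [h3]; linarith
      · have := mul_lt_mul_of_pos_left p1 (sub_pos.2 h3)
        have := mul_le_mul_of_nonneg_left p2.le b1
        linarith
    linarith [show (1 - t') * s + t' * t = s + t' * (t - s) by ring]
  have z1 : p' + (1:ℝ) • d = q' := by rw [one_smul, hd]; abel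
  have z0 : p' + (0:ℝ) • d = p' := by rw [zero_smul, add_zero]
  rcases g1 with rfl | rfl
  · rcases g2 with h3 | rfl
    · exact absurd h3 (by norm_num)
    · exact Or.inl ⟨z0, z1⟩
  · rcases g2 with rfl | h3
    · exact Or.inr ⟨z1, z0⟩
    · exact absurd h3 (by norm_num)

end skeleton

/-- the affine map of a good cube -/
noncomputable def affE (L : R3 →L[ℝ] R3) (hL : Function.Injective L) (b z : R3) :
    R3 ≃ᵃ[ℝ] R3 :=
  AffineEquiv.mk' (fun y => b + L (y - z))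
    (LinearEquiv.ofInjectiveEndo (L : R3 →ₗ[ℝ] R3) hL) z (by
      intro y
      simp only [vsub_eq_sub, LinearEquiv.coe_ofInjectiveEndo, ContinuousLinearMap.coe_coe,
        vadd_eq_add, sub_self, map_zero, add_zero]
      abel)



theorem inj_of_low {L : R3 →L[ℝ] R3} {κ : ℝ} (hκ : 0 < κ) (hL : ∀ v, κ * ‖v‖ ≤ ‖L v‖) :
    Function.Injective L := by
  rw [injective_iff_map_eq_zero]
  intro v hv
  have h1 := hL v
  rw [hv, norm_zero] at h1
  have h2 : ‖v‖ ≤ 0 := by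
    by_contra h
    have : 0 < κ * ‖v‖ := mul_pos hκ (not_le.1 h)
    linarith
  exact norm_le_zero_iff.1 h2

/-- the deep part of the tiling consists of segments of the family -/
structure MeshG {Ω : Set R3} {ι κi : Type*} (T : Tiling Ω ι) (x v : κi → R3) (a : R3)
    (W : Set R3) : Prop where
  edge : ∀ y ∈ sk1 T, y ∈ W → ∃ e, seg x v a e ⊆ sk1 T ∧ y ∈ seg x v a e
  cell : ∀ y ∈ Ω, T.dim y = 1 → T.cc y ⊆ W → ∃ e, T.cc y = seg x v a e

theorem seg_eq_segment {κi : Type*} (x v : κi → R3) (a : R3) (e : κi) :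
    seg x v a e = segment ℝ (a + x e) (a + x e + v e) := by
  rw [segment_eq_image', seg]
  congr 1
  funext σ
  rw [add_sub_cancel_left]

variable {ι κi : Type*} {Ω La : Set R3} {T : Tiling Ω ι} {x v : κi → R3} {p : ℝ} {f fi : R3 → R3}
  {D : R3 → R3 →L[ℝ] R3} {κ τ σ₀ η t s : ℝ} {a z b : R3} {L : R3 →L[ℝ] R3} {W : Set R3}

/-- **no intruders**, Ω arbitrary -/
theorem perf_out (hP : PerfG x v p Ω f D κ τ σ₀ η t s a z b L) (F : HF Ω La f fi)
    (hs : 0 < s) (hτ0 : 0 < τ) (hτ : 2 * τ ≤ 1) (hM : MeshG T x v a W)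
    (hW : ∀ y ∈ Ω, f y ∈ par Cb L b ((1 - τ) * s) → y ∈ W)
    (hpar : par Cb L b ((1 - τ) * s) ⊆ La) {w : R3} (hw : w ∈ sk1 T)
    (hwN : w ∈ cel Cb z ((1 - σ₀) * s)) (hwP : f w ∈ par Cb L b ((1 - τ) * s)) {y : R3}
    (hy : y ∈ sk1 T) (hyP : f y ∈ par Cb L b ((1 - 2 * τ) * s)) :
    y ∈ cel Cb z ((1 - σ₀) * s) := by
  set Q := par Cb L b ((1 - τ) * s) with hQ
  have hQc : IsPreconnected Q := by
    rw [hQ, par]
    refine (ref_Cb.conv.isPreconnected).image _ ?_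
    exact (by fun_prop : Continuous fun u : R3 => b + ((1 - τ) * s) • L u).continuousOn
  have hyQ : f y ∈ Q := by
    obtain ⟨u, hu, hu'⟩ := hyP
    have h1 : 0 < (1 - τ) * s := mul_pos (by linarith) hs
    refine ⟨((1 - 2 * τ) * s / ((1 - τ) * s)) • u, fun i => ?_, ?_⟩
    · rw [PiLp.smul_apply, smul_eq_mul, abs_mul]
      have h2 : |(1 - 2 * τ) * s / ((1 - τ) * s)| ≤ 1 := by
        rw [abs_of_nonneg (div_nonneg (mul_nonneg (by linarith) hs.le) h1.le), div_le_one h1]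
        exact mul_le_mul_of_nonneg_right (by linarith) hs.le
      calc _ ≤ 1 * 1 := mul_le_mul h2 (hu i) (abs_nonneg _) zero_le_one
        _ = 1 := one_mul _
    · simp only at hu' ⊢
      rw [map_smul, smul_smul, mul_div_cancel₀ _ h1.ne']
      exact hu'
  have hfiQ : IsPreconnected (fi '' Q) := hQc.image _ (F.conti.mono hpar)
  have hfiQΩ : fi '' Q ⊆ Ω := by
    rintro _ ⟨q, hq, rfl⟩
    exact F.mti (hpar hq)
  set C := connectedComponentIn Ω w with hC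
  have hCΩ : C ⊆ Ω := connectedComponentIn_subset _ _
  have hCp : IsPreconnected C := isPreconnected_connectedComponentIn
  have hwQ : w ∈ fi '' Q := ⟨f w, hwP, F.li w hw.1⟩
  have hyQ' : y ∈ fi '' Q := ⟨f y, hyQ, F.li y hy.1⟩
  have hyC : y ∈ C := (hfiQ.subset_connectedComponentIn hwQ hfiQΩ) hyQ'
  have hwC : w ∈ C := mem_connectedComponentIn hw.1
  have hsubC : ∀ S : Set R3, IsPreconnected S → S ⊆ Ω → ∀ u ∈ S, u ∈ C → S ⊆ C := by
    intro S hS hSΩ u hu huC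
    rw [hC, connectedComponentIn_eq huC]
    exact hS.subset_connectedComponentIn hu hSΩ
  have hcc : ∀ u ∈ C, T.cc u ⊆ C := fun u hu =>
    hsubC _ (T.convex_cc u).isPreconnected (T.cc_sub_Om (hCΩ hu)) u (T.self_mem_cc u) hu
  refine hP.noint (sk1 T ∩ C) (fun u hu => hCΩ hu.2) (isPreconnected_sk1 T hCp hCΩ hcc) ?_
    ⟨w, ⟨hw, hwC⟩, Or.inl hwN⟩ y ⟨hy, hyC⟩ hyP
  intro u hu huQ
  obtain ⟨e, he, hue⟩ := hM.edge u hu.1 (hW u (hCΩ hu.2) huQ)
  refine ⟨e, fun u' hu' => ⟨he hu', ?_⟩, hue⟩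
  have hpre : IsPreconnected (seg x v a e) := by
    rw [seg_eq_segment]; exact (convex_segment _ _).isPreconnected
  exact hsubC _ hpre (fun u'' hu'' => (he hu'').1) u hue hu.2 hu'

theorem perf_near (hP : PerfG x v p Ω f D κ τ σ₀ η t s a z b L) (hM : MeshG T x v a W)
    (hWc : cel Cb z ((1 - σ₀) * s) ⊆ W) {y : R3} (hy : y ∈ sk1 T)
    (hyN : y ∈ cel Cb z ((1 - σ₀) * s)) : ‖f y - (b + L (y - z))‖ ≤ η * t := by
  obtain ⟨e, he, hye⟩ := hM.edge y hy (hWc hyN)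
  exact (hP.near e y hye hyN y hye).2

/-- bounded variation of `f - A` along one segment, both orientations -/
theorem perf_bv (hp : 1 ≤ p) (hη : 0 < η) (ht : 0 < t)
    (hP : PerfG x v p Ω f D κ τ σ₀ η t s a z b L)
    (hA : ∀ e, ACV Ω f D (v e) (a + x e)) (hv : ∀ e, ‖v e‖ ≤ t) {e : κi} (hve : v e ≠ 0)
    (hsub : seg x v a e ⊆ cel Cb z s) {A : R3 → R3} (hAL : ∀ y, A y = b + L (y - z))
    {p₁ q₁ : R3} (h : segment ℝ p₁ q₁ = seg x v a e) :
    ∃ F : ℝ → ℝ, MonotoneOn F (Icc 0 1) ∧ F 1 - F 0 ≤ 2 * η * t ∧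
      ∀ s₁ ∈ Icc (0:ℝ) 1, ∀ s₂ ∈ Icc (0:ℝ) 1, s₁ ≤ s₂ →
        ‖(f (p₁ + s₂ • (q₁ - p₁)) - A (p₁ + s₂ • (q₁ - p₁))) -
          (f (p₁ + s₁ • (q₁ - p₁)) - A (p₁ + s₁ • (q₁ - p₁)))‖ ≤ F s₂ - F s₁ := by
  set w := a + x e with hw
  have hin : ∀ σ ∈ Icc (0:ℝ) 1, w + σ • v e ∈ cel Cb z s := fun σ hσ => hsub ⟨σ, hσ, rfl⟩
  have hI' : ∫⁻ τ in Ioc (0:ℝ) 1, ‖D (w + τ • v e) - L‖ₑ ≤ ENNReal.ofReal (2 * η) := by
    apply jensen2 hp hη
    refine le_trans (le_of_eq ?_) (hP.edgeD e)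
    apply setLIntegral_congr_fun measurableSet_Ioc
    intro τ hτ
    simp only
    rw [indicator_of_mem (hin τ ⟨hτ.1.le, hτ.2⟩)]
  set J : ℝ → ℝ≥0∞ := fun σ => ∫⁻ τ in Ioc (0:ℝ) σ, ‖D (w + τ • v e) - L‖ₑ * ‖v e‖ₑ with hJ
  have hv' : ‖v e‖ₑ ≤ ENNReal.ofReal t := by
    rw [← ofReal_norm]; exact ENNReal.ofReal_le_ofReal (hv e)
  have hJ1 : J 1 ≤ ENNReal.ofReal (2 * η * t) := by
    calc J 1 = (∫⁻ τ in Ioc (0:ℝ) 1, ‖D (w + τ • v e) - L‖ₑ) * ‖v e‖ₑ :=
          lintegral_mul_const' _ _ enorm_ne_top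
      _ ≤ ENNReal.ofReal (2 * η) * ENNReal.ofReal t := mul_le_mul' hI' hv'
      _ = ENNReal.ofReal (2 * η * t) := (ENNReal.ofReal_mul (by positivity)).symm
  have hJle : ∀ σ ≤ (1:ℝ), J σ ≤ J 1 := fun σ hσ => lintegral_mono_set (Ioc_subset_Ioc_right hσ)
  have hJt : ∀ σ ≤ (1:ℝ), J σ ≠ ∞ := fun σ hσ =>
    ne_top_of_le_ne_top ENNReal.ofReal_ne_top ((hJle σ hσ).trans hJ1)
  have hsplit : ∀ s₁ s₂ : ℝ, 0 ≤ s₁ → s₁ ≤ s₂ →
      J s₂ = J s₁ + ∫⁻ τ in Ioc s₁ s₂, ‖D (w + τ • v e) - L‖ₑ * ‖v e‖ₑ := by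
    intro s₁ s₂ h0 h12
    simp only [hJ]
    rw [← Ioc_union_Ioc_eq_Ioc h0 h12, lintegral_union measurableSet_Ioc]
    exact Set.Ioc_disjoint_Ioc_of_le le_rfl
  set F : ℝ → ℝ := fun σ => (J σ).toReal with hF
  have hFm : ∀ s₁ s₂ : ℝ, 0 ≤ s₁ → s₁ ≤ s₂ → s₂ ≤ 1 → F s₁ ≤ F s₂ := by
    intro s₁ s₂ h0 h12 h1
    apply ENNReal.toReal_mono (hJt s₂ h1)
    rw [hsplit s₁ s₂ h0 h12]
    exact le_self_add
  have hF0 : F 0 = 0 := by simp [hF, hJ]
  have hF1 : F 1 ≤ 2 * η * t := ENNReal.toReal_le_of_le_ofReal (by positivity) hJ1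
  have hkey : ∀ s₁ s₂ : ℝ, 0 ≤ s₁ → s₁ ≤ s₂ → s₂ ≤ 1 →
      ‖(f (w + s₂ • v e) - A (w + s₂ • v e)) - (f (w + s₁ • v e) - A (w + s₁ • v e))‖ ≤
        F s₂ - F s₁ := by
    intro s₁ s₂ h0 h12 h1
    have h3 := (hA e).diff_le L h12 (fun σ hσ => hP.sub (hin σ ⟨h0.trans hσ.1, hσ.2.trans h1⟩))
    have h4 : (f (w + s₂ • v e) - A (w + s₂ • v e)) - (f (w + s₁ • v e) - A (w + s₁ • v e)) =
        (f (w + s₂ • v e) - L (w + s₂ • v e)) - (f (w + s₁ • v e) - L (w + s₁ • v e)) := by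
      simp only [hAL, map_sub]
      abel
    rw [h4]
    have h5 := hsplit s₁ s₂ h0 h12
    have h6 : (∫⁻ τ in Ioc s₁ s₂, ‖D (w + τ • v e) - L‖ₑ * ‖v e‖ₑ) ≠ ∞ :=
      ne_top_of_le_ne_top (hJt s₂ h1) (by rw [h5]; exact le_add_self)
    have h7 : F s₂ = F s₁ + (∫⁻ τ in Ioc s₁ s₂, ‖D (w + τ • v e) - L‖ₑ * ‖v e‖ₑ).toReal := by
      simp only [hF]
      rw [h5, ENNReal.toReal_add (hJt s₁ (h12.trans h1)) h6]
    rw [h7, add_sub_cancel_left]
    have h8 := ENNReal.toReal_mono h6 h3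
    rwa [toReal_enorm] at h8
  rw [seg_eq_segment, ← hw] at h
  have hne : w ≠ w + v e := by
    intro h0
    exact hve (by simpa using h0.symm)
  rcases seg_ends hne h with ⟨rfl, h2⟩ | ⟨h1, h2⟩
  · refine ⟨F, fun s₁ h₁ s₂ h₂ h12 => hFm s₁ s₂ h₁.1 h12 h₂.2, by rw [hF0]; linarith, ?_⟩
    intro s₁ h₁ s₂ h₂ h12
    rw [h2, add_sub_cancel_left]
    exact hkey s₁ s₂ h₁.1 h12 h₂.2
  · refine ⟨fun σ => - F (1 - σ), ?_, ?_, ?_⟩
    · intro s₁ h₁ s₂ h₂ h12
      have := hFm (1 - s₂) (1 - s₁) (by linarith [h₂.2]) (by linarith) (by linarith [h₁.1])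
      simp only
      linarith
    · simp only [sub_self, sub_zero, hF0]
      linarith
    · intro s₁ h₁ s₂ h₂ h12
      have h3 := hkey (1 - s₂) (1 - s₁) (by linarith [h₂.2]) (by linarith) (by linarith [h₁.1])
      have e1 : ∀ σ : ℝ, p₁ + σ • (q₁ - p₁) = w + (1 - σ) • v e := by
        intro σ
        rw [h1, h2]
        module
      rw [e1, e1, norm_sub_rev]
      simp only
      linarith

/-- **COARSE-G ⟹ GOOD TILES.**  `A = b + L (· - z)`, levels `1 + β`, `1 + 3 β`. -/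
theorem goodT_perf (hp : 1 ≤ p) (F : HF Ω La f fi) (hκ : 0 < κ) (hη : 0 < η) (ht : 0 < t)
    (hs : 0 < s) (hσ₀ : 0 < σ₀) (hσ₀τ : σ₀ < τ) (hτ : 2 * τ ≤ 1)
    (hP : PerfG x v p Ω f D κ τ σ₀ η t s a z b L)
    (hA : ∀ e, ACV Ω f D (v e) (a + x e)) (hv : ∀ e, ‖v e‖ ≤ t)
    (hM : MeshG T x v a W) (hW : ∀ y ∈ Ω, f y ∈ par Cb L b ((1 - τ) * s) → y ∈ W)
    (hWc : cel Cb z ((1 - σ₀) * s) ⊆ W) (hpar : par Cb L b ((1 - τ) * s) ⊆ La)
    (hητ : η * t ≤ κ * (τ * s))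
    {i : ι} (hne : (T.H i).Nonempty) {c : R3} (hc : c ∈ I (T.H i)) {β ρ : ℝ} (hβ : 0 < β)
    (hρ : 0 < ρ) (hB : closedBall c ρ ⊆ P (T.H i))
    (hin : ∀ y ∈ P (T.H i), c + (1 + 3 * β) • (y - c) ∈ cel Cb z ((1 - 2 * τ) * s))
    (hNc : ∀ y, Crs T i y → T.cc y ⊆ cel Cb z ((1 - σ₀) * s))
    (gap : ∀ y ∈ sk1 T, y ∈ cel Cb z ((1 - σ₀) * s) → y ∉ P (T.H i) → ¬ Crs T i y →
      1 + 4 * β ≤ ug (T.H i) hne c (AffineEquiv.refl ℝ R3) y)
    (tg : Tg T i) (hη1 : 4 * ((κ * ρ)⁻¹ * (η * t)) ≤ β)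
    (count : (Nat.card (KT T i) : ℝ) * (2 * ((κ * ρ)⁻¹ * (2 * η * t))) < 2 * β) :
    GoodT T La f i (ug (T.H i) hne c (affE L (inj_of_low hκ hP.low) b z))
      (affE L (inj_of_low hκ hP.low) b z c) (1 + β) (1 + 3 * β) := by
  set A := affE L (inj_of_low hκ hP.low) b z with hAdef
  have hAL : ∀ y, A y = b + L (y - z) := fun y => rfl
  have hτ0 : 0 < τ := hσ₀.trans hσ₀τ
  have h12 : 0 ≤ (1 - 2 * τ) * s := mul_nonneg (by linarith) hs.le
  -- the target
  have hlev : ∀ y, ug (T.H i) hne c A y ≤ 1 + 3 * β → y ∈ par Cb L b ((1 - 2 * τ) * s) := by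
    intro y hy
    have h1 : y ∈ {y | ug (T.H i) hne c A y ≤ 1 + 3 * β} := hy
    rw [ug_level hne hc A (by linarith)] at h1
    obtain ⟨y', hy', rfl⟩ := h1
    obtain ⟨u, hu, hu'⟩ := hin y' hy'
    refine ⟨u, hu, ?_⟩
    simp only at hu' ⊢
    have h2 : A c + (1 + 3 * β) • (A y' - A c) = b + L (c + (1 + 3 * β) • (y' - c) - z) := by
      simp only [hAL, map_sub, map_add, map_smul]
      module
    rw [h2, ← hu', add_sub_cancel_left, map_smul]
  have hpm : par Cb L b ((1 - 2 * τ) * s) ⊆ par Cb L b ((1 - τ) * s) := by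
    intro y hy
    have h1 := par_thick' ref_Cb hκ hP.low h12 (mul_pos hτ0 hs) hy (y' := y)
      (by rw [sub_self, norm_zero]; positivity)
    have h2 : (1 - 2 * τ) * s + τ * s = (1 - τ) * s := by ring
    rwa [h2] at h1
  have hsub1 : ∀ r : ℝ, 0 ≤ r → r ≤ (1 - σ₀) * s → cel Cb z r ⊆ cel Cb z ((1 - σ₀) * s) := by
    intro r hr hrs y hy
    have h1 : 0 < (1 - σ₀) * s := mul_pos (by linarith) hs
    rw [mem_cel h1]
    obtain ⟨u, hu, rfl⟩ := hy
    intro j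
    have h2 : (z + r • u) j - z j = r * u j := by simp
    rw [h2, abs_mul, abs_of_nonneg hr]
    calc r * |u j| ≤ r * 1 := mul_le_mul_of_nonneg_left (hu j) hr
      _ ≤ (1 - σ₀) * s := by linarith
  have hconv : Convex ℝ (cel Cb z ((1 - 2 * τ) * s)) := by
    have h1 : cel Cb z ((1 - 2 * τ) * s) =
        (fun y : R3 => z + y) '' ((fun u : R3 => ((1 - 2 * τ) * s) • u) '' Cb) := by
      rw [image_image]; rfl
    rw [h1]
    exact (ref_Cb.conv.smul _).translate _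
  have hcP : c ∈ P (T.H i) := hB (mem_closedBall_self hρ.le)
  have hPN0 : P (T.H i) ⊆ cel Cb z ((1 - 2 * τ) * s) := by
    intro y hy
    have h1 := hin y hy
    have h2 := hin c hcP
    rw [sub_self, smul_zero, add_zero] at h2
    have h3 : (0:ℝ) < 1 + 3 * β := by linarith
    have h4 := hconv h2 h1 (a := 1 - (1 + 3 * β)⁻¹) (b := (1 + 3 * β)⁻¹)
      (by rw [sub_nonneg]; exact inv_le_one_of_one_le₀ (by linarith)) (by positivity) (by ring)
    have h5 : (1 - (1 + 3 * β)⁻¹) • c + (1 + 3 * β)⁻¹ • (c + (1 + 3 * β) • (y - c)) = y := by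
      rw [smul_add, smul_smul, inv_mul_cancel₀ h3.ne', one_smul]
      module
    rwa [h5] at h4
  have hPN : P (T.H i) ⊆ cel Cb z ((1 - σ₀) * s) := hPN0.trans (hsub1 _ h12
    (mul_le_mul_of_nonneg_right (by linarith) hs.le))
  -- a vertex of the tile
  have hcΩ : c ∈ Ω := T.sub i hcP
  obtain ⟨w, hw, hw0⟩ := T.exists_vertex hcΩ
  have hwi : w ∈ P (T.H i) := T.cc_sub_tile (i := i) hcP hw
  have hws : w ∈ sk1 T := ⟨T.sub i hwi, by rw [hw0]; exact zero_le_one⟩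
  have hwnear := perf_near hP hM hWc hws (hPN hwi)
  have hwP : f w ∈ par Cb L b ((1 - τ) * s) := by
    have h1 : b + L (w - z) ∈ par Cb L b ((1 - 2 * τ) * s) := by
      obtain ⟨u, hu, hu'⟩ := hPN0 hwi
      refine ⟨u, hu, ?_⟩
      simp only at hu' ⊢
      rw [← hu', add_sub_cancel_left, map_smul]
    have h2 := par_thick' ref_Cb hκ hP.low h12 (mul_pos hτ0 hs) h1 (y' := f w)
      (by rw [mul_one]; exact hwnear.trans hητ)
    have h3 : (1 - 2 * τ) * s + τ * s = (1 - τ) * s := by ring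
    rwa [h3] at h2
  refine goodT_of hne hc A F.cont (N := cel Cb z ((1 - σ₀) * s)) (Λ := (κ * ρ)⁻¹)
    (ε := η * t) (β := β) (η' := 2 * η * t) (by positivity)
    (GH_norm hc A hρ hκ hB fun u => hP.low u) (by positivity) hβ hη1 ?_ hPN hNc ?_ ?_ ?_ tg ?_ count
  · intro y hy
    exact hpar (hpm (hlev y hy))
  · intro y hy hyN
    exact perf_near hP hM hWc hy hyN
  · intro y hy hyu
    exact perf_out hP F hs hτ0 hτ hM hW hpar hws (hPN hwi) hwP hy (hlev _ hyu)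
  · intro y hy hyN hyi hyc
    rw [ug_comp]
    exact gap y hy hyN hyi hyc
  · intro y hy p₁ q₁ hpq
    obtain ⟨e, he⟩ := hM.cell y hy.1 hy.2.1 ((hNc y hy).trans hWc)
    have hve : v e ≠ 0 := by
      intro h0
      obtain ⟨p', q', hne', e1, -⟩ := T.edge_eq hy.1 hy.2.1
      have h1 : seg x v a e = {a + x e} := by
        rw [seg_eq_segment, h0, add_zero, segment_same]
      rw [he, h1] at e1
      have h2 : p' ∈ ({a + x e} : Set R3) := by rw [e1]; exact left_mem_segment _ _ _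
      have h3 : q' ∈ ({a + x e} : Set R3) := by rw [e1]; exact right_mem_segment _ _ _
      exact hne' (h2.trans h3.symm)
    have hsubs : seg x v a e ⊆ cel Cb z s := by
      intro u hu
      have h1 : u ∈ cel Cb z ((1 - σ₀) * s) := hNc y hy (by rw [he]; exact hu)
      exact (hP.near e u hu h1 u hu).1
    exact perf_bv hp hη ht hP hA hv hve hsubs hAL (hpq.symm.trans he)

end Crest.Agent.R96.Gdt_538
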