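import Mathlib

-- ▼ part R96/En1_199
section

set_option autoImplicit false

open MeasureTheory Set Filter
open scoped Topology ENNReal

namespace Crest.Agent.R96.En1_199

noncomputable section

/-- the Riemann sum with offset `c` -/
def RS (m : ℕ) (n : ℝ → ℝ) (c : ℝ) : ℝ := (1 / (m:ℝ)) * ∑ k ∈ Finset.range m, n ((c + k) / m)

theorem point_mem {m k : ℕ} (hk : k < m) {c : ℝ} (hc : c ∈ Icc (0:ℝ) 1) :
    (c + k) / m ∈ Icc ((k:ℝ) / m) (((k:ℝ) + 1) / m) := by
  have hm : (0:ℝ) < m := by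
    have : 0 < m := lt_of_le_of_lt (Nat.zero_le k) hk
    exact_mod_cast this
  constructor
  · exact div_le_div_of_nonneg_right (by linarith [hc.1]) hm.le
  · exact div_le_div_of_nonneg_right (by linarith [hc.2]) hm.le

theorem piece_sub {m k : ℕ} (hk : k < m) :
    Icc ((k:ℝ) / m) (((k:ℝ) + 1) / m) ⊆ Icc (0:ℝ) 1 := by
  have hm : (0:ℝ) < m := by
    have : 0 < m := lt_of_le_of_lt (Nat.zero_le k) hk
    exact_mod_cast this
  have h1 : ((k:ℝ) + 1) ≤ m := by exact_mod_cast hk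
  apply Icc_subset_Icc
  · positivity
  · rw [div_le_one hm]; exact h1

theorem piece_le {m k : ℕ} (hk : k < m) : ((k:ℝ) / m) ≤ (((k:ℝ) + 1) / m) := by
  have hm : (0:ℝ) < m := by
    have : 0 < m := lt_of_le_of_lt (Nat.zero_le k) hk
    exact_mod_cast this
  gcongr
  linarith

theorem intervalIntegrable_piece {m k : ℕ} (hk : k < m) {n : ℝ → ℝ}
    (hn : IntegrableOn n (Icc 0 1)) :
    IntervalIntegrable n volume ((k:ℝ) / m) (((k:ℝ) + 1) / m) := by
  rw [intervalIntegrable_iff_integrableOn_Icc_of_le (piece_le hk)]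
  exact hn.mono_set (piece_sub hk)

theorem sum_pieces {m : ℕ} (hm : 0 < m) {n : ℝ → ℝ} (hn : IntegrableOn n (Icc 0 1)) :
    ∑ k ∈ Finset.range m, ∫ y in ((k:ℝ) / m)..(((k:ℝ) + 1) / m), n y = ∫ y in (0:ℝ)..1, n y := by
  have h1 := intervalIntegral.sum_integral_adjacent_intervals (f := n) (μ := volume)
    (a := fun k : ℕ => (k:ℝ) / m) (n := m) (fun k hk => by
      have := intervalIntegrable_piece hk hn
      simpa using this)
  have hm' : (m:ℝ) ≠ 0 := by positivity
  simp only [Nat.cast_add, Nat.cast_one, Nat.cast_zero, zero_div, div_self hm'] at h1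
  exact h1

theorem integral_term {m k : ℕ} (hk : k < m) (n : ℝ → ℝ) :
    ∫ c in (0:ℝ)..1, n ((c + k) / m) = m * ∫ y in ((k:ℝ) / m)..(((k:ℝ) + 1) / m), n y := by
  have hm : (m:ℝ) ≠ 0 := by
    have : 0 < m := lt_of_le_of_lt (Nat.zero_le k) hk
    positivity
  have h1 := intervalIntegral.integral_comp_div_add (a := (0:ℝ)) (b := 1) n hm ((k:ℝ) / m)
  have h2 : ∀ c : ℝ, c / m + k / m = (c + k) / m := fun c => by ring
  simp only [h2] at h1
  rw [h1]
  simp only [zero_add, smul_eq_mul, add_comm (1:ℝ)]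

theorem intervalIntegrable_term {m k : ℕ} (hk : k < m) {n : ℝ → ℝ}
    (hn : IntegrableOn n (Icc 0 1)) :
    IntervalIntegrable (fun c => n ((c + k) / m)) volume 0 1 := by
  have hm0 : 0 < m := lt_of_le_of_lt (Nat.zero_le k) hk
  have hm : (m:ℝ) ≠ 0 := by positivity
  have h1 := (intervalIntegrable_piece hk hn).comp_add_right (k / m : ℝ)
  have h2 := h1.comp_mul_right (c := (m:ℝ)⁻¹)
  have h3 : ∀ c : ℝ, c * (m:ℝ)⁻¹ + k / m = (c + k) / m := fun c => by field_simp
  simp only [h3] at h2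
  have h4 : (((k:ℝ) / m - k / m) / (m:ℝ)⁻¹) = 0 := by simp
  have h5 : (((((k:ℝ) + 1) / m) - k / m) / (m:ℝ)⁻¹) = 1 := by field_simp; ring
  rw [h4, h5] at h2
  exact h2

theorem intervalIntegrable_RS {m : ℕ} {n : ℝ → ℝ}
    (hn : IntegrableOn n (Icc 0 1)) : IntervalIntegrable (RS m n) volume 0 1 := by
  unfold RS
  apply IntervalIntegrable.const_mul
  have : (fun c : ℝ => ∑ k ∈ Finset.range m, n ((c + k) / m)) =
      ∑ k ∈ Finset.range m, fun c : ℝ => n ((c + k) / m) := by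
    funext c; simp
  rw [this]
  apply IntervalIntegrable.sum
  intro k hk
  exact intervalIntegrable_term (Finset.mem_range.1 hk) hn

/-- **the average of the Riemann sums** -/
theorem integral_RS {m : ℕ} (hm : 0 < m) {n : ℝ → ℝ} (hn : IntegrableOn n (Icc 0 1)) :
    ∫ c in (0:ℝ)..1, RS m n c = ∫ y in (0:ℝ)..1, n y := by
  unfold RS
  rw [intervalIntegral.integral_const_mul, intervalIntegral.integral_finsetSum
    (fun k hk => intervalIntegrable_term (Finset.mem_range.1 hk) hn)]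
  have h1 : ∑ k ∈ Finset.range m, ∫ c in (0:ℝ)..1, n ((c + k) / m) =
      ∑ k ∈ Finset.range m, (m:ℝ) * ∫ y in ((k:ℝ) / m)..(((k:ℝ) + 1) / m), n y := by
    apply Finset.sum_congr rfl
    intro k hk
    exact integral_term (Finset.mem_range.1 hk) n
  rw [h1, ← Finset.mul_sum, sum_pieces hm hn]
  have hm' : (m:ℝ) ≠ 0 := by positivity
  field_simp

/-- uniform convergence for continuous functions -/
theorem RS_uniform {φ : ℝ → ℝ} (hφ : Continuous φ) {ε : ℝ} (hε : 0 < ε) :
    ∃ m0 : ℕ, ∀ m ≥ m0, 0 < m → ∀ c ∈ Icc (0:ℝ) 1, |RS m φ c - ∫ y in (0:ℝ)..1, φ y| ≤ ε := by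
  have hu : UniformContinuousOn φ (Icc 0 1) :=
    isCompact_Icc.uniformContinuousOn_of_continuous hφ.continuousOn
  rw [Metric.uniformContinuousOn_iff] at hu
  obtain ⟨δ, hδ, hu⟩ := hu ε hε
  obtain ⟨m0, hm0⟩ := exists_nat_gt (1 / δ)
  refine ⟨m0, fun m hm hmp c hc => ?_⟩
  have hmR : (0:ℝ) < m := by exact_mod_cast hmp
  have hmδ : 1 / (m:ℝ) < δ := by
    rw [div_lt_iff₀ hmR]
    have h1 : (m0:ℝ) ≤ m := by exact_mod_cast hm
    have h2 : 1 / δ < m := lt_of_lt_of_le hm0 h1
    rw [div_lt_iff₀ hδ] at h2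
    linarith
  have hφi : IntegrableOn φ (Icc 0 1) := hφ.integrableOn_Icc
  have hterm : ∀ k ∈ Finset.range m,
      |1 / (m:ℝ) * φ ((c + k) / m) - ∫ y in ((k:ℝ) / m)..(((k:ℝ) + 1) / m), φ y| ≤ ε / m := by
    intro k hk
    have hk' := Finset.mem_range.1 hk
    have h1 : 1 / (m:ℝ) * φ ((c + k) / m) =
        ∫ y in ((k:ℝ) / m)..(((k:ℝ) + 1) / m), φ ((c + k) / m) := by
      rw [intervalIntegral.integral_const, smul_eq_mul]
      congr 1
      field_simp
      ring
    rw [h1, ← intervalIntegral.integral_sub intervalIntegrable_const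
      (intervalIntegrable_piece hk' hφi)]
    have h2 := intervalIntegral.norm_integral_le_of_norm_le_const (a := (k:ℝ) / m)
      (b := ((k:ℝ) + 1) / m) (C := ε) (f := fun y => φ ((c + k) / m) - φ y) ?_
    · rw [Real.norm_eq_abs] at h2
      refine h2.trans (le_of_eq ?_)
      have h3 : ((k:ℝ) + 1) / m - k / m = 1 / m := by ring
      rw [h3, abs_of_pos (by positivity)]
      ring
    · intro y hy
      rw [uIoc_of_le (piece_le hk')] at hy
      have hp := point_mem hk' hc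
      have hy' : y ∈ Icc ((k:ℝ) / m) (((k:ℝ) + 1) / m) := Ioc_subset_Icc_self hy
      have h4 := hu _ (piece_sub hk' hp) _ (piece_sub hk' hy') (by
        rw [Real.dist_eq]
        refine lt_of_le_of_lt (abs_sub_le_of_le_of_le hp.1 hp.2 hy'.1 hy'.2) ?_
        have h3 : ((k:ℝ) + 1) / m - k / m = 1 / m := by ring
        rw [h3]; exact hmδ)
      rw [Real.dist_eq] at h4
      exact h4.le
  unfold RS
  rw [Finset.mul_sum, ← sum_pieces hmp hφi, ← Finset.sum_sub_distrib]
  refine (Finset.abs_sum_le_sum_abs _ _).trans ?_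
  refine (Finset.sum_le_sum hterm).trans (le_of_eq ?_)
  rw [Finset.sum_const, Finset.card_range, nsmul_eq_mul]
  field_simp

theorem RS_sub (m : ℕ) (n n' : ℝ → ℝ) (c : ℝ) : RS m n c - RS m n' c = RS m (fun y => n y - n' y) c := by
  unfold RS
  rw [← mul_sub, ← Finset.sum_sub_distrib]

theorem abs_RS_le (m : ℕ) (n : ℝ → ℝ) (c : ℝ) : |RS m n c| ≤ RS m (fun y => |n y|) c := by
  unfold RS
  rw [abs_mul, abs_of_nonneg (by positivity)]
  gcongr
  exact Finset.abs_sum_le_sum_abs _ _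

theorem RS_nonneg (m : ℕ) {n : ℝ → ℝ} (hn : ∀ y, 0 ≤ n y) (c : ℝ) : 0 ≤ RS m n c := by
  unfold RS
  have := Finset.sum_nonneg fun k (_ : k ∈ Finset.range m) => hn ((c + k) / m)
  positivity

/-- **LEVELS, one function**: convergence in measure of the Riemann sums with random offset -/
theorem levels_real {n : ℝ → ℝ} (hn : IntegrableOn n (Icc 0 1)) {ε : ℝ} (hε : 0 < ε) :
    ∃ m0 : ℕ, ∀ m ≥ m0, 0 < m →
      volume {c ∈ Icc (0:ℝ) 1 | ε < |RS m n c - ∫ y in (0:ℝ)..1, n y|} ≤ ENNReal.ofReal ε := by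
  -- approximation by a continuous function
  set η : ℝ := (ε / 3) * ε with hη
  have hηpos : 0 < η := by positivity
  set η' : ℝ := min η (ε / 3) with hη'
  have hη'pos : 0 < η' := lt_min hηpos (by positivity)
  obtain ⟨φ, -, h1, h2, h3⟩ := (hn.integrable_indicator measurableSet_Icc).exists_hasCompactSupport_integral_sub_le hη'pos
  obtain ⟨m0, hm0⟩ := RS_uniform h2 (ε := ε / 3) (by positivity)
  have hφi : IntegrableOn φ (Icc 0 1) := h2.integrableOn_Icc
  have hdi : IntegrableOn (fun y => n y - φ y) (Icc 0 1) := hn.sub hφi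
  have hdabs : IntegrableOn (fun y => |n y - φ y|) (Icc 0 1) := hdi.abs
  have hd : ∫ y in (0:ℝ)..1, |n y - φ y| ≤ η' := by
    rw [intervalIntegral.integral_of_le zero_le_one, ← integral_Icc_eq_integral_Ioc]
    refine le_trans ?_ h1
    have h4 : ∫ y in Icc (0:ℝ) 1, |n y - φ y| =
        ∫ y in Icc (0:ℝ) 1, ‖(Icc (0:ℝ) 1).indicator n y - φ y‖ := by
      apply setIntegral_congr_fun measurableSet_Icc
      intro y hy
      simp only [indicator_of_mem hy, Real.norm_eq_abs]
    rw [h4]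
    apply setIntegral_le_integral
    · exact ((hn.integrable_indicator measurableSet_Icc).sub h3).norm
    · exact Eventually.of_forall fun y => norm_nonneg _
  refine ⟨m0, fun m hm hmp => ?_⟩
  have hsub : {c ∈ Icc (0:ℝ) 1 | ε < |RS m n c - ∫ y in (0:ℝ)..1, n y|} ⊆
      {c | ε / 3 ≤ RS m (fun y => |n y - φ y|) c} ∩ Icc 0 1 := by
    rintro c ⟨hc, hlt⟩
    refine ⟨?_, hc⟩
    by_contra hcon
    simp only [mem_ofPred_eq, not_le] at hcon
    have h5 := hm0 m hm hmp c hc
    have h6 : |RS m n c - RS m φ c| ≤ RS m (fun y => |n y - φ y|) c := by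
      rw [RS_sub]; exact abs_RS_le _ _ _
    have h7 : |∫ y in (0:ℝ)..1, (n y - φ y)| ≤ η' := by
      refine (intervalIntegral.abs_integral_le_integral_abs zero_le_one).trans hd
    have h8 : ∫ y in (0:ℝ)..1, (n y - φ y) = (∫ y in (0:ℝ)..1, n y) - ∫ y in (0:ℝ)..1, φ y :=
      intervalIntegral.integral_sub
        ((intervalIntegrable_iff_integrableOn_Icc_of_le zero_le_one).2 hn)
        ((intervalIntegrable_iff_integrableOn_Icc_of_le zero_le_one).2 hφi)
    rw [h8] at h7
    have h9 : η' ≤ ε / 3 := min_le_right _ _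
    have h10 := abs_le.1 h5
    have h11 := abs_le.1 h6
    have h12 := abs_le.1 h7
    have h13 : |RS m n c - ∫ y in (0:ℝ)..1, n y| ≤ ε := by
      rw [abs_le]
      constructor <;> linarith
    linarith
  refine (measure_mono hsub).trans ?_
  have hint := intervalIntegrable_RS (m := m) hdabs
  have hI : ∫ c in (0:ℝ)..1, RS m (fun y => |n y - φ y|) c ≤ η' := by
    rw [integral_RS hmp hdabs]; exact hd
  have hint' : IntegrableOn (RS m (fun y => |n y - φ y|)) (Icc 0 1) :=
    (intervalIntegrable_iff_integrableOn_Icc_of_le zero_le_one).1 hint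
  rw [intervalIntegral.integral_of_le zero_le_one, ← integral_Icc_eq_integral_Ioc] at hI
  have hM := mul_meas_ge_le_integral_of_nonneg (μ := volume.restrict (Icc (0:ℝ) 1))
    (f := RS m (fun y => |n y - φ y|)) (Eventually.of_forall fun c => RS_nonneg m (fun y => abs_nonneg _) c)
    hint' (ε / 3)
  have hM2 : (ε / 3) * (volume.restrict (Icc (0:ℝ) 1)).real
      {c | ε / 3 ≤ RS m (fun y => |n y - φ y|) c} ≤ η := hM.trans (hI.trans (min_le_left _ _))
  have hfin : volume ({c | ε / 3 ≤ RS m (fun y => |n y - φ y|) c} ∩ Icc 0 1) ≠ ∞ :=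
    ne_top_of_le_ne_top (by simp) (measure_mono inter_subset_right)
  have hM3 : (volume.restrict (Icc (0:ℝ) 1)).real {c | ε / 3 ≤ RS m (fun y => |n y - φ y|) c} =
      (volume ({c | ε / 3 ≤ RS m (fun y => |n y - φ y|) c} ∩ Icc 0 1)).toReal := by
    rw [measureReal_def, Measure.restrict_apply' measurableSet_Icc]
  rw [hM3] at hM2
  rw [← ENNReal.ofReal_toReal hfin]
  apply ENNReal.ofReal_le_ofReal
  have h14 : (0:ℝ) < ε / 3 := by positivity
  exact le_of_mul_le_mul_left hM2 h14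

end

end Crest.Agent.R96.En1_199
end

-- ▼ part R096/Bas1_731
section

set_option autoImplicit false
set_option linter.unusedSectionVars false

open MeasureTheory Set Filter
open scoped ENNReal Topology

namespace Crest.Agent.R096.Bas_731

noncomputable section

/-- number of points of `s` where `g = y` -/
def cnt (g : ℝ → ℝ) (s : Set ℝ) (y : ℝ) : ℝ≥0∞ := ((s ∩ g ⁻¹' {y}).encard : ℝ≥0∞)

theorem cnt_mono {g : ℝ → ℝ} {s t : Set ℝ} (h : s ⊆ t) (y : ℝ) : cnt g s y ≤ cnt g t y := by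
  unfold cnt
  have : (s ∩ g ⁻¹' {y}).encard ≤ (t ∩ g ⁻¹' {y}).encard :=
    encard_le_encard (inter_subset_inter_left _ h)
  exact_mod_cast this


/-- `g` increases by at most `ν` on the parts of `[a,b]` -/
def Dom (g : ℝ → ℝ) (ν : Measure ℝ) (a b : ℝ) : Prop :=
  ∀ x y, a ≤ x → x ≤ y → y ≤ b → ENNReal.ofReal |g y - g x| ≤ ν (Ioc x y)

/-- the `j`-th piece of level `k` of `(a,b]` -/
def pt (a b : ℝ) (k j : ℕ) : ℝ := a + j * ((b - a) / 2 ^ k)

def pc (a b : ℝ) (k j : ℕ) : Set ℝ := Ioc (pt a b k j) (pt a b k (j + 1))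

theorem pt_zero (a b : ℝ) (k : ℕ) : pt a b k 0 = a := by simp [pt]

theorem pt_top (a b : ℝ) (k : ℕ) : pt a b k (2 ^ k) = b := by
  unfold pt
  push_cast
  field_simp
  ring

theorem pt_mono {a b : ℝ} (hab : a ≤ b) (k : ℕ) : Monotone (pt a b k) := by
  intro i j hij
  unfold pt
  have h1 : (0 : ℝ) ≤ (b - a) / 2 ^ k := div_nonneg (sub_nonneg.2 hab) (by positivity)
  have h2 : (i : ℝ) ≤ j := by exact_mod_cast hij
  nlinarith [mul_le_mul_of_nonneg_right h2 h1]

theorem pt_le {a b : ℝ} (hab : a ≤ b) {k j : ℕ} (hj : j ≤ 2 ^ k) : pt a b k j ≤ b :=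
  (pt_mono hab k hj).trans (pt_top a b k).le

theorem le_pt {a b : ℝ} (hab : a ≤ b) (k j : ℕ) : a ≤ pt a b k j :=
  (pt_zero a b k).ge.trans (pt_mono hab k (Nat.zero_le j))

theorem pc_disj {a b : ℝ} (hab : a ≤ b) (k : ℕ) {i j : ℕ} (hij : i ≠ j) :
    Disjoint (pc a b k i) (pc a b k j) := by
  rw [Set.disjoint_left]
  intro x hx hx'
  rcases lt_or_gt_of_ne hij with h | h
  · have := pt_mono hab k (Nat.succ_le_of_lt h)
    exact absurd (lt_of_lt_of_le hx'.1 hx.2) (not_lt.2 this)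
  · have := pt_mono hab k (Nat.succ_le_of_lt h)
    exact absurd (lt_of_lt_of_le hx.1 hx'.2) (not_lt.2 this)

theorem exists_pc {a b : ℝ} (k : ℕ) {x : ℝ} (hx : x ∈ Ioc a b) :
    ∃ j < 2 ^ k, x ∈ pc a b k j := by
  classical
  have hP : ∃ n, x ≤ pt a b k n := ⟨2 ^ k, by rw [pt_top]; exact hx.2⟩
  set n := Nat.find hP with hn
  have h1 : x ≤ pt a b k n := Nat.find_spec hP
  have hn0 : n ≠ 0 := by
    intro h0
    rw [h0, pt_zero] at h1
    exact absurd hx.1 (not_lt.2 h1)
  obtain ⟨m, hm⟩ := Nat.exists_eq_succ_of_ne_zero hn0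
  have h2 : ¬ x ≤ pt a b k m := Nat.find_min hP (by omega)
  have h3 : n ≤ 2 ^ k := Nat.find_min' hP (by rw [pt_top]; exact hx.2)
  refine ⟨m, by omega, not_le.1 h2, ?_⟩
  rw [hm] at h1
  exact h1

theorem pc_sub {a b : ℝ} (hab : a ≤ b) {k j : ℕ} (hj : j < 2 ^ k) : pc a b k j ⊆ Ioc a b := by
  intro x hx
  exact ⟨lt_of_le_of_lt (le_pt hab k j) hx.1, hx.2.trans (pt_le hab (Nat.succ_le_of_lt hj))⟩

/-- the approximate indicatrix -/
def Nk (g : ℝ → ℝ) (a b : ℝ) (k : ℕ) (y : ℝ) : ℝ≥0∞ :=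
  ∑ j ∈ Finset.range (2 ^ k), (g '' pc a b k j).indicator 1 y

theorem measurableSet_image {g : ℝ → ℝ} {a b : ℝ} (hg : ContinuousOn g (Icc a b))
    (hab : a ≤ b) {k j : ℕ} (hj : j < 2 ^ k) : MeasurableSet (g '' pc a b k j) := by
  have h1 : ContinuousOn g (pc a b k j) :=
    hg.mono ((pc_sub hab hj).trans Ioc_subset_Icc_self)
  have h2 : IsPreconnected (g '' pc a b k j) := isPreconnected_Ioc.image g h1
  exact h2.ordConnected.measurableSet

theorem measurable_Nk {g : ℝ → ℝ} {a b : ℝ} (hg : ContinuousOn g (Icc a b)) (hab : a ≤ b)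
    (k : ℕ) : Measurable (Nk g a b k) := by
  unfold Nk
  apply Finset.measurable_sum
  intro j hj
  exact measurable_one.indicator (measurableSet_image hg hab (Finset.mem_range.1 hj))

theorem volume_image_le {g : ℝ → ℝ} {ν : Measure ℝ} {a b : ℝ} (h : Dom g ν a b) (hab : a ≤ b)
    {k j : ℕ} (hj : j < 2 ^ k) : volume (g '' pc a b k j) ≤ ν (pc a b k j) := by
  refine (Real.volume_le_diam _).trans ?_
  apply Metric.ediam_le
  rintro _ ⟨x, hx, rfl⟩ _ ⟨y, hy, rfl⟩
  have key : ∀ x y, x ∈ pc a b k j → y ∈ pc a b k j → x ≤ y → edist (g x) (g y) ≤ ν (pc a b k j) := by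
    intro x y hx hy hxy
    rw [edist_comm, edist_dist, Real.dist_eq]
    refine (h x y ?_ hxy ?_).trans (measure_mono ?_)
    · exact ((pc_sub hab hj) hx).1.le
    · exact ((pc_sub hab hj) hy).2
    · exact Ioc_subset_Ioc hx.1.le hy.2
  rcases le_total x y with hxy | hxy
  · exact key x y hx hy hxy
  · rw [edist_comm]; exact key y x hy hx hxy

theorem lintegral_Nk_le {g : ℝ → ℝ} {ν : Measure ℝ} {a b : ℝ} (hg : ContinuousOn g (Icc a b))
    (h : Dom g ν a b) (hab : a ≤ b) (k : ℕ) : ∫⁻ y, Nk g a b k y ≤ ν (Ioc a b) := by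
  unfold Nk
  rw [lintegral_finsetSum]
  · calc ∑ j ∈ Finset.range (2 ^ k), ∫⁻ y, (g '' pc a b k j).indicator 1 y
        ≤ ∑ j ∈ Finset.range (2 ^ k), ν (pc a b k j) := by
          apply Finset.sum_le_sum
          intro j hj
          rw [lintegral_indicator_one (measurableSet_image hg hab (Finset.mem_range.1 hj))]
          exact volume_image_le h hab (Finset.mem_range.1 hj)
      _ = ν (⋃ j ∈ Finset.range (2 ^ k), pc a b k j) := by
          rw [measure_biUnion_finset]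
          · intro i _ j _ hij
            exact pc_disj hab k hij
          · intro j _
            exact measurableSet_Ioc
      _ ≤ ν (Ioc a b) := by
          apply measure_mono
          apply iUnion₂_subset
          intro j hj
          exact pc_sub hab (Finset.mem_range.1 hj)
  · intro j hj
    exact measurable_one.indicator (measurableSet_image hg hab (Finset.mem_range.1 hj))

open Classical in
theorem Nk_eq (g : ℝ → ℝ) (a b : ℝ) (k : ℕ) (y : ℝ) :
    Nk g a b k y = (((Finset.range (2 ^ k)).filter fun j => y ∈ g '' pc a b k j).card : ℝ≥0∞) := by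
  unfold Nk
  rw [Finset.card_filter]
  push_cast
  apply Finset.sum_congr rfl
  intro j _
  by_cases hy : y ∈ g '' pc a b k j
  · rw [indicator_of_mem hy, if_pos hy]; rfl
  · rw [indicator_of_notMem hy, if_neg hy]

theorem Nk_le_cnt {g : ℝ → ℝ} {a b : ℝ} (hab : a ≤ b) (k : ℕ) (y : ℝ) :
    Nk g a b k y ≤ cnt g (Ioc a b) y := by
  classical
  rw [Nk_eq]
  set J := (Finset.range (2 ^ k)).filter fun j => y ∈ g '' pc a b k j with hJ
  have hch : ∀ j ∈ J, ∃ x, x ∈ pc a b k j ∧ g x = y := by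
    intro j hj
    obtain ⟨x, hx, hxy⟩ := (Finset.mem_filter.1 hj).2
    exact ⟨x, hx, hxy⟩
  choose! p hp hgp using hch
  have hinj : Set.InjOn p (J : Set ℕ) := by
    intro i hi j hj hij
    by_contra hne
    have := Set.disjoint_left.1 (pc_disj hab k hne) (hp i hi)
    rw [hij] at this
    exact this (hp j hj)
  have h1 : ((J.image p : Finset ℝ) : Set ℝ) ⊆ Ioc a b ∩ g ⁻¹' {y} := by
    intro x hx
    rw [Finset.coe_image] at hx
    obtain ⟨j, hj, rfl⟩ := hx
    exact ⟨pc_sub hab (Finset.mem_range.1 (Finset.mem_filter.1 hj).1) (hp j hj), hgp j hj⟩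
  have h2 : (J.image p).card = J.card := Finset.card_image_of_injOn hinj
  have h3 : ((J.image p : Finset ℝ) : Set ℝ).encard ≤ (Ioc a b ∩ g ⁻¹' {y}).encard :=
    encard_le_encard h1
  rw [encard_coe_eq_coe_finsetCard, h2] at h3
  unfold cnt
  have h4 := ENat.toENNReal_mono h3
  simpa using h4

theorem card_le_Nk {g : ℝ → ℝ} {a b : ℝ} (y : ℝ) (F : Finset ℝ)
    (hF : (F : Set ℝ) ⊆ Ioc a b ∩ g ⁻¹' {y}) :
    ∀ᶠ k in atTop, (F.card : ℝ≥0∞) ≤ Nk g a b k y := by
  classical
  -- separation of the points of `F`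
  obtain ⟨δ, hδ, hsep⟩ : ∃ δ > 0, ∀ x ∈ F, ∀ x' ∈ F, x < x' → δ ≤ x' - x := by
    by_cases hne : ((F ×ˢ F).filter fun p => p.1 < p.2).Nonempty
    · obtain ⟨p, hp, hmin⟩ := Finset.exists_min_image _ (fun p : ℝ × ℝ => p.2 - p.1) hne
      refine ⟨p.2 - p.1, sub_pos.2 (Finset.mem_filter.1 hp).2, ?_⟩
      intro x hx x' hx' hlt
      exact hmin (x, x') (Finset.mem_filter.2 ⟨Finset.mem_product.2 ⟨hx, hx'⟩, hlt⟩)
    · refine ⟨1, one_pos, ?_⟩
      intro x hx x' hx' hlt
      exact absurd ⟨(x, x'), Finset.mem_filter.2 ⟨Finset.mem_product.2 ⟨hx, hx'⟩, hlt⟩⟩ hne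
  have hlim : Tendsto (fun k : ℕ => (b - a) / 2 ^ k) atTop (𝓝 0) :=
    tendsto_const_nhds.div_atTop (tendsto_pow_atTop_atTop_of_one_lt (by norm_num))
  filter_upwards [hlim.eventually (gt_mem_nhds hδ)] with k hk
  rw [Nk_eq]
  have hch : ∀ x ∈ F, ∃ j < 2 ^ k, x ∈ pc a b k j := fun x hx =>
    exists_pc k (hF hx).1
  choose! q hq hxq using hch
  have hmaps : ∀ x ∈ F, q x ∈ (Finset.range (2 ^ k)).filter fun j => y ∈ g '' pc a b k j := by
    intro x hx
    exact Finset.mem_filter.2 ⟨Finset.mem_range.2 (hq x hx), ⟨x, hxq x hx, (hF hx).2⟩⟩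
  have hinj : Set.InjOn q (F : Set ℝ) := by
    have key : ∀ x ∈ F, ∀ x' ∈ F, x < x' → q x ≠ q x' := by
      intro x hx x' hx' hlt he
      have h1 := (hxq x hx).1
      have h2 := (hxq x' hx').2
      rw [← he] at h2
      have h3 : pt a b k (q x + 1) - pt a b k (q x) = (b - a) / 2 ^ k := by
        unfold pt; push_cast; ring
      have h4 := hsep x hx x' hx' hlt
      linarith
    intro x hx x' hx' he
    rcases lt_trichotomy x x' with h | h | h
    · exact absurd he (key x hx x' hx' h)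
    · exact h
    · exact absurd he.symm (key x' hx' x hx h)
  have := Finset.card_le_card_of_injOn q hmaps hinj
  exact_mod_cast this

theorem cnt_le_liminf {g : ℝ → ℝ} {a b : ℝ} (y : ℝ) :
    cnt g (Ioc a b) y ≤ liminf (fun k => Nk g a b k y) atTop := by
  have key : ∀ n : ℕ, (n : ℕ∞) ≤ (Ioc a b ∩ g ⁻¹' {y}).encard →
      (n : ℝ≥0∞) ≤ liminf (fun k => Nk g a b k y) atTop := by
    intro n hn
    obtain ⟨t, ht, htn⟩ := exists_subset_encard_eq hn
    have hfin : t.Finite := finite_of_encard_eq_coe htn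
    obtain ⟨F, rfl⟩ := hfin.exists_finset_coe
    rw [encard_coe_eq_coe_finsetCard] at htn
    have htn' : F.card = n := by exact_mod_cast htn
    rw [← htn']
    exact le_liminf_of_le (by isBoundedDefault) (card_le_Nk y F ht)
  unfold cnt
  rcases eq_or_ne (Ioc a b ∩ g ⁻¹' {y}).encard ⊤ with h | h
  · rw [h]
    have : ∀ n : ℕ, (n : ℝ≥0∞) ≤ liminf (fun k => Nk g a b k y) atTop := fun n =>
      key n (by rw [h]; exact le_top)
    rw [ENNReal.eq_top_of_forall_nnreal_le (x := liminf (fun k => Nk g a b k y) atTop)]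
    · exact le_top
    · intro r
      obtain ⟨n, hn⟩ := exists_nat_ge r
      refine le_trans ?_ (this n)
      exact_mod_cast hn
  · obtain ⟨n, hn⟩ := ENat.ne_top_iff_exists.1 h
    rw [← hn]
    simpa using key n hn.le

theorem tendsto_Nk {g : ℝ → ℝ} {a b : ℝ} (hab : a ≤ b) (y : ℝ) :
    Tendsto (fun k => Nk g a b k y) atTop (𝓝 (cnt g (Ioc a b) y)) := by
  apply tendsto_of_le_liminf_of_limsup_le (cnt_le_liminf y)
  apply limsup_le_of_le (by isBoundedDefault)
  exact Eventually.of_forall fun k => Nk_le_cnt hab k y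

theorem measurable_cnt {g : ℝ → ℝ} {a b : ℝ} (hg : ContinuousOn g (Icc a b)) (hab : a ≤ b) :
    Measurable (cnt g (Ioc a b)) :=
  measurable_of_tendsto_metrizable (fun k => measurable_Nk hg hab k)
    (tendsto_pi_nhds.2 fun y => tendsto_Nk hab y)

/-- **Banach indicatrix** on `(a,b]`. -/
theorem lintegral_cnt_le {g : ℝ → ℝ} {ν : Measure ℝ} {a b : ℝ} (hg : ContinuousOn g (Icc a b))
    (h : Dom g ν a b) : ∫⁻ y, cnt g (Ioc a b) y ≤ ν (Ioc a b) := by
  rcases le_or_gt a b with hab | hab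
  · calc ∫⁻ y, cnt g (Ioc a b) y ≤ ∫⁻ y, liminf (fun k => Nk g a b k y) atTop :=
        lintegral_mono fun y => cnt_le_liminf y
      _ ≤ liminf (fun k => ∫⁻ y, Nk g a b k y) atTop :=
        lintegral_liminf_le fun k => measurable_Nk hg hab k
      _ ≤ ν (Ioc a b) := by
        apply liminf_le_of_le (by isBoundedDefault)
        intro c hc
        obtain ⟨k, hk⟩ := hc.exists
        exact hk.trans (lintegral_Nk_le hg h hab k)
  · simp [cnt, Ioc_eq_empty (not_lt.2 hab.le)]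

theorem cnt_Icc_le (g : ℝ → ℝ) (a b y : ℝ) :
    cnt g (Icc a b) y ≤ cnt g (Ioc a b) y + ({g a} : Set ℝ).indicator 1 y := by
  classical
  unfold cnt
  by_cases hy : y = g a
  · subst hy
    rw [indicator_of_mem (mem_singleton _)]
    have h1 : Icc a b ∩ g ⁻¹' {g a} ⊆ insert a (Ioc a b ∩ g ⁻¹' {g a}) := by
      rintro x ⟨⟨h1, h2⟩, h3⟩
      rcases h1.lt_or_eq with h | h
      · exact Or.inr ⟨⟨h, h2⟩, h3⟩
      · exact Or.inl h.symm
    have h2 : (Icc a b ∩ g ⁻¹' {g a}).encard ≤ (Ioc a b ∩ g ⁻¹' {g a}).encard + 1 :=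
      (encard_le_encard h1).trans (encard_insert_le _ _)
    have h3 := ENat.toENNReal_mono h2
    simpa using h3
  · rw [indicator_of_notMem (by simpa using hy), add_zero]
    have h1 : Icc a b ∩ g ⁻¹' {y} ⊆ Ioc a b ∩ g ⁻¹' {y} := by
      rintro x ⟨⟨h1, h2⟩, h3⟩
      refine ⟨⟨lt_of_le_of_ne h1 ?_, h2⟩, h3⟩
      rintro rfl
      exact hy h3.symm
    exact ENat.toENNReal_mono (encard_le_encard h1)

/-- **Banach indicatrix** on `[a,b]`. -/
theorem lintegral_cnt_Icc_le {g : ℝ → ℝ} {ν : Measure ℝ} {a b : ℝ}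
    (hg : ContinuousOn g (Icc a b)) (h : Dom g ν a b) :
    ∫⁻ y, cnt g (Icc a b) y ≤ ν (Ioc a b) := by
  refine le_trans ?_ (lintegral_cnt_le hg h)
  calc ∫⁻ y, cnt g (Icc a b) y ≤ ∫⁻ y, (cnt g (Ioc a b) y + ({g a} : Set ℝ).indicator 1 y) :=
        lintegral_mono fun y => cnt_Icc_le g a b y
    _ = ∫⁻ y, cnt g (Ioc a b) y := by
        rw [lintegral_add_right _ (measurable_one.indicator (measurableSet_singleton _)),
          lintegral_indicator_one (measurableSet_singleton _)]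
        simp


end

end Crest.Agent.R096.Bas_731
end

-- ▼ part R96/En2_199

set_option autoImplicit false

open MeasureTheory Set Filter
open scoped Topology ENNReal

namespace Crest.Agent.R96.En2_199

open Crest.Agent.R96.En1_199 Crest.Agent.R096.Bas_731

noncomputable section

/-- the levels of a null set are avoided by almost every offset -/
theorem ae_avoid {Z : Set ℝ} (hZ : volume Z = 0) {m : ℕ} :
    ∀ᵐ c : ℝ, ∀ k < m, (c + k) / m ∉ Z := by
  rw [ae_all_iff]
  intro k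
  by_cases hk : k < m
  · have hm0 : 0 < m := lt_of_le_of_lt (Nat.zero_le k) hk
    have hm : ((m:ℝ)⁻¹) ≠ 0 := by positivity
    have h1 : volume ((fun c : ℝ => (m:ℝ)⁻¹ * c) ⁻¹' Z) = 0 := by
      rw [Real.volume_preimage_mul_left hm, hZ, mul_zero]
    have h2 : volume ((fun c : ℝ => c + k) ⁻¹' ((fun c : ℝ => (m:ℝ)⁻¹ * c) ⁻¹' Z)) = 0 := by
      rw [measure_preimage_add_right]; exact h1
    have h3 : {c : ℝ | ¬ (k < m → (c + k) / m ∉ Z)} ⊆
        (fun c : ℝ => c + k) ⁻¹' ((fun c : ℝ => (m:ℝ)⁻¹ * c) ⁻¹' Z) := by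
      intro c hc
      simp only [mem_ofPred_eq, not_forall, not_not] at hc
      obtain ⟨-, hc⟩ := hc
      simp only [mem_preimage]
      rw [inv_mul_eq_div]
      exact hc
    exact measure_mono_null h3 h2
  · exact Eventually.of_forall fun c h => absurd h hk

/-- **LEVELS, finitely many functions.** -/
theorem exists_levels {ι : Type*} [Fintype ι] {N : ι → ℝ → ℝ≥0∞} {I : ι → ℝ}
    (hN : ∀ i, AEMeasurable (N i) (volume.restrict (Icc (0:ℝ) 1)))
    (hI0 : ∀ i, 0 ≤ I i) (hI : ∀ i, ∫⁻ y in Icc (0:ℝ) 1, N i y ≤ ENNReal.ofReal (I i))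
    {Z : Set ℝ} (hZ : volume Z = 0) {ε : ℝ} (hε : 0 < ε) :
    ∃ m0 : ℕ, ∀ m ≥ m0, 0 < m →
      volume (Icc (0:ℝ) 1 \ {c | c ∈ Ioo (0:ℝ) 1 ∧ (∀ k < m, (c + k) / m ∉ Z) ∧
        ∀ i, ∑ k ∈ Finset.range m, N i ((c + k) / m) ≤ ENNReal.ofReal (m * (I i + ε))}) ≤
        ENNReal.ofReal ε := by
  classical
  set ε' : ℝ := ε / (Fintype.card ι + 1) with hε'
  have hε'pos : 0 < ε' := by positivity
  have hε'le : ε' ≤ ε := div_le_self hε.le (by
    have : (0:ℝ) ≤ Fintype.card ι := by positivity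
    linarith)
  have hfin : ∀ i, ∫⁻ y in Icc (0:ℝ) 1, N i y ≠ ∞ := fun i =>
    ne_top_of_le_ne_top ENNReal.ofReal_ne_top (hI i)
  have hn : ∀ i, IntegrableOn (fun y => (N i y).toReal) (Icc (0:ℝ) 1) := fun i =>
    integrable_toReal_of_lintegral_ne_top (hN i) (hfin i)
  choose m1 hm1 using fun i => levels_real (hn i) hε'pos
  refine ⟨Finset.univ.sup m1, fun m hm hmp => ?_⟩
  have hm' : ∀ i, m1 i ≤ m := fun i => (Finset.le_sup (Finset.mem_univ i)).trans hm
  have hmR : (0:ℝ) < m := by exact_mod_cast hmp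
  -- infinite values
  have hae : ∀ i, ∀ᵐ y ∂(volume.restrict (Icc (0:ℝ) 1)), N i y < ∞ := fun i =>
    ae_lt_top' (hN i) (hfin i)
  set W : Set ℝ := Z ∪ ⋃ i, {y | y ∈ Icc (0:ℝ) 1 ∧ ¬ N i y < ∞} with hW
  have hW0 : volume W = 0 := by
    rw [hW]
    refine measure_union_null hZ (measure_iUnion_null fun i => ?_)
    have := hae i
    rw [ae_restrict_iff' measurableSet_Icc, ae_iff] at this
    refine measure_mono_null ?_ this
    rintro y ⟨h1, h2⟩
    simp only [mem_ofPred_eq, Classical.not_imp]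
    exact ⟨h1, h2⟩
  have hav := ae_avoid hW0 (m := m)
  -- the bad set
  set B : Set ℝ := ⋃ i, {c ∈ Icc (0:ℝ) 1 | ε' < |RS m (fun y => (N i y).toReal) c -
    ∫ y in (0:ℝ)..1, (N i y).toReal|} with hB
  have hBm : volume B ≤ ENNReal.ofReal ε := by
    calc volume B ≤ ∑ i, volume {c ∈ Icc (0:ℝ) 1 | ε' < |RS m (fun y => (N i y).toReal) c -
        ∫ y in (0:ℝ)..1, (N i y).toReal|} := by
          rw [hB]
          exact measure_iUnion_fintype_le _ _
      _ ≤ ∑ _i : ι, ENNReal.ofReal ε' :=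
          Finset.sum_le_sum fun i _ => hm1 i m (hm' i) hmp
      _ = (Fintype.card ι : ℝ≥0∞) * ENNReal.ofReal ε' := by
          rw [Finset.sum_const, Finset.card_univ, nsmul_eq_mul]
      _ = ENNReal.ofReal (Fintype.card ι * ε') := by
          rw [ENNReal.ofReal_mul (by positivity), ENNReal.ofReal_natCast]
      _ ≤ ENNReal.ofReal ε := by
          apply ENNReal.ofReal_le_ofReal
          rw [hε', mul_div_assoc', div_le_iff₀ (by positivity)]
          nlinarith [show (0:ℝ) ≤ Fintype.card ι by positivity]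
  set A : Set ℝ := {c | ¬ ∀ k < m, (c + k) / m ∉ W} with hA
  have hA0 : volume A = 0 := hav
  have h01 : volume ({0, 1} : Set ℝ) = 0 := by
    exact (Set.toFinite ({0, 1} : Set ℝ)).measure_zero _
  refine (measure_mono (t := B ∪ (A ∪ {0, 1})) ?_).trans ?_
  · rintro c ⟨hc, hcg⟩
    by_contra hcon
    simp only [mem_union, not_or] at hcon
    obtain ⟨hcB, hcA, hc01⟩ := hcon
    apply hcg
    have hcA' : ∀ k < m, (c + k) / m ∉ W := by
      by_contra h; exact hcA h
    have hc0 : c ≠ 0 := fun h => hc01 (by rw [h]; exact Or.inl rfl)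
    have hc1 : c ≠ 1 := fun h => hc01 (by rw [h]; exact Or.inr rfl)
    refine ⟨⟨lt_of_le_of_ne hc.1 (Ne.symm hc0), lt_of_le_of_ne hc.2 hc1⟩, ?_, fun i => ?_⟩
    · intro k hk hz
      exact hcA' k hk (Or.inl hz)
    · have hltop : ∀ k ∈ Finset.range m, N i ((c + k) / m) ≠ ∞ := by
        intro k hk hinf
        have hk' := Finset.mem_range.1 hk
        apply hcA' k hk'
        right
        rw [mem_iUnion]
        refine ⟨i, piece_sub hk' (point_mem hk' hc), ?_⟩
        rw [hinf]; simp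
      have h1 : ∑ k ∈ Finset.range m, N i ((c + k) / m) =
          ENNReal.ofReal (m * RS m (fun y => (N i y).toReal) c) := by
        unfold RS
        rw [← mul_assoc, mul_one_div_cancel hmR.ne', one_mul,
          ENNReal.ofReal_sum_of_nonneg (fun k _ => ENNReal.toReal_nonneg)]
        apply Finset.sum_congr rfl
        intro k hk
        rw [ENNReal.ofReal_toReal (hltop k hk)]
      rw [h1]
      apply ENNReal.ofReal_le_ofReal
      apply mul_le_mul_of_nonneg_left _ hmR.le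
      have h2 : ∫ y in (0:ℝ)..1, (N i y).toReal ≤ I i := by
        rw [intervalIntegral.integral_of_le zero_le_one, ← integral_Icc_eq_integral_Ioc,
          integral_toReal (hN i) (hae i)]
        exact ENNReal.toReal_le_of_le_ofReal (hI0 i) (hI i)
      have h3 : |RS m (fun y => (N i y).toReal) c - ∫ y in (0:ℝ)..1, (N i y).toReal| ≤ ε' := by
        by_contra hlt
        apply hcB
        rw [hB, mem_iUnion]
        exact ⟨i, hc, not_le.1 hlt⟩
      have h4 := (abs_le.1 h3).2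
      linarith
  · calc volume (B ∪ (A ∪ {0, 1})) ≤ volume B + volume (A ∪ {0, 1}) := measure_union_le _ _
      _ ≤ ENNReal.ofReal ε + 0 := by
          gcongr
          exact (measure_union_null hA0 h01).le
      _ = _ := add_zero _


/-- `cnt` on the closed interval is a.e. measurable -/
theorem aemeasurable_cnt_Icc {g : ℝ → ℝ} {a b : ℝ} (hg : ContinuousOn g (Icc a b)) :
    AEMeasurable (cnt g (Icc a b)) volume := by
  rcases le_or_gt a b with hab | hab
  · refine ⟨cnt g (Ioc a b), measurable_cnt hg hab, ?_⟩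
    have h1 : ∀ᵐ y : ℝ, y ∉ ({g a} : Set ℝ) :=
      measure_eq_zero_iff_ae_notMem.1 (by simp)
    filter_upwards [h1] with y hy
    apply le_antisymm
    · refine (cnt_Icc_le g a b y).trans ?_
      rw [indicator_of_notMem hy, add_zero]
    · exact cnt_mono Ioc_subset_Icc_self y
  · have : cnt g (Icc a b) = fun _ => 0 := by
      funext y
      simp [cnt, Icc_eq_empty (not_le.2 hab)]
    rw [this]
    exact aemeasurable_const



end

end Crest.Agent.R96.En2_199
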