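import Mathlib
import Crest.Agent.R96.Acl3_392

-- ▼ part R96/Sob1_199
section

set_option autoImplicit false
set_option linter.unusedSectionVars false

open MeasureTheory Set Filter
open scoped ContDiff Topology

namespace Crest.Agent.R96.Sob1_199

open Crest.Agent.R96.Acl_392

noncomputable section

variable {E : Type*} [NormedAddCommGroup E] [NormedSpace ℝ E] [FiniteDimensional ℝ E]
  [MeasurableSpace E] [BorelSpace E] {μ : Measure E} [μ.IsAddHaarMeasure]

/-- Fubini: integral of `ψ` against the line average of `g`. -/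
theorem integral_mul_avg {Ω : Set E} {g : E → ℝ} (hg : LocallyIntegrableOn g Ω μ) {e : E}
    {s t : ℝ} (hst : s ≤ t) {ψ : E → ℝ} (hψ : ContDiff ℝ ∞ ψ) (hc : HasCompactSupport ψ)
    (hsupp : tsupport ψ ⊆ segIn Ω e s t) :
    ∫ x, ψ x * (∫ τ in s..t, g (x + τ • e)) ∂μ = ∫ y, g y * avgT ψ e s t y ∂μ := by
  set K := tsupport ψ with hKdef
  have hK : IsCompact K := hc
  obtain ⟨C, hC⟩ := hψ.continuous.bounded_above_of_compact_support hc
  have hψ0 : ∀ x, x ∉ K → ψ x = 0 := fun x hx => image_eq_zero_of_notMem_tsupport hx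
  set ν : Measure ℝ := volume.restrict (Icc s t) with hν
  have hF := integrable_cut hg hK hsupp
  have hH := integrable_shear (μ := μ) hF ν e
  have hA1 : Integrable (fun p : ℝ × E => ψ p.2 * cut g K e s t (p.2 + p.1 • e)) (ν.prod μ) := by
    refine hH.bdd_mul (c := C) ?_ (Eventually.of_forall fun p => hC p.2)
    exact (hψ.continuous.comp continuous_snd).aestronglyMeasurable
  have hA2 : Integrable (fun p : ℝ × E => ψ (p.2 - p.1 • e) * cut g K e s t p.2) (ν.prod μ) := by
    refine (hF.comp_snd ν).bdd_mul (c := C) ?_ (Eventually.of_forall fun p => hC _)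
    apply Continuous.aestronglyMeasurable
    have := hψ.continuous
    fun_prop
  have hG1 : (fun x => ψ x * ∫ τ in s..t, g (x + τ • e)) =
      fun x => ∫ τ, ψ x * cut g K e s t (x + τ • e) ∂ν := by
    funext x
    by_cases hx : x ∈ K
    · rw [integral_cut hst hx, integral_const_mul]
    · rw [hψ0 x hx]; simp
  rw [hG1]
  rw [← integral_integral_swap (f := fun (τ : ℝ) (x : E) => ψ x * cut g K e s t (x + τ • e)) hA1]
  have h1 : ∀ τ : ℝ, ∫ x, ψ x * cut g K e s t (x + τ • e) ∂μ =
      ∫ y, ψ (y - τ • e) * cut g K e s t y ∂μ := by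
    intro τ
    have h4 := integral_add_right_eq_self (μ := μ)
      (fun y => ψ (y - τ • e) * cut g K e s t y) (τ • e)
    rw [← h4]
    congr 1
    funext x
    rw [add_sub_cancel_right]
  simp_rw [h1]
  rw [integral_integral_swap (f := fun (τ : ℝ) (y : E) => ψ (y - τ • e) * cut g K e s t y) hA2]
  congr 1
  funext y
  rw [integral_mul_const]
  by_cases hy : y ∈ sweep K e s t
  · have : cut g K e s t y = g y := indicator_of_mem hy _
    rw [this, mul_comm]
    congr 1
    rw [avgT, intervalIntegral.integral_of_le hst, ← integral_Icc_eq_integral_Ioc]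
  · have h5 : cut g K e s t y = 0 := indicator_of_notMem hy _
    have h6 : avgT ψ e s t y = 0 := by
      by_contra hne
      exact hy (avgT_ne_zero hst hne)
    rw [h5, h6]; simp

/-- shifting the argument of `v` onto the test function -/
theorem integral_mul_shift {Ω : Set E} {v : E → ℝ} (hv : LocallyIntegrableOn v Ω μ) {e : E}
    {s t a : ℝ} (ha : a ∈ Icc s t) {ψ : E → ℝ} (hψ : ContDiff ℝ ∞ ψ) (hc : HasCompactSupport ψ)
    (hsupp : tsupport ψ ⊆ segIn Ω e s t) :
    Integrable (fun x => ψ x * v (x + a • e)) μ ∧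
      ∫ x, ψ x * v (x + a • e) ∂μ = ∫ y, v y * ψ (y - a • e) ∂μ ∧
      Integrable (fun y => v y * ψ (y - a • e)) μ := by
  set K := tsupport ψ with hKdef
  have hK : IsCompact K := hc
  obtain ⟨C, hC⟩ := hψ.continuous.bounded_above_of_compact_support hc
  have hψ0 : ∀ x, x ∉ K → ψ x = 0 := fun x hx => image_eq_zero_of_notMem_tsupport hx
  have hψm : AEStronglyMeasurable ψ μ := hψ.continuous.aestronglyMeasurable
  have h1 : (fun x => ψ x * v (x + a • e)) = fun x => ψ x * cut v K e s t (x + a • e) := by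
    funext x
    by_cases hx : x ∈ K
    · rw [cut_apply hx ha]
    · rw [hψ0 x hx]; simp
  have h2 : Integrable (fun x => cut v K e s t (x + a • e)) μ :=
    (integrable_cut hv hK hsupp).comp_add_right (a • e)
  have h3 : Integrable (fun x => ψ x * v (x + a • e)) μ := by
    rw [h1]
    exact h2.bdd_mul hψm (Eventually.of_forall hC)
  refine ⟨h3, ?_, ?_⟩
  · have h4 := integral_add_right_eq_self (μ := μ) (fun y => v y * ψ (y - a • e)) (a • e)
    rw [← h4]
    congr 1
    funext x
    rw [add_sub_cancel_right, mul_comm]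
  · have h5 := h3.comp_sub_right (a • e)
    refine h5.congr (Eventually.of_forall fun y => ?_)
    show ψ (y - a • e) * v (y - a • e + a • e) = _
    rw [sub_add_cancel, mul_comm]

theorem tendsto_avgT {ψ : E → ℝ} (hψ : Continuous ψ) (e y : E) {h : ℕ → ℝ}
    (h0 : ∀ n, 0 < h n) (hl : Tendsto h atTop (𝓝 0)) :
    Tendsto (fun n => (h n)⁻¹ * avgT ψ e 0 (h n) y) atTop (𝓝 (ψ y)) := by
  have hcont : Continuous (fun τ : ℝ => ψ (y - τ • e)) := by fun_prop
  have h1 : HasDerivAt (fun u : ℝ => ∫ τ in (0:ℝ)..u, ψ (y - τ • e)) (ψ (y - (0:ℝ) • e)) 0 :=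
    intervalIntegral.integral_hasDerivAt_right (hcont.intervalIntegrable _ _)
      (hcont.stronglyMeasurableAtFilter _ _) hcont.continuousAt
  have h2 := h1.tendsto_slope
  have h3 : Tendsto h atTop (𝓝[≠] 0) := by
    rw [tendsto_nhdsWithin_iff]
    exact ⟨hl, Eventually.of_forall fun n => (h0 n).ne'⟩
  have h4 := h2.comp h3
  simp only [zero_smul, sub_zero] at h4
  refine h4.congr fun n => ?_
  simp [slope_def_field, avgT, div_eq_inv_mul]

theorem abs_avgT_le {ψ : E → ℝ} {C : ℝ} (hC : ∀ x, ‖ψ x‖ ≤ C) (e y : E) {h : ℝ} (h0 : 0 < h) :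
    |h⁻¹ * avgT ψ e 0 h y| ≤ C := by
  rw [abs_mul, abs_of_pos (inv_pos.2 h0)]
  have h1 : ‖avgT ψ e 0 h y‖ ≤ C * |h - 0| := by
    apply intervalIntegral.norm_integral_le_of_norm_le_const
    intro τ _
    exact hC _
  rw [Real.norm_eq_abs, sub_zero, abs_of_pos h0] at h1
  rw [inv_mul_le_iff₀ h0]
  linarith

/-- a uniform neighbourhood: for `K` compact in `Ω` open there is `h > 0` with
`K ⊆ segIn Ω e 0 h`. -/
theorem exists_segIn {Ω K : Set E} (hΩ : IsOpen Ω) (hK : IsCompact K) (hKΩ : K ⊆ Ω) (e : E) :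
    ∃ h > 0, K ⊆ segIn Ω e (-h) h := by
  obtain ⟨δ, hδ, hδK⟩ := hK.exists_thickening_subset_open hΩ hKΩ
  refine ⟨δ / (2 * (‖e‖ + 1)), by positivity, fun x hx τ hτ => hδK ?_⟩
  rw [Metric.mem_thickening_iff]
  refine ⟨x, hx, ?_⟩
  rw [dist_eq_norm, add_sub_cancel_left, norm_smul, Real.norm_eq_abs]
  have h1 : |τ| ≤ δ / (2 * (‖e‖ + 1)) := abs_le.2 hτ
  have h2 : 0 ≤ ‖e‖ := norm_nonneg e
  calc |τ| * ‖e‖ ≤ δ / (2 * (‖e‖ + 1)) * (‖e‖ + 1) := by
        apply mul_le_mul h1 (by linarith) h2 (by positivity)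
    _ = δ / 2 := by field_simp
    _ < δ := by linarith

theorem segIn_mono {Ω : Set E} {e : E} {s t s' t' : ℝ} (hs : s ≤ s') (ht : t' ≤ t) :
    segIn Ω e s t ⊆ segIn Ω e s' t' := fun _ hx τ hτ => hx τ ⟨hs.trans hτ.1, hτ.2.trans ht⟩

/-- the increment estimate for a compactly supported smooth function -/
theorem exists_incr_bound {ψ : E → ℝ} (hψ : ContDiff ℝ ∞ ψ) (hc : HasCompactSupport ψ) (e : E) :
    ∃ C, 0 ≤ C ∧ ∀ (y : E) (h : ℝ), |ψ (y - h • e) - ψ y| ≤ C * |h| := by
  have h1 : ContDiff ℝ 1 ψ := hψ.of_le (by exact_mod_cast le_top)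
  obtain ⟨C, hC⟩ := h1.lipschitzWith_of_hasCompactSupport hc (by simp)
  refine ⟨C * ‖e‖, by positivity, fun y h => ?_⟩
  have h2 := hC.dist_le_mul (y - h • e) y
  rw [Real.dist_eq, dist_eq_norm, sub_sub_cancel_left, norm_neg, norm_smul, Real.norm_eq_abs] at h2
  nlinarith [h2]

/-- **Converse of ACL.** -/
theorem wd_of_acl {Ω : Set E} (hΩ : IsOpen Ω) {v g : E → ℝ} {e : E}
    (hv : LocallyIntegrableOn v Ω μ) (hg : LocallyIntegrableOn g Ω μ)
    (h : ∀ᵐ x ∂μ, ACLat Ω v g e x) : WD Ω μ v g e := by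
  refine ⟨hv, hg, fun φ hφ hc hs => ?_⟩
  set K := tsupport φ with hKdef
  have hK : IsCompact K := hc
  obtain ⟨h₀, hh₀, hKh⟩ := exists_segIn hΩ hK hs e
  -- the sequence of steps
  set a : ℕ → ℝ := fun n => h₀ / (n + 1) with ha
  have ha0 : ∀ n, 0 < a n := fun n => by simp only [ha]; positivity
  have hale : ∀ n, a n ≤ h₀ := by
    intro n
    simp only [ha]
    rw [div_le_iff₀ (by positivity)]
    nlinarith [Nat.cast_nonneg (α := ℝ) n]
  have hal : Tendsto a atTop (𝓝 0) := by
    have := tendsto_one_div_add_atTop_nhds_zero_nat (𝕜 := ℝ)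
    have h2 := this.const_mul h₀
    simp only [mul_zero] at h2
    refine h2.congr fun n => ?_
    simp only [ha]
    ring
  have hseg : ∀ n, K ⊆ segIn Ω e 0 (a n) := fun n => hKh.trans
    (segIn_mono (by linarith) (hale n))
  -- the discrete identity
  have hid : ∀ n, ∫ y, v y * ((a n)⁻¹ * (φ (y - (a n) • e) - φ y)) ∂μ =
      ∫ y, g y * ((a n)⁻¹ * avgT φ e 0 (a n) y) ∂μ := by
    intro n
    obtain ⟨h1, h2, h3⟩ := integral_mul_shift hv (a := a n) ⟨(ha0 n).le, le_rfl⟩ hφ hc (hseg n)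
    obtain ⟨h4, h5, h6⟩ := integral_mul_shift hv (a := 0) ⟨le_rfl, (ha0 n).le⟩ hφ hc (hseg n)
    simp only [zero_smul, add_zero, sub_zero] at h4 h5 h6
    have h7 := integral_mul_avg hg (ha0 n).le hφ hc (hseg n)
    have h8 : ∫ x, φ x * (v (x + (a n) • e) - v x) ∂μ =
        ∫ x, φ x * (∫ τ in (0:ℝ)..(a n), g (x + τ • e)) ∂μ := by
      apply integral_congr_ae
      filter_upwards [h] with x hx
      by_cases hxK : x ∈ K
      · have := (hx 0 (a n) (ha0 n).le (hseg n hxK)).2
        simp only [zero_smul, add_zero] at this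
        rw [this]
      · have : φ x = 0 := image_eq_zero_of_notMem_tsupport hxK
        simp [this]
    have h9 : ∫ x, φ x * (v (x + (a n) • e) - v x) ∂μ =
        ∫ y, v y * (φ (y - (a n) • e) - φ y) ∂μ := by
      have e1 : ∫ x, φ x * (v (x + (a n) • e) - v x) ∂μ =
          ∫ x, φ x * v (x + (a n) • e) ∂μ - ∫ x, φ x * v x ∂μ := by
        rw [← integral_sub h1 h4]
        congr 1; funext x; ring
      have e2 : ∫ y, v y * (φ (y - (a n) • e) - φ y) ∂μ =
          ∫ y, v y * φ (y - (a n) • e) ∂μ - ∫ y, v y * φ y ∂μ := by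
        rw [← integral_sub h3 h6]
        congr 1; funext x; ring
      rw [e1, e2, h2, h5]
    have e3 : ∫ y, v y * ((a n)⁻¹ * (φ (y - (a n) • e) - φ y)) ∂μ =
        (a n)⁻¹ * ∫ y, v y * (φ (y - (a n) • e) - φ y) ∂μ := by
      rw [← integral_const_mul]
      congr 1; funext x; ring
    have e4 : ∫ y, g y * ((a n)⁻¹ * avgT φ e 0 (a n) y) ∂μ =
        (a n)⁻¹ * ∫ y, g y * avgT φ e 0 (a n) y ∂μ := by
      rw [← integral_const_mul]
      congr 1; funext x; ring
    rw [e3, e4, ← h9, h8, h7]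
  -- the compact set carrying everything
  set K' := sweep K e (-h₀) h₀ with hK'
  have hK'c : IsCompact K' := isCompact_sweep hK e _ _
  have hK'Ω : K' ⊆ Ω := sweep_subset hKh
  have hvK : Integrable (K'.indicator v) μ :=
    (hv.integrableOn_compact_subset hK'Ω hK'c).integrable_indicator hK'c.measurableSet
  have hgK : Integrable (K'.indicator g) μ :=
    (hg.integrableOn_compact_subset hK'Ω hK'c).integrable_indicator hK'c.measurableSet
  obtain ⟨C₁, hC₁0, hC₁⟩ := exists_incr_bound hφ hc e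
  obtain ⟨C₂, hC₂⟩ := hφ.continuous.bounded_above_of_compact_support hc
  have hvan1 : ∀ n y, y ∉ K' → φ (y - (a n) • e) - φ y = 0 := by
    intro n y hy
    have h1 : φ (y - (a n) • e) = 0 := by
      by_contra hne
      apply hy
      have h2 : y - (a n) • e ∈ K := subset_tsupport _ hne
      have h3 := mem_sweep (e := e) (s := -h₀) (t := h₀) h2
        (τ := a n) ⟨by linarith [ha0 n], hale n⟩
      rwa [sub_add_cancel] at h3
    have h2 : φ y = 0 := by
      by_contra hne
      apply hy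
      have h2 : y ∈ K := subset_tsupport _ hne
      have h3 := mem_sweep (e := e) (s := -h₀) (t := h₀) h2 (τ := 0) ⟨by linarith, hh₀.le⟩
      simpa using h3
    rw [h1, h2, sub_zero]
  have hvan2 : ∀ n y, y ∉ K' → avgT φ e 0 (a n) y = 0 := by
    intro n y hy
    by_contra hne
    apply hy
    have h1 := avgT_ne_zero (ha0 n).le hne
    obtain ⟨⟨x, τ⟩, ⟨hx, hτ⟩, rfl⟩ := h1
    exact mem_sweep hx ⟨by linarith [hτ.1], hτ.2.trans (hale n)⟩
  -- limits
  have hL : Tendsto (fun n => ∫ y, v y * ((a n)⁻¹ * (φ (y - (a n) • e) - φ y)) ∂μ) atTop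
      (𝓝 (∫ y, v y * (- fderiv ℝ φ y e) ∂μ)) := by
    have h1 : ∀ n, (fun y => v y * ((a n)⁻¹ * (φ (y - (a n) • e) - φ y))) =
        fun y => K'.indicator v y * ((a n)⁻¹ * (φ (y - (a n) • e) - φ y)) := by
      intro n
      funext y
      by_cases hy : y ∈ K'
      · rw [indicator_of_mem hy]
      · rw [hvan1 n y hy]; simp
    have h2 : (fun y => v y * (- fderiv ℝ φ y e)) =
        fun y => K'.indicator v y * (- fderiv ℝ φ y e) := by
      funext y
      by_cases hy : y ∈ K'
      · rw [indicator_of_mem hy]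
      · have h3 : fderiv ℝ φ y = 0 := by
          by_contra hne
          apply hy
          have h2 : y ∈ K := tsupport_fderiv_subset ℝ (subset_tsupport _ hne)
          have h3 := mem_sweep (e := e) (s := -h₀) (t := h₀) h2 (τ := 0) ⟨by linarith, hh₀.le⟩
          simpa using h3
        rw [h3]; simp
    simp_rw [h1]
    rw [h2]
    apply tendsto_integral_of_dominated_convergence (fun y => ‖K'.indicator v y‖ * C₁)
    · intro n
      apply hvK.aestronglyMeasurable.mul
      apply Continuous.aestronglyMeasurable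
      have := hφ.continuous
      fun_prop
    · exact hvK.norm.mul_const _
    · intro n
      refine Eventually.of_forall fun y => ?_
      rw [norm_mul]
      apply mul_le_mul_of_nonneg_left _ (norm_nonneg _)
      rw [Real.norm_eq_abs, abs_mul, abs_of_pos (inv_pos.2 (ha0 n)), inv_mul_le_iff₀ (ha0 n)]
      have := hC₁ y (a n)
      rw [abs_of_pos (ha0 n)] at this
      linarith
    · refine Eventually.of_forall fun y => ?_
      apply Tendsto.const_mul
      have hd : HasFDerivAt φ (fderiv ℝ φ y) y :=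
        (hφ.differentiable (by simp) y).hasFDerivAt
      have h3 : HasDerivAt (fun h : ℝ => φ (y - h • e)) (fderiv ℝ φ y (-e)) 0 := by
        have h4 : HasDerivAt (fun h : ℝ => y - h • e) (-e) 0 := by
          have := ((hasDerivAt_id (0:ℝ)).smul_const e).const_sub y
          simpa using this
        have h5 : HasFDerivAt φ (fderiv ℝ φ y) (y - (0:ℝ) • e) := by simpa using hd
        exact h5.comp_hasDerivAt (0:ℝ) h4
      have h6 := h3.tendsto_slope
      have h7 : Tendsto a atTop (𝓝[≠] 0) := by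
        rw [tendsto_nhdsWithin_iff]
        exact ⟨hal, Eventually.of_forall fun n => (ha0 n).ne'⟩
      have h8 := h6.comp h7
      rw [map_neg] at h8
      refine h8.congr fun n => ?_
      simp [slope_def_field, div_eq_inv_mul]
  have hR : Tendsto (fun n => ∫ y, g y * ((a n)⁻¹ * avgT φ e 0 (a n) y) ∂μ) atTop
      (𝓝 (∫ y, g y * φ y ∂μ)) := by
    have h1 : ∀ n, (fun y => g y * ((a n)⁻¹ * avgT φ e 0 (a n) y)) =
        fun y => K'.indicator g y * ((a n)⁻¹ * avgT φ e 0 (a n) y) := by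
      intro n
      funext y
      by_cases hy : y ∈ K'
      · rw [indicator_of_mem hy]
      · rw [hvan2 n y hy]; simp
    have h2 : (fun y => g y * φ y) = fun y => K'.indicator g y * φ y := by
      funext y
      by_cases hy : y ∈ K'
      · rw [indicator_of_mem hy]
      · have h3 : φ y = 0 := by
          by_contra hne
          apply hy
          have h2 : y ∈ K := subset_tsupport _ hne
          have h3 := mem_sweep (e := e) (s := -h₀) (t := h₀) h2 (τ := 0) ⟨by linarith, hh₀.le⟩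
          simpa using h3
        rw [h3]; simp
    simp_rw [h1]
    rw [h2]
    apply tendsto_integral_of_dominated_convergence (fun y => ‖K'.indicator g y‖ * C₂)
    · intro n
      apply hgK.aestronglyMeasurable.mul
      apply Continuous.aestronglyMeasurable
      exact continuous_const.mul (contDiff_avgT hφ hc e (ha0 n).le).continuous
    · exact hgK.norm.mul_const _
    · intro n
      refine Eventually.of_forall fun y => ?_
      rw [norm_mul]
      apply mul_le_mul_of_nonneg_left _ (norm_nonneg _)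
      exact abs_avgT_le hC₂ e y (ha0 n)
    · refine Eventually.of_forall fun y => ?_
      exact (tendsto_avgT hφ.continuous e y ha0 hal).const_mul _
  have hfin := tendsto_nhds_unique (hL.congr hid) hR
  have e5 : ∫ y, v y * (- fderiv ℝ φ y e) ∂μ = - ∫ y, v y * fderiv ℝ φ y e ∂μ := by
    rw [← integral_neg]
    congr 1; funext y; ring
  rw [e5] at hfin
  linarith

end

end Crest.Agent.R96.Sob1_199
end

-- ▼ part R96/Sob2_199

set_option autoImplicit false
set_option linter.unusedSectionVars false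

open MeasureTheory Set Filter
open scoped ContDiff Topology

namespace Crest.Agent.R96.Sob2_199

open Crest.Agent.R96.Acl_392 Crest.Agent.R96.Sob1_199

noncomputable section

variable {E : Type*} [NormedAddCommGroup E] [NormedSpace ℝ E] [FiniteDimensional ℝ E]
  [MeasurableSpace E] [BorelSpace E] {μ : Measure E} [μ.IsAddHaarMeasure]

/-! ### products with test functions -/

theorem integrable_mul_test {Ω : Set E} {u : E → ℝ} (hu : LocallyIntegrableOn u Ω μ) {φ : E → ℝ}
    (hφ : Continuous φ) (hc : HasCompactSupport φ) (hs : tsupport φ ⊆ Ω) :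
    Integrable (fun x => u x * φ x) μ := by
  have h1 : IntegrableOn u (tsupport φ) μ := hu.integrableOn_compact_subset hs hc
  obtain ⟨C, hC⟩ := hφ.bounded_above_of_compact_support hc
  have h2 : Integrable ((tsupport φ).indicator u) μ :=
    h1.integrable_indicator (isClosed_tsupport φ).measurableSet
  have h3 := h2.bdd_mul hφ.aestronglyMeasurable (Eventually.of_forall hC)
  refine h3.congr (Eventually.of_forall fun x => ?_)
  by_cases hx : x ∈ tsupport φ
  · simp only [indicator_of_mem hx]; ring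
  · have : φ x = 0 := image_eq_zero_of_notMem_tsupport hx
    simp [this]

theorem continuous_dir {φ : E → ℝ} (hφ : ContDiff ℝ ∞ φ) (e : E) :
    Continuous (fun x => fderiv ℝ φ x e) :=
  (hφ.continuous_fderiv (by simp)).clm_apply continuous_const

theorem tsupport_dir (φ : E → ℝ) (e : E) :
    tsupport (fun x => fderiv ℝ φ x e) ⊆ tsupport φ := by
  apply closure_minimal _ (isClosed_tsupport φ)
  intro x hx
  have h1 : fderiv ℝ φ x ≠ 0 := by
    intro h0
    apply hx
    show fderiv ℝ φ x _ = 0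
    rw [h0]; rfl
  exact tsupport_fderiv_subset ℝ (subset_tsupport _ h1)

theorem compact_dir {φ : E → ℝ} (hc : HasCompactSupport φ) (e : E) :
    HasCompactSupport (fun x => fderiv ℝ φ x e) :=
  hc.of_isClosed_subset (isClosed_tsupport _) (tsupport_dir φ e)

theorem wd_int1 {Ω : Set E} {v g : E → ℝ} {e : E} (h : WD Ω μ v g e) {φ : E → ℝ}
    (hφ : ContDiff ℝ ∞ φ) (hc : HasCompactSupport φ) (hs : tsupport φ ⊆ Ω) :
    Integrable (fun x => v x * fderiv ℝ φ x e) μ :=
  integrable_mul_test h.lv (continuous_dir hφ e) (compact_dir hc e) ((tsupport_dir φ e).trans hs)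

theorem wd_int2 {Ω : Set E} {v g : E → ℝ} {e : E} (h : WD Ω μ v g e) {φ : E → ℝ}
    (hφ : ContDiff ℝ ∞ φ) (hc : HasCompactSupport φ) (hs : tsupport φ ⊆ Ω) :
    Integrable (fun x => g x * φ x) μ :=
  integrable_mul_test h.lg hφ.continuous hc hs

/-! ### calculus of `WD` -/

theorem wd_mono {Ω Ω' : Set E} {v g : E → ℝ} {e : E} (h : WD Ω μ v g e) (hs : Ω' ⊆ Ω) :
    WD Ω' μ v g e :=
  ⟨h.lv.mono_set hs, h.lg.mono_set hs, fun φ h1 h2 h3 => h.weak φ h1 h2 (h3.trans hs)⟩

theorem wd_add {Ω : Set E} {v g v' g' : E → ℝ} {e : E} (h : WD Ω μ v g e) (h' : WD Ω μ v' g' e) :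
    WD Ω μ (fun x => v x + v' x) (fun x => g x + g' x) e := by
  refine ⟨h.lv.add h'.lv, h.lg.add h'.lg, fun φ h1 h2 h3 => ?_⟩
  simp only [add_mul]
  rw [integral_add (wd_int1 h h1 h2 h3) (wd_int1 h' h1 h2 h3),
    integral_add (wd_int2 h h1 h2 h3) (wd_int2 h' h1 h2 h3), h.weak φ h1 h2 h3, h'.weak φ h1 h2 h3]
  ring

theorem wd_const_mul {Ω : Set E} {v g : E → ℝ} {e : E} (h : WD Ω μ v g e) (c : ℝ) :
    WD Ω μ (fun x => c * v x) (fun x => c * g x) e := by
  refine ⟨h.lv.smul c, h.lg.smul c, fun φ h1 h2 h3 => ?_⟩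
  simp only [mul_assoc]
  rw [integral_const_mul, integral_const_mul, h.weak φ h1 h2 h3]
  ring

theorem wd_neg {Ω : Set E} {v g : E → ℝ} {e : E} (h : WD Ω μ v g e) :
    WD Ω μ (fun x => - v x) (fun x => - g x) e := by
  have := wd_const_mul h (-1)
  simpa using this

theorem wd_sub {Ω : Set E} {v g v' g' : E → ℝ} {e : E} (h : WD Ω μ v g e) (h' : WD Ω μ v' g' e) :
    WD Ω μ (fun x => v x - v' x) (fun x => g x - g' x) e := by
  have := wd_add h (wd_neg h')
  simpa [sub_eq_add_neg] using this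

theorem wd_zero (Ω : Set E) (e : E) : WD Ω μ (fun _ => 0) (fun _ => 0) e :=
  ⟨(locallyIntegrable_const 0).locallyIntegrableOn _,
    (locallyIntegrable_const 0).locallyIntegrableOn _, fun φ _ _ _ => by simp⟩

theorem wd_sum {ι : Type*} (S : Finset ι) {Ω : Set E} {v g : ι → E → ℝ} {e : E}
    (h : ∀ i ∈ S, WD Ω μ (v i) (g i) e) :
    WD Ω μ (fun x => ∑ i ∈ S, v i x) (fun x => ∑ i ∈ S, g i x) e := by
  classical
  induction S using Finset.induction_on with
  | empty => simpa using wd_zero (μ := μ) Ω e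
  | insert a S ha ih =>
    simp only [Finset.sum_insert ha]
    exact wd_add (h a (Finset.mem_insert_self a S))
      (ih fun i hi => h i (Finset.mem_insert_of_mem hi))

theorem locallyIntegrableOn_congr {F : Type*} [NormedAddCommGroup F] {Ω : Set E} (hΩ : IsOpen Ω)
    {u u' : E → F} (hu : LocallyIntegrableOn u Ω μ) (h : ∀ᵐ x ∂μ, x ∈ Ω → u x = u' x) :
    LocallyIntegrableOn u' Ω μ := by
  rw [locallyIntegrableOn_iff hΩ.isLocallyClosed] at hu ⊢
  intro K hK hKc
  refine (hu K hK hKc).congr_fun_ae ?_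
  rw [Filter.EventuallyEq, ae_restrict_iff' hKc.measurableSet]
  filter_upwards [h] with x hx hxK
  exact hx (hK hxK)

theorem wd_congr {Ω : Set E} (hΩ : IsOpen Ω) {v g v' g' : E → ℝ} {e : E} (h : WD Ω μ v g e)
    (hv : ∀ᵐ x ∂μ, x ∈ Ω → v x = v' x) (hg : ∀ᵐ x ∂μ, x ∈ Ω → g x = g' x) :
    WD Ω μ v' g' e := by
  refine ⟨locallyIntegrableOn_congr hΩ h.lv hv, locallyIntegrableOn_congr hΩ h.lg hg,
    fun φ h1 h2 h3 => ?_⟩
  have e1 : ∫ x, v' x * fderiv ℝ φ x e ∂μ = ∫ x, v x * fderiv ℝ φ x e ∂μ := by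
    apply integral_congr_ae
    filter_upwards [hv] with x hx
    by_cases hxΩ : x ∈ Ω
    · rw [hx hxΩ]
    · have : fderiv ℝ φ x e = 0 := by
        have := image_eq_zero_of_notMem_tsupport (f := fun x => fderiv ℝ φ x e) (x := x)
          (fun hx' => hxΩ (h3 (tsupport_dir φ e hx')))
        simpa using this
      rw [this]; simp
  have e2 : ∫ x, g' x * φ x ∂μ = ∫ x, g x * φ x ∂μ := by
    apply integral_congr_ae
    filter_upwards [hg] with x hx
    by_cases hxΩ : x ∈ Ω
    · rw [hx hxΩ]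
    · have : φ x = 0 := image_eq_zero_of_notMem_tsupport (fun hx' => hxΩ (h3 hx'))
      rw [this]; simp
  rw [e1, e2]
  exact h.weak φ h1 h2 h3

theorem wd_unique {Ω : Set E} (hΩ : IsOpen Ω) {v g g' : E → ℝ} {e : E} (h : WD Ω μ v g e)
    (h' : WD Ω μ v g' e) : ∀ᵐ x ∂μ, x ∈ Ω → g x = g' x := by
  have h1 : ∀ᵐ x ∂μ, x ∈ Ω → g x - g' x = 0 := by
    apply hΩ.ae_eq_zero_of_integral_contDiff_smul_eq_zero (h.lg.sub h'.lg)
    intro φ hφ hc hs
    have e1 : ∫ x, φ x • (g x - g' x) ∂μ = ∫ x, g x * φ x ∂μ - ∫ x, g' x * φ x ∂μ := by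
      rw [← integral_sub (wd_int2 h hφ hc hs) (wd_int2 h' hφ hc hs)]
      congr 1
      funext x
      simp only [smul_eq_mul]
      ring
    have h2 := h.weak φ hφ hc hs
    have h3 := h'.weak φ hφ hc hs
    show ∫ x, φ x • (g x - g' x) ∂μ = 0
    rw [e1]
    linarith
  filter_upwards [h1] with x hx hxΩ
  exact sub_eq_zero.1 (hx hxΩ)

/-- linearity in the direction -/
theorem wd_add_dir {Ω : Set E} {v g g' : E → ℝ} {e e' : E} (h : WD Ω μ v g e)
    (h' : WD Ω μ v g' e') : WD Ω μ v (fun x => g x + g' x) (e + e') := by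
  refine ⟨h.lv, h.lg.add h'.lg, fun φ h1 h2 h3 => ?_⟩
  simp only [add_mul, map_add, mul_add]
  rw [integral_add (wd_int1 h h1 h2 h3) (wd_int1 h' h1 h2 h3),
    integral_add (wd_int2 h h1 h2 h3) (wd_int2 h' h1 h2 h3), h.weak φ h1 h2 h3, h'.weak φ h1 h2 h3]
  ring

theorem wd_smul_dir {Ω : Set E} {v g : E → ℝ} {e : E} (h : WD Ω μ v g e) (c : ℝ) :
    WD Ω μ v (fun x => c * g x) (c • e) := by
  refine ⟨h.lv, h.lg.smul c, fun φ h1 h2 h3 => ?_⟩
  have e1 : ∫ x, v x * fderiv ℝ φ x (c • e) ∂μ = c * ∫ x, v x * fderiv ℝ φ x e ∂μ := by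
    rw [← integral_const_mul]
    congr 1
    funext x
    rw [map_smul, smul_eq_mul]
    ring
  rw [e1, h.weak φ h1 h2 h3]
  simp only [mul_assoc]
  rw [integral_const_mul]
  ring

/-! ### Fubini along lines -/

/-- a property true almost everywhere is true almost everywhere on almost every line -/
theorem ae_line_of_ae {P : E → Prop} (h : ∀ᵐ x ∂μ, P x) (e : E) :
    ∀ᵐ x ∂μ, ∀ᵐ τ : ℝ, P (x + τ • e) := by
  have h1 : ∀ᵐ p : E × ℝ ∂(μ.prod volume), P (p.1 + p.2 • e) := by
    have h2 : ∀ᵐ p : ℝ × E ∂((volume : Measure ℝ).prod μ), P p.2 :=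
      Measure.quasiMeasurePreserving_snd.ae h
    have h3 : ∀ᵐ p : ℝ × E ∂((volume : Measure ℝ).prod μ), P (p.2 + p.1 • e) :=
      (mp_shear (μ := μ) (volume : Measure ℝ) e).quasiMeasurePreserving.ae h2
    have h4 := (Measure.measurePreserving_swap (μ := μ)
      (ν := (volume : Measure ℝ))).quasiMeasurePreserving.ae h3
    simpa using h4
  exact Measure.ae_ae_of_ae_prod h1

/-- a measurable set which is null on almost every line is null -/
theorem measure_zero_of_line {N : Set E} (hN : MeasurableSet N) {e : E}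
    (h : ∀ᵐ x ∂μ, ∀ᵐ τ : ℝ, x + τ • e ∉ N) : μ N = 0 := by
  set ν : Measure ℝ := volume.restrict (Icc 0 1) with hν
  have hm : MeasurableSet {p : E × ℝ | p.1 + p.2 • e ∈ N} := by
    apply hN.preimage
    exact measurable_fst.add (measurable_snd.smul_const e)
  have h1 : (μ.prod ν) {p : E × ℝ | p.1 + p.2 • e ∈ N} = 0 := by
    rw [Measure.measure_prod_null hm]
    filter_upwards [h] with x hx
    have h2 : ∀ᵐ τ ∂ν, x + τ • e ∉ N := ae_restrict_of_ae hx
    rw [ae_iff] at h2
    simpa using h2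
  have hm' : MeasurableSet {p : ℝ × E | p.2 + p.1 • e ∈ N} := by
    apply hN.preimage
    exact measurable_snd.add (measurable_fst.smul_const e)
  have h3 : (ν.prod μ) {p : ℝ × E | p.2 + p.1 • e ∈ N} = 0 := by
    have h4 := (Measure.measurePreserving_swap (μ := ν) (ν := μ)).measure_preimage
      hm.nullMeasurableSet
    rw [← h1, ← h4]
    rfl
  have h5 : (ν.prod μ) ((Prod.snd : ℝ × E → E) ⁻¹' N) = 0 := by
    have h6 := (mp_shear (μ := μ) ν e).measure_preimage
      (s := (Prod.snd : ℝ × E → E) ⁻¹' N) (hN.preimage measurable_snd).nullMeasurableSet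
    rw [← h6]
    exact h3
  have h7 : ((Prod.snd : ℝ × E → E) ⁻¹' N) = univ ×ˢ N := by ext; simp
  rw [h7, Measure.prod_prod] at h5
  have h8 : ν univ = 1 := by simp [hν]
  rwa [h8, one_mul] at h5

theorem ae_of_ae_line {P : E → Prop} (hP : NullMeasurableSet {x | P x} μ) {e : E}
    (h : ∀ᵐ x ∂μ, ∀ᵐ τ : ℝ, P (x + τ • e)) : ∀ᵐ x ∂μ, P x := by
  obtain ⟨N, hN1, hN2, hN3⟩ := hP.compl.exists_measurable_subset_ae_eq
  have h1 : ∀ᵐ x ∂μ, ∀ᵐ τ : ℝ, x + τ • e ∉ N := by
    filter_upwards [h] with x hx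
    filter_upwards [hx] with τ hτ hτN
    exact hN1 hτN hτ
  have h2 : μ N = 0 := measure_zero_of_line hN2 h1
  have h3 : μ {x | P x}ᶜ = 0 := by
    rw [← measure_congr hN3]; exact h2
  rw [ae_iff]
  exact h3

end

end Crest.Agent.R96.Sob2_199
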