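import Mathlib
import Crest.Agent.R96.Sob2_199

-- ▼ part R96/Sob3_199
section

set_option autoImplicit false
set_option linter.unusedSectionVars false

open MeasureTheory Set Filter
open scoped ContDiff Topology

namespace Crest.Agent.R96.Sob3_199

open Crest.Agent.R96.Acl_392 Crest.Agent.R96.Sob1_199 Crest.Agent.R96.Sob2_199

noncomputable section

/-! ### one variable -/

theorem ac_of_bound {u m : ℝ → ℝ} {a b : ℝ} (hab : a ≤ b) (hm : IntegrableOn m (Icc a b))
    (h : ∀ s t, a ≤ s → s ≤ t → t ≤ b → |u t - u s| ≤ ∫ τ in s..t, m τ) :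
    AbsolutelyContinuousOnInterval u a b := by
  have hmi : IntervalIntegrable m volume a b :=
    (intervalIntegrable_iff_integrableOn_Icc_of_le hab).2 hm
  set U : ℝ → ℝ := fun t => ∫ τ in a..t, m τ with hU
  have hUac : AbsolutelyContinuousOnInterval U a b :=
    hmi.absolutelyContinuousOnInterval_intervalIntegral (c := a) (by simp)
  have hsub : ∀ s t, s ∈ Icc a b → t ∈ Icc a b → IntervalIntegrable m volume s t := by
    intro s t hs ht
    refine hmi.mono_set ?_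
    rw [uIcc_of_le hab]
    exact uIcc_subset_Icc hs ht
  have hd : ∀ s t, s ∈ Icc a b → t ∈ Icc a b → dist (u s) (u t) ≤ dist (U s) (U t) := by
    have key : ∀ s t, s ∈ Icc a b → t ∈ Icc a b → s ≤ t → dist (u s) (u t) ≤ dist (U s) (U t) := by
      intro s t hs ht hst
      have h1 := h s t hs.1 hst ht.2
      have h2 : U t - U s = ∫ τ in s..t, m τ := by
        simp only [hU]
        rw [intervalIntegral.integral_interval_sub_left (hsub _ _ ⟨le_rfl, hab⟩ ht)
          (hsub _ _ ⟨le_rfl, hab⟩ hs)]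
      rw [dist_comm, dist_comm (U s), Real.dist_eq, Real.dist_eq, h2]
      exact h1.trans (le_abs_self _)
    intro s t hs ht
    rcases le_total s t with hst | hst
    · exact key s t hs ht hst
    · rw [dist_comm, dist_comm (U s)]
      exact key t s ht hs hst
  rw [absolutelyContinuousOnInterval_iff] at hUac ⊢
  intro ε hε
  obtain ⟨δ, hδ, hδ'⟩ := hUac ε hε
  refine ⟨δ, hδ, fun I hI hl => ?_⟩
  refine lt_of_le_of_lt (Finset.sum_le_sum fun i hi => ?_) (hδ' I hI hl)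
  have h1 := hI.1 i hi
  rw [uIcc_of_le hab] at h1
  exact hd _ _ h1.1 h1.2

/-- a.e. differentiability and the bound for the derivative -/
theorem ae_deriv_of_bound {u m : ℝ → ℝ} {a b : ℝ} (hab : a ≤ b) (hm : IntegrableOn m (Icc a b))
    (h : ∀ s t, a ≤ s → s ≤ t → t ≤ b → |u t - u s| ≤ ∫ τ in s..t, m τ) :
    ∀ᵐ τ : ℝ, τ ∈ Ioo a b → HasDerivAt u (deriv u τ) τ ∧ |deriv u τ| ≤ m τ := by
  have hmi : IntervalIntegrable m volume a b :=
    (intervalIntegrable_iff_integrableOn_Icc_of_le hab).2 hm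
  have hac := ac_of_bound hab hm h
  filter_upwards [hac.ae_differentiableAt, hmi.ae_hasDerivAt_integral] with τ h1 h2 hτ
  have hτ' : τ ∈ uIcc a b := by
    rw [uIcc_of_le hab]; exact Ioo_subset_Icc_self hτ
  have h3 := (h1 hτ').hasDerivAt
  have h4 := h2 hτ' a (by simp)
  refine ⟨h3, ?_⟩
  -- compare slopes from the right
  have h5 := h3.tendsto_slope
  have h6 := h4.tendsto_slope
  have h7 : Tendsto (fun t => |slope u τ t|) (𝓝[>] τ) (𝓝 |deriv u τ|) :=
    (h5.mono_left (nhdsGT_le_nhdsNE τ)).abs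
  have h8 := h6.mono_left (nhdsGT_le_nhdsNE τ)
  refine le_of_tendsto_of_tendsto h7 h8 ?_
  have h9 : Ioo τ b ∈ 𝓝[>] τ := Ioo_mem_nhdsGT hτ.2
  filter_upwards [h9] with t ht
  have hpos : 0 < t - τ := sub_pos.2 ht.1
  have h10 := h τ t hτ.1.le ht.1.le ht.2.le
  have h11 : (∫ x in a..t, m x) - ∫ x in a..τ, m x = ∫ x in τ..t, m x := by
    rw [intervalIntegral.integral_interval_sub_left]
    · refine hmi.mono_set ?_
      rw [uIcc_of_le hab]
      exact uIcc_subset_Icc ⟨le_rfl, hab⟩ ⟨(hτ.1.trans ht.1).le, ht.2.le⟩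
    · refine hmi.mono_set ?_
      rw [uIcc_of_le hab]
      exact uIcc_subset_Icc ⟨le_rfl, hab⟩ ⟨hτ.1.le, hτ.2.le⟩
  rw [slope_def_field, slope_def_field, abs_div, abs_of_pos hpos, h11]
  gcongr

variable {E : Type*} [NormedAddCommGroup E] [NormedSpace ℝ E] [FiniteDimensional ℝ E]
  [MeasurableSpace E] [BorelSpace E] {μ : Measure E} [μ.IsAddHaarMeasure]

/-- the upper right difference quotient along `1/(n+1)`, of the function extended by zero -/
def dq (Ω : Set E) (u : E → ℝ) (e : E) (x : E) : ℝ :=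
  limsup (fun n : ℕ => ((n:ℝ) + 1) *
    (Ω.indicator u (x + ((n:ℝ) + 1)⁻¹ • e) - Ω.indicator u x)) atTop

theorem measurable_dq {Ω : Set E} (hΩ : IsOpen Ω) {u : E → ℝ} (hu : ContinuousOn u Ω) (e : E) :
    Measurable (dq Ω u e) := by
  have h1 : Measurable (Ω.indicator u) := by
    classical
    have h2 := hu.measurable_piecewise (g := fun _ => (0:ℝ)) continuousOn_const hΩ.measurableSet
    rw [← piecewise_eq_indicator]
    exact h2
  apply Measurable.limsup
  intro n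
  apply Measurable.const_mul
  apply Measurable.sub _ h1
  exact h1.comp (measurable_id.add_const _)

theorem dq_eq {Ω : Set E} (hΩ : IsOpen Ω) {u : E → ℝ} {e x : E} {τ d : ℝ}
    (hx : x + τ • e ∈ Ω) (hd : HasDerivAt (fun s : ℝ => u (x + s • e)) d τ) :
    dq Ω u e (x + τ • e) = d := by
  apply Tendsto.limsup_eq
  have h1 : Tendsto (fun n : ℕ => τ + ((n:ℝ) + 1)⁻¹) atTop (𝓝[≠] τ) := by
    rw [tendsto_nhdsWithin_iff]
    constructor
    · have := tendsto_one_div_add_atTop_nhds_zero_nat (𝕜 := ℝ)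
      have h2 := this.const_add τ
      simp only [add_zero, one_div] at h2
      exact h2
    · refine Eventually.of_forall fun n => ?_
      simp only [mem_compl_iff, mem_singleton_iff, add_eq_left, inv_eq_zero]
      positivity
  have h2 := hd.tendsto_slope.comp h1
  refine h2.congr' ?_
  have h3 : ∀ᶠ n : ℕ in atTop, x + (τ + ((n:ℝ) + 1)⁻¹) • e ∈ Ω := by
    have hc : Continuous (fun s : ℝ => x + s • e) := by fun_prop
    have h4 : (fun s : ℝ => x + s • e) ⁻¹' Ω ∈ 𝓝 τ := (hΩ.preimage hc).mem_nhds hx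
    exact (h1.mono_right nhdsWithin_le_nhds) h4
  filter_upwards [h3] with n hn
  have h5 : x + τ • e + ((n:ℝ) + 1)⁻¹ • e = x + (τ + ((n:ℝ) + 1)⁻¹) • e := by
    rw [add_smul]; abel
  rw [h5, indicator_of_mem hn, indicator_of_mem hx]
  simp only [Function.comp_apply, slope_def_field, add_sub_cancel_left, div_inv_eq_mul]
  ring

/-- line-wise absolute continuity with an upper gradient -/
def UG (Ω : Set E) (u m : E → ℝ) (e x : E) : Prop :=
  ∀ s t : ℝ, s ≤ t → x ∈ segIn Ω e s t →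
    IntegrableOn (fun τ : ℝ => m (x + τ • e)) (Icc s t) ∧
      |u (x + t • e) - u (x + s • e)| ≤ ∫ τ in s..t, m (x + τ • e)

theorem ug_of_acl {Ω : Set E} {v g : E → ℝ} {e x : E} (h : ACLat Ω v g e x) :
    UG Ω v (fun y => |g y|) e x := by
  intro s t hst hx
  obtain ⟨h1, h2⟩ := h s t hst hx
  refine ⟨h1.abs, ?_⟩
  rw [h2]
  exact intervalIntegral.abs_integral_le_integral_abs hst

theorem segIn_sub {Ω : Set E} {e x : E} {s t s' t' : ℝ} (hx : x ∈ segIn Ω e s t) (hs : s ≤ s')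
    (ht : t' ≤ t) : x ∈ segIn Ω e s' t' := segIn_mono hs ht hx

/-- on a line with an upper gradient: a.e. derivative, with the bound -/
theorem ug_deriv {Ω : Set E} {u m : E → ℝ} {e x : E} (h : UG Ω u m e x) {s t : ℝ} (hst : s ≤ t)
    (hx : x ∈ segIn Ω e s t) : ∀ᵐ τ : ℝ, τ ∈ Ioo s t →
      HasDerivAt (fun σ : ℝ => u (x + σ • e)) (deriv (fun σ : ℝ => u (x + σ • e)) τ) τ ∧
        |deriv (fun σ : ℝ => u (x + σ • e)) τ| ≤ m (x + τ • e) := by
  apply ae_deriv_of_bound hst (h s t hst hx).1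
  intro s' t' h1 h2 h3
  exact (h s' t' h2 (segIn_sub hx h1 h3)).2

/-- a.e. point of the part of the line inside the open set -/
theorem ae_line_open {Ω : Set E} (hΩ : IsOpen Ω) {e x : E} {P : ℝ → Prop}
    (h : ∀ s t : ℝ, s ≤ t → x ∈ segIn Ω e s t → ∀ᵐ τ : ℝ, τ ∈ Ioo s t → P τ) :
    ∀ᵐ τ : ℝ, x + τ • e ∈ Ω → P τ := by
  have h1 : ∀ p : ℚ × ℚ, ∀ᵐ τ : ℝ, (p.1:ℝ) ≤ p.2 → x ∈ segIn Ω e p.1 p.2 →
      τ ∈ Ioo (p.1:ℝ) p.2 → P τ := by
    intro p
    by_cases hp : (p.1:ℝ) ≤ p.2 ∧ x ∈ segIn Ω e p.1 p.2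
    · filter_upwards [h _ _ hp.1 hp.2] with τ hτ _ _ using hτ
    · refine Eventually.of_forall fun τ h1 h2 => absurd ⟨h1, h2⟩ hp
  filter_upwards [ae_all_iff.2 h1] with τ hτ hxτ
  have hO : IsOpen {s : ℝ | x + s • e ∈ Ω} := by
    apply hΩ.preimage (f := fun s : ℝ => x + s • e)
    fun_prop
  obtain ⟨a, b, ha, hb, hab⟩ := exists_rat_Icc hO (le_refl τ)
    (fun s hs => by
      have : s = τ := le_antisymm hs.2 hs.1
      rw [this]; exact hxτ)
  exact hτ (a, b) (by linarith) (fun s hs => hab hs) ⟨ha, hb⟩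

theorem ug_line {Ω : Set E} (hΩ : IsOpen Ω) {u m : E → ℝ} {e x : E} (h : UG Ω u m e x) :
    ∀ᵐ τ : ℝ, x + τ • e ∈ Ω →
      HasDerivAt (fun σ : ℝ => u (x + σ • e)) (dq Ω u e (x + τ • e)) τ ∧
        |dq Ω u e (x + τ • e)| ≤ m (x + τ • e) := by
  have h1 : ∀ᵐ τ : ℝ, x + τ • e ∈ Ω →
      HasDerivAt (fun σ : ℝ => u (x + σ • e)) (deriv (fun σ : ℝ => u (x + σ • e)) τ) τ ∧
        |deriv (fun σ : ℝ => u (x + σ • e)) τ| ≤ m (x + τ • e) :=
    ae_line_open hΩ fun s t hst hx => ug_deriv h hst hx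
  filter_upwards [h1] with τ hτ hxτ
  obtain ⟨h2, h3⟩ := hτ hxτ
  rw [dq_eq hΩ hxτ h2]
  exact ⟨h2, h3⟩

/-- on a line with an upper gradient the function is the integral of `dq` -/
theorem ug_acl {Ω : Set E} (hΩ : IsOpen Ω) {u m : E → ℝ} {e x : E} (h : UG Ω u m e x) :
    ACLat Ω u (dq Ω u e) e x := by
  intro s t hst hx
  have h1 := ug_line hΩ h
  have hac : AbsolutelyContinuousOnInterval (fun σ : ℝ => u (x + σ • e)) s t := by
    apply ac_of_bound hst (h s t hst hx).1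
    intro s' t' h1 h2 h3
    exact (h s' t' h2 (segIn_sub hx h1 h3)).2
  have hae : ∀ᵐ τ : ℝ, τ ∈ Icc s t →
      deriv (fun σ : ℝ => u (x + σ • e)) τ = dq Ω u e (x + τ • e) := by
    filter_upwards [h1] with τ hτ hτ'
    exact (hτ (hx τ hτ')).1.deriv
  constructor
  · have h2 : IntegrableOn (deriv (fun σ : ℝ => u (x + σ • e))) (Icc s t) :=
      (intervalIntegrable_iff_integrableOn_Icc_of_le hst).1 hac.intervalIntegrable_deriv
    refine h2.congr_fun_ae ?_
    rw [Filter.EventuallyEq, ae_restrict_iff' measurableSet_Icc]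
    exact hae
  · rw [← hac.integral_deriv_eq_sub]
    apply intervalIntegral.integral_congr_ae
    filter_upwards [hae] with τ hτ hτ'
    apply hτ
    rw [uIoc_of_le hst] at hτ'
    exact Ioc_subset_Icc_self hτ'

theorem aemeas_of_loc {Ω : Set E} {m : E → ℝ} (hm : LocallyIntegrableOn m Ω μ) :
    AEStronglyMeasurable m (μ.restrict Ω) := hm.aestronglyMeasurable

/-- **Upper gradients along almost every line give a weak derivative.** -/
theorem wd_of_ug {Ω : Set E} (hΩ : IsOpen Ω) {u m : E → ℝ} {e : E} (hu : ContinuousOn u Ω)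
    (hm : LocallyIntegrableOn m Ω μ) (h : ∀ᵐ x ∂μ, UG Ω u m e x) :
    WD Ω μ u (dq Ω u e) e ∧ (∀ᵐ x ∂μ, x ∈ Ω → |dq Ω u e x| ≤ m x) := by
  have hmeas := measurable_dq hΩ hu e
  -- the bound
  have hb : ∀ᵐ x ∂μ, x ∈ Ω → |dq Ω u e x| ≤ m x := by
    have ham := aemeas_of_loc hm
    obtain ⟨m', hm'1, hm'2⟩ := ham
    rw [Filter.EventuallyEq, ae_restrict_iff' hΩ.measurableSet] at hm'2
    have hN : MeasurableSet (Ω ∩ {x | m' x < |dq Ω u e x|}) := by
      apply hΩ.measurableSet.inter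
      exact measurableSet_lt hm'1.measurable hmeas.abs
    have h1 : μ (Ω ∩ {x | m' x < |dq Ω u e x|}) = 0 := by
      apply measure_zero_of_line hN (e := e)
      filter_upwards [h, ae_line_of_ae hm'2 e] with x hx hx'
      filter_upwards [ug_line hΩ hx, hx'] with τ h1 h2 h3
      have h4 := (h1 h3.1).2
      have h5 := h2 h3.1
      have h6 := h3.2
      simp only [mem_ofPred_eq] at h6
      rw [h5] at h4
      linarith
    have h2 : ∀ᵐ x ∂μ, x ∉ (Ω ∩ {x | m' x < |dq Ω u e x|}) := measure_eq_zero_iff_ae_notMem.1 h1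
    filter_upwards [h2, hm'2] with x h3 h4 hx
    rw [h4 hx]
    by_contra hcon
    push Not at hcon
    exact h3 ⟨hx, hcon⟩
  refine ⟨?_, hb⟩
  apply wd_of_acl hΩ (hu.locallyIntegrableOn hΩ.measurableSet)
  · rw [locallyIntegrableOn_iff hΩ.isLocallyClosed]
    intro K hK hKc
    refine Integrable.mono' (hm.integrableOn_compact_subset hK hKc) hmeas.aestronglyMeasurable ?_
    rw [ae_restrict_iff' hKc.measurableSet]
    filter_upwards [hb] with x hx hxK
    exact hx (hK hxK)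
  · filter_upwards [h] with x hx
    exact ug_acl hΩ hx

/-- **Derivatives along lines** of a continuous function with a weak derivative. -/
theorem line_deriv {Ω : Set E} (hΩ : IsOpen Ω) {v g : E → ℝ} {e : E} (h : WD Ω μ v g e)
    (hv : ContinuousOn v Ω) :
    (∀ᵐ x ∂μ, ∀ᵐ τ : ℝ, x + τ • e ∈ Ω →
      HasDerivAt (fun σ : ℝ => v (x + σ • e)) (g (x + τ • e)) τ) ∧
    (∀ᵐ x ∂μ, x ∈ Ω → g x = dq Ω v e x) := by
  have h1 := acl hΩ h hv
  have hUG : ∀ᵐ x ∂μ, UG Ω v (fun y => |g y|) e x := by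
    filter_upwards [h1] with x hx using ug_of_acl hx
  have h2 : LocallyIntegrableOn (fun y => |g y|) Ω μ := h.lg.norm
  obtain ⟨h3, -⟩ := wd_of_ug hΩ hv h2 hUG
  have h4 := wd_unique hΩ h h3
  refine ⟨?_, h4⟩
  filter_upwards [hUG, ae_line_of_ae h4 e] with x hx hx'
  filter_upwards [ug_line hΩ hx, hx'] with τ h5 h6 h7
  rw [h6 h7]
  exact (h5 h7).1

end

end Crest.Agent.R96.Sob3_199
end

-- ▼ part R96/Sob4_199

set_option autoImplicit false
set_option linter.unusedSectionVars false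

open MeasureTheory Set Filter
open scoped ContDiff Topology NNReal

namespace Crest.Agent.R96.Sob4_199

open Crest.Agent.R96.Acl_392 Crest.Agent.R96.Sob1_199 Crest.Agent.R96.Sob2_199
  Crest.Agent.R96.Sob3_199

noncomputable section

variable {E : Type*} [NormedAddCommGroup E] [NormedSpace ℝ E] [FiniteDimensional ℝ E]
  [MeasurableSpace E] [BorelSpace E] {μ : Measure E} [μ.IsAddHaarMeasure]

/-! ### comparison on lines gives comparison almost everywhere -/

theorem ae_le_of_line {Ω : Set E} (hΩ : IsOpen Ω) {a b : E → ℝ} {e : E}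
    (ha : AEMeasurable a (μ.restrict Ω)) (hb : AEMeasurable b (μ.restrict Ω))
    (h : ∀ᵐ x ∂μ, ∀ᵐ τ : ℝ, x + τ • e ∈ Ω → a (x + τ • e) ≤ b (x + τ • e)) :
    ∀ᵐ x ∂μ, x ∈ Ω → a x ≤ b x := by
  obtain ⟨a', ha1, ha2⟩ := ha
  obtain ⟨b', hb1, hb2⟩ := hb
  rw [Filter.EventuallyEq, ae_restrict_iff' hΩ.measurableSet] at ha2 hb2
  have hN : MeasurableSet (Ω ∩ {x | b' x < a' x}) :=
    hΩ.measurableSet.inter (measurableSet_lt hb1 ha1)
  have h1 : μ (Ω ∩ {x | b' x < a' x}) = 0 := by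
    apply measure_zero_of_line hN (e := e)
    filter_upwards [h, ae_line_of_ae ha2 e, ae_line_of_ae hb2 e] with x h1 h2 h3
    filter_upwards [h1, h2, h3] with τ h4 h5 h6 h7
    have h8 := h4 h7.1
    rw [h5 h7.1, h6 h7.1] at h8
    exact absurd h7.2 (not_lt.2 h8)
  have h2 : ∀ᵐ x ∂μ, x ∉ (Ω ∩ {x | b' x < a' x}) := measure_eq_zero_iff_ae_notMem.1 h1
  filter_upwards [h2, ha2, hb2] with x h3 h4 h5 hx
  rw [h4 hx, h5 hx]
  by_contra hcon
  push Not at hcon
  exact h3 ⟨hx, hcon⟩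

theorem ae_eq_of_line {Ω : Set E} (hΩ : IsOpen Ω) {a b : E → ℝ} {e : E}
    (ha : AEMeasurable a (μ.restrict Ω)) (hb : AEMeasurable b (μ.restrict Ω))
    (h : ∀ᵐ x ∂μ, ∀ᵐ τ : ℝ, x + τ • e ∈ Ω → a (x + τ • e) = b (x + τ • e)) :
    ∀ᵐ x ∂μ, x ∈ Ω → a x = b x := by
  have h1 := ae_le_of_line hΩ ha hb (e := e) (by
    filter_upwards [h] with x hx
    filter_upwards [hx] with τ hτ h' using (hτ h').le)
  have h2 := ae_le_of_line hΩ hb ha (e := e) (by
    filter_upwards [h] with x hx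
    filter_upwards [hx] with τ hτ h' using (hτ h').ge)
  filter_upwards [h1, h2] with x h3 h4 hx
  exact le_antisymm (h3 hx) (h4 hx)

/-! ### localisation -/

theorem dq_local {Ω Ω' : Set E} (hΩ : IsOpen Ω) (hΩ' : IsOpen Ω') {u : E → ℝ} {e x : E}
    (hx : x ∈ Ω) (hx' : x ∈ Ω') : dq Ω u e x = dq Ω' u e x := by
  apply limsup_congr
  have h1 : Tendsto (fun n : ℕ => x + ((n:ℝ) + 1)⁻¹ • e) atTop (𝓝 x) := by
    have h2 := tendsto_one_div_add_atTop_nhds_zero_nat (𝕜 := ℝ)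
    simp only [one_div] at h2
    have h3 := (h2.smul_const e).const_add x
    simpa using h3
  filter_upwards [h1 (hΩ.mem_nhds hx), h1 (hΩ'.mem_nhds hx')] with n h2 h3
  simp only [mem_preimage] at h2 h3
  rw [indicator_of_mem h2, indicator_of_mem h3, indicator_of_mem hx, indicator_of_mem hx']

/-- weak derivatives are local: it suffices to have `WD` near every compact subset. -/
theorem wd_of_compacts {Ω : Set E} (hΩ : IsOpen Ω) {v g : E → ℝ} {e : E}
    (h : ∀ K ⊆ Ω, IsCompact K → ∃ Ω', K ⊆ Ω' ∧ WD Ω' μ v g e) : WD Ω μ v g e := by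
  refine ⟨?_, ?_, fun φ hφ hc hs => ?_⟩
  · rw [locallyIntegrableOn_iff hΩ.isLocallyClosed]
    intro K hK hKc
    obtain ⟨Ω', h1, h2⟩ := h K hK hKc
    exact h2.lv.integrableOn_compact_subset h1 hKc
  · rw [locallyIntegrableOn_iff hΩ.isLocallyClosed]
    intro K hK hKc
    obtain ⟨Ω', h1, h2⟩ := h K hK hKc
    exact h2.lg.integrableOn_compact_subset h1 hKc
  · obtain ⟨Ω', h1, h2⟩ := h _ hs hc
    exact h2.weak φ hφ hc h1

/-- a function which is locally of upper gradient type -/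
theorem wd_of_ug_local {Ω : Set E} (hΩ : IsOpen Ω) {u : E → ℝ} {e : E} (hu : ContinuousOn u Ω)
    (h : ∀ K ⊆ Ω, IsCompact K → ∃ (Ω' : Set E) (m : E → ℝ), IsOpen Ω' ∧ K ⊆ Ω' ∧ Ω' ⊆ Ω ∧
      LocallyIntegrableOn m Ω' μ ∧ ∀ᵐ x ∂μ, UG Ω' u m e x) :
    WD Ω μ u (dq Ω u e) e := by
  apply wd_of_compacts hΩ
  intro K hK hKc
  obtain ⟨Ω', m, h1, h2, h3, h4, h5⟩ := h K hK hKc
  obtain ⟨h6, -⟩ := wd_of_ug h1 (hu.mono h3) h4 h5
  refine ⟨Ω', h2, wd_congr h1 h6 (Eventually.of_forall fun _ _ => rfl)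
    (Eventually.of_forall fun x hx => dq_local h1 hΩ hx (h3 hx))⟩

/-- a relatively compact open neighbourhood of a compact set in an open set -/
theorem exists_nhd {Ω K : Set E} (hΩ : IsOpen Ω) (hK : IsCompact K) (hKΩ : K ⊆ Ω) :
    ∃ Ω', IsOpen Ω' ∧ K ⊆ Ω' ∧ IsCompact (closure Ω') ∧ closure Ω' ⊆ Ω := by
  obtain ⟨V, h1, h2, h3, h4⟩ := exists_open_between_and_isCompact_closure hK hΩ hKΩ
  exact ⟨V, h1, h2, h4, h3⟩

/-! ### vector valued maps -/

section Vec

variable {ι κ : Type*} [Fintype ι] [Fintype κ]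

/-- the vector valued `D` is the weak derivative of `f` in the direction `e` -/
def VWD (Ω : Set E) (μ : Measure E) (f D : E → EuclideanSpace ℝ ι) (e : E) : Prop :=
  ∀ i, WD Ω μ (fun x => f x i) (fun x => D x i) e

theorem continuousOn_comp_apply {X : Type*} [TopologicalSpace X] {Ω : Set X}
    {f : X → EuclideanSpace ℝ ι} (hf : ContinuousOn f Ω) (i : ι) :
    ContinuousOn (fun x => f x i) Ω := by
  have h1 : Continuous (fun y : EuclideanSpace ℝ ι => y i) := (EuclideanSpace.proj i).continuous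
  exact h1.comp_continuousOn hf

theorem continuousOn_iff_apply {X : Type*} [TopologicalSpace X] {Ω : Set X}
    {f : X → EuclideanSpace ℝ ι} (hf : ∀ i, ContinuousOn (fun x => f x i) Ω) :
    ContinuousOn f Ω := by
  have h1 : ContinuousOn (fun x => (WithLp.ofLp (f x) : ι → ℝ)) Ω := continuousOn_pi.2 hf
  have h2 : Continuous (fun y : ι → ℝ => (WithLp.toLp 2 y : EuclideanSpace ℝ ι)) :=
    PiLp.continuous_toLp 2 _
  exact h2.comp_continuousOn h1

theorem hasDerivAt_of_apply {f : ℝ → EuclideanSpace ℝ ι} {d : EuclideanSpace ℝ ι} {τ : ℝ}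
    (h : ∀ i, HasDerivAt (fun s => f s i) (d i) τ) : HasDerivAt f d τ := by
  have h1 : HasDerivAt (fun s => (WithLp.ofLp (f s) : ι → ℝ)) (WithLp.ofLp d) τ :=
    hasDerivAt_pi.2 h
  have h2 := (PiLp.continuousLinearEquiv 2 ℝ (fun _ : ι => ℝ)).symm.hasFDerivAt
    (x := (WithLp.ofLp (f τ) : ι → ℝ))
  exact h2.comp_hasDerivAt τ h1

theorem hasDerivAt_apply' {f : ℝ → EuclideanSpace ℝ ι} {d : EuclideanSpace ℝ ι} {τ : ℝ}
    (h : HasDerivAt f d τ) (i : ι) : HasDerivAt (fun s => f s i) (d i) τ := by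
  have h2 := (EuclideanSpace.proj i : EuclideanSpace ℝ ι →L[ℝ] ℝ).hasFDerivAt (x := f τ)
  exact h2.comp_hasDerivAt τ h

theorem aestronglyMeasurable_of_apply {ν : Measure E} {D : E → EuclideanSpace ℝ ι}
    (h : ∀ i, AEMeasurable (fun x => D x i) ν) : AEMeasurable D ν := by
  have h1 : AEMeasurable (fun x => (WithLp.ofLp (D x) : ι → ℝ)) ν := aemeasurable_pi_iff.2 h
  have h2 : Measurable (fun y : ι → ℝ => (WithLp.toLp 2 y : EuclideanSpace ℝ ι)) :=
    (PiLp.continuous_toLp 2 _).measurable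
  exact h2.comp_aemeasurable h1

theorem VWD.aemeas {Ω : Set E} {f D : E → EuclideanSpace ℝ ι} {e : E}
    (h : VWD Ω μ f D e) : AEMeasurable D (μ.restrict Ω) :=
  aestronglyMeasurable_of_apply fun i => (aemeas_of_loc (h i).lg).aemeasurable

theorem VWD.loc {Ω : Set E} (hΩ : IsOpen Ω) {f D : E → EuclideanSpace ℝ ι} {e : E}
    (h : VWD Ω μ f D e) : LocallyIntegrableOn D Ω μ := by
  rw [locallyIntegrableOn_iff hΩ.isLocallyClosed]
  intro K hK hKc
  have h1 : IntegrableOn (fun x => ∑ i, |D x i|) K μ := by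
    apply integrable_finsetSum
    intro i _
    exact ((h i).lg.integrableOn_compact_subset hK hKc).abs
  refine Integrable.mono' h1 ?_ ?_
  · exact (h.aemeas.mono_measure (Measure.restrict_mono hK le_rfl)).aestronglyMeasurable
  · refine Eventually.of_forall fun x => ?_
    rw [EuclideanSpace.norm_eq]
    have h2 : ∑ i, ‖D x i‖ ^ 2 ≤ (∑ i, |D x i|) ^ 2 := by
      simp only [Real.norm_eq_abs]
      exact Finset.sum_sq_le_sq_sum_of_nonneg fun i _ => abs_nonneg _
    calc √(∑ i, ‖D x i‖ ^ 2) ≤ √((∑ i, |D x i|) ^ 2) := Real.sqrt_le_sqrt h2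
      _ = ∑ i, |D x i| := Real.sqrt_sq (Finset.sum_nonneg fun i _ => abs_nonneg _)

/-- derivatives along lines, vector valued -/
theorem vline_deriv {Ω : Set E} (hΩ : IsOpen Ω) {f D : E → EuclideanSpace ℝ ι} {e : E}
    (h : VWD Ω μ f D e) (hf : ContinuousOn f Ω) :
    ∀ᵐ x ∂μ, ∀ᵐ τ : ℝ, x + τ • e ∈ Ω →
      HasDerivAt (fun σ : ℝ => f (x + σ • e)) (D (x + τ • e)) τ := by
  have h1 : ∀ i, ∀ᵐ x ∂μ, ∀ᵐ τ : ℝ, x + τ • e ∈ Ω →
      HasDerivAt (fun σ : ℝ => f (x + σ • e) i) (D (x + τ • e) i) τ := fun i =>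
    (line_deriv hΩ (h i) (continuousOn_comp_apply hf i)).1
  filter_upwards [ae_all_iff.2 h1] with x hx
  filter_upwards [ae_all_iff.2 hx] with τ hτ hxτ
  exact hasDerivAt_of_apply fun i => hτ i hxτ

/-- increments along lines, vector valued: `‖f (x+te) - f (x+se)‖ ≤ ∫ ‖D‖` -/
theorem vline_incr {Ω : Set E} (hΩ : IsOpen Ω) {f D : E → EuclideanSpace ℝ ι} {e : E}
    (h : VWD Ω μ f D e) (hf : ContinuousOn f Ω) :
    ∀ᵐ x ∂μ, ∀ s t : ℝ, s ≤ t → x ∈ segIn Ω e s t →
      IntegrableOn (fun τ : ℝ => D (x + τ • e)) (Icc s t) ∧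
      f (x + t • e) - f (x + s • e) = ∫ τ in s..t, D (x + τ • e) := by
  have h1 : ∀ i, ∀ᵐ x ∂μ, ACLat Ω (fun x => f x i) (fun x => D x i) e x := fun i =>
    acl hΩ (h i) (continuousOn_comp_apply hf i)
  have hD := (VWD.aemeas h)
  obtain ⟨D', hD1, hD2⟩ := hD
  rw [Filter.EventuallyEq, ae_restrict_iff' hΩ.measurableSet] at hD2
  filter_upwards [ae_all_iff.2 h1, ae_line_of_ae hD2 e] with x hx hx2 s t hst hxs
  have hint : IntegrableOn (fun τ : ℝ => D (x + τ • e)) (Icc s t) := by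
    have h2 : IntegrableOn (fun τ : ℝ => ∑ i, |D (x + τ • e) i|) (Icc s t) := by
      apply integrable_finsetSum
      intro i _
      exact ((hx i s t hst hxs).1).abs
    refine Integrable.mono' h2 ?_ ?_
    · have h3 : AEStronglyMeasurable (fun τ : ℝ => D' (x + τ • e))
          ((volume : Measure ℝ).restrict (Icc s t)) := by
        apply Measurable.aestronglyMeasurable
        exact hD1.comp ((measurable_id.smul_const e).const_add x)
      refine h3.congr ?_
      rw [Filter.EventuallyEq, ae_restrict_iff' measurableSet_Icc]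
      filter_upwards [hx2] with τ hτ hτ'
      exact (hτ (hxs τ hτ')).symm
    · refine Eventually.of_forall fun τ => ?_
      rw [EuclideanSpace.norm_eq]
      have h2 : ∑ i, ‖D (x + τ • e) i‖ ^ 2 ≤ (∑ i, |D (x + τ • e) i|) ^ 2 := by
        simp only [Real.norm_eq_abs]
        exact Finset.sum_sq_le_sq_sum_of_nonneg fun i _ => abs_nonneg _
      calc √(∑ i, ‖D (x + τ • e) i‖ ^ 2) ≤ √((∑ i, |D (x + τ • e) i|) ^ 2) := Real.sqrt_le_sqrt h2
        _ = ∑ i, |D (x + τ • e) i| := Real.sqrt_sq (Finset.sum_nonneg fun i _ => abs_nonneg _)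
  refine ⟨hint, ?_⟩
  ext i
  have h3 := (hx i s t hst hxs).2
  have h4 : (∫ τ in s..t, D (x + τ • e)) i = ∫ τ in s..t, D (x + τ • e) i := by
    have h5 : IntervalIntegrable (fun τ : ℝ => D (x + τ • e)) volume s t :=
      (intervalIntegrable_iff_integrableOn_Icc_of_le hst).2 hint
    exact ((EuclideanSpace.proj i : EuclideanSpace ℝ ι →L[ℝ] ℝ).intervalIntegral_comp_comm
      h5).symm
  rw [h4]
  simpa using h3

theorem vline_bound {Ω : Set E} (hΩ : IsOpen Ω) {f D : E → EuclideanSpace ℝ ι} {e : E}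
    (h : VWD Ω μ f D e) (hf : ContinuousOn f Ω) :
    ∀ᵐ x ∂μ, ∀ s t : ℝ, s ≤ t → x ∈ segIn Ω e s t →
      IntegrableOn (fun τ : ℝ => ‖D (x + τ • e)‖) (Icc s t) ∧
      ‖f (x + t • e) - f (x + s • e)‖ ≤ ∫ τ in s..t, ‖D (x + τ • e)‖ := by
  filter_upwards [vline_incr hΩ h hf] with x hx s t hst hxs
  obtain ⟨h1, h2⟩ := hx s t hst hxs
  refine ⟨h1.norm, ?_⟩
  rw [h2]
  exact intervalIntegral.norm_integral_le_integral_norm hst

end Vec

end

end Crest.Agent.R96.Sob4_199
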