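import Mathlib
import Crest.Agent.R96.En3_199
import Crest.Agent.R96.En2_199
import Crest.Agent.R96.Sob4_199
import Crest.Agent.R96.Sob6_199

-- ▼ part R96/En4_199
section

set_option autoImplicit false

open MeasureTheory Set Filter
open scoped Topology ENNReal

namespace Crest.Agent.R96.En4_199

open Crest.Agent.R096.Msh_810 Crest.Agent.R96.En3_199

noncomputable section

variable {n : ℕ}

section Cells

variable (D : Dat n)

/-- integral of `g` over the mesh edges of the cell `τ` -/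
def eg (g : (Fin n → ℝ) → ℝ≥0∞) (τ : Cel D) : ℝ≥0∞ :=
  ∑' σ : {σ : Cel D // σ ∈ edgesOf τ}, ic g D.a σ.1.1

/-- volume of a mesh cube -/
def vol (τ : Cel D) : ℝ≥0∞ := (((2:ℝ≥0∞) ^ τ.1.k)⁻¹) ^ n

/-- the weights of the edges -/
def wt (n : ℕ) (k : ℕ) : ℝ≥0∞ := (((2:ℝ≥0∞) ^ k)⁻¹) ^ n * (2:ℝ≥0∞) ^ k

/-- the energy of the mesh -/
def S (p : ℝ) (g : (Fin n → ℝ) → ℝ≥0∞) : ℝ≥0∞ :=
  ∑' τ : {τ : Cel D // τ.1.J = Finset.univ}, vol D τ.1 * ((2:ℝ≥0∞) ^ τ.1.1.k * eg D g τ.1) ^ p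

variable {D}

theorem tsum_rpow_le {ι : Type*} {s : Set ι} (hs : s.Finite) {M : ℕ} (hM : s.encard ≤ M)
    (f : ι → ℝ≥0∞) {p : ℝ} (hp : 1 ≤ p) :
    (∑' i : s, f i) ^ p ≤ (M : ℝ≥0∞) ^ (p - 1) * ∑' i : s, f i ^ p := by
  classical
  have : Fintype s := hs.fintype
  rw [tsum_fintype, tsum_fintype]
  refine (ENNReal.rpow_sum_le_const_mul_sum_rpow Finset.univ (fun i : s => f i) hp).trans ?_
  gcongr
  rw [Finset.card_univ]
  have h2 : (Fintype.card s : ℕ∞) ≤ M := (Set.coe_fintypeCard s).le.trans hM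
  exact_mod_cast h2

/-- **Jensen on a cell** -/
theorem cell_le {g : (Fin n → ℝ) → ℝ≥0∞} (hg : Measurable g) {p : ℝ} (hp : 1 ≤ p) (τ : Cel D) :
    vol D τ * ((2:ℝ≥0∞) ^ τ.1.k * eg D g τ) ^ p ≤
      ((M1 n : ℝ≥0∞) ^ (p - 1) * 2 ^ n) *
        ∑' σ : {σ : Cel D // σ ∈ edgesOf τ}, wt n σ.1.1.k * ic (fun x => g x ^ p) D.a σ.1.1 := by
  have h1 : (2:ℝ≥0∞) ^ τ.1.k * eg D g τ ≤
      ∑' σ : (edgesOf τ), (2:ℝ≥0∞) ^ (σ : Cel D).1.k * ic g D.a (σ : Cel D).1 := by
    rw [eg, ← ENNReal.tsum_mul_left]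
    refine ENNReal.tsum_le_tsum fun σ => ?_
    gcongr
    · norm_num
    · exact (scale_le_of_le σ.2.1).1
  have h2 : ((2:ℝ≥0∞) ^ τ.1.k * eg D g τ) ^ p ≤ (M1 n : ℝ≥0∞) ^ (p - 1) *
      ∑' σ : (edgesOf τ), ((2:ℝ≥0∞) ^ (σ : Cel D).1.k * ic g D.a (σ : Cel D).1) ^ p :=
    (ENNReal.rpow_le_rpow h1 (by linarith)).trans
      (tsum_rpow_le (finite_edgesOf τ) (encard_edgesOf τ)
        (fun σ : Cel D => (2:ℝ≥0∞) ^ σ.1.k * ic g D.a σ.1) hp)
  calc vol D τ * ((2:ℝ≥0∞) ^ τ.1.k * eg D g τ) ^ p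
      ≤ vol D τ * ((M1 n : ℝ≥0∞) ^ (p - 1) *
        ∑' σ : (edgesOf τ), ((2:ℝ≥0∞) ^ (σ : Cel D).1.k * ic g D.a (σ : Cel D).1) ^ p) := by
          gcongr
    _ = (M1 n : ℝ≥0∞) ^ (p - 1) * ∑' σ : (edgesOf τ), vol D τ *
        ((2:ℝ≥0∞) ^ (σ : Cel D).1.k * ic g D.a (σ : Cel D).1) ^ p := by
          rw [ENNReal.tsum_mul_left]; ring
    _ ≤ (M1 n : ℝ≥0∞) ^ (p - 1) * ∑' σ : (edgesOf τ), 2 ^ n * (wt n (σ : Cel D).1.k *
        ic (fun x => g x ^ p) D.a (σ : Cel D).1) := by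
          refine mul_le_mul' le_rfl (ENNReal.tsum_le_tsum fun σ => ?_)
          have h3 := ic_rpow_le hg D.a (σ := (σ : Cel D).1) σ.2.2 hp
          have h4 : vol D τ ≤ 2 ^ n * (((2:ℝ≥0∞) ^ (σ : Cel D).1.k)⁻¹) ^ n := by
            rw [vol, ← mul_pow]
            gcongr
            have h5 := (scale_le_of_le σ.2.1).2
            rw [← div_eq_mul_inv, ENNReal.le_div_iff_mul_le
              (Or.inl (by positivity)) (Or.inl (ENNReal.pow_ne_top (by norm_num)))]
            calc ((2:ℝ≥0∞) ^ τ.1.k)⁻¹ * 2 ^ (σ : Cel D).1.k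
                ≤ ((2:ℝ≥0∞) ^ τ.1.k)⁻¹ * 2 ^ (τ.1.k + 1) := by
                  gcongr
                  norm_num
              _ = (((2:ℝ≥0∞) ^ τ.1.k)⁻¹ * 2 ^ τ.1.k) * 2 := by rw [pow_succ]; ring
              _ = 2 := by
                  rw [ENNReal.inv_mul_cancel (by positivity) (ENNReal.pow_ne_top (by norm_num)),
                    one_mul]
          calc vol D τ * ((2:ℝ≥0∞) ^ (σ : Cel D).1.k * ic g D.a (σ : Cel D).1) ^ p
              ≤ (2 ^ n * (((2:ℝ≥0∞) ^ (σ : Cel D).1.k)⁻¹) ^ n) *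
                ((2:ℝ≥0∞) ^ (σ : Cel D).1.k * ic (fun x => g x ^ p) D.a (σ : Cel D).1) := by
                gcongr
            _ = _ := by rw [wt]; ring
    _ = _ := by
          rw [ENNReal.tsum_mul_left]
          ring

/-- sum over the cubes of a sum over their edges -/
theorem swap_le (x : Cel D → ℝ≥0∞) :
    ∑' τ : {τ : Cel D // τ.1.J = Finset.univ}, ∑' σ : {σ : Cel D // σ ∈ edgesOf τ.1}, x σ.1 ≤
      (M2 n : ℝ≥0∞) * ∑' σ : Cel D, ({σ : Cel D | σ.1.J.card = 1}).indicator x σ := by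
  classical
  have h1 : ∀ τ : {τ : Cel D // τ.1.J = Finset.univ},
      ∑' σ : {σ : Cel D // σ ∈ edgesOf τ.1}, x σ.1 =
        ∑' σ : Cel D, (edgesOf τ.1).indicator x σ := fun τ => tsum_subtype (edgesOf τ.1) x
  simp only [h1]
  refine (tsum_subtype {τ : Cel D | τ.1.J = Finset.univ}
    (fun τ : Cel D => ∑' σ : Cel D, (edgesOf τ).indicator x σ)).trans_le ?_
  have h2 : ∀ τ : Cel D, ({τ : Cel D | τ.1.J = Finset.univ}).indicator
      (fun τ : Cel D => ∑' σ : Cel D, (edgesOf τ).indicator x σ) τ =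
      ∑' σ : Cel D, (topsOf σ).indicator (fun _ =>
        ({σ : Cel D | σ.1.J.card = 1}).indicator x σ) τ := by
    intro τ
    by_cases hτ : τ.1.J = Finset.univ
    · rw [indicator_of_mem (show τ ∈ {τ : Cel D | τ.1.J = Finset.univ} from hτ)]
      refine tsum_congr fun σ => ?_
      by_cases h3 : σ ≤ τ
      · rw [indicator_of_mem (show τ ∈ topsOf σ from ⟨h3, hτ⟩)]
        by_cases h4 : σ.1.J.card = 1
        · rw [indicator_of_mem (show σ ∈ edgesOf τ from ⟨h3, h4⟩),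
            indicator_of_mem (show σ ∈ {σ : Cel D | σ.1.J.card = 1} from h4)]
        · rw [indicator_of_notMem (fun h => h4 h.2),
            indicator_of_notMem (show σ ∉ {σ : Cel D | σ.1.J.card = 1} from h4)]
      · rw [indicator_of_notMem (fun h => h3 h.1), indicator_of_notMem (fun h => h3 h.1)]
    · rw [indicator_of_notMem (show τ ∉ {τ : Cel D | τ.1.J = Finset.univ} from hτ)]
      symm
      rw [ENNReal.tsum_eq_zero]
      intro σ
      rw [indicator_of_notMem (fun h => hτ h.2)]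
  simp only [h2]
  rw [ENNReal.tsum_comm, ← ENNReal.tsum_mul_left]
  refine ENNReal.tsum_le_tsum fun σ => ?_
  rw [← tsum_subtype, ENNReal.tsum_const]
  gcongr
  have h3 := encard_topsOf σ
  rw [← ENat.card_coe_set_eq] at h3
  have h4 := ENat.toENNReal_mono h3
  simpa using h4

/-- the energy of the mesh in terms of the edges -/
theorem S_le {g : (Fin n → ℝ) → ℝ≥0∞} (hg : Measurable g) {p : ℝ} (hp : 1 ≤ p) :
    S D p g ≤ ((M1 n : ℝ≥0∞) ^ (p - 1) * 2 ^ n * M2 n) *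
      ∑ i : Fin n, ∑' σ : {σ : Cel D // σ.1.J = {i}}, wt n σ.1.1.k *
        ic (fun x => g x ^ p) D.a σ.1.1 := by
  classical
  unfold S
  set x : Cel D → ℝ≥0∞ := fun σ => wt n σ.1.k * ic (fun x => g x ^ p) D.a σ.1 with hx
  calc ∑' τ : {τ : Cel D // τ.1.J = Finset.univ}, vol D τ.1 *
        ((2:ℝ≥0∞) ^ τ.1.1.k * eg D g τ.1) ^ p
      ≤ ∑' τ : {τ : Cel D // τ.1.J = Finset.univ}, ((M1 n : ℝ≥0∞) ^ (p - 1) * 2 ^ n) *
        ∑' σ : {σ : Cel D // σ ∈ edgesOf τ.1}, x σ.1 :=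
        ENNReal.tsum_le_tsum fun τ => cell_le hg hp τ.1
    _ = ((M1 n : ℝ≥0∞) ^ (p - 1) * 2 ^ n) * ∑' τ : {τ : Cel D // τ.1.J = Finset.univ},
        ∑' σ : {σ : Cel D // σ ∈ edgesOf τ.1}, x σ.1 := ENNReal.tsum_mul_left
    _ ≤ ((M1 n : ℝ≥0∞) ^ (p - 1) * 2 ^ n) * ((M2 n : ℝ≥0∞) *
        ∑' σ : Cel D, ({σ : Cel D | σ.1.J.card = 1}).indicator x σ) := by
        gcongr
        exact swap_le x
    _ ≤ ((M1 n : ℝ≥0∞) ^ (p - 1) * 2 ^ n) * ((M2 n : ℝ≥0∞) *
        ∑ i : Fin n, ∑' σ : {σ : Cel D // σ.1.J = {i}}, x σ.1) := by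
        gcongr
        have h1 : ∀ i : Fin n, ∑' σ : {σ : Cel D // σ.1.J = {i}}, x σ.1 =
            ∑' σ : Cel D, ({σ : Cel D | σ.1.J = {i}}).indicator x σ := fun i =>
          tsum_subtype {σ : Cel D | σ.1.J = {i}} x
        simp only [h1]
        rw [← Summable.tsum_finsetSum (fun i _ => ENNReal.summable)]
        refine ENNReal.tsum_le_tsum fun σ => ?_
        by_cases h2 : σ.1.J.card = 1
        · rw [indicator_of_mem (show σ ∈ {σ : Cel D | σ.1.J.card = 1} from h2)]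
          obtain ⟨i, hi⟩ := Finset.card_eq_one.1 h2
          refine le_trans (le_of_eq ?_) (Finset.single_le_sum
            (f := fun i => ({σ : Cel D | σ.1.J = {i}}).indicator x σ)
            (fun _ _ => zero_le) (Finset.mem_univ i))
          rw [indicator_of_mem (show σ ∈ {σ : Cel D | σ.1.J = {i}} from hi)]
        · rw [indicator_of_notMem (show σ ∉ {σ : Cel D | σ.1.J.card = 1} from h2)]
          exact zero_le
    _ = _ := by ring

end Cells

end

end Crest.Agent.R96.En4_199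
end

-- ▼ part R96/En5_199
section

set_option autoImplicit false

open MeasureTheory Set Filter
open scoped Topology ENNReal

namespace Crest.Agent.R96.En5_199

open Crest.Agent.R096.Msh_810 Crest.Agent.R96.En3_199 Crest.Agent.R96.En4_199

noncomputable section

variable {n : ℕ} (D : Dat n)

theorem reg_sub (k : ℕ) : D.reg k ⊆ D.Om := by
  rintro x ⟨h1, -⟩
  have h2 := D.C_pos
  have h3 : (0:ℝ) < 2 ^ k := by positivity
  change 0 < D.ρ x
  by_contra h
  have h4 : D.ρ x ≤ 0 := not_lt.1 h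
  nlinarith

/-- at most two scales at a point -/
theorem tsum_reg_le (x : Fin n → ℝ) :
    ∑' k : ℕ, (D.reg k).indicator (fun _ => (1:ℝ≥0∞)) x ≤ 2 := by
  classical
  by_cases hne : ∃ k, x ∈ D.reg k
  · set k0 := Nat.find hne with hk0
    have h0 : x ∈ D.reg k0 := Nat.find_spec hne
    have hsub : ∀ k ∉ ({k0, k0 + 1} : Finset ℕ),
        (D.reg k).indicator (fun _ => (1:ℝ≥0∞)) x = 0 := by
      intro k hk
      apply indicator_of_notMem
      intro hxk
      have h1 : k0 ≤ k := Nat.find_min' hne hxk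
      have h2 : k0 + 2 ≤ k := by
        simp only [Finset.mem_insert, Finset.mem_singleton, not_or] at hk
        omega
      have h3 : (2:ℝ) ^ (k0 + 2) ≤ 2 ^ k := pow_le_pow_right₀ one_le_two h2
      have h4 : (0:ℝ) ≤ D.ρ x := D.nonneg x
      have h5 := mul_le_mul_of_nonneg_right h3 h4
      have h6 := h0.1
      have h7 := hxk.2
      have h8 := D.hC
      rw [pow_add] at h5
      nlinarith
    rw [tsum_eq_sum hsub]
    calc ∑ k ∈ ({k0, k0 + 1} : Finset ℕ), (D.reg k).indicator (fun _ => (1:ℝ≥0∞)) x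
        ≤ ∑ _k ∈ ({k0, k0 + 1} : Finset ℕ), (1:ℝ≥0∞) := by
          apply Finset.sum_le_sum
          intro k _
          exact indicator_le_self' (fun _ _ => zero_le) x
      _ = (({k0, k0 + 1} : Finset ℕ).card : ℝ≥0∞) := by simp
      _ ≤ 2 := by
          have : ({k0, k0 + 1} : Finset ℕ).card ≤ 2 := Finset.card_le_two
          exact_mod_cast this
  · have : ∀ k, (D.reg k).indicator (fun _ => (1:ℝ≥0∞)) x = 0 := fun k =>
      indicator_of_notMem (fun h => hne ⟨k, h⟩) _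
    simp [this]

/-- the averaged energy is bounded by twice the integral -/
theorem Av_le {F : (Fin n → ℝ) → ℝ≥0∞} (hF : Measurable F) (i : Fin n) :
    Av D F {i} (wt n) ≤ 2 * ∫⁻ x in D.Om, F x := by
  have h1 : ∀ k : ℕ, wt n k * (((2 : ℝ≥0∞) ^ k) ^ n *
      (((2 : ℝ≥0∞) ^ k)⁻¹) ^ ({i} : Finset (Fin n)).card) = 1 := by
    intro k
    have h2 : ((2:ℝ≥0∞) ^ k) ≠ 0 := by positivity
    have h3 : ((2:ℝ≥0∞) ^ k) ≠ ∞ := ENNReal.pow_ne_top (by norm_num)
    rw [wt, Finset.card_singleton, pow_one]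
    calc (((2:ℝ≥0∞) ^ k)⁻¹) ^ n * (2:ℝ≥0∞) ^ k * (((2 : ℝ≥0∞) ^ k) ^ n * ((2 : ℝ≥0∞) ^ k)⁻¹)
        = ((((2:ℝ≥0∞) ^ k)⁻¹) * ((2:ℝ≥0∞) ^ k)) ^ n * ((2:ℝ≥0∞) ^ k * ((2:ℝ≥0∞) ^ k)⁻¹) := by
          rw [mul_pow]; ring
      _ = 1 := by
          rw [ENNReal.inv_mul_cancel h2 h3, ENNReal.mul_inv_cancel h2 h3, one_pow, one_mul]
  unfold Av
  simp only [h1, one_mul]
  have hm : ∀ k, Measurable ((D.reg k).indicator F) := fun k =>
    hF.indicator (D.measurableSet_reg k)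
  have h4 : ∀ k, ∫⁻ x in D.reg k, F x = ∫⁻ x in D.Om, (D.reg k).indicator F x := by
    intro k
    rw [setLIntegral_indicator (D.measurableSet_reg k),
      inter_eq_self_of_subset_left (reg_sub D k)]
  simp only [h4]
  rw [← lintegral_tsum (fun k => (hm k).aemeasurable), ← lintegral_const_mul _ hF]
  apply lintegral_mono
  intro x
  have h5 : ∀ k, (D.reg k).indicator F x = (D.reg k).indicator (fun _ => (1:ℝ≥0∞)) x * F x := by
    intro k
    by_cases hx : x ∈ D.reg k <;> simp [hx]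
  simp only [h5, ENNReal.tsum_mul_right]
  gcongr
  exact tsum_reg_le D x

/-- the constant of the energy inequality -/
def KE (n : ℕ) (p : ℝ) : ℝ≥0∞ := (M1 n : ℝ≥0∞) ^ (p - 1) * 2 ^ n * M2 n * n * 2

theorem KE_ne_top {p : ℝ} (hp : 1 ≤ p) : KE n p ≠ ∞ := by
  unfold KE
  have h1 : ((M1 n : ℝ≥0∞) ^ (p - 1)) ≠ ∞ :=
    ENNReal.rpow_ne_top_of_nonneg (by linarith) (by simp)
  have h2 : ((2:ℝ≥0∞) ^ n) ≠ ∞ := ENNReal.pow_ne_top (by norm_num)
  finiteness

/-- **ENERGY OF THE MESH, choice of the shift** (countably many functions at once) -/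
theorem volume_bad_S {ι : Type*} [Countable ι] {g : ι → (Fin n → ℝ) → ℝ≥0∞}
    (hg : ∀ i, Measurable (g i)) {p : ι → ℝ} (hp : ∀ i, 1 ≤ p i) {c : ι → ℝ≥0∞}
    (hc : ∀ i, c i ≠ 0) :
    volume {a ∈ box n | ∃ i, c i * (KE n (p i) * ∫⁻ x in D.Om, g i x ^ p i) <
      S (D.sh a) (p i) (g i)} ≤ n * ∑' i, (c i)⁻¹ := by
  have hF : ∀ q : ι × Fin n, Measurable (fun x => g q.1 x ^ p q.1) := fun q =>
    (hg q.1).pow_const _
  have h1 := volume_bad_le (D := D) (fun q : ι × Fin n => fun x => g q.1 x ^ p q.1) hF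
    (fun q => {q.2}) (fun _ => wt n) (fun q => c q.1) (fun q => hc q.1)
  have h2 : ∑' q : ι × Fin n, (c q.1)⁻¹ = n * ∑' i, (c i)⁻¹ := by
    rw [ENNReal.tsum_prod', ← ENNReal.tsum_mul_left]
    refine tsum_congr fun i => ?_
    simp
  rw [← h2]
  refine le_trans (measure_mono ?_) h1
  rintro a ⟨ha, i, hi⟩
  refine ⟨ha, ?_⟩
  by_contra hcon
  push Not at hcon
  have h3 : ∀ j : Fin n, En D (fun x => g i x ^ p i) {j} (wt n) a ≤
      c i * (2 * ∫⁻ x in D.Om, g i x ^ p i) := fun j => by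
    refine (hcon (i, j)).trans ?_
    gcongr
    exact Av_le D ((hg i).pow_const _) j
  have h4 : S (D.sh a) (p i) (g i) ≤ c i * (KE n (p i) * ∫⁻ x in D.Om, g i x ^ p i) := by
    calc S (D.sh a) (p i) (g i) ≤ ((M1 n : ℝ≥0∞) ^ (p i - 1) * 2 ^ n * M2 n) *
          ∑ j : Fin n, ∑' σ : {σ : Cel (D.sh a) // σ.1.J = {j}}, wt n σ.1.1.k *
            ic (fun x => g i x ^ p i) (D.sh a).a σ.1.1 := S_le (hg i) (hp i)
      _ ≤ ((M1 n : ℝ≥0∞) ^ (p i - 1) * 2 ^ n * M2 n) *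
          ∑ _j : Fin n, c i * (2 * ∫⁻ x in D.Om, g i x ^ p i) := by
          refine mul_le_mul' le_rfl (Finset.sum_le_sum fun j _ => ?_)
          exact (tsum_cells_le (D := D) (fun x => g i x ^ p i) {j} (wt n) a).trans (h3 j)
      _ = _ := by
          rw [Finset.sum_const, Finset.card_univ, Fintype.card_fin, nsmul_eq_mul, KE]
          ring
  exact absurd hi (not_lt.2 h4)

/-! ### localisation -/

theorem ic_congr_on {g g' : (Fin n → ℝ) → ℝ≥0∞} {a : Fin n → ℝ} {σ : Idx n}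
    (h : ∀ x ∈ Dc a σ, g x = g' x) : ic g a σ = ic g' a σ := by
  unfold ic
  apply lintegral_congr_ae
  filter_upwards [ae_mem_Dc a σ] with t ht
  exact h _ ht

theorem eg_congr_on {D : Dat n} {g g' : (Fin n → ℝ) → ℝ≥0∞} {τ : Cel D}
    (h : ∀ x ∈ τ.c, g x = g' x) : eg D g τ = eg D g' τ := by
  unfold eg
  refine tsum_congr fun σ => ic_congr_on fun x hx => h x (σ.2.1 hx)


/-! ### error terms -/

instance : Countable (Idx n) := by
  have hf : Function.Injective (fun σ : Idx n => (σ.k, σ.z, σ.J)) := fun σ τ h => by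
    simp only [Prod.mk.injEq] at h
    exact Idx.ext h.1 h.2.1 h.2.2
  exact hf.countable

instance (D : Dat n) : Countable (Cel D) := by
  unfold Cel; infer_instance


/-- the error terms may be prescribed so that their total contribution is small -/
theorem exists_err (D : Dat n) {p : ℝ} (hp : 1 ≤ p) {δ : ℝ≥0∞} (hδ : δ ≠ 0) :
    ∃ e : Cel D → ℝ, (∀ σ, 0 < e σ) ∧ ∑' τ : {τ : Cel D // τ.1.J = Finset.univ},
      vol D τ.1 * ((2:ℝ≥0∞) ^ τ.1.1.k *
        ∑' σ : {σ : Cel D // σ ∈ edgesOf τ.1}, ENNReal.ofReal (e σ.1)) ^ p ≤ δ := by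
  classical
  obtain ⟨δ', hδ'0, hδ'⟩ := ENNReal.exists_pos_sum_of_countable hδ (Cel D)
  -- prescribed bound on each cube
  have hb : ∀ τ : Cel D, ∃ b : ℝ, 0 < b ∧
      vol D τ * ((2:ℝ≥0∞) ^ τ.1.k * ENNReal.ofReal b) ^ p ≤ δ' τ := by
    intro τ
    have hv0 : vol D τ ≤ 1 := by
      unfold vol
      apply pow_le_one₀ (by positivity)
      rw [ENNReal.inv_le_one]
      exact one_le_pow₀ (by norm_num)
    set δ1 : ℝ := min (δ' τ : ℝ) 1 with hδ1
    have hδ1pos : 0 < δ1 := lt_min (by exact_mod_cast hδ'0 τ) one_pos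
    refine ⟨δ1 / 2 ^ τ.1.k, by positivity, ?_⟩
    have h1 : (2:ℝ≥0∞) ^ τ.1.k * ENNReal.ofReal (δ1 / 2 ^ τ.1.k) = ENNReal.ofReal δ1 := by
      have h2 : (2:ℝ≥0∞) ^ τ.1.k = ENNReal.ofReal (2 ^ τ.1.k) := by
        rw [ENNReal.ofReal_pow (by norm_num)]; norm_num
      rw [h2, ← ENNReal.ofReal_mul (by positivity)]
      congr 1
      field_simp
    rw [h1]
    calc vol D τ * ENNReal.ofReal δ1 ^ p ≤ 1 * ENNReal.ofReal δ1 ^ (1:ℝ) := by
          gcongr ?_ * ?_
          apply ENNReal.rpow_le_rpow_of_exponent_ge _ hp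
          rw [ENNReal.ofReal_le_one]
          exact min_le_right _ _
      _ = ENNReal.ofReal δ1 := by rw [one_mul, ENNReal.rpow_one]
      _ ≤ ENNReal.ofReal (δ' τ : ℝ) := ENNReal.ofReal_le_ofReal (min_le_left _ _)
      _ = δ' τ := ENNReal.ofReal_coe_nnreal
  choose b hb0 hb1 using hb
  -- the error on an edge: minimum over the cubes above it, divided by the number of edges
  have hne : ∀ σ : Cel D, (finite_topsOf σ).toFinset.Nonempty := by
    intro σ
    obtain ⟨τ, h1, -, h3⟩ := Cel.exists_top σ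
    exact ⟨τ, by simpa using ⟨h3, h1⟩⟩
  let e : Cel D → ℝ := fun σ => ((finite_topsOf σ).toFinset.inf' (hne σ) b) / (M1 n + 1)
  have he0 : ∀ σ, 0 < e σ := by
    intro σ
    have : 0 < (finite_topsOf σ).toFinset.inf' (hne σ) b := by
      rw [Finset.lt_inf'_iff]
      exact fun τ _ => hb0 τ
    positivity
  refine ⟨e, he0, ?_⟩
  have hle : ∀ τ : {τ : Cel D // τ.1.J = Finset.univ},
      ∑' σ : {σ : Cel D // σ ∈ edgesOf τ.1}, ENNReal.ofReal (e σ.1) ≤ ENNReal.ofReal (b τ.1) := by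
    intro τ
    have h1 : ∀ σ : {σ : Cel D // σ ∈ edgesOf τ.1}, ENNReal.ofReal (e σ.1) ≤
        ENNReal.ofReal (b τ.1 / (M1 n + 1)) := by
      intro σ
      apply ENNReal.ofReal_le_ofReal
      have h2 : (finite_topsOf σ.1).toFinset.inf' (hne σ.1) b ≤ b τ.1 := by
        apply Finset.inf'_le
        simpa using ⟨σ.2.1, τ.2⟩
      exact div_le_div_of_nonneg_right h2 (by positivity)
    calc ∑' σ : {σ : Cel D // σ ∈ edgesOf τ.1}, ENNReal.ofReal (e σ.1)
        ≤ ∑' _σ : {σ : Cel D // σ ∈ edgesOf τ.1}, ENNReal.ofReal (b τ.1 / (M1 n + 1)) :=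
          ENNReal.tsum_le_tsum h1
      _ ≤ (M1 n : ℝ≥0∞) * ENNReal.ofReal (b τ.1 / (M1 n + 1)) := by
          rw [ENNReal.tsum_const]
          gcongr
          have h3 := encard_edgesOf τ.1
          rw [← ENat.card_coe_set_eq] at h3
          have h4 := ENat.toENNReal_mono h3
          simpa using h4
      _ = ENNReal.ofReal (M1 n * (b τ.1 / (M1 n + 1))) := by
          rw [ENNReal.ofReal_mul (by positivity), ENNReal.ofReal_natCast]
      _ ≤ ENNReal.ofReal (b τ.1) := by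
          apply ENNReal.ofReal_le_ofReal
          rw [mul_div_assoc', div_le_iff₀ (by positivity)]
          nlinarith [hb0 τ.1, show (0:ℝ) ≤ M1 n by positivity]
  calc ∑' τ : {τ : Cel D // τ.1.J = Finset.univ}, vol D τ.1 * ((2:ℝ≥0∞) ^ τ.1.1.k *
        ∑' σ : {σ : Cel D // σ ∈ edgesOf τ.1}, ENNReal.ofReal (e σ.1)) ^ p
      ≤ ∑' τ : {τ : Cel D // τ.1.J = Finset.univ}, (δ' τ.1 : ℝ≥0∞) := by
        refine ENNReal.tsum_le_tsum fun τ => ?_
        refine le_trans ?_ (hb1 τ.1)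
        gcongr
        exact hle τ
    _ ≤ ∑' τ : Cel D, (δ' τ : ℝ≥0∞) :=
        ENNReal.tsum_comp_le_tsum_of_injective Subtype.val_injective _
    _ ≤ δ := hδ'.le

end

end Crest.Agent.R96.En5_199
end

-- ▼ part R96/En6_199
section

set_option autoImplicit false

open MeasureTheory Set Filter
open scoped Topology ENNReal

namespace Crest.Agent.R96.En6_199

open Crest.Agent.R096.Msh_810 Crest.Agent.R96.En3_199 Crest.Agent.R96.En4_199
  Crest.Agent.R96.En5_199 Crest.Agent.R96.En2_199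

noncomputable section

variable {n : ℕ}

/-- the measure of an edge is one dimensional Lebesgue measure -/
theorem sm_single (k : ℕ) (i : Fin n) :
    sm k {i} = Measure.map (fun s : ℝ => (Pi.single i s : Fin n → ℝ))
      (volume.restrict (Icc (0:ℝ) (1 / 2 ^ k))) := by
  classical
  unfold sm
  apply Measure.pi_eq
  intro s hs
  have hmeas : Measurable (fun t : ℝ => (Pi.single i t : Fin n → ℝ)) := by
    apply measurable_pi_lambda
    intro j
    by_cases hj : j = i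
    · subst hj; simpa using measurable_id'
    · simp [Pi.single_eq_of_ne hj]
  rw [Measure.map_apply hmeas (MeasurableSet.univ_pi hs)]
  have h1 : (fun t : ℝ => (Pi.single i t : Fin n → ℝ)) ⁻¹' (Set.pi univ s) =
      if (∀ j, j ≠ i → (0:ℝ) ∈ s j) then s i else ∅ := by
    ext t
    simp only [mem_preimage, Set.mem_pi, mem_univ, forall_true_left]
    split_ifs with h
    · constructor
      · intro h2
        simpa using h2 i
      · intro h2 j
        by_cases hj : j = i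
        · subst hj; simpa using h2
        · rw [Pi.single_eq_of_ne hj]; exact h j hj
    · simp only [mem_empty_iff_false, iff_false]
      intro h2
      apply h
      intro j hj
      have := h2 j
      rwa [Pi.single_eq_of_ne hj] at this
  rw [h1, ← Finset.mul_prod_erase Finset.univ _ (Finset.mem_univ i)]
  have h2 : sm1 k {i} i (s i) = (volume.restrict (Icc (0:ℝ) (1 / 2 ^ k))) (s i) := by
    simp [sm1]
  rw [h2]
  split_ifs with h
  · have h3 : ∏ j ∈ Finset.univ.erase i, sm1 k {i} j (s j) = 1 := by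
      apply Finset.prod_eq_one
      intro j hj
      have hj' : j ≠ i := Finset.ne_of_mem_erase hj
      unfold sm1
      rw [if_neg (by simpa using hj'), Measure.dirac_apply' _ (hs j),
        indicator_of_mem (h j hj')]
      rfl
    rw [h3, mul_one]
  · push Not at h
    obtain ⟨j, hj, hj0⟩ := h
    have h3 : ∏ j ∈ Finset.univ.erase i, sm1 k {i} j (s j) = 0 := by
      apply Finset.prod_eq_zero (Finset.mem_erase.2 ⟨hj, Finset.mem_univ j⟩)
      unfold sm1
      rw [if_neg (by simpa using hj), Measure.dirac_apply' _ (hs j), indicator_of_notMem hj0]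
    rw [h3, mul_zero, measure_empty]

/-- **the integral over an edge** -/
theorem ic_single {g : (Fin n → ℝ) → ℝ≥0∞} (hg : Measurable g) (a : Fin n → ℝ) {σ : Idx n}
    {i : Fin n} (hσ : σ.J = {i}) :
    ic g a σ = ∫⁻ s in Icc (0:ℝ) (1 / 2 ^ σ.k), g (vx a σ.k σ.z + Pi.single i s) := by
  unfold ic
  rw [hσ, sm_single]
  have hmeas : Measurable (fun t : ℝ => (Pi.single i t : Fin n → ℝ)) := by
    apply measurable_pi_lambda
    intro j
    by_cases hj : j = i
    · subst hj; simpa using measurable_id'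
    · simp [Pi.single_eq_of_ne hj]
  exact lintegral_map (f := fun t => g (vx a σ.k σ.z + t)) (hg.comp (measurable_id.const_add _))
    hmeas

/-- the closed edge is the segment from its lower corner -/
theorem mem_edge_iff {a : Fin n → ℝ} {σ : Idx n} {i : Fin n} (hσ : σ.J = {i}) (x : Fin n → ℝ) :
    x ∈ Dc a σ ↔ ∃ s ∈ Icc (0:ℝ) (1 / 2 ^ σ.k), x = vx a σ.k σ.z + Pi.single i s := by
  have h2 : (0:ℝ) < 2 ^ σ.k := by positivity
  constructor
  · intro hx
    refine ⟨x i - vx a σ.k σ.z i, ?_, ?_⟩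
    · have h := (hx i).1 (by rw [hσ]; simp)
      unfold ps at h
      unfold vx
      constructor
      · have : (σ.z i : ℝ) / 2 ^ σ.k ≤ x i - a i := by
          rw [div_le_iff₀ h2]; linarith [h.1]
        linarith
      · have : x i - a i ≤ ((σ.z i : ℝ) + 1) / 2 ^ σ.k := by
          rw [le_div_iff₀ h2]; linarith [h.2]
        rw [add_div] at this
        linarith
    · funext j
      by_cases hj : j = i
      · subst hj; simp
      · have h := (hx j).2 (by rw [hσ]; simpa using hj)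
        unfold ps at h
        simp only [Pi.add_apply, Pi.single_eq_of_ne hj, add_zero, vx]
        have : x j - a j = σ.z j / 2 ^ σ.k := by rw [eq_div_iff h2.ne']; linarith
        linarith
  · rintro ⟨s, hs, rfl⟩ j
    rw [ps_vx, hσ]
    by_cases hj : j = i
    · subst hj
      simp only [Finset.mem_singleton, Pi.single_eq_same, forall_true_left, not_true_eq_false,
        false_imp_iff, and_true]
      have h3 : 2 ^ σ.k * s ≤ 1 := by
        have := hs.2
        rw [le_div_iff₀ h2] at this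
        linarith
      constructor
      · have := mul_nonneg h2.le hs.1; linarith
      · linarith
    · simp [hj]

/-- volume of a closed mesh cube -/
theorem volume_cube (a : Fin n → ℝ) {σ : Idx n} (hσ : σ.J = Finset.univ) :
    volume (Dc a σ) = (((2:ℝ≥0∞) ^ σ.k)⁻¹) ^ n := by
  have h2 : (0:ℝ) < 2 ^ σ.k := by positivity
  have h1 : Dc a σ = Set.pi univ fun i => Icc (a i + σ.z i / 2 ^ σ.k)
      (a i + (σ.z i + 1) / 2 ^ σ.k) := by
    ext x
    simp only [Dc, hσ, Finset.mem_univ, forall_true_left, not_true_eq_false, false_imp_iff,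
      and_true, mem_ofPred_eq, Set.mem_pi, mem_univ, mem_Icc, ps]
    apply forall_congr'
    intro i
    have e1 : a i + σ.z i / 2 ^ σ.k ≤ x i ↔ (σ.z i : ℝ) ≤ 2 ^ σ.k * (x i - a i) := by
      rw [← le_sub_iff_add_le', div_le_iff₀ h2, mul_comm]
    have e2 : x i ≤ a i + ((σ.z i : ℝ) + 1) / 2 ^ σ.k ↔
        2 ^ σ.k * (x i - a i) ≤ (σ.z i : ℝ) + 1 := by
      rw [← sub_le_iff_le_add', le_div_iff₀ h2, mul_comm]
    rw [e1, e2]
  rw [h1, volume_pi_pi]
  have h3 : ∀ i, volume (Icc (a i + σ.z i / 2 ^ σ.k) (a i + (σ.z i + 1) / 2 ^ σ.k)) =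
      ((2:ℝ≥0∞) ^ σ.k)⁻¹ := by
    intro i
    rw [Real.volume_Icc]
    have h4 : a i + (σ.z i + 1) / 2 ^ σ.k - (a i + σ.z i / 2 ^ σ.k) = (2 ^ σ.k)⁻¹ := by
      field_simp; ring
    rw [h4, ENNReal.ofReal_inv_of_pos h2, ENNReal.ofReal_pow (by norm_num)]
    norm_num
  simp [h3]

end

end Crest.Agent.R96.En6_199
end

-- ▼ part R96/En7_199
section

set_option autoImplicit false

open MeasureTheory Set Filter
open scoped Topology ENNReal

namespace Crest.Agent.R96.En7_199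

open Crest.Agent.R096.Msh_810 Crest.Agent.R096.Bas_731 Crest.Agent.R96.En3_199
  Crest.Agent.R96.En4_199 Crest.Agent.R96.En5_199 Crest.Agent.R96.En2_199 Crest.Agent.R96.En6_199

noncomputable section

variable {n : ℕ}

/-- the line through the lower corner of the edge `σ` in direction `i` -/
def ln (a : Fin n → ℝ) (σ : Idx n) (i : Fin n) (s : ℝ) : Fin n → ℝ :=
  vx a σ.k σ.z + Pi.single i s



theorem edge_eq_image {a : Fin n → ℝ} {σ : Idx n} {i : Fin n} (hσ : σ.J = {i}) :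
    Dc a σ = ln a σ i '' Icc (0:ℝ) (1 / 2 ^ σ.k) := by
  ext x
  rw [mem_edge_iff hσ]
  constructor
  · rintro ⟨s, hs, rfl⟩; exact ⟨s, hs, rfl⟩
  · rintro ⟨s, hs, rfl⟩; exact ⟨s, hs, rfl⟩






end

end Crest.Agent.R96.En7_199
end

-- ▼ part R96/En8_199
section

set_option autoImplicit false

open MeasureTheory Set Filter
open scoped Topology ENNReal

namespace Crest.Agent.R96.En8_199

open Crest.Agent.R096.Msh_810 Crest.Agent.R096.Bas_731 Crest.Agent.R96.En3_199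
  Crest.Agent.R96.En4_199 Crest.Agent.R96.En5_199 Crest.Agent.R96.En2_199 Crest.Agent.R96.En6_199
  Crest.Agent.R96.En7_199 Crest.Agent.R96.Acl_392 Crest.Agent.R96.Sob2_199
  Crest.Agent.R96.Sob3_199

noncomputable section

variable {n : ℕ}

theorem ln_eq (a : Fin n → ℝ) (σ : Idx n) (i : Fin n) (s : ℝ) :
    ln a σ i s = vx a σ.k σ.z + s • (Pi.single i (1:ℝ) : Fin n → ℝ) := by
  unfold ln
  congr 1
  funext j
  by_cases hj : j = i
  · subst hj; simp
  · simp [hj]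


theorem ic_ne_top {Ω : Set (Fin n → ℝ)} {g : (Fin n → ℝ) → ℝ} (hg : Measurable g)
    {a : Fin n → ℝ} {σ : Idx n} {i : Fin n} (hσ : σ.J = {i}) (hsub : Dc a σ ⊆ Ω)
    (h : ∀ s t : ℝ, s ≤ t → vx a σ.k σ.z ∈ segIn Ω (Pi.single i (1:ℝ)) s t →
      IntegrableOn (fun τ : ℝ => g (vx a σ.k σ.z + τ • (Pi.single i (1:ℝ) : Fin n → ℝ))) (Icc s t)) :
    ic (fun x => ‖g x‖ₑ) a σ ≠ ∞ := by
  have hseg : vx a σ.k σ.z ∈ segIn Ω (Pi.single i (1:ℝ)) 0 (1 / 2 ^ σ.k) := by
    intro τ hτ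
    apply hsub
    rw [edge_eq_image hσ]
    exact ⟨τ, hτ, (ln_eq a σ i τ)⟩
  have h1 := h 0 (1 / 2 ^ σ.k) (by positivity) hseg
  rw [ic_single hg.enorm a hσ]
  have h2 := h1.2
  have h3 : ∫⁻ s in Icc (0:ℝ) (1 / 2 ^ σ.k), ‖g (vx a σ.k σ.z + Pi.single i s)‖ₑ =
      ∫⁻ s in Icc (0:ℝ) (1 / 2 ^ σ.k), ‖g (vx a σ.k σ.z + s • (Pi.single i (1:ℝ) : Fin n → ℝ))‖ₑ := by
    apply lintegral_congr
    intro s
    have := ln_eq a σ i s
    unfold ln at this
    rw [this]
  rw [h3]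
  exact h2.ne


/-- good lines through `x` for the functions `v c` with derivatives `g c i` -/
def Good {𝒞 : Type*} (Ω : Set (Fin n → ℝ)) (v : 𝒞 → (Fin n → ℝ) → ℝ)
    (g : 𝒞 → Fin n → (Fin n → ℝ) → ℝ) (x : Fin n → ℝ) : Prop :=
  ∀ (c : 𝒞) (i : Fin n), ACLat Ω (v c) (g c i) (Pi.single i (1:ℝ)) x ∧
    ∀ (j : Fin n) (s t : ℝ), s ≤ t → x ∈ segIn Ω (Pi.single j (1:ℝ)) s t →
      IntegrableOn (fun τ : ℝ => g c i (x + τ • (Pi.single j (1:ℝ) : Fin n → ℝ))) (Icc s t)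

/-- **almost every shift**: all mesh lines are good for countably many functions -/
theorem ae_shift {Ω : Set (Fin n → ℝ)} (hΩ : IsOpen Ω) {𝒞 : Type*} [Countable 𝒞]
    {v : 𝒞 → (Fin n → ℝ) → ℝ} {g : 𝒞 → Fin n → (Fin n → ℝ) → ℝ}
    (hv : ∀ c, ContinuousOn (v c) Ω)
    (h : ∀ c i, WD Ω volume (v c) (g c i) (Pi.single i (1:ℝ))) :
    ∀ᵐ a : Fin n → ℝ, ∀ (k : ℕ) (z : Fin n → ℤ), Good Ω v g (vx a k z) := by
  apply ae_vertices (P := Good Ω v g)
  unfold Good
  rw [ae_all_iff]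
  intro c
  rw [ae_all_iff]
  intro i
  have h1 : ∀ᵐ x : Fin n → ℝ, ∀ (j : Fin n) (s t : ℝ), s ≤ t →
      x ∈ segIn Ω (Pi.single j (1:ℝ)) s t →
      IntegrableOn (fun τ : ℝ => g c i (x + τ • (Pi.single j (1:ℝ) : Fin n → ℝ))) (Icc s t) := by
    rw [ae_all_iff]
    intro j
    exact Sob6_199.ae_line_integrable hΩ (h c i).lg (Pi.single j (1:ℝ))
  filter_upwards [acl hΩ (h c i) (hv c), h1] with x hx hx1
  exact ⟨hx, hx1⟩


/-- the sum of the norms of all the partial derivatives -/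
def GG {𝒞 : Type*} (g : 𝒞 → Fin n → (Fin n → ℝ) → ℝ) (x : Fin n → ℝ) : ℝ≥0∞ :=
  ∑' c, ∑ i, ‖g c i x‖ₑ




end

end Crest.Agent.R96.En8_199
end

-- ▼ part R96/En9_199

set_option autoImplicit false

open MeasureTheory Set Filter
open scoped Topology ENNReal

namespace Crest.Agent.R96.En9_199

open Crest.Agent.R096.Msh_810 Crest.Agent.R096.Bas_731 Crest.Agent.R96.En3_199
  Crest.Agent.R96.En4_199 Crest.Agent.R96.En5_199 Crest.Agent.R96.En2_199 Crest.Agent.R96.En6_199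
  Crest.Agent.R96.En7_199 Crest.Agent.R96.En8_199 Crest.Agent.R96.Acl_392
  Crest.Agent.R96.Sob2_199 Crest.Agent.R96.Sob3_199

noncomputable section

variable {n : ℕ}




/-- the sum of the norms of the partial derivatives of one function -/
def G1 (g : Fin n → (Fin n → ℝ) → ℝ) (x : Fin n → ℝ) : ℝ≥0∞ := ∑ i, ‖g i x‖ₑ

theorem measurable_G1 {g : Fin n → (Fin n → ℝ) → ℝ} (hg : ∀ i, Measurable (g i)) :
    Measurable (G1 g) := Finset.measurable_sum _ fun i _ => (hg i).enorm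



/-- the weighted sum of the norms of all the partial derivatives -/
def GGw {𝒞 : Type*} (w : 𝒞 → ℝ≥0∞) (g : 𝒞 → Fin n → (Fin n → ℝ) → ℝ) (x : Fin n → ℝ) : ℝ≥0∞ :=
  ∑' c, w c * G1 (g c) x






end

end Crest.Agent.R96.En9_199
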