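/-
helper199, row 96, leaf ENERGY, part 10: from weak gradients of `f : R3 → R3` to the derivatives of
the foam functions `s c ∘ f` in the coordinates `Fin 3 → ℝ` of the mesh.
-/
import Mathlib
import Crest.Agent.R96.En9_199
import Crest.Agent.R96.Sob7_199

set_option autoImplicit false

open MeasureTheory Set Filter
open scoped Topology ENNReal NNReal ContDiff

namespace Crest.Agent.R96.En10_199

open Crest.Agent.R96.Acl_392 Crest.Agent.R96.Sob2_199 Crest.Agent.R96.Sob3_199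
  Crest.Agent.R96.Sob4_199 Crest.Agent.R96.Sob5_199

noncomputable section

/-! ### the derivative vanishes on level sets -/

theorem level_line {φ d : ℝ → ℝ} {O : Set ℝ} (h : ∀ᵐ τ : ℝ, τ ∈ O → HasDerivAt φ (d τ) τ) (t : ℝ) :
    ∀ᵐ τ : ℝ, τ ∈ O → φ τ = t → d τ = 0 := by
  set s : Set ℝ := {τ | φ τ = t} with hs
  have hc : ({τ ∈ s | 𝓝[s ∩ Ioi τ] τ = ⊥} : Set ℝ).Countable :=
    countable_setOfPred_isolated_right_within
  have h0 : ∀ᵐ τ : ℝ, τ ∉ ({τ ∈ s | 𝓝[s ∩ Ioi τ] τ = ⊥} : Set ℝ) :=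
    measure_eq_zero_iff_ae_notMem.1 (hc.measure_zero _)
  filter_upwards [h, h0] with τ h1 h2 hτ hφ
  have h3 := hasDerivAt_iff_tendsto_slope.1 (h1 hτ)
  have hne : (𝓝[s ∩ Ioi τ] τ).NeBot := by
    rw [neBot_iff]
    intro hbot
    exact h2 ⟨hφ, hbot⟩
  have h4 : Tendsto (slope φ τ) (𝓝[s ∩ Ioi τ] τ) (𝓝 (d τ)) := by
    refine h3.mono_left (nhdsWithin_mono _ ?_)
    intro σ hσ
    exact ne_of_gt hσ.2
  have h5 : Tendsto (slope φ τ) (𝓝[s ∩ Ioi τ] τ) (𝓝 0) := by
    refine tendsto_const_nhds.congr' ?_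
    filter_upwards [self_mem_nhdsWithin] with σ hσ
    have h6 : φ σ = φ τ := hσ.1.trans hφ.symm
    rw [slope_def_field, h6, sub_self, zero_div]
  exact tendsto_nhds_unique h4 h5

variable {E : Type*} [NormedAddCommGroup E] [NormedSpace ℝ E] [FiniteDimensional ℝ E]
  [MeasurableSpace E] [BorelSpace E] {μ : Measure E} [μ.IsAddHaarMeasure]

/-- **weak derivatives vanish a.e. on level sets** -/
theorem wd_level {Ω : Set E} (hΩ : IsOpen Ω) {v g : E → ℝ} {e : E} (h : WD Ω μ v g e)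
    (hv : ContinuousOn v Ω) (t : ℝ) : ∀ᵐ x ∂μ, x ∈ Ω → v x = t → g x = 0 := by
  have hvm : AEMeasurable v (μ.restrict Ω) := hv.aemeasurable hΩ.measurableSet
  have hgm : AEMeasurable g (μ.restrict Ω) := (aemeas_of_loc h.lg).aemeasurable
  have hN : NullMeasurableSet (v ⁻¹' {t}) (μ.restrict Ω) :=
    hvm.nullMeasurableSet_preimage (measurableSet_singleton t)
  have h1 : AEMeasurable ((v ⁻¹' {t}).indicator g) (μ.restrict Ω) := hgm.indicator₀ hN
  have h2 := ae_eq_of_line (μ := μ) hΩ (e := e) h1 (aemeasurable_const (b := (0:ℝ))) (by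
    filter_upwards [(line_deriv hΩ h hv).1] with x hx
    filter_upwards [level_line (O := {τ : ℝ | x + τ • e ∈ Ω}) hx t] with τ hτ hxτ
    by_cases hl : v (x + τ • e) = t
    · rw [indicator_of_mem (by exact hl)]
      exact hτ hxτ hl
    · rw [indicator_of_notMem (by exact hl)])
  filter_upwards [h2] with x hx hxΩ hxt
  have := hx hxΩ
  rwa [indicator_of_mem (by exact hxt)] at this

/-! ### composition with a real function -/

variable {ι : Type*} [Fintype ι]

theorem comp_real_bound {Ω : Set E} (hΩ : IsOpen Ω) {f D : E → EuclideanSpace ℝ ι} {e : E}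
    (h : VWD Ω μ f D e) (hf : ContinuousOn f Ω) {S : Set (EuclideanSpace ℝ ι)}
    (hS : MapsTo f Ω S) {θ : EuclideanSpace ℝ ι → ℝ} (hθ : LocallyLipschitzOn S θ) {L : ℝ}
    (hL : ∀ y ∈ S, ∀ ε > 0, ∀ᶠ z in 𝓝[S] y, |θ z - θ y| ≤ (L + ε) * ‖z - y‖) :
    WD Ω μ (fun x => θ (f x)) (dq Ω (fun x => θ (f x)) e) e ∧
      Measurable (dq Ω (fun x => θ (f x)) e) ∧
      (∀ᵐ x ∂μ, x ∈ Ω → |dq Ω (fun x => θ (f x)) e x| ≤ L * ‖D x‖) ∧
      ∀ t : ℝ, ∀ᵐ x ∂μ, x ∈ Ω → θ (f x) = t → dq Ω (fun x => θ (f x)) e x = 0 := by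
  have hc : ContinuousOn (fun x => θ (f x)) Ω := hθ.continuousOn.comp hf hS
  have hwd := comp_real hΩ h hf hS hθ
  refine ⟨hwd, measurable_dq hΩ hc e, ?_, fun t => wd_level hΩ hwd hc t⟩
  apply ae_le_of_line hΩ (e := e) ((measurable_dq hΩ hc e).abs.aemeasurable)
    (h.aemeas.norm.const_mul L)
  filter_upwards [vline_deriv hΩ h hf, (line_deriv hΩ hwd hc).1] with x hx hx'
  filter_upwards [hx, hx'] with τ h1 h2 hxτ
  have h3 : ∀ᶠ σ : ℝ in 𝓝 τ, f (x + σ • e) ∈ S := by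
    have h4 : ContinuousAt (fun σ : ℝ => x + σ • e) τ := by fun_prop
    filter_upwards [h4 (hΩ.mem_nhds hxτ)] with σ hσ using hS hσ
  exact deriv_lip (h1 hxτ) (h2 hxτ) h3 (fun ε hε => hL _ (hS hxτ) ε hε)

/-! ### change of the space -/

omit [FiniteDimensional ℝ E] [μ.IsAddHaarMeasure] in
theorem wd_comp_equiv {E' : Type*} [NormedAddCommGroup E'] [NormedSpace ℝ E']
    [FiniteDimensional ℝ E'] [MeasurableSpace E'] [BorelSpace E'] {μ' : Measure E'}
    {Ω : Set E} {v g : E → ℝ} {e : E} (h : WD Ω μ v g e) (P : E' ≃L[ℝ] E)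
    (hP : MeasurePreserving P μ' μ) :
    WD (P ⁻¹' Ω) μ' (fun x => v (P x)) (fun x => g (P x)) (P.symm e) := by
  have hem : MeasurableEmbedding P := P.toHomeomorph.measurableEmbedding
  have hint : ∀ F : E → ℝ, ∫ x, F (P x) ∂μ' = ∫ y, F y ∂μ := fun F => by
    rw [← hP.map_eq, hem.integral_map]
  have hloc : ∀ u : E → ℝ, LocallyIntegrableOn u Ω μ →
      LocallyIntegrableOn (fun x => u (P x)) (P ⁻¹' Ω) μ' := by
    intro u hu x hx
    obtain ⟨t, ht, hvt⟩ := hu _ hx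
    refine ⟨P ⁻¹' t, ?_, ?_⟩
    · have h1 : Tendsto P (𝓝[P ⁻¹' Ω] x) (𝓝[Ω] (P x)) := by
        apply tendsto_nhdsWithin_iff.2
        exact ⟨P.continuous.continuousAt.mono_left nhdsWithin_le_nhds,
          eventually_nhdsWithin_of_forall fun y hy => hy⟩
      exact h1 ht
    · have h2 : IntegrableOn u t (Measure.map P μ') := by
        rw [hP.map_eq]; exact hvt
      exact (hem.integrableOn_map_iff).1 h2
  refine ⟨hloc v h.lv, hloc g h.lg, fun φ hφ hc hs => ?_⟩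
  set ψ : E → ℝ := fun y => φ (P.symm y) with hψ
  have h1 : ContDiff ℝ ∞ ψ := hφ.comp P.symm.contDiff
  have h2 : HasCompactSupport ψ := hc.comp_homeomorph P.symm.toHomeomorph
  have hts : tsupport ψ = P.symm ⁻¹' tsupport φ :=
    tsupport_comp_eq_preimage φ P.symm.toHomeomorph
  have h3 : tsupport ψ ⊆ Ω := by
    rw [hts]
    intro y hy
    have := hs hy
    simpa using this
  have h4 := h.weak ψ h1 h2 h3
  have hd : ∀ x, fderiv ℝ φ x (P.symm e) = fderiv ℝ ψ (P x) e := by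
    intro x
    have h7 : HasFDerivAt φ (fderiv ℝ φ x) (P.symm (P x)) := by
      rw [P.symm_apply_apply]
      exact (hφ.differentiable (by simp) x).hasFDerivAt
    have h8 := h7.comp (P x) (P.symm : E →L[ℝ] E').hasFDerivAt
    have h9 : fderiv ℝ ψ (P x) = (fderiv ℝ φ x).comp (P.symm : E →L[ℝ] E') := h8.fderiv
    rw [h9]
    rfl
  have e1 := hint (fun y => v y * fderiv ℝ ψ y e)
  have e2 := hint (fun y => g y * ψ y)
  have e3 : ∫ x, v (P x) * fderiv ℝ φ x (P.symm e) ∂μ' =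
      ∫ x, (fun y => v y * fderiv ℝ ψ y e) (P x) ∂μ' := by
    apply integral_congr_ae
    refine Eventually.of_forall fun x => ?_
    simp only [hd]
  have e4 : ∫ x, g (P x) * φ x ∂μ' = ∫ x, (fun y => g y * ψ y) (P x) ∂μ' := by
    apply integral_congr_ae
    refine Eventually.of_forall fun x => ?_
    simp only [hψ, P.symm_apply_apply]
  rw [e3, e4, e1, e2, h4]

/-! ### R3 -/

section R3

open Crest.AnalysisR.VecCalc3 Crest.AnalysisR.Sobolev Crest.Agent.R96.Sob7_199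
  Crest.Agent.R96.En9_199

/-- the identity `Fin 3 → ℝ` to `R3` -/
def P3 : (Fin 3 → ℝ) ≃L[ℝ] R3 := (PiLp.continuousLinearEquiv 2 ℝ (fun _ : Fin 3 => ℝ)).symm

@[simp] theorem P3_apply (x : Fin 3 → ℝ) (i : Fin 3) : P3 x i = x i := rfl

@[simp] theorem P3_symm_single (i : Fin 3) :
    P3.symm (EuclideanSpace.single i (1:ℝ)) = Pi.single i (1:ℝ) := by
  funext j
  change (EuclideanSpace.single i (1:ℝ) : R3) j = _
  simp [Pi.single_apply]

theorem P3_mp : MeasurePreserving P3 (volume : Measure (Fin 3 → ℝ)) (volume : Measure R3) :=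
  PiLp.volume_preserving_toLp (Fin 3)

/-- the partial derivative of the map `f` in direction `i` -/
def Di (G : Fin 3 → R3 → R3) (i : Fin 3) (x : R3) : R3 := WithLp.toLp 2 fun j => G j x i

theorem vwd_of_grad {Ω : Set R3} (hΩ : IsOpen Ω) {f : R3 → R3} {G : Fin 3 → R3 → R3}
    (hG : ∀ j, HasWeakGradOn Ω (fun x => f x j) (G j)) (i : Fin 3) :
    VWD Ω volume f (Di G i) (EuclideanSpace.single i 1) := fun j =>
  wd_of_grad_coord hΩ (hG j) i





open Crest.Agent.R096.Msh_810 Crest.Agent.R96.En4_199 Crest.Agent.R96.En5_199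
  Crest.Agent.R96.En8_199



end R3

end

end Crest.Agent.R96.En10_199
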