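import Mathlib

-- ▼ part R96/Push1_899
section

/-!
# Row 96, U2 PUSH (helper899), part 1: the box push `psh Q C`

For boxes `C ⊆ int Q` (`C` may be degenerate), `psh Q C` maps `Q \ C` onto `∂Q`, identity on `∂Q`.
-/

set_option autoImplicit false

open Set Filter Topology

noncomputable section

namespace Crest.Agent.R96.Push_899

/-- a closed box (possibly degenerate). -/
@[ext] structure Box (ι : Type*) where
  lo : ι → ℝ
  hi : ι → ℝ
  le : ∀ i, lo i ≤ hi i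

variable {ι : Type*}

namespace Box

/-- the closed box -/
def S (Q : Box ι) : Set (ι → ℝ) := {y | ∀ i, Q.lo i ≤ y i ∧ y i ≤ Q.hi i}

/-- the open box -/
def I (Q : Box ι) : Set (ι → ℝ) := {y | ∀ i, Q.lo i < y i ∧ y i < Q.hi i}

/-- widths -/
def W (Q : Box ι) (i : ι) : ℝ := Q.hi i - Q.lo i

theorem W_nonneg (Q : Box ι) (i : ι) : 0 ≤ Q.W i := sub_nonneg.2 (Q.le i)

/-- the degenerate box `{z}` -/
def pt (z : ι → ℝ) : Box ι := ⟨z, z, fun _ => le_rfl⟩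

@[simp] theorem pt_lo (z : ι → ℝ) : (pt z).lo = z := rfl
@[simp] theorem pt_hi (z : ι → ℝ) : (pt z).hi = z := rfl

end Box

/-- `C` is in the interior of `Q`. -/
structure Nest (C Q : Box ι) : Prop where
  lo : ∀ i, Q.lo i < C.lo i
  hi : ∀ i, C.hi i < Q.hi i

namespace Nest

variable {C Q : Box ι} (h : Nest C Q)
include h

theorem g1 (i : ι) : 0 < Q.hi i - C.hi i := sub_pos.2 (h.hi i)
theorem g2 (i : ι) : 0 < C.lo i - Q.lo i := sub_pos.2 (h.lo i)
theorem lt (i : ι) : Q.lo i < Q.hi i := by have := h.lo i; have := h.hi i; have := C.le i; linarith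
theorem Wpos (i : ι) : 0 < Q.W i := sub_pos.2 (h.lt i)

end Nest

/-- one-sided gauges -/
def gg (Q C : Box ι) (y : ι → ℝ) (i : ι) : ℝ :=
  max ((y i - C.hi i) / (Q.hi i - C.hi i)) ((C.lo i - y i) / (C.lo i - Q.lo i))

/-- lower / upper end of `C_t` -/
def cl (Q C : Box ι) (i : ι) (t : ℝ) : ℝ := C.lo i - t * (C.lo i - Q.lo i)
def ch (Q C : Box ι) (i : ι) (t : ℝ) : ℝ := C.hi i + t * (Q.hi i - C.hi i)
/-- width of `C_t` -/
def ww (Q C : Box ι) (i : ι) (t : ℝ) : ℝ := ch Q C i t - cl Q C i t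

theorem ww_eq (Q C : Box ι) (i : ι) (t : ℝ) :
    ww Q C i t = C.W i + t * (Q.W i - C.W i) := by
  unfold ww ch cl Box.W; ring

theorem gg_le_iff {Q C : Box ι} (h : Nest C Q) (y : ι → ℝ) (i : ι) (t : ℝ) :
    gg Q C y i ≤ t ↔ cl Q C i t ≤ y i ∧ y i ≤ ch Q C i t := by
  unfold gg cl ch
  rw [max_le_iff, div_le_iff₀ (h.g1 i), div_le_iff₀ (h.g2 i)]
  constructor
  · rintro ⟨h1, h2⟩; constructor <;> linarith
  · rintro ⟨h1, h2⟩; constructor <;> linarith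

theorem gg_lt_iff {Q C : Box ι} (h : Nest C Q) (y : ι → ℝ) (i : ι) (t : ℝ) :
    gg Q C y i < t ↔ cl Q C i t < y i ∧ y i < ch Q C i t := by
  unfold gg cl ch
  rw [max_lt_iff, div_lt_iff₀ (h.g1 i), div_lt_iff₀ (h.g2 i)]
  constructor
  · rintro ⟨h1, h2⟩; constructor <;> linarith
  · rintro ⟨h1, h2⟩; constructor <;> linarith

@[simp] theorem cl_zero (Q C : Box ι) (i : ι) : cl Q C i 0 = C.lo i := by simp [cl]
@[simp] theorem ch_zero (Q C : Box ι) (i : ι) : ch Q C i 0 = C.hi i := by simp [ch]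
@[simp] theorem cl_one (Q C : Box ι) (i : ι) : cl Q C i 1 = Q.lo i := by simp [cl]
@[simp] theorem ch_one (Q C : Box ι) (i : ι) : ch Q C i 1 = Q.hi i := by simp [ch]

theorem gg_lip {Q C : Box ι} (h : Nest C Q) (y y' : ι → ℝ) (i : ι) {g : ℝ} (hg : 0 < g)
    (h1 : g ≤ Q.hi i - C.hi i) (h2 : g ≤ C.lo i - Q.lo i) :
    gg Q C y' i ≤ gg Q C y i + |y' i - y i| / g := by
  unfold gg
  have e1 : (y' i - C.hi i) / (Q.hi i - C.hi i) =
      (y i - C.hi i) / (Q.hi i - C.hi i) + (y' i - y i) / (Q.hi i - C.hi i) := by ring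
  have e2 : (C.lo i - y' i) / (C.lo i - Q.lo i) =
      (C.lo i - y i) / (C.lo i - Q.lo i) + (y i - y' i) / (C.lo i - Q.lo i) := by ring
  have b1 : (y' i - y i) / (Q.hi i - C.hi i) ≤ |y' i - y i| / g :=
    (div_le_div_of_nonneg_right (le_abs_self _) (h.g1 i).le).trans
      (div_le_div_of_nonneg_left (abs_nonneg _) hg h1)
  have b2 : (y i - y' i) / (C.lo i - Q.lo i) ≤ |y' i - y i| / g := by
    rw [abs_sub_comm]
    exact (div_le_div_of_nonneg_right (le_abs_self _) (h.g2 i).le).trans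
      (div_le_div_of_nonneg_left (abs_nonneg _) hg h2)
  rw [e1, e2]
  apply max_le
  · exact add_le_add (le_max_left _ _) b1
  · exact add_le_add (le_max_right _ _) b2

section sup

variable [Fintype ι] [Nonempty ι]

/-- the gauge: `y ∈ ∂ C_t` for `t = tt y`. -/
def tt (Q C : Box ι) (y : ι → ℝ) : ℝ := Finset.univ.sup' Finset.univ_nonempty (gg Q C y)

theorem gg_le_tt (Q C : Box ι) (y : ι → ℝ) (i : ι) : gg Q C y i ≤ tt Q C y :=
  Finset.le_sup' _ (Finset.mem_univ i)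

theorem tt_le_iff {Q C : Box ι} {y : ι → ℝ} {t : ℝ} : tt Q C y ≤ t ↔ ∀ i, gg Q C y i ≤ t := by
  simp [tt]

theorem tt_lt_iff {Q C : Box ι} {y : ι → ℝ} {t : ℝ} : tt Q C y < t ↔ ∀ i, gg Q C y i < t := by
  simp [tt]

theorem exists_tt (Q C : Box ι) (y : ι → ℝ) : ∃ i, tt Q C y = gg Q C y i := by
  obtain ⟨i, _, hi⟩ := Finset.exists_mem_eq_sup' (s := (Finset.univ : Finset ι))
    Finset.univ_nonempty (gg Q C y)
  exact ⟨i, hi⟩

theorem tt_le_one_iff {Q C : Box ι} (h : Nest C Q) (y : ι → ℝ) : tt Q C y ≤ 1 ↔ y ∈ Q.S := by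
  simp [tt_le_iff, gg_le_iff h, Box.S]

theorem tt_lt_one_iff {Q C : Box ι} (h : Nest C Q) (y : ι → ℝ) : tt Q C y < 1 ↔ y ∈ Q.I := by
  simp [tt_lt_iff, gg_lt_iff h, Box.I]

theorem tt_le_zero_iff {Q C : Box ι} (h : Nest C Q) (y : ι → ℝ) : tt Q C y ≤ 0 ↔ y ∈ C.S := by
  simp [tt_le_iff, gg_le_iff h, Box.S]

theorem tt_lt_zero_iff {Q C : Box ι} (h : Nest C Q) (y : ι → ℝ) : tt Q C y < 0 ↔ y ∈ C.I := by
  simp [tt_lt_iff, gg_lt_iff h, Box.I]

theorem tt_bounds {Q C : Box ι} (h : Nest C Q) (y : ι → ℝ) (i : ι) :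
    cl Q C i (tt Q C y) ≤ y i ∧ y i ≤ ch Q C i (tt Q C y) :=
  (gg_le_iff h y i _).1 (gg_le_tt Q C y i)

/-- lower gap bounds -/
def Gap (Q C : Box ι) (g : ι → ℝ) : Prop :=
  ∀ i, 0 < g i ∧ g i ≤ Q.hi i - C.hi i ∧ g i ≤ C.lo i - Q.lo i

/-- `tt` only depends on the coordinates in `J` if the other coordinates of `y` are in `C`. -/
theorem tt_lip {Q C : Box ι} (h : Nest C Q) {g : ι → ℝ} (hg : Gap Q C g) {y y' : ι → ℝ}
    {J : Set ι} {B : ℝ} (hy : ∀ i ∉ J, C.lo i ≤ y' i ∧ y' i ≤ C.hi i) (ht : 0 ≤ tt Q C y)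
    (hB0 : 0 ≤ B) (hB : ∀ j ∈ J, |y' j - y j| / g j ≤ B) : tt Q C y' ≤ tt Q C y + B := by
  rw [tt_le_iff]
  intro i
  by_cases hi : i ∈ J
  · have h1 := gg_lip h y y' i (hg i).1 (hg i).2.1 (hg i).2.2
    exact h1.trans (add_le_add (gg_le_tt Q C y i) (hB i hi))
  · have h1 : gg Q C y' i ≤ 0 := by
      rw [gg_le_iff h]; simpa using hy i hi
    linarith

theorem abs_tt_sub_le {Q C : Box ι} (h : Nest C Q) {g : ι → ℝ} (hg : Gap Q C g) {y y' : ι → ℝ}
    {J : Set ι} {B : ℝ} (hy : ∀ i ∉ J, C.lo i ≤ y i ∧ y i ≤ C.hi i)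
    (hy' : ∀ i ∉ J, C.lo i ≤ y' i ∧ y' i ≤ C.hi i) (ht : 0 ≤ tt Q C y) (ht' : 0 ≤ tt Q C y')
    (hB0 : 0 ≤ B) (hB : ∀ j ∈ J, |y' j - y j| / g j ≤ B) :
    |tt Q C y' - tt Q C y| ≤ B := by
  rw [abs_le]
  have h1 := tt_lip h hg hy' ht hB0 hB
  have h2 := tt_lip h hg hy ht' hB0 (fun j hj => by rw [abs_sub_comm]; exact hB j hj)
  constructor <;> linarith

/-- **the push** -/
def psh (Q C : Box ι) (y : ι → ℝ) : ι → ℝ := fun i =>
  Q.lo i + (y i - cl Q C i (tt Q C y)) * (Q.W i / ww Q C i (tt Q C y))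

theorem ww_pos {Q C : Box ι} (h : Nest C Q) (i : ι) {t : ℝ} (ht : 0 ≤ t)
    (h0 : 0 < t ∨ ∀ i, 0 < C.W i) : 0 < ww Q C i t := by
  unfold ww ch cl
  have h1 := h.g1 i
  have h2 := h.g2 i
  have h3 := C.le i
  rcases h0 with h0 | h0
  · nlinarith [mul_pos h0 h1, mul_pos h0 h2]
  · have h4 := h0 i
    unfold Box.W at h4
    nlinarith [mul_nonneg ht h1.le, mul_nonneg ht h2.le]

/-- `psh y ∈ Q`. -/
theorem psh_mem {Q C : Box ι} (h : Nest C Q) {y : ι → ℝ} (ht : 0 ≤ tt Q C y)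
    (h0 : 0 < tt Q C y ∨ ∀ i, 0 < C.W i) : psh Q C y ∈ Q.S := by
  intro i
  have hw := ww_pos h i ht h0
  obtain ⟨h1, h2⟩ := tt_bounds h y i
  have hW := (h.Wpos i).le
  unfold psh
  constructor
  · have : 0 ≤ (y i - cl Q C i (tt Q C y)) * (Q.W i / ww Q C i (tt Q C y)) :=
      mul_nonneg (by linarith) (div_nonneg hW hw.le)
    linarith
  · have h3 : (y i - cl Q C i (tt Q C y)) * (Q.W i / ww Q C i (tt Q C y)) ≤
        ww Q C i (tt Q C y) * (Q.W i / ww Q C i (tt Q C y)) := by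
      apply mul_le_mul_of_nonneg_right _ (div_nonneg hW hw.le)
      unfold ww; linarith
    have h4 : ww Q C i (tt Q C y) * (Q.W i / ww Q C i (tt Q C y)) = Q.W i :=
      mul_div_cancel₀ _ hw.ne'
    have h5 : Q.W i = Q.hi i - Q.lo i := rfl
    linarith

/-- `psh y` is on the boundary of `Q`. -/
theorem psh_bd {Q C : Box ι} (h : Nest C Q) {y : ι → ℝ} (ht : 0 ≤ tt Q C y)
    (h0 : 0 < tt Q C y ∨ ∀ i, 0 < C.W i) :
    ∃ i, psh Q C y i = Q.lo i ∨ psh Q C y i = Q.hi i := by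
  obtain ⟨i, hi⟩ := exists_tt Q C y
  refine ⟨i, ?_⟩
  have hw := ww_pos h i ht h0
  have h1 : y i = cl Q C i (tt Q C y) ∨ y i = ch Q C i (tt Q C y) := by
    obtain ⟨b1, b2⟩ := tt_bounds h y i
    by_contra hne
    rw [not_or] at hne
    have h2 : gg Q C y i < tt Q C y := by
      rw [gg_lt_iff h]
      exact ⟨lt_of_le_of_ne b1 (Ne.symm hne.1), lt_of_le_of_ne b2 hne.2⟩
    exact absurd hi h2.ne'
  unfold psh
  rcases h1 with h1 | h1
  · left; rw [← h1]; simp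
  · right
    have h3 : y i - cl Q C i (tt Q C y) = ww Q C i (tt Q C y) := by unfold ww; rw [← h1]
    rw [h3, mul_div_cancel₀ _ hw.ne']
    unfold Box.W; ring

theorem psh_not_mem_I {Q C : Box ι} (h : Nest C Q) {y : ι → ℝ} (ht : 0 ≤ tt Q C y)
    (h0 : 0 < tt Q C y ∨ ∀ i, 0 < C.W i) : psh Q C y ∉ Q.I := by
  obtain ⟨i, hi⟩ := psh_bd h ht h0
  intro hI
  have h1 := hI i
  rcases hi with hi | hi
  · exact absurd hi h1.1.ne'
  · exact absurd hi h1.2.ne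

/-- identity on `∂Q` -/
theorem psh_eq_self {Q C : Box ι} (h : Nest C Q) {y : ι → ℝ} (ht : tt Q C y = 1) :
    psh Q C y = y := by
  funext i
  unfold psh
  rw [ht, ww_eq]
  have h1 := (h.Wpos i).ne'
  have h2 : C.W i + 1 * (Q.W i - C.W i) = Q.W i := by ring
  rw [h2, div_self h1, cl_one]
  ring

theorem tt_eq_one {Q C : Box ι} (h : Nest C Q) {y : ι → ℝ} (h1 : y ∈ Q.S) (h2 : y ∉ Q.I) :
    tt Q C y = 1 := by
  have h3 := (tt_le_one_iff h y).2 h1
  have h4 := mt (tt_lt_one_iff h y).1 h2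
  exact le_antisymm h3 (not_lt.1 h4)

/-- EXACT increment formula. -/
theorem psh_sub {Q C : Box ι} (h : Nest C Q) (y y' : ι → ℝ) (ht : 0 ≤ tt Q C y)
    (h0 : 0 < tt Q C y ∨ ∀ i, 0 < C.W i) (ht' : 0 ≤ tt Q C y')
    (h0' : 0 < tt Q C y' ∨ ∀ i, 0 < C.W i) (i : ι) :
    ∃ l ∈ Icc (0:ℝ) 1, psh Q C y' i - psh Q C y i = (Q.W i / ww Q C i (tt Q C y')) *
      ((y' i - y i) + (tt Q C y' - tt Q C y) *
        ((1 - l) * (C.lo i - Q.lo i) - l * (Q.hi i - C.hi i))) := by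
  have hw := ww_pos h i ht h0
  have hw' := ww_pos h i ht' h0'
  obtain ⟨b1, b2⟩ := tt_bounds h y i
  refine ⟨(y i - cl Q C i (tt Q C y)) / ww Q C i (tt Q C y), ⟨?_, ?_⟩, ?_⟩
  · exact div_nonneg (by linarith) hw.le
  · rw [div_le_one hw]; unfold ww; linarith
  · set t := tt Q C y with hT
    set t' := tt Q C y' with hT'
    set l := (y i - cl Q C i t) / ww Q C i t with hl
    have e1 : y i - cl Q C i t = l * ww Q C i t := by rw [hl, div_mul_cancel₀ _ hw.ne']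
    have e2 : psh Q C y i = Q.lo i + l * Q.W i := by
      unfold psh
      rw [← hT, e1]
      field_simp
    have e3 : psh Q C y' i = Q.lo i + (y' i - cl Q C i t') * (Q.W i / ww Q C i t') := by
      unfold psh; rw [← hT']
    rw [e2, e3]
    have e4 : l * Q.W i = (Q.W i / ww Q C i t') * (l * ww Q C i t') := by
      field_simp
    rw [e4]
    have e5 : y' i - cl Q C i t' - l * ww Q C i t' =
        (y' i - y i) + (t' - t) * ((1 - l) * (C.lo i - Q.lo i) - l * (Q.hi i - C.hi i)) := by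
      have e6 : ww Q C i t' = ww Q C i t + (t' - t) * (Q.W i - C.W i) := by
        rw [ww_eq, ww_eq]; ring
      have e7 : cl Q C i t' = cl Q C i t - (t' - t) * (C.lo i - Q.lo i) := by
        unfold cl; ring
      have e8 : Q.W i - C.W i = (Q.hi i - C.hi i) + (C.lo i - Q.lo i) := by
        unfold Box.W; ring
      rw [e6, e7, e8]
      have e9 : y' i = y i + (y' i - y i) := by ring
      linear_combination e1
    rw [← e5]
    ring

theorem abs_gap_le {a b l : ℝ} (ha : 0 ≤ a) (hb : 0 ≤ b) (hl : l ∈ Icc (0:ℝ) 1) {G : ℝ}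
    (h1 : a ≤ G) (h2 : b ≤ G) : |(1 - l) * a - l * b| ≤ G := by
  obtain ⟨l0, l1⟩ := hl
  rw [abs_le]
  constructor
  · nlinarith [mul_nonneg l0 hb, mul_nonneg (sub_nonneg.2 l1) ha,
      mul_le_mul_of_nonneg_left h2 l0]
  · nlinarith [mul_nonneg l0 hb, mul_nonneg (sub_nonneg.2 l1) ha,
      mul_le_mul_of_nonneg_left h1 (sub_nonneg.2 l1)]

/-- general bound of the increments -/
theorem abs_psh_sub_le {Q C : Box ι} (h : Nest C Q) (y y' : ι → ℝ) (ht : 0 ≤ tt Q C y)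
    (h0 : 0 < tt Q C y ∨ ∀ i, 0 < C.W i) (ht' : 0 ≤ tt Q C y')
    (h0' : 0 < tt Q C y' ∨ ∀ i, 0 < C.W i) (i : ι) {G : ℝ} (hG1 : Q.hi i - C.hi i ≤ G)
    (hG2 : C.lo i - Q.lo i ≤ G) :
    |psh Q C y' i - psh Q C y i| ≤ (Q.W i / ww Q C i (tt Q C y')) *
      (|y' i - y i| + |tt Q C y' - tt Q C y| * G) := by
  obtain ⟨l, hl, he⟩ := psh_sub h y y' ht h0 ht' h0' i
  rw [he, abs_mul, abs_of_nonneg (div_nonneg (h.Wpos i).le (ww_pos h i ht' h0').le)]
  apply mul_le_mul_of_nonneg_left _ (div_nonneg (h.Wpos i).le (ww_pos h i ht' h0').le)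
  apply (abs_add_le _ _).trans
  apply add_le_add le_rfl
  rw [abs_mul]
  exact mul_le_mul_of_nonneg_left (abs_gap_le (h.g2 i).le (h.g1 i).le hl hG2 hG1) (abs_nonneg _)

/-- near-isometry in the coordinate `i` -/
theorem abs_psh_sub_sub_le {Q C : Box ι} (h : Nest C Q) (y y' : ι → ℝ) (ht : 0 ≤ tt Q C y)
    (hW : ∀ i, 0 < C.W i) (ht' : 0 ≤ tt Q C y') (ht1' : tt Q C y' ≤ 1) (i : ι) {G : ℝ}
    (hG1 : Q.hi i - C.hi i ≤ G) (hG2 : C.lo i - Q.lo i ≤ G) :
    |psh Q C y' i - psh Q C y i - (y' i - y i)| ≤ (Q.W i / C.W i - 1) * |y' i - y i| +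
      (Q.W i / C.W i) * (|tt Q C y' - tt Q C y| * G) := by
  obtain ⟨l, hl, he⟩ := psh_sub h y y' ht (Or.inr hW) ht' (Or.inr hW) i
  have hw' := ww_pos h i ht' (Or.inr hW)
  set a := Q.W i / ww Q C i (tt Q C y') with ha
  have hCW : C.W i ≤ Q.W i := by
    unfold Box.W
    have := h.g1 i; have := h.g2 i; linarith
  have hw1 : ww Q C i (tt Q C y') ≤ Q.W i := by
    rw [ww_eq]; nlinarith
  have hw2 : C.W i ≤ ww Q C i (tt Q C y') := by
    rw [ww_eq]; nlinarith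
  have ha1 : 1 ≤ a := by rw [ha, le_div_iff₀ hw', one_mul]; exact hw1
  have ha2 : a ≤ Q.W i / C.W i := div_le_div_of_nonneg_left (h.Wpos i).le (hW i) hw2
  have e1 : psh Q C y' i - psh Q C y i - (y' i - y i) = (a - 1) * (y' i - y i) +
      a * ((tt Q C y' - tt Q C y) * ((1 - l) * (C.lo i - Q.lo i) - l * (Q.hi i - C.hi i))) := by
    rw [he]; ring
  rw [e1]
  apply (abs_add_le _ _).trans
  apply add_le_add
  · rw [abs_mul, abs_of_nonneg (by linarith)]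
    exact mul_le_mul_of_nonneg_right (by linarith) (abs_nonneg _)
  · rw [abs_mul, abs_of_nonneg (by linarith), abs_mul]
    apply mul_le_mul ha2 _ (by positivity) (by linarith)
    exact mul_le_mul_of_nonneg_left (abs_gap_le (h.g2 i).le (h.g1 i).le hl hG2 hG1)
      (abs_nonneg _)

end sup

end Crest.Agent.R96.Push_899
end
end

-- ▼ part R96/Push4_899

/-!
# Row 96, U2 PUSH (helper899), part 4: the two-level push `psi Q C B` and its increments
-/

set_option autoImplicit false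
set_option linter.unusedSectionVars false
set_option linter.unusedVariables false

open Set Filter Topology

noncomputable section

namespace Crest.Agent.R96.Push_899

variable {ι : Type*} [Fintype ι] [Nonempty ι] [DecidableEq ι]

/-- the core `C` in the brick `Q`: all gaps between `c₀ ρ` and `ρ`, widths comparable, and in the
good directions `P` the core has almost full width. -/
structure Shape (P : Finset ι) (c₀ κ ρ : ℝ) (Q C : Box ι) : Prop where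
  c0 : 0 < c₀
  c1 : c₀ ≤ 1
  r0 : 0 < ρ
  k0 : 0 ≤ κ
  W0 : ∀ i, 0 < Q.W i
  lo1 : ∀ i, c₀ * ρ ≤ C.lo i - Q.lo i
  lo2 : ∀ i, C.lo i - Q.lo i ≤ ρ
  hi1 : ∀ i, c₀ * ρ ≤ Q.hi i - C.hi i
  hi2 : ∀ i, Q.hi i - C.hi i ≤ ρ
  wd : ∀ i, c₀ * Q.W i ≤ C.W i
  wdP : ∀ i ∈ P, Q.W i ≤ (1 + κ) * C.W i

namespace Shape

variable {P : Finset ι} {c₀ κ ρ : ℝ} {Q C : Box ι} (h : Shape P c₀ κ ρ Q C)
include h

theorem nest : Nest C Q := by
  have h1 := mul_pos h.c0 h.r0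
  exact ⟨fun i => by linarith [h.lo1 i], fun i => by linarith [h.hi1 i]⟩

theorem CW (i : ι) : 0 < C.W i := lt_of_lt_of_le (mul_pos h.c0 (h.W0 i)) (h.wd i)

theorem gap : Gap Q C (fun _ => c₀ * ρ) := fun i => ⟨mul_pos h.c0 h.r0, h.hi1 i, h.lo1 i⟩

theorem ratio (i : ι) {t : ℝ} (ht : 0 ≤ t) : Q.W i / ww Q C i t ≤ 1 / c₀ := by
  have hw := ww_pos h.nest i ht (Or.inr h.CW)
  rw [div_le_div_iff₀ hw h.c0, one_mul]
  have h1 : C.W i ≤ ww Q C i t := by
    rw [ww_eq]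
    have h2 : C.W i ≤ Q.W i := by
      have := h.nest.g1 i; have := h.nest.g2 i; unfold Box.W; linarith
    nlinarith
  nlinarith [h.wd i]

theorem tt_sub {y y' : ι → ℝ} (hy : 0 ≤ tt Q C y) (hy' : 0 ≤ tt Q C y') {J : Set ι}
    (hJ : ∀ i ∉ J, C.lo i ≤ y i ∧ y i ≤ C.hi i) (hJ' : ∀ i ∉ J, C.lo i ≤ y' i ∧ y' i ≤ C.hi i)
    {B : ℝ} (hB : ∀ j ∈ J, |y' j - y j| ≤ B) (hB0 : 0 ≤ B) :
    |tt Q C y' - tt Q C y| * ρ ≤ B / c₀ := by
  have h1 := mul_pos h.c0 h.r0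
  have h2 := abs_tt_sub_le h.nest h.gap (B := B / (c₀ * ρ)) hJ hJ' hy hy' (by positivity)
    (fun j hj => div_le_div_of_nonneg_right (hB j hj) h1.le)
  have h3 := mul_le_mul_of_nonneg_right h2 h.r0.le
  refine h3.trans (le_of_eq ?_)
  have := h.c0.ne'
  have := h.r0.ne'
  field_simp

/-- (A1) everywhere on `Q \ int C` -/
theorem incr {y y' : ι → ℝ} (hy : 0 ≤ tt Q C y) (hy' : 0 ≤ tt Q C y') (i : ι) :
    |psh Q C y' i - psh Q C y i| ≤ 2 / c₀ ^ 2 * ∑ j, |y' j - y j| := by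
  have hs : ∀ j, |y' j - y j| ≤ ∑ j, |y' j - y j| := fun j =>
    Finset.single_le_sum (f := fun j => |y' j - y j|) (fun _ _ => abs_nonneg _)
      (Finset.mem_univ j)
  set B := ∑ j, |y' j - y j| with hB
  have hB0 : 0 ≤ B := Finset.sum_nonneg fun _ _ => abs_nonneg _
  have h1 := abs_psh_sub_le h.nest y y' hy (Or.inr h.CW) hy' (Or.inr h.CW) i (h.hi2 i) (h.lo2 i)
  have h2 := h.tt_sub hy hy' (J := univ) (fun i hi => absurd (mem_univ i) hi)
    (fun i hi => absurd (mem_univ i) hi) (fun j _ => hs j) hB0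
  refine h1.trans ?_
  have h3 := h.ratio i hy'
  have h4 : |y' i - y i| + |tt Q C y' - tt Q C y| * ρ ≤ B + B / c₀ := add_le_add (hs i) h2
  have h5 : 0 ≤ Q.W i / ww Q C i (tt Q C y') :=
    div_nonneg (h.W0 i).le (ww_pos h.nest i hy' (Or.inr h.CW)).le
  have h6 : B ≤ B / c₀ := by rw [le_div_iff₀ h.c0]; nlinarith [h.c1]
  have hc := h.c0
  have hr := h.r0
  calc _ ≤ 1 / c₀ * (B + B / c₀) := mul_le_mul h3 h4 (by positivity) (by positivity)
    _ ≤ 1 / c₀ * (B / c₀ + B / c₀) := by gcongr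
    _ = 2 / c₀ ^ 2 * B := by field_simp; ring

/-- (A1') near isometry: coordinates in `P` -/
theorem incrP {y y' : ι → ℝ} (hy : 0 ≤ tt Q C y) (hy' : 0 ≤ tt Q C y') (hy1' : tt Q C y' ≤ 1)
    (hJ : ∀ i ∈ P, C.lo i ≤ y i ∧ y i ≤ C.hi i) (hJ' : ∀ i ∈ P, C.lo i ≤ y' i ∧ y' i ≤ C.hi i)
    {i : ι} (hi : i ∈ P) :
    |psh Q C y' i - psh Q C y i - (y' i - y i)| ≤
      κ * |y' i - y i| + (1 + κ) / c₀ * ∑ j ∈ Pᶜ, |y' j - y j| := by
  have hs : ∀ j ∈ ((Pᶜ : Finset ι) : Set ι), |y' j - y j| ≤ ∑ j ∈ Pᶜ, |y' j - y j| := fun j hj =>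
    Finset.single_le_sum (f := fun j => |y' j - y j|) (fun _ _ => abs_nonneg _)
      (Finset.mem_coe.1 hj)
  set B := ∑ j ∈ Pᶜ, |y' j - y j| with hB
  have hB0 : 0 ≤ B := Finset.sum_nonneg fun _ _ => abs_nonneg _
  have hP : ∀ i, i ∉ ((Pᶜ : Finset ι) : Set ι) → i ∈ P := by
    intro i hi; simpa using hi
  have h1 := abs_psh_sub_sub_le h.nest y y' hy h.CW hy' hy1' i (h.hi2 i) (h.lo2 i)
  have h2 := h.tt_sub hy hy' (J := ((Pᶜ : Finset ι) : Set ι)) (fun i hi => hJ i (hP i hi))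
    (fun i hi => hJ' i (hP i hi)) hs hB0
  have h3 : Q.W i / C.W i ≤ 1 + κ := by
    rw [div_le_iff₀ (h.CW i)]; exact h.wdP i hi
  have h4 : 0 ≤ Q.W i / C.W i := div_nonneg (h.W0 i).le (h.CW i).le
  have hc := h.c0
  refine h1.trans (add_le_add ?_ ?_)
  · exact mul_le_mul_of_nonneg_right (by linarith) (abs_nonneg _)
  · calc _ ≤ (1 + κ) * (B / c₀) := mul_le_mul h3 h2 (by have := h.r0; positivity)
          (by linarith [h.k0])
      _ = _ := by ring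


end Shape

/-- the hole `B` in the core `C`. -/
structure Inner (C B : Box ι) : Prop where
  W0 : ∀ i, 0 < C.W i
  lo : ∀ i, C.lo i + C.W i / 8 ≤ B.lo i
  hi : ∀ i, B.hi i ≤ C.hi i - C.W i / 8

namespace Inner

variable {C B : Box ι} (h : Inner C B)
include h

theorem nest : Nest B C :=
  ⟨fun i => by linarith [h.lo i, h.W0 i], fun i => by linarith [h.hi i, h.W0 i]⟩

theorem gap : Gap C B (fun i => C.W i / 8) := fun i =>
  ⟨by linarith [h.W0 i], by linarith [h.hi i], by linarith [h.lo i]⟩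

theorem gapU (i : ι) : C.hi i - B.hi i ≤ C.W i ∧ B.lo i - C.lo i ≤ C.W i := by
  have h1 := B.le i
  have h2 := h.lo i
  have h3 := h.hi i
  have h4 := h.W0 i
  have h5 : C.W i = C.hi i - C.lo i := rfl
  constructor <;> linarith

theorem W_le_ww (i : ι) {t : ℝ} (ht : 0 ≤ t) (ht1 : t ≤ 1) : t * C.W i ≤ ww C B i t := by
  rw [ww_eq]
  have h1 := B.W_nonneg i
  have h2 : B.W i ≤ C.W i := by
    have := h.nest.g1 i; have := h.nest.g2 i; unfold Box.W; linarith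
  nlinarith [ht, mul_nonneg (sub_nonneg.2 ht1) h1]

/-- increments of the inner push; `M` bounds `C.W i / w_i(t')`. -/
theorem incr {y y' : ι → ℝ} (hy : 0 ≤ tt C B y) (h0 : 0 < tt C B y ∨ ∀ i, 0 < B.W i)
    (hy' : 0 ≤ tt C B y') (h0' : 0 < tt C B y' ∨ ∀ i, 0 < B.W i) {M : ℝ}
    (hM : ∀ i, C.W i ≤ M * ww C B i (tt C B y')) (i : ι) :
    |psh C B y' i - psh C B y i| ≤ 9 * M * ∑ j, C.W i / C.W j * |y' j - y j| := by
  set R := ∑ j, C.W i / C.W j * |y' j - y j| with hR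
  have hs : ∀ j, C.W i / C.W j * |y' j - y j| ≤ R := fun j =>
    Finset.single_le_sum (f := fun j => C.W i / C.W j * |y' j - y j|)
      (fun j _ => mul_nonneg (div_nonneg (h.W0 i).le (h.W0 j).le) (abs_nonneg _))
      (Finset.mem_univ j)
  have hR0 : 0 ≤ R := Finset.sum_nonneg
    fun j _ => mul_nonneg (div_nonneg (h.W0 i).le (h.W0 j).le) (abs_nonneg _)
  have hWi := h.W0 i
  have h1 := abs_psh_sub_le h.nest y y' hy h0 hy' h0' i (h.gapU i).1 (h.gapU i).2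
  have h2 := abs_tt_sub_le h.nest h.gap (J := univ) (B := 8 * R / C.W i)
    (fun i hi => absurd (mem_univ i) hi) (fun i hi => absurd (mem_univ i) hi) hy hy'
    (by positivity) (fun j _ => by
      have h3 := hs j
      have h4 := h.W0 j
      rw [div_le_div_iff₀ (by positivity) hWi]
      have h5 : C.W i / C.W j * |y' j - y j| * C.W j = C.W i * |y' j - y j| := by
        field_simp
      nlinarith [mul_le_mul_of_nonneg_right h3 h4.le])
  have h3 : |tt C B y' - tt C B y| * C.W i ≤ 8 * R := by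
    have := mul_le_mul_of_nonneg_right h2 hWi.le
    rwa [div_mul_cancel₀ _ hWi.ne'] at this
  have h4 : |y' i - y i| ≤ R := by
    have := hs i
    rwa [div_self hWi.ne', one_mul] at this
  have hw := ww_pos h.nest i hy' h0'
  have h5 : C.W i / ww C B i (tt C B y') ≤ M := by
    rw [div_le_iff₀ hw]; exact hM i
  have h6 : 0 ≤ C.W i / ww C B i (tt C B y') := div_nonneg hWi.le hw.le
  refine h1.trans ?_
  calc _ ≤ M * (R + 8 * R) := mul_le_mul h5 (add_le_add h4 h3) (by positivity) (h6.trans h5)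
    _ = 9 * M * R := by ring

end Inner

/-- **the two-level push** -/
def psi (Q C B : Box ι) (y : ι → ℝ) : ι → ℝ := by
  classical
  exact if y ∈ C.S then psh Q C (psh C B y) else psh Q C y

theorem psi_in {Q C B : Box ι} {y : ι → ℝ} (h : y ∈ C.S) : psi Q C B y = psh Q C (psh C B y) := by
  classical
  unfold psi; rw [if_pos h]

theorem psi_out {Q C B : Box ι} {y : ι → ℝ} (hCB : Nest B C) (h : y ∉ C.I) :
    psi Q C B y = psh Q C y := by
  classical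
  unfold psi
  split_ifs with hy
  · rw [psh_eq_self hCB (tt_eq_one hCB hy h)]
  · rfl

/-- `y` is outside the hole. -/
def Off (C B : Box ι) (y : ι → ℝ) : Prop := 0 ≤ tt C B y ∧ (0 < tt C B y ∨ ∀ i, 0 < B.W i)

section psi

variable {P : Finset ι} {c₀ κ ρ : ℝ} {Q C B : Box ι} (hQ : Shape P c₀ κ ρ Q C) (hC : Inner C B)
include hQ hC


theorem psh_inner_tt {y : ι → ℝ} (hy : Off C B y) : tt Q C (psh C B y) = 0 := by
  have h1 := psh_mem hC.nest hy.1 hy.2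
  have h2 := psh_not_mem_I hC.nest hy.1 hy.2
  apply le_antisymm
  · exact (tt_le_zero_iff hQ.nest _).2 h1
  · exact not_lt.1 (mt (tt_lt_zero_iff hQ.nest _).1 h2)

/-- `psi` maps `Q \ hole` into the boundary of `Q`. -/
theorem psi_bd {y : ι → ℝ} (hyQ : y ∈ Q.S) (hy : Off C B y) :
    psi Q C B y ∈ Q.S ∧ psi Q C B y ∉ Q.I := by
  by_cases hyC : y ∈ C.S
  · rw [psi_in hyC]
    have h0 := psh_inner_tt hQ hC hy
    exact ⟨psh_mem hQ.nest h0.ge (Or.inr hQ.CW), psh_not_mem_I hQ.nest h0.ge (Or.inr hQ.CW)⟩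
  · have h1 : y ∉ C.I := fun h => hyC (fun i => ⟨(h i).1.le, (h i).2.le⟩)
    rw [psi_out hC.nest h1]
    have h2 : 0 ≤ tt Q C y := not_lt.1 (mt (tt_lt_zero_iff hQ.nest _).1 h1)
    exact ⟨psh_mem hQ.nest h2 (Or.inr hQ.CW), psh_not_mem_I hQ.nest h2 (Or.inr hQ.CW)⟩

/-- `psi = id` on the boundary of `Q`. -/
theorem psi_eq_self {y : ι → ℝ} (hyQ : y ∈ Q.S) (hy : y ∉ Q.I) : psi Q C B y = y := by
  have h1 : y ∉ C.I := fun h => hy (fun i => by
    have := h i; have := hQ.nest.lo i; have := hQ.nest.hi i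
    constructor <;> linarith)
  rw [psi_out hC.nest h1, psh_eq_self hQ.nest (tt_eq_one hQ.nest hyQ hy)]

/-- increments outside the core -/
theorem psi_incr_out {y y' : ι → ℝ} (hy : y ∉ C.I) (hy' : y' ∉ C.I) (i : ι) :
    |psi Q C B y' i - psi Q C B y i| ≤ 2 / c₀ ^ 2 * ∑ j, |y' j - y j| := by
  rw [psi_out hC.nest hy, psi_out hC.nest hy']
  exact hQ.incr (not_lt.1 (mt (tt_lt_zero_iff hQ.nest _).1 hy))
    (not_lt.1 (mt (tt_lt_zero_iff hQ.nest _).1 hy')) i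

/-- increments inside the core (`t = 0` on `∂C`, so the outer push only stretches) -/
theorem psi_incr_in {y y' : ι → ℝ} (hy : y ∈ C.S) (hy' : y' ∈ C.S) (hyo : Off C B y)
    (hyo' : Off C B y') {M : ℝ} (hM : ∀ i, C.W i ≤ M * ww C B i (tt C B y')) {a : ι → ℝ}
    (ha : ∀ i j, Q.W i ≤ a j * C.W j) (i : ι) :
    |psi Q C B y' i - psi Q C B y i| ≤ 9 * M * ∑ j, a j * |y' j - y j| := by
  rw [psi_in hy, psi_in hy']
  have t0 := psh_inner_tt hQ hC hyo
  have t0' := psh_inner_tt hQ hC hyo'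
  have h1 := abs_psh_sub_le hQ.nest (psh C B y) (psh C B y') t0.ge (Or.inr hQ.CW) t0'.ge
    (Or.inr hQ.CW) i (hQ.hi2 i) (hQ.lo2 i)
  rw [t0, t0', sub_zero, abs_zero, zero_mul, add_zero] at h1
  have hw : ww Q C i 0 = C.W i := by rw [ww_eq]; ring
  rw [hw] at h1
  have hM0 : 0 ≤ M := by
    have hw := ww_pos hC.nest i hyo'.1 hyo'.2
    have h2 := hM i
    have h3 := hC.W0 i
    by_contra hneg
    nlinarith
  have hCi := hC.W0 i
  have hr : 0 ≤ Q.W i / C.W i := div_nonneg (hQ.W0 i).le hCi.le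
  have h2 := hC.incr hyo.1 hyo.2 hyo'.1 hyo'.2 hM i
  refine h1.trans ((mul_le_mul_of_nonneg_left h2 hr).trans ?_)
  have e1 : Q.W i / C.W i * (9 * M * ∑ j, C.W i / C.W j * |y' j - y j|) =
      9 * M * ∑ j, Q.W i / C.W j * |y' j - y j| := by
    rw [Finset.mul_sum, Finset.mul_sum, Finset.mul_sum]
    apply Finset.sum_congr rfl
    intro j _
    have hCj := hC.W0 j
    field_simp
  rw [e1]
  apply mul_le_mul_of_nonneg_left _ (by positivity)
  apply Finset.sum_le_sum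
  intro j _
  apply mul_le_mul_of_nonneg_right _ (abs_nonneg _)
  rw [div_le_iff₀ (hC.W0 j)]
  exact ha i j

end psi

end Crest.Agent.R96.Push_899
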