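import Mathlib
import Crest.Agent.R96.Sob5_199
import Crest.Agent.R96.Push4_899

-- ▼ part R96/Push2_899
section

/-!
# Row 96, U2 PUSH (helper899), part 2: pointwise Lipschitz ⇒ Lipschitz; locally finite closed covers
-/

set_option autoImplicit false

open Set Filter Topology
open scoped NNReal

noncomputable section

namespace Crest.Agent.R96.Push_899

/-! ### pointwise Lipschitz implies Lipschitz on convex sets -/

/-- one-dimensional: a continuous function on `[0,1]` whose right increments are locally bounded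
by `C` has total increment at most `C`. -/
theorem incr_le_of_right {F : Type*} [NormedAddCommGroup F] {g : ℝ → F}
    {C : ℝ} (hg : ContinuousOn g (Icc 0 1))
    (h : ∀ x ∈ Ico (0:ℝ) 1, ∀ᶠ z in 𝓝[>] x, ‖g z - g x‖ ≤ C * (z - x)) :
    ‖g 1 - g 0‖ ≤ C := by
  have key := image_le_of_liminf_slope_right_le_deriv_boundary (f := fun x => ‖g x - g 0‖)
    (a := 0) (b := 1) (hg.sub continuousOn_const).norm
    (B := fun x => C * x) (B' := fun _ => C) (by simp) (by fun_prop) ?_ ?_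
  · have h1 := key (x := 1) (right_mem_Icc.2 zero_le_one)
    simpa using h1
  · intro x _
    have h1 : HasDerivAt (fun x : ℝ => C * x) (C * 1) x := (hasDerivAt_id x).const_mul C
    simpa using h1.hasDerivWithinAt
  · intro x hx r hr
    apply Eventually.frequently
    filter_upwards [h x hx, self_mem_nhdsWithin] with z hz hz2
    have hzx : 0 < z - x := sub_pos.2 hz2
    rw [slope_def_field, div_lt_iff₀ hzx]
    have h2 : ‖g z - g 0‖ - ‖g x - g 0‖ ≤ ‖g z - g x‖ := by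
      have h3 := norm_sub_norm_le (g z - g 0) (g x - g 0)
      simpa using h3
    nlinarith

theorem lip_of_pointwise {E F : Type*} [NormedAddCommGroup E] [NormedSpace ℝ E]
    [NormedAddCommGroup F] {U : Set E} (hU : Convex ℝ U) {θ : E → F} {C : ℝ≥0}
    (h : ∀ y ∈ U, ∀ᶠ y' in 𝓝[U] y, ‖θ y' - θ y‖ ≤ C * ‖y' - y‖) : LipschitzOnWith C θ U := by
  have hcont : ContinuousOn θ U := by
    intro y hy
    rw [ContinuousWithinAt, tendsto_iff_norm_sub_tendsto_zero]
    have h1 : Tendsto (fun y' => (C:ℝ) * ‖y' - y‖) (𝓝[U] y) (𝓝 0) := by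
      have h2 : Tendsto (fun y' => (C:ℝ) * ‖y' - y‖) (𝓝 y) (𝓝 ((C:ℝ) * ‖y - y‖)) :=
        (Continuous.tendsto (by fun_prop) y)
      simp only [sub_self, norm_zero, mul_zero] at h2
      exact h2.mono_left nhdsWithin_le_nhds
    exact squeeze_zero' (Eventually.of_forall fun _ => norm_nonneg _) (h y hy) h1
  apply LipschitzOnWith.of_dist_le_mul
  intro a ha b hb
  rw [dist_comm, dist_comm a, dist_eq_norm, dist_eq_norm]
  set L : ℝ → E := fun t => a + t • (b - a) with hL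
  have hLc : Continuous L := by fun_prop
  have hLU : ∀ t ∈ Icc (0:ℝ) 1, L t ∈ U := by
    intro t ht
    exact hU.add_smul_sub_mem ha hb ht
  have key := incr_le_of_right (g := fun t => θ (L t)) (C := C * ‖b - a‖)
    (hcont.comp hLc.continuousOn hLU) ?_
  · simpa [hL] using key
  · intro x hx
    have hxU := hLU x ⟨hx.1, hx.2.le⟩
    have h1 : Tendsto L (𝓝[>] x) (𝓝[U] (L x)) := by
      rw [tendsto_nhdsWithin_iff]
      refine ⟨(hLc.tendsto x).mono_left nhdsWithin_le_nhds, ?_⟩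
      filter_upwards [Ioo_mem_nhdsGT hx.2] with z hz
      exact hLU z ⟨hx.1.trans hz.1.le, hz.2.le⟩
    filter_upwards [h1.eventually (h _ hxU), self_mem_nhdsWithin] with z hz hz2
    have h2 : L z - L x = (z - x) • (b - a) := by
      simp only [hL]; module
    rw [h2, norm_smul, Real.norm_eq_abs, abs_of_pos (sub_pos.2 hz2)] at hz
    linarith [hz]

/-! ### locally finite closed covers -/

section cover

set_option linter.unusedSectionVars false
variable {E I : Type*} [TopologicalSpace E]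

/-- locally finite closed cover of `Λ` -/
structure Cells (Λ : Set E) (K : I → Set E) : Prop where
  closed : ∀ c, IsClosed (K c)
  sub : ∀ c, K c ⊆ Λ
  cover : ∀ y ∈ Λ, ∃ c, y ∈ K c
  locfin : ∀ y ∈ Λ, ∃ U ∈ 𝓝 y, {c | (K c ∩ U).Nonempty}.Finite

variable {Λ : Set E} {K : I → Set E}

theorem Cells.near (h : Cells Λ K) {y : E} (hy : y ∈ Λ) :
    ∀ᶠ y' in 𝓝[Λ] y, ∀ c, y' ∈ K c → y ∈ K c := by
  obtain ⟨U, hU, hfin⟩ := h.locfin y hy
  have h1 : ∀ᶠ y' in 𝓝 y, ∀ c ∈ {c | (K c ∩ U).Nonempty}, y ∉ K c → y' ∉ K c := by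
    rw [eventually_all_finite hfin]
    intro c _
    by_cases hc : y ∈ K c
    · exact Eventually.of_forall fun _ h => absurd hc h
    · filter_upwards [(h.closed c).isOpen_compl.mem_nhds hc] with y' hy' _ using hy'
  filter_upwards [nhdsWithin_le_nhds h1, nhdsWithin_le_nhds hU] with y' h2 h3 c hc
  by_contra hyc
  exact h2 c ⟨y', hc, h3⟩ hyc hc

/-- a property near `y`, checked cell by cell. -/
theorem Cells.eventually (h : Cells Λ K) {y : E} {S : Set E} (hS : S ⊆ Λ) (hy : y ∈ S)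
    {P : E → Prop} (hP : ∀ c, y ∈ K c → ∀ᶠ y' in 𝓝[K c ∩ S] y, P y') :
    ∀ᶠ y' in 𝓝[S] y, P y' := by
  obtain ⟨U, hU, hfin⟩ := h.locfin y (hS hy)
  have h1 : ∀ᶠ y' in 𝓝 y, ∀ c ∈ {c | (K c ∩ U).Nonempty}, y ∈ K c → y' ∈ K c ∩ S → P y' := by
    rw [eventually_all_finite hfin]
    intro c _
    by_cases hc : y ∈ K c
    · have h2 := hP c hc
      rw [eventually_nhdsWithin_iff] at h2
      filter_upwards [h2] with y' hy' _ using hy'
    · exact Eventually.of_forall fun _ h => absurd h hc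
  have hΛ : 𝓝[S] y ≤ 𝓝[Λ] y := nhdsWithin_mono _ hS
  filter_upwards [nhdsWithin_le_nhds h1, nhdsWithin_le_nhds hU, hΛ (h.near (hS hy)),
    self_mem_nhdsWithin] with y' h2 h3 h4 h5
  obtain ⟨c, hc⟩ := h.cover y' (hS h5)
  exact h2 c ⟨y', hc, h3⟩ (h4 c hc) ⟨hc, h5⟩

/-- a union of closed subsets of the cells is relatively closed -/
theorem Cells.isOpen_diff (h : Cells Λ K) (hΛ : IsOpen Λ) {R : I → Set E}
    (hR : ∀ c, IsClosed (R c)) (hRK : ∀ c, R c ⊆ K c) : IsOpen (Λ \ ⋃ c, R c) := by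
  rw [isOpen_iff_mem_nhds]
  rintro y ⟨hy, hyR⟩
  obtain ⟨U, hU, hfin⟩ := h.locfin y hy
  have h1 : ∀ᶠ y' in 𝓝 y, ∀ c ∈ {c | (K c ∩ U).Nonempty}, y' ∉ R c := by
    rw [eventually_all_finite hfin]
    intro c _
    exact (hR c).isOpen_compl.mem_nhds (fun hc => hyR (mem_iUnion.2 ⟨c, hc⟩))
  filter_upwards [h1, hU, hΛ.mem_nhds hy] with y' h2 h3 h4
  refine ⟨h4, ?_⟩
  rw [mem_iUnion]
  rintro ⟨c, hc⟩
  exact h2 c ⟨y', hRK c hc, h3⟩ hc

/-- gluing of maps which agree on overlaps -/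
def glue (K : I → Set E) {F : Type*} (ψ : I → E → F) (φ : E → F) (y : E) : F := by
  classical
  exact if h : ∃ c, y ∈ K c then ψ h.choose y else φ y

theorem glue_eq {F : Type*} {ψ : I → E → F} {φ : E → F} {y : E} {c : I} (hc : y ∈ K c)
    (hψ : ∀ c', y ∈ K c' → ψ c' y = ψ c y) : glue K ψ φ y = ψ c y := by
  classical
  have h : ∃ c, y ∈ K c := ⟨c, hc⟩
  unfold glue
  rw [dif_pos h]
  exact hψ _ h.choose_spec

theorem Cells.continuousOn (h : Cells Λ K) {S : Set E} (hS : S ⊆ Λ) {F : Type*}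
    [TopologicalSpace F] {θ : E → F} (hθ : ∀ c, ContinuousOn θ (K c ∩ S)) : ContinuousOn θ S := by
  intro y hy
  intro V hV
  apply h.eventually hS hy (P := fun y' => θ y' ∈ V)
  intro c hc
  exact hθ c y ⟨hc, hy⟩ hV

end cover

/-- local Lipschitz bound on a relatively open subset from pointwise bounds in the cells -/
theorem Cells.locLip {E I F : Type*} [NormedAddCommGroup E] [NormedSpace ℝ E]
    [NormedAddCommGroup F] {Λ : Set E} {K : I → Set E} (h : Cells Λ K) {S : Set E}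
    (hSo : IsOpen S) (hS : S ⊆ Λ) {θ : E → F}
    (hθ : ∀ c, ∀ y ∈ K c ∩ S, ∃ C : ℝ, ∃ V ∈ 𝓝 y, ∀ y₁ ∈ V ∩ (K c ∩ S), ∀ y₂ ∈ V ∩ (K c ∩ S),
      ‖θ y₂ - θ y₁‖ ≤ C * ‖y₂ - y₁‖) : LocallyLipschitzOn S θ := by
  classical
  intro y hy
  obtain ⟨U, hU, hfin⟩ := h.locfin y (hS hy)
  -- a uniform constant for the finitely many cells containing `y`
  have h1 : ∃ C : ℝ≥0, ∃ V ∈ 𝓝 y, ∀ c, y ∈ K c → ∀ y₁ ∈ V ∩ (K c ∩ S),
      ∀ y₂ ∈ V ∩ (K c ∩ S), ‖θ y₂ - θ y₁‖ ≤ C * ‖y₂ - y₁‖ := by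
    have h2 : {c | y ∈ K c}.Finite := by
      apply hfin.subset
      intro c hc
      exact ⟨y, hc, mem_of_mem_nhds hU⟩
    have h3 : ∀ c : I, ∃ C : ℝ, ∃ V ∈ 𝓝 y, y ∈ K c → ∀ y₁ ∈ V ∩ (K c ∩ S),
        ∀ y₂ ∈ V ∩ (K c ∩ S), ‖θ y₂ - θ y₁‖ ≤ C * ‖y₂ - y₁‖ := by
      intro c
      by_cases hc : y ∈ K c
      · obtain ⟨C, V, hV, hCV⟩ := hθ c y ⟨hc, hy⟩
        exact ⟨C, V, hV, fun _ => hCV⟩
      · exact ⟨0, univ, univ_mem, fun h => absurd h hc⟩
    choose C V hV hCV using h3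
    refine ⟨(∑ c ∈ h2.toFinset, (C c).toNNReal), ⋂ c ∈ {c | y ∈ K c}, V c, ?_, ?_⟩
    · rw [biInter_mem h2]
      exact fun c _ => hV c
    · intro c hc y₁ hy₁ y₂ hy₂
      have h4 := hCV c hc y₁ ⟨(mem_iInter₂.1 hy₁.1 c hc), hy₁.2⟩ y₂
        ⟨(mem_iInter₂.1 hy₂.1 c hc), hy₂.2⟩
      refine h4.trans (mul_le_mul_of_nonneg_right ?_ (norm_nonneg _))
      refine (Real.le_coe_toNNReal (C c)).trans ?_
      exact_mod_cast Finset.single_le_sum (f := fun c => (C c).toNNReal)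
        (fun _ _ => bot_le) (h2.mem_toFinset.2 hc)
  obtain ⟨C, V, hV, hCV⟩ := h1
  -- a small ball on which only the cells containing `y` are met
  have h5 : ∀ᶠ y' in 𝓝 y, y' ∈ V ∧ y' ∈ S ∧ ∀ c, y' ∈ K c → y ∈ K c := by
    have h6 := h.near (hS hy)
    rw [eventually_nhdsWithin_iff] at h6
    filter_upwards [hV, hSo.mem_nhds hy, h6] with y' a b c
    exact ⟨a, b, c (hS b)⟩
  obtain ⟨r, hr, hball⟩ := Metric.eventually_nhds_iff_ball.1 h5
  refine ⟨C, Metric.ball y r, mem_nhdsWithin_of_mem_nhds (Metric.ball_mem_nhds y hr), ?_⟩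
  apply lip_of_pointwise (convex_ball y r)
  intro y₁ hy₁
  obtain ⟨a1, a2, a3⟩ := hball y₁ hy₁
  have h7 : ∀ᶠ y₂ in 𝓝[S] y₁, y₂ ∈ Metric.ball y r → ‖θ y₂ - θ y₁‖ ≤ C * ‖y₂ - y₁‖ := by
    apply h.eventually hS a2
    intro c hc
    filter_upwards [self_mem_nhdsWithin] with y₂ hy₂ hb
    exact hCV c (a3 c hc) y₁ ⟨a1, hc, a2⟩ y₂ ⟨(hball y₂ hb).1, hy₂⟩
  have h8 : ∀ᶠ y₂ in 𝓝 y₁, y₂ ∈ Metric.ball y r → ‖θ y₂ - θ y₁‖ ≤ C * ‖y₂ - y₁‖ := by
    rw [eventually_nhdsWithin_iff] at h7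
    filter_upwards [h7, hSo.mem_nhds a2] with y₂ b1 b2 using b1 b2
  rw [eventually_nhdsWithin_iff]
  exact h8

end Crest.Agent.R96.Push_899
end
end

-- ▼ part R96/Push3_899
section

/-!
# Row 96, U2 PUSH (helper899), part 3: coordinate-wise bounds for the derivative of a composition
-/

set_option autoImplicit false
set_option linter.unusedSectionVars false

open MeasureTheory Set Filter
open scoped ContDiff Topology NNReal

noncomputable section

namespace Crest.Agent.R96.Push_899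

open Crest.Agent.R96.Acl_392 Crest.Agent.R96.Sob1_199 Crest.Agent.R96.Sob2_199
  Crest.Agent.R96.Sob3_199 Crest.Agent.R96.Sob4_199 Crest.Agent.R96.Sob5_199

variable {E : Type*} [NormedAddCommGroup E] [NormedSpace ℝ E] [FiniteDimensional ℝ E]
  [MeasurableSpace E] [BorelSpace E] {μ : Measure E} [μ.IsAddHaarMeasure]

variable {ι : Type*} [Fintype ι]

/-- one variable: coordinate-wise increments bound the derivative -/
theorem deriv_aniso {φ : ℝ → EuclideanSpace ℝ ι} {θ : EuclideanSpace ℝ ι → ℝ} {τ : ℝ}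
    {v : EuclideanSpace ℝ ι} {w : ℝ} {S : Set (EuclideanSpace ℝ ι)} {b A : ι → ℝ}
    (h1 : HasDerivAt φ v τ) (h2 : HasDerivAt (fun σ => θ (φ σ)) w τ)
    (hS : ∀ᶠ σ in 𝓝 τ, φ σ ∈ S)
    (hL : ∀ᶠ y in 𝓝[S] (φ τ), |θ y - θ (φ τ) - ∑ i, b i * (y i - φ τ i)| ≤
      ∑ i, A i * |y i - φ τ i|) :
    |w - ∑ i, b i * v i| ≤ ∑ i, A i * |v i| := by
  have hv : ∀ i, HasDerivAt (fun σ => φ σ i) (v i) τ := fun i => hasDerivAt_apply' h1 i
  have h3 : HasDerivAt (fun σ => θ (φ σ) - ∑ i, b i * φ σ i) (w - ∑ i, b i * v i) τ := by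
    apply h2.sub
    exact HasDerivAt.fun_sum fun i _ => (hv i).const_mul (b i)
  have h4 := (hasDerivAt_iff_tendsto_slope.1 h3).abs
  have h5 : Tendsto (fun σ => ∑ i, A i * |slope (fun s => φ s i) τ σ|) (𝓝[≠] τ)
      (𝓝 (∑ i, A i * |v i|)) :=
    tendsto_finsetSum _ fun i _ => ((hasDerivAt_iff_tendsto_slope.1 (hv i)).abs).const_mul _
  refine le_of_tendsto_of_tendsto h4 h5 ?_
  have h6 : Tendsto φ (𝓝 τ) (𝓝[S] (φ τ)) :=
    tendsto_nhdsWithin_iff.2 ⟨h1.continuousAt.tendsto, hS⟩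
  filter_upwards [(h6.eventually hL).filter_mono nhdsWithin_le_nhds] with σ hσ
  simp only [slope_def_field, abs_div]
  have e1 : θ (φ σ) - ∑ i, b i * φ σ i - (θ (φ τ) - ∑ i, b i * φ τ i) =
      θ (φ σ) - θ (φ τ) - ∑ i, b i * (φ σ i - φ τ i) := by
    simp only [mul_sub, Finset.sum_sub_distrib]; ring
  rw [e1]
  have e2 : ∑ i, A i * (|φ σ i - φ τ i| / |σ - τ|) = (∑ i, A i * |φ σ i - φ τ i|) / |σ - τ| := by
    rw [Finset.sum_div]
    exact Finset.sum_congr rfl fun i _ => by ring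
  rw [e2]
  exact div_le_div_of_nonneg_right hσ (abs_nonneg _)

/-- **coordinate-wise bound** (for `x` in a set `T` whose indicator is a.e. measurable) -/
theorem comp_aniso {Ω : Set E} (hΩ : IsOpen Ω) {f D : E → EuclideanSpace ℝ ι} {e : E}
    (h : VWD Ω μ f D e) (hf : ContinuousOn f Ω) {S : Set (EuclideanSpace ℝ ι)}
    (hS : MapsTo f Ω S) {θ : EuclideanSpace ℝ ι → ℝ} (hθ : ContinuousOn θ S) {d : E → ℝ}
    (h' : WD Ω μ (fun x => θ (f x)) d e) {T : Set E} (hT : NullMeasurableSet T (μ.restrict Ω))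
    {b A : E → ι → ℝ} (hb : ∀ i, AEMeasurable (fun x => b x i) (μ.restrict Ω))
    (hA : ∀ i, AEMeasurable (fun x => A x i) (μ.restrict Ω))
    (hL : ∀ x ∈ Ω, x ∈ T → ∀ᶠ y in 𝓝[S] (f x),
      |θ y - θ (f x) - ∑ i, b x i * (y i - f x i)| ≤ ∑ i, A x i * |y i - f x i|) :
    ∀ᵐ x ∂μ, x ∈ Ω → x ∈ T → |d x - ∑ i, b x i * D x i| ≤ ∑ i, A x i * |D x i| := by
  have hDi : ∀ i, AEMeasurable (fun x => D x i) (μ.restrict Ω) := fun i =>
    (aemeas_of_loc (h i).lg).aemeasurable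
  have hd : AEMeasurable d (μ.restrict Ω) := (aemeas_of_loc h'.lg).aemeasurable
  have m1 : AEMeasurable (fun x => |d x - ∑ i, b x i * D x i|) (μ.restrict Ω) := by
    have h1 : AEMeasurable (fun x => ∑ i, b x i * D x i) (μ.restrict Ω) :=
      Finset.aemeasurable_fun_sum _ fun i _ => (hb i).mul (hDi i)
    exact (measurable_norm.comp_aemeasurable (hd.sub h1))
  have m2 : AEMeasurable (fun x => ∑ i, A x i * |D x i|) (μ.restrict Ω) :=
    Finset.aemeasurable_fun_sum _ fun i _ => (hA i).mul (measurable_norm.comp_aemeasurable (hDi i))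
  -- use the indicator of `T`
  obtain ⟨T', hT'1, hT'2, hT'3⟩ : ∃ T', MeasurableSet T' ∧ T' =ᵐ[μ.restrict Ω] T ∧ True := by
    obtain ⟨T', a, b⟩ := hT.exists_measurable_superset_ae_eq
    exact ⟨T', b.1, b.2, trivial⟩
  have hTT : ∀ᵐ x ∂μ, x ∈ Ω → (x ∈ T' ↔ x ∈ T) := by
    have h1 : ∀ᵐ x ∂(μ.restrict Ω), (x ∈ T' ↔ x ∈ T) := by
      filter_upwards [hT'2.mem_iff] with x hx using hx
    exact (ae_restrict_iff' hΩ.measurableSet).1 h1
  have key := ae_le_of_line hΩ (e := e) (μ := μ)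
    (a := fun x => T'.indicator (fun _ => (1:ℝ)) x * |d x - ∑ i, b x i * D x i|)
    (b := fun x => T'.indicator (fun _ => (1:ℝ)) x * ∑ i, A x i * |D x i|)
    ((measurable_const.indicator hT'1).aemeasurable.mul m1)
    ((measurable_const.indicator hT'1).aemeasurable.mul m2) (by
      have hθf : ContinuousOn (fun x => θ (f x)) Ω := hθ.comp hf hS
      filter_upwards [vline_deriv hΩ h hf, (line_deriv hΩ h' hθf).1, ae_line_of_ae hTT e]
        with x hx hx' hx''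
      filter_upwards [hx, hx', hx''] with τ h1 h2 h3 hxτ
      by_cases hxT : x + τ • e ∈ T'
      · rw [indicator_of_mem hxT, one_mul, one_mul]
        refine deriv_aniso (h1 hxτ) (h2 hxτ) (S := S) ?_ (hL _ hxτ ((h3 hxτ).1 hxT))
        have hc : Continuous (fun s : ℝ => x + s • e) := by fun_prop
        have h4 : (fun s : ℝ => x + s • e) ⁻¹' Ω ∈ 𝓝 τ := (hΩ.preimage hc).mem_nhds hxτ
        filter_upwards [h4] with s hs using hS hs
      · rw [indicator_of_notMem hxT, zero_mul, zero_mul])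
  filter_upwards [key, hTT] with x hx hx2 hxΩ hxT
  have h3 := hx hxΩ
  rw [indicator_of_mem ((hx2 hxΩ).2 hxT), one_mul, one_mul] at h3
  exact h3


end Crest.Agent.R96.Push_899
end
end

-- ▼ part R96/Push5_899

/-!
# Row 96, U2 PUSH (helper899), part 5: the global push `Psi` on a foam of boxes; pointwise bounds
for the derivatives of `Psi ∘ φ`.
-/

set_option autoImplicit false
set_option linter.unusedSectionVars false
set_option linter.unusedVariables false

open MeasureTheory Set Filter Topology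
open scoped NNReal

noncomputable section

namespace Crest.Agent.R96.Push_899

variable {ι : Type*} [Fintype ι] [Nonempty ι] [DecidableEq ι]

/-- Euclidean space -/
abbrev EE (ι : Type*) : Type _ := EuclideanSpace ℝ ι

/-- coordinates -/
def co (y : EE ι) : ι → ℝ := WithLp.ofLp y

@[simp] theorem co_apply (y : EE ι) (i : ι) : co y i = y i := rfl

theorem continuous_co : Continuous (co : EE ι → ι → ℝ) := PiLp.continuous_ofLp 2 _

theorem continuous_coord (i : ι) : Continuous (fun y : EE ι => y i) :=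
  (EuclideanSpace.proj i).continuous

/-- closed / open box in Euclidean space -/
def SE (Q : Box ι) : Set (EE ι) := {y | co y ∈ Q.S}
def IE (Q : Box ι) : Set (EE ι) := {y | co y ∈ Q.I}

theorem isClosed_SE (Q : Box ι) : IsClosed (SE Q) := by
  have h1 : SE Q = ⋂ i, {y : EE ι | Q.lo i ≤ y i ∧ y i ≤ Q.hi i} := by
    ext y; simp [SE, Box.S]
  rw [h1]
  exact isClosed_iInter fun i => (isClosed_le continuous_const (continuous_coord i)).inter
    (isClosed_le (continuous_coord i) continuous_const)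

theorem isOpen_IE (Q : Box ι) : IsOpen (IE Q) := by
  have h1 : IE Q = ⋂ i, {y : EE ι | Q.lo i < y i ∧ y i < Q.hi i} := by
    ext y; simp [IE, Box.I]
  rw [h1]
  exact isOpen_iInter_of_finite fun i => (isOpen_lt continuous_const (continuous_coord i)).inter
    (isOpen_lt (continuous_coord i) continuous_const)

theorem IE_subset_SE (Q : Box ι) : IE Q ⊆ SE Q := fun y h i => ⟨(h i).1.le, (h i).2.le⟩

theorem continuous_tt (Q C : Box ι) : Continuous (tt Q C) := by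
  unfold tt gg
  apply Continuous.finset_sup'_apply
  intro i _
  fun_prop

/-- a foam of boxes with cores and holes -/
structure FoamC (Λ : Set (EE ι)) {I : Type*} (Q C B : I → Box ι) (P : Finset ι) (c₀ : ℝ)
    (κ ρ : I → ℝ) : Prop where
  cells : Cells Λ (fun c => SE (Q c))
  disj : ∀ c c', c ≠ c' → ∀ y : ι → ℝ, y ∈ (Q c).S → y ∉ (Q c').I
  shape : ∀ c, Shape P c₀ (κ c) (ρ c) (Q c) (C c)
  inner : ∀ c, Inner (C c) (B c)

/-- the punctured target -/
def Pun (Λ : Set (EE ι)) {I : Type*} (B : I → Box ι) : Set (EE ι) := Λ \ ⋃ c, SE (B c)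

/-- the union of the boundaries of the bricks -/
def Wall {I : Type*} (Q : I → Box ι) : Set (EE ι) := ⋃ c, (SE (Q c) \ IE (Q c))

/-- **the global push** -/
def Psi {I : Type*} (Q C B : I → Box ι) (y : EE ι) : EE ι :=
  WithLp.toLp 2 (glue (fun c => SE (Q c)) (fun c y => psi (Q c) (C c) (B c) (co y)) co y)

/-- finer cells: outside the core / the core -/
def KK {I : Type*} (Q C : I → Box ι) (p : I × Bool) : Set (EE ι) :=
  if p.2 then SE (C p.1) else SE (Q p.1) \ IE (C p.1)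

variable {Λ : Set (EE ι)} {I : Type*} {Q C B : I → Box ι} {P : Finset ι} {c₀ : ℝ} {κ ρ : I → ℝ}

namespace FoamC

variable (h : FoamC Λ Q C B P c₀ κ ρ)
include h

theorem core_sub (c : I) : SE (C c) ⊆ IE (Q c) := fun y hy i =>
  ⟨lt_of_lt_of_le ((h.shape c).nest.lo i) (hy i).1, lt_of_le_of_lt (hy i).2 ((h.shape c).nest.hi i)⟩

theorem hole_sub (c : I) : SE (B c) ⊆ IE (C c) := fun y hy i =>
  ⟨lt_of_lt_of_le ((h.inner c).nest.lo i) (hy i).1, lt_of_le_of_lt (hy i).2 ((h.inner c).nest.hi i)⟩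

theorem core_unique {c c' : I} {y : EE ι} (hy : y ∈ SE (C c)) (hy' : y ∈ SE (Q c')) : c' = c := by
  by_contra hne
  exact h.disj c' c hne (co y) hy' (h.core_sub c hy)

theorem isOpen_pun (hΛ : IsOpen Λ) : IsOpen (Pun Λ B) :=
  h.cells.isOpen_diff hΛ (fun c => isClosed_SE _)
    (fun c => (h.hole_sub c).trans ((IE_subset_SE _).trans ((h.core_sub c).trans (IE_subset_SE _))))

theorem fine : Cells Λ (KK Q C) := by
  refine ⟨?_, ?_, ?_, ?_⟩
  · rintro ⟨c, b⟩
    cases b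
    · exact (isClosed_SE _).sdiff (isOpen_IE _)
    · exact isClosed_SE _
  · rintro ⟨c, b⟩
    cases b
    · exact sdiff_subset.trans (h.cells.sub c)
    · exact ((h.core_sub c).trans (IE_subset_SE _)).trans (h.cells.sub c)
  · intro y hy
    obtain ⟨c, hc⟩ := h.cells.cover y hy
    by_cases h1 : y ∈ IE (C c)
    · exact ⟨(c, true), IE_subset_SE _ h1⟩
    · exact ⟨(c, false), ⟨hc, h1⟩⟩
  · intro y hy
    obtain ⟨U, hU, hfin⟩ := h.cells.locfin y hy
    refine ⟨U, hU, ((hfin.prod (Set.finite_univ (α := Bool))).subset ?_)⟩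
    rintro ⟨c, b⟩ hne
    refine ⟨?_, mem_univ _⟩
    obtain ⟨z, hz1, hz2⟩ := hne
    refine ⟨z, ?_, hz2⟩
    cases b
    · exact hz1.1
    · exact IE_subset_SE _ (h.core_sub c hz1)

theorem Psi_eq {c : I} {y : EE ι} (hy : y ∈ SE (Q c)) :
    co (Psi Q C B y) = psi (Q c) (C c) (B c) (co y) := by
  unfold Psi
  have h1 : glue (fun c => SE (Q c)) (fun c y => psi (Q c) (C c) (B c) (co y)) co y =
      psi (Q c) (C c) (B c) (co y) := by
    apply glue_eq (K := fun c => SE (Q c)) hy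
    intro c' hc'
    by_cases hcc : c' = c
    · rw [hcc]
    · have a1 : co y ∉ (Q c).I := h.disj c' c hcc (co y) hc'
      have a2 : co y ∉ (Q c').I := h.disj c c' (Ne.symm hcc) (co y) hy
      rw [psi_eq_self (h.shape c') (h.inner c') hc' a2, psi_eq_self (h.shape c) (h.inner c) hy a1]
  rw [h1]
  rfl

theorem Psi_apply {c : I} {y : EE ι} (hy : y ∈ SE (Q c)) (i : ι) :
    Psi Q C B y i = psi (Q c) (C c) (B c) (co y) i := by
  rw [← h.Psi_eq hy]; rfl

theorem tt_pos {y : EE ι} (hy : y ∈ Pun Λ B) (c : I) : 0 < tt (C c) (B c) (co y) := by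
  by_contra hneg
  have h1 := (tt_le_zero_iff (h.inner c).nest (co y)).1 (not_lt.1 hneg)
  exact hy.2 (mem_iUnion.2 ⟨c, h1⟩)

theorem off {y : EE ι} (hy : y ∈ Pun Λ B) (c : I) : Off (C c) (B c) (co y) :=
  ⟨(h.tt_pos hy c).le, Or.inl (h.tt_pos hy c)⟩

/-- `Psi` maps the punctured target into the walls -/
theorem Psi_wall {y : EE ι} (hy : y ∈ Pun Λ B) : Psi Q C B y ∈ Wall Q := by
  obtain ⟨c, hc⟩ := h.cells.cover y hy.1
  have h1 := psi_bd (h.shape c) (h.inner c) hc (h.off hy c)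
  rw [← h.Psi_eq hc] at h1
  exact mem_iUnion.2 ⟨c, h1⟩

theorem Psi_mem_brick {y : EE ι} (hy : y ∈ Pun Λ B) {c : I} (hc : y ∈ SE (Q c)) :
    Psi Q C B y ∈ SE (Q c) \ IE (Q c) := by
  have h1 := psi_bd (h.shape c) (h.inner c) hc (h.off hy c)
  rw [← h.Psi_eq hc] at h1
  exact h1


end FoamC

/-- a finite bound from coordinates -/
theorem norm_le_sum (v : EE ι) : ‖v‖ ≤ ∑ i, |v i| := by
  rw [EuclideanSpace.norm_eq]
  have h2 : ∑ i, ‖v i‖ ^ 2 ≤ (∑ i, |v i|) ^ 2 := by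
    simp only [Real.norm_eq_abs]
    exact Finset.sum_sq_le_sq_sum_of_nonneg fun i _ => abs_nonneg _
  calc √(∑ i, ‖v i‖ ^ 2) ≤ √((∑ i, |v i|) ^ 2) := Real.sqrt_le_sqrt h2
    _ = ∑ i, |v i| := Real.sqrt_sq (Finset.sum_nonneg fun i _ => abs_nonneg _)

theorem abs_le_norm (v : EE ι) (i : ι) : |v i| ≤ ‖v‖ := by
  simpa using PiLp.norm_apply_le (p := 2) v i

/-- bound by `mm`: `max_i C.W i / w_i(t)` -/
def mm (C B : Box ι) (y : ι → ℝ) : ℝ :=
  Finset.univ.sup' Finset.univ_nonempty (fun i => C.W i / ww C B i (tt C B y))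

theorem le_mm (C B : Box ι) (y : ι → ℝ) (i : ι) : C.W i / ww C B i (tt C B y) ≤ mm C B y :=
  Finset.le_sup' (fun i => C.W i / ww C B i (tt C B y)) (Finset.mem_univ i)

theorem mm_pos {C B : Box ι} (h : Inner C B) {y : ι → ℝ} (ht : 0 < tt C B y) : 0 < mm C B y := by
  obtain ⟨i⟩ := ‹Nonempty ι›
  exact lt_of_lt_of_le (div_pos (h.W0 i) (ww_pos h.nest i ht.le (Or.inl ht))) (le_mm C B y i)

theorem mm_le {C B : Box ι} (h : Inner C B) {y : ι → ℝ} (ht : 0 < tt C B y)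
    (ht1 : tt C B y ≤ 1) : mm C B y ≤ 1 / tt C B y := by
  unfold mm
  rw [Finset.sup'_le_iff]
  intro i _
  have hw := ww_pos h.nest i ht.le (Or.inl ht)
  rw [div_le_div_iff₀ hw ht, one_mul]
  linarith [h.W_le_ww i ht.le ht1]

theorem continuousOn_mm {C B : Box ι} (h : Inner C B) :
    ContinuousOn (mm C B) {y | 0 < tt C B y} := by
  unfold mm
  apply ContinuousOn.finset_sup'_apply
  intro i _
  apply ContinuousOn.div continuousOn_const
  · unfold ww ch cl
    have := continuous_tt C B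
    fun_prop
  · intro y hy
    exact (ww_pos h.nest i (le_of_lt hy) (Or.inl hy)).ne'


namespace FoamC

variable (h : FoamC Λ Q C B P c₀ κ ρ)
include h

theorem c0 (c : I) : 0 < c₀ := (h.shape c).c0

/-- local bound in a core -/
theorem core_local (c : I) {y : EE ι} (hy : y ∈ SE (C c)) (hyP : y ∈ Pun Λ B) :
    ∃ V ∈ 𝓝 y, ∀ y₁ ∈ V, ∀ i, (C c).W i ≤ (2 * mm (C c) (B c) (co y)) *
      ww (C c) (B c) i (tt (C c) (B c) (co y₁)) := by
  have h1 := h.tt_pos hyP c
  have h2 := mm_pos (h.inner c) h1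
  have h3 : ContinuousAt (mm (C c) (B c)) (co y) :=
    (continuousOn_mm (h.inner c)).continuousAt
      ((isOpen_lt continuous_const (continuous_tt (C c) (B c))).mem_nhds h1)
  have h4 : ∀ᶠ z in 𝓝 (co y), mm (C c) (B c) z < 2 * mm (C c) (B c) (co y) :=
    h3.eventually_lt_const (by linarith)
  have h5 : ∀ᶠ z in 𝓝 (co y), 0 < tt (C c) (B c) z :=
    (isOpen_lt continuous_const (continuous_tt (C c) (B c))).mem_nhds h1
  refine ⟨{y₁ | mm (C c) (B c) (co y₁) < 2 * mm (C c) (B c) (co y) ∧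
    0 < tt (C c) (B c) (co y₁)}, continuous_co.continuousAt.eventually (h4.and h5), ?_⟩
  rintro y₁ ⟨a1, a2⟩ i
  have hw := ww_pos (h.inner c).nest i a2.le (Or.inl a2)
  have h6 := (le_mm (C c) (B c) (co y₁) i).trans a1.le
  rwa [div_le_iff₀ hw] at h6

theorem exists_aspect (c : I) : ∃ a : ℝ, 0 < a ∧ ∀ i j, (Q c).W i ≤ a * (C c).W j := by
  have h0 : ∀ i j, 0 ≤ (Q c).W i / (C c).W j := fun i j =>
    div_nonneg ((h.shape c).W0 i).le ((h.inner c).W0 j).le
  refine ⟨∑ i, ∑ j, (Q c).W i / (C c).W j + 1, ?_, ?_⟩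
  · have : 0 ≤ ∑ i, ∑ j, (Q c).W i / (C c).W j := Finset.sum_nonneg fun i _ =>
      Finset.sum_nonneg fun j _ => h0 i j
    linarith
  · intro i j
    have h1 : (Q c).W i / (C c).W j ≤ ∑ i, ∑ j, (Q c).W i / (C c).W j + 1 := by
      have a1 : (Q c).W i / (C c).W j ≤ ∑ j, (Q c).W i / (C c).W j :=
        Finset.single_le_sum (f := fun j => (Q c).W i / (C c).W j) (fun j _ => h0 i j)
          (Finset.mem_univ j)
      have a2 : ∑ j, (Q c).W i / (C c).W j ≤ ∑ i, ∑ j, (Q c).W i / (C c).W j :=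
        Finset.single_le_sum (f := fun i => ∑ j, (Q c).W i / (C c).W j)
          (fun i _ => Finset.sum_nonneg fun j _ => h0 i j) (Finset.mem_univ i)
      linarith
    rwa [div_le_iff₀ ((h.inner c).W0 j)] at h1

/-- **`Psi` is locally Lipschitz on the punctured target.** -/
theorem locLip (hΛ : IsOpen Λ) : LocallyLipschitzOn (Pun Λ B) (Psi Q C B) := by
  apply h.fine.locLip (h.isOpen_pun hΛ) sdiff_subset
  rintro ⟨c, b⟩ y ⟨hy1, hy2⟩
  -- reduce to coordinates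
  have red : ∀ (K : ℝ) (y₁ y₂ : EE ι), y₁ ∈ SE (Q c) → y₂ ∈ SE (Q c) → 0 ≤ K →
      (∀ i, |psi (Q c) (C c) (B c) (co y₂) i - psi (Q c) (C c) (B c) (co y₁) i| ≤
        K * ∑ j, |co y₂ j - co y₁ j|) →
      ‖Psi Q C B y₂ - Psi Q C B y₁‖ ≤ (Fintype.card ι * (K * Fintype.card ι)) * ‖y₂ - y₁‖ := by
    intro K y₁ y₂ h1 h2 hK h3
    refine (norm_le_sum _).trans ?_
    have h4 : ∑ j, |co y₂ j - co y₁ j| ≤ Fintype.card ι * ‖y₂ - y₁‖ := by
      refine (Finset.sum_le_sum (g := fun _ => ‖y₂ - y₁‖) fun j _ => ?_).trans ?_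
      · exact abs_le_norm (y₂ - y₁) j
      · rw [Finset.sum_const, Finset.card_univ, nsmul_eq_mul]
    have h5 : ∀ i, |(Psi Q C B y₂ - Psi Q C B y₁) i| ≤ K * (Fintype.card ι * ‖y₂ - y₁‖) := by
      intro i
      have e1 : (Psi Q C B y₂ - Psi Q C B y₁) i = psi (Q c) (C c) (B c) (co y₂) i -
          psi (Q c) (C c) (B c) (co y₁) i := by
        rw [PiLp.sub_apply, h.Psi_apply h1, h.Psi_apply h2]
      rw [e1]
      exact (h3 i).trans (mul_le_mul_of_nonneg_left h4 hK)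
    refine (Finset.sum_le_sum fun i _ => h5 i).trans ?_
    rw [Finset.sum_const, Finset.card_univ, nsmul_eq_mul]
    exact le_of_eq (by ring)
  have hc0 := h.c0 c
  cases b
  · refine ⟨Fintype.card ι * (2 / c₀ ^ 2 * Fintype.card ι), univ, univ_mem, ?_⟩
    rintro y₁ ⟨-, hy1, -⟩ y₂ ⟨-, hy2, -⟩
    apply red (2 / c₀ ^ 2) y₁ y₂ hy1.1 hy2.1 (by positivity)
    intro i
    exact psi_incr_out (h.shape c) (h.inner c) hy1.2 hy2.2 i
  · obtain ⟨V, hV, hVb⟩ := h.core_local c hy1 hy2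
    obtain ⟨a, ha0, ha⟩ := h.exists_aspect c
    have hm := mm_pos (h.inner c) (h.tt_pos hy2 c)
    refine ⟨Fintype.card ι * (9 * (2 * mm (C c) (B c) (co y)) * a *
      Fintype.card ι), V, hV, ?_⟩
    rintro y₁ ⟨hV1, hy1, hp1⟩ y₂ ⟨hV2, hy2', hp2⟩
    have s1 := IE_subset_SE _ (h.core_sub c hy1)
    have s2 := IE_subset_SE _ (h.core_sub c hy2')
    apply red (9 * (2 * mm (C c) (B c) (co y)) * a) y₁ y₂ s1 s2
      (by positivity)
    intro i
    refine (psi_incr_in (h.shape c) (h.inner c) hy1 hy2' (h.off hp1 c) (h.off hp2 c)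
      (hVb y₂ hV2) (a := fun _ => a) (fun i j => ha i j) i).trans (le_of_eq ?_)
    rw [← Finset.mul_sum]
    ring

theorem continuousOn_Psi (hΛ : IsOpen Λ) : ContinuousOn (Psi Q C B) (Pun Λ B) :=
  (h.locLip hΛ).continuousOn

end FoamC

end Crest.Agent.R96.Push_899
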