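/-
helper199, row 96, NUMBERS (task of 416 #9517), part 1: the Lipschitz numbers of the all-cone mesh.
-/
import Mathlib
import Crest.Agent.R096.Bd19_416

set_option autoImplicit false

open Set Metric Filter Topology

namespace Crest.Agent.R96.Nu1_199

open Crest.Agent.R096.Ce_537 Crest.Agent.R096.Bd_416

open Crest.Agent.R096.Pc_117 (LL)

open scoped Classical

set_option linter.unusedSectionVars false

noncomputable section

/-- the constants of the recursion (dimension = stage); `K₀` constant of the given part,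
`A` constant of the mesh, `b` squeezing numbers, `ε` width loss on the edges -/
def Kn (K₀ A ε : ℝ) (b : ℕ → ℝ) : ℕ → ℝ
  | 0 => K₀
  | n + 1 => max (Kn K₀ A ε b n / (2 * b n))
      (max (A / (1 - ε)) (7 * A / (2 * b n) * max (Kn K₀ A ε b n) 2))

variable {K₀ A ε : ℝ} {b : ℕ → ℝ}

theorem Kn_succ (n : ℕ) : Kn K₀ A ε b (n + 1) = max (Kn K₀ A ε b n / (2 * b n))
      (max (A / (1 - ε)) (7 * A / (2 * b n) * max (Kn K₀ A ε b n) 2)) := rfl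

theorem Kn_nonneg (hK : 0 ≤ K₀) (hb0 : ∀ n, 0 < b n) : ∀ n, 0 ≤ Kn K₀ A ε b n
  | 0 => hK
  | n + 1 => by
    have h1 := Kn_nonneg hK hb0 n
    have h2 := hb0 n
    exact le_max_of_le_left (by positivity)

variable {Q : Type} [PartialOrder Q] {dim : Q → ℕ} {J Fam : Type}
variable {E : Type*} [NormedAddCommGroup E] [NormedSpace ℝ E]
variable {C : Cmb Q dim J Fam} {K : Q → Set E} {D : Set Q} {g : Gd E J}
  {P : ∀ q, C.I q → Set E} {c : ∀ q, C.I q → E → ℝ} {Ω : Set E}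

/-- the weighted number of the pieces of a cell -/
def Wd (C : Cmb Q dim J Fam) (wt : J → ℝ) (q : Q) : ℝ := ∑ x, wt (C.col q x)

theorem Wd_nonneg {wt : J → ℝ} (hw : ∀ j, 0 < wt j) (q : Q) : 0 ≤ Wd C wt q :=
  Finset.sum_nonneg fun _ _ => (hw _).le

/-- the thickness number of a cell (`δ q > 0` a small error which makes it finite) -/
def uq (C : Cmb Q dim J Fam) (wt : J → ℝ) (δ : Q → ℝ) (q : Q) : ℝ := 1 / (2 * (Wd C wt q + δ q))

section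

variable {R : Set Q} {g0 : Gd E J} {P0 : ∀ q, C.I q → Set E} {c0 : ∀ q, C.I q → E → ℝ}

/-- **the hypotheses on the numbers**: `Lf, Lg` Lipschitz constants of the charts of the cells,
`ω q ≥ 0` any function of the cells with `Lg τ * Lf τ * ω σ ≤ A * ω τ` for the faces `σ < τ` and
`Lg τ * (weighted number of pieces of τ + δ τ) ≤ A * ω τ`. -/
structure Num (C : Cmb Q dim J Fam) (R : Set Q) (wt : J → ℝ) (K₀ A ε : ℝ) (b : ℕ → ℝ)
    (ω δ Lf Lg : Q → ℝ) : Prop where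
  w0 : ∀ j, 0 < wt j
  b0 : ∀ n, 0 < b n
  b2 : ∀ n, b n < 1/2
  e0 : 0 < ε
  e1 : ε < 1
  A0 : 0 ≤ A
  K0 : 0 ≤ K₀
  ω0 : ∀ q, 0 ≤ ω q
  δ0 : ∀ q, 0 < δ q
  f0 : ∀ q, 0 < Lf q
  g0 : ∀ q, 0 < Lg q
  face : ∀ τ ∉ R, 2 ≤ dim τ → ∀ σ < τ, Lg τ * Lf τ * ω σ ≤ A * ω τ
  own : ∀ τ ∉ R, 1 ≤ dim τ → Lg τ * (Wd C wt τ + δ τ) ≤ A * ω τ

/-- the Lipschitz numbers -/
def LamN (K₀ A ε : ℝ) (b : ℕ → ℝ) (ω : Q → ℝ) (n : ℕ) (q : Q) : ℝ := Kn K₀ A ε b n * ω q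

/-- the bound of the numbers on the faces -/
def Bbq (X : Cplx Ω Q dim K) (R : Set Q) (K₀ A ε : ℝ) (b : ℕ → ℝ) (ω Lf Lg : Q → ℝ) (τ : Q) : ℝ :=
  if τ ∈ R then ∑ σ ∈ (X.finite_below τ).toFinset, Kn K₀ A ε b (dim τ) * ω σ
    else Kn K₀ A ε b (dim τ) * (A * ω τ / (Lg τ * Lf τ))

namespace Num

variable {wt : J → ℝ} {ω δ Lf Lg : Q → ℝ} (N : Num C R wt K₀ A ε b ω δ Lf Lg)

include N

theorem kn (n : ℕ) : 0 ≤ Kn K₀ A ε b n := Kn_nonneg N.K0 N.b0 n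

theorem W0 (q : Q) : 0 < Wd C wt q + δ q := by
  have := Wd_nonneg (C := C) N.w0 q
  have := N.δ0 q
  linarith

theorem lam0 (n : ℕ) (q : Q) : 0 ≤ LamN K₀ A ε b ω n q := mul_nonneg (N.kn n) (N.ω0 q)

theorem lamS (n : ℕ) (q : Q) :
    LamN K₀ A ε b ω n q / (2 * b n) ≤ LamN K₀ A ε b ω (n + 1) q := by
  unfold LamN
  rw [mul_div_right_comm, Kn_succ]
  exact mul_le_mul_of_nonneg_right (le_max_left _ _) (N.ω0 q)

theorem u0 (q : Q) : 0 < uq C wt δ q := by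
  have := N.W0 q
  unfold uq
  positivity

theorem u_inv (q : Q) : 1 / uq C wt δ q = 2 * (Wd C wt q + δ q) := by
  unfold uq
  rw [one_div_one_div]

theorem uS (τ : Q) : uq C wt δ τ * ∑ x, wt (C.col τ x) ≤ 1 / 2 := by
  change uq C wt δ τ * Wd C wt τ ≤ 1 / 2
  have h3 := N.W0 τ
  have h4 := N.δ0 τ
  have h5 := Wd_nonneg (C := C) N.w0 τ
  unfold uq
  rw [div_mul_eq_mul_div, one_mul, div_le_div_iff₀ (by positivity) (by norm_num)]
  linarith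

theorem lam1 (τ : Q) (hτ : τ ∉ R) (hd : dim τ = 1) :
    Lg τ / (4 * (1 - ε) * uq C wt δ τ) ≤ LamN K₀ A ε b ω 2 τ := by
  change _ ≤ Kn K₀ A ε b 2 * ω τ
  have h3 := N.own τ hτ hd.ge
  have h4 : 0 < 1 - ε := by linarith [N.e1]
  have h5 : Lg τ / (4 * (1 - ε) * uq C wt δ τ) =
      Lg τ * (Wd C wt τ + δ τ) / (2 * (1 - ε)) := by
    have h6 := N.W0 τ
    unfold uq
    field_simp
    ring
  rw [h5]
  have h6 : Lg τ * (Wd C wt τ + δ τ) / (2 * (1 - ε)) ≤ A / (1 - ε) * ω τ := by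
    rw [div_mul_eq_mul_div, div_le_div_iff₀ (by positivity) h4]
    have h7 : 0 ≤ A * ω τ := mul_nonneg N.A0 (N.ω0 τ)
    nlinarith
  refine h6.trans (mul_le_mul_of_nonneg_right ?_ (N.ω0 τ))
  rw [Kn_succ]
  exact le_max_of_le_right (le_max_left _ _)

theorem Bb_le (X : Cplx Ω Q dim K) (τ : Q) (hd : 2 ≤ dim τ) (σ : Q) (hσ : σ < τ) :
    LamN K₀ A ε b ω (dim τ) σ ≤ Bbq X R K₀ A ε b ω Lf Lg τ := by
  change Kn K₀ A ε b (dim τ) * ω σ ≤ Bbq X R K₀ A ε b ω Lf Lg τ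
  by_cases hτ : τ ∈ R
  · have : Bbq X R K₀ A ε b ω Lf Lg τ =
      ∑ σ ∈ (X.finite_below τ).toFinset, Kn K₀ A ε b (dim τ) * ω σ := if_pos hτ
    rw [this]
    refine Finset.single_le_sum (f := fun σ => Kn K₀ A ε b (dim τ) * ω σ)
      (fun σ _ => mul_nonneg (N.kn _) (N.ω0 σ)) ?_
    rw [Finite.mem_toFinset]
    exact hσ
  · have : Bbq X R K₀ A ε b ω Lf Lg τ = Kn K₀ A ε b (dim τ) * (A * ω τ / (Lg τ * Lf τ)) :=
      if_neg hτ
    rw [this]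
    refine mul_le_mul_of_nonneg_left ?_ (N.kn _)
    rw [le_div_iff₀ (mul_pos (N.g0 τ) (N.f0 τ)), mul_comm]
    exact N.face τ hτ hd σ hσ

theorem lam2 (X : Cplx Ω Q dim K) (τ : Q) (hτ : τ ∉ R) (hd : 2 ≤ dim τ) :
    7 * max (Bbq X R K₀ A ε b ω Lf Lg τ * Lf τ) (1 / uq C wt δ τ) / (2 * b (dim τ)) * Lg τ ≤
      LamN K₀ A ε b ω (dim τ + 1) τ := by
  change _ ≤ Kn K₀ A ε b (dim τ + 1) * ω τ
  have hB : Bbq X R K₀ A ε b ω Lf Lg τ = Kn K₀ A ε b (dim τ) * (A * ω τ / (Lg τ * Lf τ)) :=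
    if_neg hτ
  have hf := N.f0 τ
  have hg := N.g0 τ
  have hbb := N.b0 (dim τ)
  set B := Bbq X R K₀ A ε b ω Lf Lg τ with hBdef
  have e1 : 7 * max (B * Lf τ) (1 / uq C wt δ τ) / (2 * b (dim τ)) * Lg τ =
      7 / (2 * b (dim τ)) * max (B * Lf τ * Lg τ) (1 / uq C wt δ τ * Lg τ) := by
    rw [← max_mul_of_nonneg _ _ hg.le]
    ring
  have e2 : B * Lf τ * Lg τ = Kn K₀ A ε b (dim τ) * (A * ω τ) := by
    rw [hB]
    field_simp
  have e3 : max (B * Lf τ * Lg τ) (1 / uq C wt δ τ * Lg τ) ≤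
      max (Kn K₀ A ε b (dim τ)) 2 * (A * ω τ) := by
    rw [e2, N.u_inv]
    have h5 : 0 ≤ A * ω τ := mul_nonneg N.A0 (N.ω0 τ)
    refine max_le (mul_le_mul_of_nonneg_right (le_max_left _ _) h5) ?_
    have h6 := N.own τ hτ (by omega)
    calc 2 * (Wd C wt τ + δ τ) * Lg τ = 2 * (Lg τ * (Wd C wt τ + δ τ)) := by ring
      _ ≤ 2 * (A * ω τ) := by linarith
      _ ≤ _ := mul_le_mul_of_nonneg_right (le_max_right _ _) h5
  rw [e1]
  calc 7 / (2 * b (dim τ)) * max (B * Lf τ * Lg τ) (1 / uq C wt δ τ * Lg τ)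
      ≤ 7 / (2 * b (dim τ)) * (max (Kn K₀ A ε b (dim τ)) 2 * (A * ω τ)) :=
        mul_le_mul_of_nonneg_left e3 (by positivity)
    _ = (7 * A / (2 * b (dim τ)) * max (Kn K₀ A ε b (dim τ)) 2) * ω τ := by ring
    _ ≤ _ := by
        refine mul_le_mul_of_nonneg_right ?_ (N.ω0 τ)
        rw [Kn_succ]
        exact le_max_of_le_right (le_max_right _ _)

end Num

/-! ### the mesh, in frames -/

section frames

variable {Y : Type*} [PseudoMetricSpace Y] {wt : J → ℝ} {δ : Q → ℝ} {ω Lf Lg : (E → Y) → Q → ℝ}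

/-- the Lipschitz numbers in the frames -/
def LamB (K₀ A ε : ℝ) (b : ℕ → ℝ) (ω : (E → Y) → Q → ℝ) (n : ℕ) (q : Q) (B : E → Y) : ℝ :=
  Kn K₀ A ε b n * ω B q



end frames

end

end

end Crest.Agent.R96.Nu1_199
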