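import Mathlib
import Crest.Agent.R96.Nu1_199
import Crest.Agent.R96.Nu4_199

-- ▼ part R96/Nu2_199
section

set_option autoImplicit false

open Set Metric Filter Topology

namespace Crest.Agent.R96.Nu2_199

open Crest.Agent.R096.Ce_537 Crest.Agent.R096.Bd_416 Crest.Agent.R96.Nu1_199

open scoped Classical

set_option linter.unusedSectionVars false

noncomputable section

variable {Q : Type} [PartialOrder Q] {dim : Q → ℕ} {J Fam : Type}
variable {E : Type*} [NormedAddCommGroup E] [NormedSpace ℝ E]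
variable {C : Cmb Q dim J Fam} {K : Q → Set E} {Ω : Set E}

/-- iterated numbers: own number `m q` plus the numbers of the faces times `a q = Lg q * Lf q` -/
def om (X : Cplx Ω Q dim K) (a m : Q → ℝ) : ℕ → Q → ℝ
  | 0, q => m q
  | n + 1, q => m q + ∑ σ ∈ (X.finite_below q).toFinset, a q * om X a m n σ

variable (X : Cplx Ω Q dim K) {a m : Q → ℝ}

theorem om_nonneg (ha : ∀ q, 0 ≤ a q) (hm : ∀ q, 0 ≤ m q) : ∀ n q, 0 ≤ om X a m n q
  | 0, q => hm q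
  | n + 1, q => add_nonneg (hm q) (Finset.sum_nonneg fun σ _ =>
      mul_nonneg (ha q) (om_nonneg ha hm n σ))

theorem om_mono_succ (ha : ∀ q, 0 ≤ a q) (hm : ∀ q, 0 ≤ m q) :
    ∀ n q, om X a m n q ≤ om X a m (n + 1) q
  | 0, q => by
    change m q ≤ m q + _
    exact le_add_of_nonneg_right (Finset.sum_nonneg fun σ _ =>
      mul_nonneg (ha q) (om_nonneg X ha hm 0 σ))
  | n + 1, q => by
    change m q + _ ≤ m q + _
    gcongr with σ
    · exact ha q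
    · exact om_mono_succ ha hm n σ

theorem om_mono (ha : ∀ q, 0 ≤ a q) (hm : ∀ q, 0 ≤ m q) {n n' : ℕ} (h : n ≤ n') (q : Q) :
    om X a m n q ≤ om X a m n' q := by
  induction h with
  | refl => exact le_rfl
  | step _ ih => exact ih.trans (om_mono_succ X ha hm _ q)

theorem le_om (ha : ∀ q, 0 ≤ a q) (hm : ∀ q, 0 ≤ m q) (n : ℕ) (q : Q) : m q ≤ om X a m n q :=
  om_mono X ha hm (Nat.zero_le n) q

theorem face_om (ha : ∀ q, 0 ≤ a q) (hm : ∀ q, 0 ≤ m q) {σ τ : Q} (h : σ < τ) :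
    a τ * om X a m (dim σ) σ ≤ om X a m (dim τ) τ := by
  have h1 : dim σ < dim τ := X.mono τ σ h
  obtain ⟨d, hd⟩ : ∃ d, dim τ = d + 1 := ⟨dim τ - 1, by omega⟩
  rw [hd]
  change _ ≤ m τ + ∑ σ ∈ (X.finite_below τ).toFinset, a τ * om X a m d σ
  have h2 : a τ * om X a m (dim σ) σ ≤ a τ * om X a m d σ :=
    mul_le_mul_of_nonneg_left (om_mono X ha hm (by omega) σ) (ha τ)
  refine h2.trans ?_
  have h3 : a τ * om X a m d σ ≤ ∑ σ ∈ (X.finite_below τ).toFinset, a τ * om X a m d σ := by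
    refine Finset.single_le_sum (f := fun σ => a τ * om X a m d σ)
      (fun σ _ => mul_nonneg (ha τ) (om_nonneg X ha hm d σ)) ?_
    rw [Finite.mem_toFinset]
    exact h
  linarith [hm τ]

/-- **the bound**: `α` bounds `a`, `M` bounds `m` on all faces of `q`, `q` has at most `N` faces -/
theorem om_le {q : Q} {α M : ℝ} {N : ℕ} (ha : ∀ q, 0 ≤ a q) (hm : ∀ q, 0 ≤ m q)
    (hα : ∀ σ ≤ q, a σ ≤ α) (hM : ∀ σ ≤ q, m σ ≤ M)
    (hN : (X.finite_below q).toFinset.card ≤ N) :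
    ∀ n, ∀ σ ≤ q, om X a m n σ ≤ (1 + N * α) ^ n * M := by
  have hα0 : 0 ≤ α := (ha q).trans (hα q le_rfl)
  have hM0 : 0 ≤ M := (hm q).trans (hM q le_rfl)
  intro n
  induction n with
  | zero =>
    intro σ hσ
    rw [pow_zero, one_mul]
    exact hM σ hσ
  | succ n ih =>
    intro σ hσ
    change m σ + ∑ ρ ∈ (X.finite_below σ).toFinset, a σ * om X a m n ρ ≤ _
    have h1 : ∑ ρ ∈ (X.finite_below σ).toFinset, a σ * om X a m n ρ ≤
        N * (α * ((1 + N * α) ^ n * M)) := by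
      have hcard : ((X.finite_below σ).toFinset.card : ℝ) ≤ N := by
        have h2 : (X.finite_below σ).toFinset ⊆ (X.finite_below q).toFinset := by
          intro ρ hρ
          rw [Finite.mem_toFinset] at hρ ⊢
          exact lt_of_lt_of_le (show ρ < σ from hρ) hσ
        exact_mod_cast (Finset.card_le_card h2).trans hN
      calc ∑ ρ ∈ (X.finite_below σ).toFinset, a σ * om X a m n ρ
          ≤ ∑ _ρ ∈ (X.finite_below σ).toFinset, α * ((1 + N * α) ^ n * M) := by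
            refine Finset.sum_le_sum fun ρ hρ => ?_
            rw [Finite.mem_toFinset] at hρ
            have hρ' : ρ ≤ q := (show ρ < σ from hρ).le.trans hσ
            exact mul_le_mul (hα σ hσ) (ih ρ hρ') (om_nonneg X ha hm n ρ) hα0
        _ = (X.finite_below σ).toFinset.card * (α * ((1 + N * α) ^ n * M)) := by
            rw [Finset.sum_const, nsmul_eq_mul]
        _ ≤ _ := mul_le_mul_of_nonneg_right hcard (by positivity)
    have h3 : M ≤ (1 + N * α) ^ n * M := by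
      have : 1 ≤ (1 + N * α) ^ n := one_le_pow₀ (by
        have : 0 ≤ (N:ℝ) * α := by positivity
        linarith)
      nlinarith
    calc m σ + ∑ ρ ∈ (X.finite_below σ).toFinset, a σ * om X a m n ρ
        ≤ M + N * (α * ((1 + N * α) ^ n * M)) := add_le_add (hM σ hσ) h1
      _ ≤ (1 + N * α) ^ n * M + N * (α * ((1 + N * α) ^ n * M)) := by linarith
      _ = (1 + N * α) ^ (n + 1) * M := by ring

/-! ### the canonical choice -/

/-- the canonical function of the cells -/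
def omc (X : Cplx Ω Q dim K) (C : Cmb Q dim J Fam) (wt : J → ℝ) (δ Lf Lg : Q → ℝ) (q : Q) : ℝ :=
  om X (fun q => Lg q * Lf q) (fun q => Lg q * (Wd C wt q + δ q)) (dim q) q

variable {R : Set Q} {K₀ ε : ℝ} {b : ℕ → ℝ} {wt : J → ℝ} {δ Lf Lg : Q → ℝ}

/-- **the canonical function satisfies the hypotheses with `A = 1`** -/
theorem num_omc (hw : ∀ j, 0 < wt j) (hb0 : ∀ n, 0 < b n) (hb2 : ∀ n, b n < 1/2) (hε0 : 0 < ε)
    (hε1 : ε < 1) (hK : 0 ≤ K₀) (hδ : ∀ q, 0 < δ q) (hf : ∀ q, 0 < Lf q) (hg : ∀ q, 0 < Lg q) :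
    Num C R wt K₀ 1 ε b (omc X C wt δ Lf Lg) δ Lf Lg := by
  have ha : ∀ q, 0 ≤ Lg q * Lf q := fun q => (mul_pos (hg q) (hf q)).le
  have hm : ∀ q, 0 ≤ Lg q * (Wd C wt q + δ q) := fun q => by
    have := Wd_nonneg (C := C) hw q
    have := hδ q
    exact mul_nonneg (hg q).le (by linarith)
  refine ⟨hw, hb0, hb2, hε0, hε1, zero_le_one, hK, fun q => om_nonneg X ha hm _ q, hδ, hf, hg,
    fun τ _ _ σ hσ => ?_, fun τ _ _ => ?_⟩
  · rw [one_mul]
    exact face_om X ha hm hσ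
  · rw [one_mul]
    exact le_om X ha hm _ τ

/-- the edges of a cell -/
def edg (X : Cplx Ω Q dim K) (q : Q) : Finset Q :=
  (X.finite_below q).toFinset.filter fun σ => dim σ = 1

theorem mem_edg {q e : Q} : e ∈ edg X q ↔ e < q ∧ dim e = 1 := by
  unfold edg
  rw [Finset.mem_filter, Finite.mem_toFinset]
  rfl

/-- the pieces of a cell of dimension at least two are counted by the points on its edges -/
theorem Wd_le (hw : ∀ j, 0 < wt j) {q : Q}
    (hne : ∀ x : C.I q, ∃ e, ∃ h : e < q, dim e = 1 ∧ ∃ y : C.I e, C.up h y = x) :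
    Wd C wt q ≤ ∑ e ∈ edg X q, Wd C wt e := by
  choose e he hd y hy using hne
  have h1 : Wd C wt q = ∑ x : C.I q, wt (C.col (e x) (y x)) := by
    unfold Wd
    refine Finset.sum_congr rfl fun x _ => ?_
    rw [← C.col_up (he x) (y x), hy x]
  rw [h1]
  have h2 : ∑ e' ∈ edg X q, Wd C wt e' = ∑ p ∈ (edg X q).sigma fun e' => (Finset.univ : Finset (C.I e')),
      wt (C.col p.1 p.2) := by
    rw [Finset.sum_sigma]
    rfl
  rw [h2]
  have hinj : Function.Injective fun x : C.I q => (⟨e x, y x⟩ : Σ e', C.I e') := by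
    intro x x' hxx
    have key : ∀ (p p' : Σ e', C.I e') (h : p.1 < q) (h' : p'.1 < q), p = p' →
        C.up h p.2 = C.up h' p'.2 := by
      rintro p p' h h' rfl
      rfl
    have := key ⟨e x, y x⟩ ⟨e x', y x'⟩ (he x) (he x') hxx
    rw [← hy x, ← hy x']
    exact this
  have h3 : ∑ x : C.I q, wt (C.col (e x) (y x)) =
      ∑ p ∈ (Finset.univ : Finset (C.I q)).map ⟨_, hinj⟩, wt (C.col p.1 p.2) := by
    rw [Finset.sum_map]
    rfl
  rw [h3]
  refine Finset.sum_le_sum_of_subset_of_nonneg ?_ fun p _ _ => (hw _).le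
  intro p hp
  rw [Finset.mem_map] at hp
  obtain ⟨x, -, rfl⟩ := hp
  rw [Finset.mem_sigma]
  exact ⟨(mem_edg X).2 ⟨he x, hd x⟩, Finset.mem_univ _⟩

theorem edg_mono {q σ : Q} (h : σ ≤ q) : edg X σ ⊆ edg X q := by
  intro e he
  rw [mem_edg] at he ⊢
  exact ⟨lt_of_lt_of_le he.1 h, he.2⟩

/-- **BOUND OF THE CANONICAL FUNCTION**: on a cell `q` of size `h` all of whose faces have charts
with `Lf ≤ A h`, `Lg ≤ A / h`, at most `N` faces, errors at most `d`: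
`omc q ≤ (1 + N A²)^(dim q) * (A / h) * (Σ_{edges of q} weighted number of points + d)` -/
theorem omc_le (hw : ∀ j, 0 < wt j) (hδ : ∀ q, 0 < δ q) (hf : ∀ q, 0 < Lf q) (hg : ∀ q, 0 < Lg q)
    {q : Q} (hq : 2 ≤ dim q) {A h d : ℝ} {N : ℕ} (hh : 0 < h) (hA : 0 < A)
    (hfA : ∀ σ ≤ q, Lf σ ≤ A * h) (hgA : ∀ σ ≤ q, Lg σ ≤ A / h) (hd : ∀ σ ≤ q, δ σ ≤ d)
    (hN : (X.finite_below q).toFinset.card ≤ N)
    (hne : ∀ σ ≤ q, 2 ≤ dim σ → ∀ x : C.I σ, ∃ e, ∃ h : e < σ, dim e = 1 ∧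
      ∃ y : C.I e, C.up h y = x) :
    omc X C wt δ Lf Lg q ≤ (1 + N * A ^ 2) ^ dim q * ((A / h) * (∑ e ∈ edg X q, Wd C wt e + d)) := by
  have ha : ∀ q, 0 ≤ Lg q * Lf q := fun q => (mul_pos (hg q) (hf q)).le
  have hm : ∀ q, 0 ≤ Lg q * (Wd C wt q + δ q) := fun q => by
    have := Wd_nonneg (C := C) hw q
    have := hδ q
    exact mul_nonneg (hg q).le (by linarith)
  refine om_le X ha hm (α := A ^ 2) (fun σ hσ => ?_) (fun σ hσ => ?_) hN (dim q) q le_rfl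
  · calc Lg σ * Lf σ ≤ (A / h) * (A * h) :=
          mul_le_mul (hgA σ hσ) (hfA σ hσ) (hf σ).le (by positivity)
      _ = A ^ 2 := by field_simp
  · have hW : Wd C wt σ ≤ ∑ e ∈ edg X q, Wd C wt e := by
      have hS : ∀ e ∈ edg X q, 0 ≤ Wd C wt e := fun e _ => Wd_nonneg hw e
      rcases Nat.lt_or_ge (dim σ) 2 with h1 | h1
      · rcases Nat.lt_or_ge (dim σ) 1 with h2 | h2
        · have h0 : dim σ = 0 := by omega
          have := C.vert σ h0
          unfold Wd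
          rw [Finset.univ_eq_empty, Finset.sum_empty]
          exact Finset.sum_nonneg hS
        · have h0 : dim σ = 1 := by omega
          have hlt : σ < q := lt_of_le_of_ne hσ (by rintro rfl; omega)
          exact Finset.single_le_sum (f := fun e => Wd C wt e) hS ((mem_edg X).2 ⟨hlt, h0⟩)
      · exact (Wd_le X hw (hne σ hσ h1)).trans
          (Finset.sum_le_sum_of_subset_of_nonneg (edg_mono X hσ) fun e he _ => hS e he)
    have h0 : 0 ≤ Wd C wt σ + δ σ := by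
      have := Wd_nonneg (C := C) hw σ
      have := hδ σ
      linarith
    exact mul_le_mul (hgA σ hσ) (add_le_add hW (hd σ hσ)) h0 (by positivity)

end

end Crest.Agent.R96.Nu2_199
end

-- ▼ part R96/Nu5_199
section

set_option autoImplicit false

open Set Metric Filter Topology

namespace Crest.Agent.R96.Nu5_199

open Crest.Agent.R096.Ce_537 Crest.Agent.R096.Bd_416 Crest.Agent.R96.Nu1_199
open Crest.Agent.R96.Nu2_199 Crest.Agent.R96.Nu3_199 Crest.Agent.R96.Nu4_199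

open scoped Classical

set_option linter.unusedSectionVars false

noncomputable section

variable {E : Type*} [NormedAddCommGroup E] [NormedSpace ℝ E] [FiniteDimensional ℝ E]

/-- **the constant of a shape** (all dimensions `n` at once) -/
def AAc (n : ℕ) (S : Set E) : ℝ := (exists_frame_charts E).choose n S

theorem AAc_pos (n : ℕ) (S : Set E) : 0 < AAc n S := (exists_frame_charts E).choose_spec.1 n S

theorem AAc_spec {n : ℕ} {S : Set E} (h1 : Convex ℝ S) (h2 : IsCompact S) (h3 : S.Nonempty)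
    (h4 : IsBall n S (S \ ri S)) : ∃ e : PLEquiv (cube n) S, e.f '' sph n = S \ ri S ∧
      ∀ B : E ≃ᵃ[ℝ] E, (∀ x ∈ cube n, MB (fun x => x) B (AAc n (B '' S)) e.f (cube n) x) ∧
        ∀ z ∈ S, MB B (fun x => x) (AAc n (B '' S)) e.g S z :=
  (exists_frame_charts E).choose_spec.2 n S h1 h2 h3 h4

/-- change of the frame: `A` against `B` -/
theorem MB_frame {n : ℕ} {S : Set E} (h1 : Convex ℝ S) (h2 : IsCompact S) (h3 : S.Nonempty)
    (h4 : IsBall n S (S \ ri S)) (A B : E ≃ᵃ[ℝ] E) {z : E} (hz : z ∈ S) :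
    ∀ᶠ y in 𝓝[S] z, dist (A y) (A z) ≤ AAc n (A '' S) * AAc n (B '' S) * dist (B y) (B z) := by
  obtain ⟨e, -, he⟩ := AAc_spec h1 h2 h3 h4
  have h5 := (he A).1 (e.g z) (e.mg hz)
  have h6 := (he B).2 z hz
  have hcont : Tendsto e.g (𝓝[S] z) (𝓝[cube n] (e.g z)) :=
    tendsto_nhdsWithin_iff.2 ⟨e.pg.1 z hz, by
      filter_upwards [self_mem_nhdsWithin] with y hy using e.mg hy⟩
  filter_upwards [hcont.eventually h5, h6, self_mem_nhdsWithin] with y h7 h8 hy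
  rw [e.ri y hy, e.ri z hz] at h7
  calc dist (A y) (A z) ≤ AAc n (A '' S) * dist (e.g y) (e.g z) := h7
    _ ≤ AAc n (A '' S) * (AAc n (B '' S) * dist (B y) (B z)) :=
        mul_le_mul_of_nonneg_left h8 (AAc_pos _ _).le
    _ = _ := by ring


/-! ### the constant of a configuration -/

/-- the largest constant of the shapes of a configuration -/
def A𝒦 (m : ℕ) (𝒦 : Set (Set E)) : ℝ :=
  if h : 𝒦.Finite then 1 + ∑ S ∈ h.toFinset, ∑ n ∈ Finset.range (m + 1), AAc n S else 1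

theorem A𝒦_pos (m : ℕ) (𝒦 : Set (Set E)) : 0 < A𝒦 m 𝒦 := by
  unfold A𝒦
  split_ifs with h
  · have : 0 ≤ ∑ S ∈ h.toFinset, ∑ n ∈ Finset.range (m + 1), AAc n S :=
      Finset.sum_nonneg fun S _ => Finset.sum_nonneg fun n _ => (AAc_pos n S).le
    linarith
  · exact one_pos

theorem AAc_le_A𝒦 {m n : ℕ} (hn : n ≤ m) {𝒦 : Set (Set E)} (h : 𝒦.Finite) {S : Set E}
    (hS : S ∈ 𝒦) : AAc n S ≤ A𝒦 m 𝒦 := by
  unfold A𝒦
  rw [dif_pos h]
  have h1 : AAc n S ≤ ∑ n ∈ Finset.range (m + 1), AAc n S :=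
    Finset.single_le_sum (f := fun n => AAc n S) (fun n _ => (AAc_pos n S).le)
      (Finset.mem_range.2 (Nat.lt_succ_of_le hn))
  have h2 : ∑ n ∈ Finset.range (m + 1), AAc n S ≤
      ∑ S ∈ h.toFinset, ∑ n ∈ Finset.range (m + 1), AAc n S :=
    Finset.single_le_sum (f := fun S => ∑ n ∈ Finset.range (m + 1), AAc n S)
      (fun S _ => Finset.sum_nonneg fun n _ => (AAc_pos n S).le) (h.mem_toFinset.2 hS)
  linarith

/-- **the constant of a configuration** (cells of dimension at most `m`) -/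
def C𝒦 (K₀ ε : ℝ) (b : ℕ → ℝ) (m : ℕ) (𝒦 : Set (Set E)) : ℝ :=
  Kn K₀ 1 ε b (m + 1) * ((1 + 𝒦.ncard * A𝒦 m 𝒦 ^ 2) ^ m * A𝒦 m 𝒦)

theorem C𝒦_nonneg {K₀ ε : ℝ} {b : ℕ → ℝ} (hK : 0 ≤ K₀) (hb : ∀ n, 0 < b n) (m : ℕ)
    (𝒦 : Set (Set E)) : 0 ≤ C𝒦 K₀ ε b m 𝒦 := by
  have h1 := Kn_nonneg (A := 1) (ε := ε) hK hb (m + 1)
  have h2 := A𝒦_pos m 𝒦
  unfold C𝒦
  positivity

/-! ### the canonical numbers in the frames -/

variable {Q : Type} [PartialOrder Q] {dim : Q → ℕ} {J Fam : Type}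
variable {C : Cmb Q dim J Fam} {K : Q → Set E} {Ω : Set E}

/-- the canonical function of the cells in the frame `B` -/
def omB (X : Cplx Ω Q dim K) (C : Cmb Q dim J Fam) (wt : J → ℝ) (δ : Q → ℝ) (B : E → E) (q : Q) :
    ℝ :=
  omc X C wt δ (fun τ => AAc (dim τ) (B '' K τ)) (fun τ => AAc (dim τ) (B '' K τ)) q

variable {R : Set Q} {K₀ ε : ℝ} {b : ℕ → ℝ} {wt : J → ℝ} {δ : Q → ℝ}

theorem num_omB (X : Cplx Ω Q dim K) (hw : ∀ j, 0 < wt j) (hb0 : ∀ n, 0 < b n)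
    (hb2 : ∀ n, b n < 1/2) (hε0 : 0 < ε) (hε1 : ε < 1) (hK : 0 ≤ K₀) (hδ : ∀ q, 0 < δ q)
    (B : E → E) : Num C R wt K₀ 1 ε b (omB X C wt δ B) δ (fun τ => AAc (dim τ) (B '' K τ))
      (fun τ => AAc (dim τ) (B '' K τ)) :=
  num_omc X hw hb0 hb2 hε0 hε1 hK hδ (fun _ => AAc_pos _ _) (fun _ => AAc_pos _ _)

theorem omB_ge (X : Cplx Ω Q dim K) (hw : ∀ j, 0 < wt j) (hδ : ∀ q, 0 < δ q) (B : E → E) (q : Q) :
    AAc (dim q) (B '' K q) * (Wd C wt q + δ q) ≤ omB X C wt δ B q := by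
  have ha : ∀ q, 0 ≤ AAc (dim q) (B '' K q) * AAc (dim q) (B '' K q) := fun q =>
    (mul_pos (AAc_pos _ _) (AAc_pos _ _)).le
  have hm : ∀ q, 0 ≤ AAc (dim q) (B '' K q) * (Wd C wt q + δ q) := fun q => by
    have h1 := Wd_nonneg (C := C) hw q
    have h2 := hδ q
    exact mul_nonneg (AAc_pos _ _).le (by linarith)
  exact le_om X ha hm (dim q) q

/-- **THE CANONICAL NUMBERS ARE BOUNDED BY THE CONSTANT OF THE CONFIGURATION** -/
theorem omB_le (X : Cplx Ω Q dim K) (hw : ∀ j, 0 < wt j) (hδ : ∀ q, 0 < δ q) {m : ℕ} {q : Q}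
    (hq : 2 ≤ dim q) (hm : dim q ≤ m) {B : E → E} (hBi : Function.Injective B) {𝒦 : Set (Set E)}
    (h𝒦 : 𝒦.Finite) (hB : ∀ σ ≤ q, B '' K σ ∈ 𝒦) (hinj : ∀ σ ≤ q, ∀ σ' ≤ q, K σ = K σ' → σ = σ')
    {d : ℝ} (hd : ∀ σ ≤ q, δ σ ≤ d)
    (hne : ∀ σ ≤ q, 2 ≤ dim σ → ∀ x : C.I σ, ∃ e, ∃ h : e < σ, dim e = 1 ∧
      ∃ y : C.I e, C.up h y = x) :
    omB X C wt δ B q ≤ (1 + 𝒦.ncard * A𝒦 m 𝒦 ^ 2) ^ m *
      (A𝒦 m 𝒦 * (∑ e ∈ edg X q, Wd C wt e + d)) := by
  have hA := A𝒦_pos m 𝒦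
  have hN : (X.finite_below q).toFinset.card ≤ 𝒦.ncard := by
    rw [ncard_eq_toFinset_card 𝒦 h𝒦]
    refine Finset.card_le_card_of_injOn (fun σ => B '' K σ) (fun σ hσ => ?_) (fun σ hσ σ' hσ' h => ?_)
    · rw [Finset.mem_coe, Finite.mem_toFinset] at hσ ⊢
      exact hB σ (show σ < q from hσ).le
    · rw [Finset.mem_coe, Finite.mem_toFinset] at hσ hσ'
      exact hinj σ (show σ < q from hσ).le σ' (show σ' < q from hσ').le
        (hBi.image_injective h)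
  have hdim : ∀ σ ≤ q, dim σ ≤ m := fun σ hσ => by
    rcases hσ.eq_or_lt with rfl | h
    · exact hm
    · exact (X.mono q σ h).le.trans hm
  have h1 := omc_le (X := X) (C := C) (wt := wt) (δ := δ) (Lf := fun τ => AAc (dim τ) (B '' K τ))
    (Lg := fun τ => AAc (dim τ) (B '' K τ)) hw hδ (fun _ => AAc_pos _ _) (fun _ => AAc_pos _ _)
    hq (h := 1) one_pos hA (fun σ hσ => by
      rw [mul_one]; exact AAc_le_A𝒦 (hdim σ hσ) h𝒦 (hB σ hσ)) (fun σ hσ => by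
      rw [div_one]; exact AAc_le_A𝒦 (hdim σ hσ) h𝒦 (hB σ hσ)) hd hN hne
  rw [div_one] at h1
  refine h1.trans (mul_le_mul_of_nonneg_right ?_ ?_)
  · exact pow_le_pow_right₀ (by
      have : (0:ℝ) ≤ 𝒦.ncard * A𝒦 m 𝒦 ^ 2 := by positivity
      linarith) hm
  · have h2 : 0 ≤ ∑ e ∈ edg X q, Wd C wt e := Finset.sum_nonneg fun e _ => Wd_nonneg hw e
    have h3 : 0 ≤ d := (hδ q).le.trans (hd q le_rfl)
    positivity

end

end Crest.Agent.R96.Nu5_199
namespace Crest.Agent.R96.Nu5_199.LB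
end Crest.Agent.R96.Nu5_199.LB
end

-- ▼ part R96/Nu6_199

set_option autoImplicit false

open Set Metric Filter Topology

namespace Crest.Agent.R96.Nu6_199

open Crest.Agent.R096.Ce_537 Crest.Agent.R096.Bd_416 Crest.Agent.R96.Nu1_199
open Crest.Agent.R96.Nu2_199 Crest.Agent.R96.Nu3_199 Crest.Agent.R96.Nu4_199
open Crest.Agent.R96.Nu5_199

open scoped Classical

set_option linter.unusedSectionVars false

noncomputable section

variable {E : Type*} [NormedAddCommGroup E] [NormedSpace ℝ E] [FiniteDimensional ℝ E]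
variable {Q : Type} [PartialOrder Q] {dim : Q → ℕ} {J Fam : Type}
variable {C : Cmb Q dim J Fam} {K : Q → Set E} {Ω : Set E}
variable {R : Set Q} {K₀ ε : ℝ} {b : ℕ → ℝ} {wt : J → ℝ} {δ : Q → ℝ}
variable {g0 : Gd E J} {P0 : ∀ q, C.I q → Set E} {c0 : ∀ q, C.I q → E → ℝ}

/-- all affine frames -/
def FrA (E : Type*) [NormedAddCommGroup E] [NormedSpace ℝ E] : Set (E → E) :=
  Set.range fun B : E ≃ᵃ[ℝ] E => (B : E → E)

/-- **the charts of the cells, with constants in all affine frames** -/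
theorem exists_e (X : Cplx Ω Q dim K) (hconv : ∀ τ, Convex ℝ (K τ)) (hcpt : ∀ τ, IsCompact (K τ))
    (hbd : ∀ τ, bdS K τ = K τ \ ri (K τ)) :
    ∃ e : ∀ τ, 1 ≤ dim τ → PLEquiv (cube (dim τ)) (K τ),
      (∀ τ, ∀ hd : 1 ≤ dim τ, (e τ hd).f '' sph (dim τ) = bdS K τ) ∧
      (∀ τ, ∀ hd : 1 ≤ dim τ, ∀ B ∈ FrA E, ∀ v ∈ cube (dim τ),
        MB id B (AAc (dim τ) (B '' K τ)) (e τ hd).f (cube (dim τ)) v) ∧
      (∀ τ, ∀ hd : 1 ≤ dim τ, ∀ B ∈ FrA E, ∀ z ∈ K τ,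
        MB B id (AAc (dim τ) (B '' K τ)) (e τ hd).g (K τ) z) := by
  have h1 : ∀ τ, ∃ e : PLEquiv (cube (dim τ)) (K τ), e.f '' sph (dim τ) = K τ \ ri (K τ) ∧
      ∀ B : E ≃ᵃ[ℝ] E, (∀ x ∈ cube (dim τ),
        MB (fun x => x) B (AAc (dim τ) (B '' K τ)) e.f (cube (dim τ)) x) ∧
        ∀ z ∈ K τ, MB B (fun x => x) (AAc (dim τ) (B '' K τ)) e.g (K τ) z := by
    intro τ
    have hb : IsBall (dim τ) (K τ) (K τ \ ri (K τ)) := by
      rw [← hbd]; exact X.isBall τ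
    exact AAc_spec (hconv τ) (hcpt τ) hb.nonempty hb
  choose e he hB using h1
  refine ⟨fun τ _ => e τ, fun τ _ => by rw [hbd]; exact he τ, ?_, ?_⟩
  · rintro τ _ _ ⟨B, rfl⟩ v hv
    exact (hB τ B).1 v hv
  · rintro τ _ _ ⟨B, rfl⟩ z hz
    exact (hB τ B).2 z hz

/-- the numbers of the mesh: `Kn n * omB B q` -/
abbrev LamS (X : Cplx Ω Q dim K) (C : Cmb Q dim J Fam) (K₀ ε : ℝ) (b : ℕ → ℝ) (wt : J → ℝ)
    (δ : Q → ℝ) : ℕ → Q → (E → E) → ℝ :=
  LamB K₀ 1 ε b (fun B q => omB X C wt δ B q)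


/-- **THE CONSTANT OF A TILE IN A FRAME**: `m = dim q` the top dimension, `𝒦` the configuration in
the frame `B`. -/
theorem lam_tile (X : Cplx Ω Q dim K) (hw : ∀ j, 0 < wt j) (hb0 : ∀ n, 0 < b n) (hK : 0 ≤ K₀)
    (hδ : ∀ q, 0 < δ q) {m : ℕ} {q : Q} (hq : 2 ≤ dim q) (hm : dim q ≤ m) {B : E ≃ᵃ[ℝ] E}
    {𝒦 : Set (Set E)} (h𝒦 : 𝒦.Finite) (hB : ∀ σ ≤ q, B '' K σ ∈ 𝒦)
    (hinj : ∀ σ ≤ q, ∀ σ' ≤ q, K σ = K σ' → σ = σ') {d : ℝ} (hd : ∀ σ ≤ q, δ σ ≤ d)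
    (hne : ∀ σ ≤ q, 2 ≤ dim σ → ∀ x : C.I σ, ∃ e, ∃ h : e < σ, dim e = 1 ∧
      ∃ y : C.I e, C.up h y = x) :
    LamS X C K₀ ε b wt δ (m + 1) q B ≤
      C𝒦 K₀ ε b m 𝒦 * (∑ e ∈ edg X q, Wd C wt e + d) := by
  have h1 := omB_le X hw hδ hq hm B.injective h𝒦 hB hinj hd hne
  have h2 := Kn_nonneg (A := 1) (ε := ε) hK hb0 (m + 1)
  calc Kn K₀ 1 ε b (m + 1) * omB X C wt δ B q
      ≤ Kn K₀ 1 ε b (m + 1) * ((1 + 𝒦.ncard * A𝒦 m 𝒦 ^ 2) ^ m *
        (A𝒦 m 𝒦 * (∑ e ∈ edg X q, Wd C wt e + d))) := mul_le_mul_of_nonneg_left h1 h2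
    _ = _ := by unfold C𝒦; ring

end

end Crest.Agent.R96.Nu6_199
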