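/-
helper199, row 96, ENERGY FOR ARBITRARY SEGMENTS, part 1: crossing numbers of a function with the
segments `x + [0,1] v`, and the choice of the levels.
-/
import Mathlib
import Crest.Agent.R96.En2_199
import Crest.Agent.R96.Sob4_199
import Crest.Agent.R96.Sob6_199

set_option autoImplicit false

open MeasureTheory Set Filter
open scoped Topology ENNReal

namespace Crest.Agent.R96.Sg1_199

open Crest.Agent.R096.Bas_731 Crest.Agent.R96.En2_199 Crest.Agent.R96.Acl_392
  Crest.Agent.R96.Sob2_199 Crest.Agent.R96.Sob3_199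

noncomputable section

variable {E : Type*} [NormedAddCommGroup E] [NormedSpace ℝ E]

/-- the segment `x + [0,1] v` -/
def sgm (x v : E) : Set E := (fun τ : ℝ => x + τ • v) '' Icc (0:ℝ) 1

theorem sgm_eq_segment (x v : E) : sgm x v = segment ℝ x (x + v) := by
  rw [segment_eq_image']
  unfold sgm
  simp only [add_sub_cancel_left]

theorem mem_sgm {x v y : E} : y ∈ sgm x v ↔ ∃ τ ∈ Icc (0:ℝ) 1, x + τ • v = y := Iff.rfl

theorem isCompact_sgm (x v : E) : IsCompact (sgm x v) := by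
  apply isCompact_Icc.image
  fun_prop

theorem param_injective {x v : E} (hv : v ≠ 0) :
    Function.Injective (fun τ : ℝ => x + τ • v) := by
  intro s t h
  have h1 : s • v = t • v := add_left_cancel h
  have h2 : (s - t) • v = 0 := by rw [sub_smul, h1, sub_self]
  rcases smul_eq_zero.1 h2 with h3 | h3
  · linarith
  · exact absurd h3 hv

/-- number of points of the level `y` of `u` on the segment -/
def cr (u : E → ℝ) (x v : E) (y : ℝ) : ℝ≥0∞ := ((sgm x v ∩ u ⁻¹' {y}).encard : ℝ≥0∞)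

/-- line integral (in the parameter) over the segment -/
def li (G : E → ℝ≥0∞) (x v : E) : ℝ≥0∞ := ∫⁻ τ in Icc (0:ℝ) 1, G (x + τ • v)

theorem cr_eq {u : E → ℝ} {x v : E} (hv : v ≠ 0) (y : ℝ) :
    cr u x v y = cnt (fun τ => u (x + τ • v)) (Icc (0:ℝ) 1) y := by
  unfold cr cnt
  have h1 : sgm x v ∩ u ⁻¹' {y} = (fun τ : ℝ => x + τ • v) '' (Icc (0:ℝ) 1 ∩
      (fun τ => u (x + τ • v)) ⁻¹' {y}) := by
    ext z
    constructor
    · rintro ⟨⟨s, hs, rfl⟩, h⟩; exact ⟨s, ⟨hs, h⟩, rfl⟩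
    · rintro ⟨s, ⟨hs, h⟩, rfl⟩; exact ⟨⟨s, hs, rfl⟩, h⟩
  rw [h1, (param_injective hv).injOn.encard_image]

/-- upper gradient along the segment -/
def UGs (u : E → ℝ) (g : E → ℝ≥0∞) (x v : E) : Prop := ∀ s t : ℝ, 0 ≤ s → s ≤ t → t ≤ 1 →
  ENNReal.ofReal |u (x + t • v) - u (x + s • v)| ≤ ∫⁻ τ in Ioc s t, g (x + τ • v)

theorem ugs_of_acl {Ω : Set E} {u g : E → ℝ} {x v : E} (hsub : sgm x v ⊆ Ω)
    (h : ACLat Ω u g v x) : UGs u (fun y => ‖g y‖ₑ) x v := by
  intro s t hs hst ht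
  have hseg : x ∈ segIn Ω v s t := by
    intro τ hτ
    exact hsub ⟨τ, ⟨hs.trans hτ.1, hτ.2.trans ht⟩, rfl⟩
  obtain ⟨h1, h2⟩ := h s t hst hseg
  rw [h2, intervalIntegral.integral_of_le hst, ← Real.norm_eq_abs, ofReal_norm]
  exact enorm_integral_le_lintegral_enorm _

theorem li_ne_top_of_acl {Ω : Set E} {u g : E → ℝ} {x v : E} (hsub : sgm x v ⊆ Ω)
    (h : ACLat Ω u g v x) : li (fun y => ‖g y‖ₑ) x v ≠ ∞ := by
  have hseg : x ∈ segIn Ω v 0 1 := by
    intro τ hτ
    exact hsub ⟨τ, hτ, rfl⟩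
  obtain ⟨h1, -⟩ := h 0 1 zero_le_one hseg
  exact h1.hasFiniteIntegral.ne

theorem cr_facts {u : E → ℝ} {g : E → ℝ≥0∞} {x v : E} (hv : v ≠ 0)
    (hu : ContinuousOn u (sgm x v)) (hug : UGs u g x v) :
    AEMeasurable (cr u x v) (volume.restrict (Icc (0:ℝ) 1)) ∧
      ∫⁻ y in Icc (0:ℝ) 1, cr u x v y ≤ li g x v := by
  have h0 : cr u x v = cnt (fun τ => u (x + τ • v)) (Icc (0:ℝ) 1) :=
    funext fun y => cr_eq hv y
  have hcont : ContinuousOn (fun τ : ℝ => u (x + τ • v)) (Icc (0:ℝ) 1) := by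
    refine hu.comp (Continuous.continuousOn (by fun_prop)) ?_
    intro s hs
    exact ⟨s, hs, rfl⟩
  constructor
  · rw [h0]
    exact (aemeasurable_cnt_Icc hcont).restrict
  · refine (setLIntegral_le_lintegral _ _).trans ?_
    rw [h0]
    have hdom : Dom (fun τ : ℝ => u (x + τ • v))
        ((volume.restrict (Icc (0:ℝ) 1)).withDensity
          fun τ => g (x + τ • v)) 0 1 := by
      intro s t hs hst ht
      have hsub : Ioc s t ⊆ Icc (0:ℝ) 1 := fun τ hτ =>
        ⟨hs.trans hτ.1.le, hτ.2.trans ht⟩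
      rw [withDensity_apply _ measurableSet_Ioc, Measure.restrict_restrict measurableSet_Ioc,
        inter_eq_self_of_subset_left hsub]
      exact hug s t hs hst ht
    refine (lintegral_cnt_Icc_le hcont hdom).trans ?_
    rw [withDensity_apply _ measurableSet_Ioc, Measure.restrict_restrict measurableSet_Ioc,
      inter_eq_self_of_subset_left Ioc_subset_Icc_self]
    exact lintegral_mono_set Ioc_subset_Icc_self






/-- errors with prescribed weighted sums -/
theorem exists_errs {ι 𝒞 : Type*} [Countable 𝒞] {w : 𝒞 → ℝ≥0∞} (hw : ∀ c, w c ≠ ∞)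
    {err : ι → ℝ≥0∞} (herr : ∀ j, err j ≠ 0) :
    ∃ e : 𝒞 → ι → ℝ, (∀ c j, 0 < e c j) ∧ ∀ j, ∑' c, w c * ENNReal.ofReal (e c j) ≤ err j := by
  have h1 : ∀ j, ∃ e : 𝒞 → ℝ, (∀ c, 0 < e c) ∧ ∑' c, w c * ENNReal.ofReal (e c) ≤ err j := by
    intro j
    obtain ⟨δ, hδ0, hδ⟩ := ENNReal.exists_pos_sum_of_countable' (herr j) 𝒞
    have h2 : ∀ c, ∃ e : ℝ, 0 < e ∧ w c * ENNReal.ofReal e ≤ δ c := by
      intro c
      have h3 : (0:ℝ≥0∞) < min 1 (δ c / (w c + 1)) := by
        apply lt_min one_pos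
        apply ENNReal.div_pos (hδ0 c).ne'
        simp [hw c]
      have h4 : min 1 (δ c / (w c + 1)) ≠ ∞ := (min_le_left _ _).trans_lt ENNReal.one_lt_top |>.ne
      refine ⟨(min 1 (δ c / (w c + 1))).toReal, ENNReal.toReal_pos h3.ne' h4, ?_⟩
      rw [ENNReal.ofReal_toReal h4]
      calc w c * min 1 (δ c / (w c + 1)) ≤ (w c + 1) * (δ c / (w c + 1)) := by
            gcongr
            · exact le_self_add
            · exact min_le_right _ _
        _ = δ c := by
            apply ENNReal.mul_div_cancel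
            · simp
            · simp [hw c]
    choose e he0 he using h2
    exact ⟨e, he0, (ENNReal.tsum_le_tsum he).trans hδ.le⟩
  choose e he0 he using h1
  exact ⟨fun c j => e j c, fun c j => he0 j c, he⟩


end

end Crest.Agent.R96.Sg1_199
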