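/-
helper199, row 96, leaf ENERGY, part 11: sharp form: every edge sees only the derivative in its own
direction; energies of the edges of one direction; (D3) of DICT (582), (5.3) of 477 #8882.
-/
import Mathlib
import Crest.Agent.R96.En9_199

set_option autoImplicit false

open MeasureTheory Set Filter
open scoped Topology ENNReal

namespace Crest.Agent.R96.En11_199

open Crest.Agent.R096.Msh_810 Crest.Agent.R096.Bas_731 Crest.Agent.R96.En3_199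
  Crest.Agent.R96.En4_199 Crest.Agent.R96.En5_199 Crest.Agent.R96.En2_199 Crest.Agent.R96.En6_199
  Crest.Agent.R96.En7_199 Crest.Agent.R96.En8_199 Crest.Agent.R96.En9_199
  Crest.Agent.R96.Acl_392 Crest.Agent.R96.Sob2_199 Crest.Agent.R96.Sob3_199

noncomputable section

variable {n : ℕ}

/-! ### levels in the own direction of the edge -/




/-- the weighted sum of the norms of the partial derivatives in direction `i` -/
def Hw {𝒞 : Type*} (w : 𝒞 → ℝ≥0∞) (g : 𝒞 → Fin n → (Fin n → ℝ) → ℝ) (i : Fin n)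
    (x : Fin n → ℝ) : ℝ≥0∞ := ∑' c, w c * ‖g c i x‖ₑ

theorem measurable_Hw {𝒞 : Type*} [Countable 𝒞] {g : 𝒞 → Fin n → (Fin n → ℝ) → ℝ}
    (hg : ∀ c i, Measurable (g c i)) (w : 𝒞 → ℝ≥0∞) (i : Fin n) : Measurable (Hw w g i) :=
  Measurable.tsum fun c => (hg c i).enorm.const_mul _

theorem GGw_eq {𝒞 : Type*} (w : 𝒞 → ℝ≥0∞) (g : 𝒞 → Fin n → (Fin n → ℝ) → ℝ) (x : Fin n → ℝ) :
    GGw w g x = ∑ i, Hw w g i x := by
  unfold GGw Hw G1
  rw [← Summable.tsum_finsetSum (fun i _ => ENNReal.summable)]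
  exact tsum_congr fun c => Finset.mul_sum _ _ _

theorem Hw_le_GGw {𝒞 : Type*} (w : 𝒞 → ℝ≥0∞) (g : 𝒞 → Fin n → (Fin n → ℝ) → ℝ) (i : Fin n)
    (x : Fin n → ℝ) : Hw w g i x ≤ GGw w g x := by
  rw [GGw_eq]
  exact Finset.single_le_sum (f := fun i => Hw w g i x) (fun _ _ => zero_le) (Finset.mem_univ i)


/-! ### comparison with a constant -/

/-- `∫_σ H ≤ s |σ| + ∫_σ (H - s)⁺` -/
theorem ic_le_const {H : (Fin n → ℝ) → ℝ≥0∞} (s : ℝ≥0∞) (a : Fin n → ℝ) {σ : Idx n}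
    (hσ : σ.J.card = 1) :
    ic H a σ ≤ s * ((2:ℝ≥0∞) ^ σ.k)⁻¹ + ic (fun x => H x - s) a σ := by
  have h1 : ∫⁻ _t, s ∂sm σ.k σ.J = s * ((2:ℝ≥0∞) ^ σ.k)⁻¹ := by
    rw [lintegral_const, sm_univ, hσ, pow_one]
  rw [← h1]
  unfold ic
  rw [← lintegral_add_left measurable_const]
  apply lintegral_mono
  intro t
  exact le_add_tsub

theorem ic_mono {H H' : (Fin n → ℝ) → ℝ≥0∞} (h : ∀ x, H x ≤ H' x) (a : Fin n → ℝ) (σ : Idx n) :
    ic H a σ ≤ ic H' a σ := lintegral_mono fun _ => h _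

/-! ### energies of the edges of one direction -/

/-- the `p`-energy of `X` on the edges of direction `i` -/
def Ed (D : Dat n) (i : Fin n) (p : ℝ) (X : (Fin n → ℝ) → ℝ≥0∞) : ℝ≥0∞ :=
  ∑' σ : {σ : Cel D // σ.1.J = {i}}, vol D σ.1 * ((2:ℝ≥0∞) ^ σ.1.1.k * ic X D.a σ.1.1) ^ p

theorem Ed_le {D : Dat n} {X : (Fin n → ℝ) → ℝ≥0∞} (hX : Measurable X) {p : ℝ} (hp : 1 ≤ p)
    (i : Fin n) : Ed D i p X ≤
      ∑' σ : {σ : Cel D // σ.1.J = {i}}, wt n σ.1.1.k * ic (fun x => X x ^ p) D.a σ.1.1 := by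
  unfold Ed
  refine ENNReal.tsum_le_tsum fun σ => ?_
  have hc : σ.1.1.J.card = 1 := by rw [σ.2]; simp
  calc vol D σ.1 * ((2:ℝ≥0∞) ^ σ.1.1.k * ic X D.a σ.1.1) ^ p
      ≤ vol D σ.1 * ((2:ℝ≥0∞) ^ σ.1.1.k * ic (fun x => X x ^ p) D.a σ.1.1) := by
        gcongr
        exact ic_rpow_le hX D.a hc hp
    _ = _ := by rw [wt, vol]; ring

/-- **choice of the shift for the energies of the edges** -/
theorem volume_bad_E {D : Dat n} {ι : Type*} [Countable ι] {X : ι → (Fin n → ℝ) → ℝ≥0∞}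
    (hX : ∀ j, Measurable (X j)) (i : ι → Fin n) {p : ι → ℝ} (hp : ∀ j, 1 ≤ p j)
    {c : ι → ℝ≥0∞} (hc : ∀ j, c j ≠ 0) :
    volume {a ∈ box n | ∃ j, c j * (2 * ∫⁻ x in D.Om, X j x ^ p j) <
      Ed (D.sh a) (i j) (p j) (X j)} ≤ ∑' j, (c j)⁻¹ := by
  have hF : ∀ j, Measurable (fun x => X j x ^ p j) := fun j => (hX j).pow_const _
  have h1 := volume_bad_le (D := D) (fun j x => X j x ^ p j) hF (fun j => {i j})
    (fun _ => wt n) c hc
  refine le_trans (measure_mono ?_) h1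
  rintro a ⟨ha, j, hj⟩
  refine ⟨ha, j, ?_⟩
  by_contra hcon
  push Not at hcon
  have h2 : Ed (D.sh a) (i j) (p j) (X j) ≤ c j * (2 * ∫⁻ x in D.Om, X j x ^ p j) := by
    calc Ed (D.sh a) (i j) (p j) (X j)
        ≤ ∑' σ : {σ : Cel (D.sh a) // σ.1.J = {i j}}, wt n σ.1.1.k *
            ic (fun x => X j x ^ p j) (D.sh a).a σ.1.1 := Ed_le (hX j) (hp j) (i j)
      _ ≤ En D (fun x => X j x ^ p j) {i j} (wt n) a :=
          tsum_cells_le (D := D) (fun x => X j x ^ p j) {i j} (wt n) a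
      _ ≤ c j * Av D (fun x => X j x ^ p j) {i j} (wt n) := hcon
      _ ≤ _ := by
          gcongr
          exact Av_le D (hF j) (i j)
  exact absurd hj (not_lt.2 h2)


/-! ### the errors -/

/-- errors with a small energy on the edges and on the cubes -/
theorem exists_err2 (D : Dat n) {p : ℝ} (hp : 1 ≤ p) {δ : ℝ≥0∞} (hδ : δ ≠ 0) :
    ∃ e : Cel D → ℝ, (∀ σ, 0 < e σ) ∧
      (∑' τ : {τ : Cel D // τ.1.J = Finset.univ}, vol D τ.1 * ((2:ℝ≥0∞) ^ τ.1.1.k *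
        ∑' σ : {σ : Cel D // σ ∈ edgesOf τ.1}, ENNReal.ofReal (e σ.1)) ^ p ≤ δ) ∧
      ∑' σ : Cel D, vol D σ * ((2:ℝ≥0∞) ^ σ.1.k * ENNReal.ofReal (e σ)) ^ p ≤ δ := by
  obtain ⟨e1, he10, he1⟩ := exists_err D hp hδ
  obtain ⟨δ', hδ'0, hδ'⟩ := ENNReal.exists_pos_sum_of_countable hδ (Cel D)
  have hb : ∀ σ : Cel D, ∃ b : ℝ, 0 < b ∧
      vol D σ * ((2:ℝ≥0∞) ^ σ.1.k * ENNReal.ofReal b) ^ p ≤ δ' σ := by
    intro σ
    have hv0 : vol D σ ≤ 1 := by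
      unfold vol
      apply pow_le_one₀ (by positivity)
      rw [ENNReal.inv_le_one]
      exact one_le_pow₀ (by norm_num)
    set δ1 : ℝ := min (δ' σ : ℝ) 1 with hδ1
    have hδ1pos : 0 < δ1 := lt_min (by exact_mod_cast hδ'0 σ) one_pos
    refine ⟨δ1 / 2 ^ σ.1.k, by positivity, ?_⟩
    have h1 : (2:ℝ≥0∞) ^ σ.1.k * ENNReal.ofReal (δ1 / 2 ^ σ.1.k) = ENNReal.ofReal δ1 := by
      have h2 : (2:ℝ≥0∞) ^ σ.1.k = ENNReal.ofReal (2 ^ σ.1.k) := by
        rw [ENNReal.ofReal_pow (by norm_num)]; norm_num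
      rw [h2, ← ENNReal.ofReal_mul (by positivity)]
      congr 1
      field_simp
    rw [h1]
    calc vol D σ * ENNReal.ofReal δ1 ^ p ≤ 1 * ENNReal.ofReal δ1 ^ (1:ℝ) := by
          gcongr ?_ * ?_
          apply ENNReal.rpow_le_rpow_of_exponent_ge _ hp
          rw [ENNReal.ofReal_le_one]
          exact min_le_right _ _
      _ = ENNReal.ofReal δ1 := by rw [one_mul, ENNReal.rpow_one]
      _ ≤ ENNReal.ofReal (δ' σ : ℝ) := ENNReal.ofReal_le_ofReal (min_le_left _ _)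
      _ = δ' σ := ENNReal.ofReal_coe_nnreal
  choose b hb0 hb1 using hb
  refine ⟨fun σ => min (e1 σ) (b σ), fun σ => lt_min (he10 σ) (hb0 σ), ?_, ?_⟩
  · refine le_trans (ENNReal.tsum_le_tsum fun τ => ?_) he1
    gcongr with σ
    exact min_le_left _ _
  · calc ∑' σ : Cel D, vol D σ * ((2:ℝ≥0∞) ^ σ.1.k * ENNReal.ofReal (min (e1 σ) (b σ))) ^ p
        ≤ ∑' σ : Cel D, (δ' σ : ℝ≥0∞) := by
          refine ENNReal.tsum_le_tsum fun σ => le_trans ?_ (hb1 σ)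
          gcongr
          exact min_le_right _ _
      _ ≤ δ := hδ'.le




end

end Crest.Agent.R96.En11_199
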