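/-
helper199, row 96, TILE-ENERGY, part 3: derivatives in arbitrary directions on `Fin n → ℝ`, final
form of the choice of the translate.
-/
import Mathlib
import Crest.Agent.R96.Sg4_199
import Crest.Agent.R96.En10_199

set_option autoImplicit false

open MeasureTheory Set Filter Metric
open scoped Topology ENNReal

namespace Crest.Agent.R96.Sg5_199

open Crest.Agent.R96.Acl_392 Crest.Agent.R96.Sob2_199 Crest.Agent.R96.Sob3_199
  Crest.Agent.R96.Sg1_199 Crest.Agent.R96.Sg2_199 Crest.Agent.R96.Sg3_199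
  Crest.Agent.R96.Sg4_199 Crest.Agent.R96.En9_199 Crest.Agent.R96.En10_199

noncomputable section

variable {n : ℕ}

/-- the derivative in the direction `v` -/
def gdir (g : Fin n → (Fin n → ℝ) → ℝ) (v y : Fin n → ℝ) : ℝ := ∑ l, v l * g l y

theorem measurable_gdir {g : Fin n → (Fin n → ℝ) → ℝ} (hg : ∀ l, Measurable (g l))
    (v : Fin n → ℝ) : Measurable (gdir g v) := by
  unfold gdir
  exact Finset.measurable_sum _ fun l _ => (hg l).const_mul _

theorem wd_dir [NeZero n] {Ω : Set (Fin n → ℝ)} {μ : Measure (Fin n → ℝ)} [μ.IsAddHaarMeasure]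
    {u : (Fin n → ℝ) → ℝ} {g : Fin n → (Fin n → ℝ) → ℝ}
    (h : ∀ l, WD Ω μ u (g l) (Pi.single l (1:ℝ))) (v : Fin n → ℝ) :
    WD Ω μ u (gdir g v) v := by
  have hu0 : WD Ω μ u (fun _ => 0) 0 := by
    have h1 := wd_smul_dir (h 0) 0
    simpa using h1
  have key : ∀ S : Finset (Fin n), WD Ω μ u (fun y => ∑ l ∈ S, v l * g l y)
      (∑ l ∈ S, v l • Pi.single l (1:ℝ)) := by
    intro S
    induction S using Finset.induction_on with
    | empty => simpa using hu0
    | insert l S hl ih =>
      simp only [Finset.sum_insert hl]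
      exact wd_add_dir (wd_smul_dir (h l) (v l)) ih
  have h1 := key Finset.univ
  have h2 : (∑ l, v l • Pi.single l (1:ℝ) : Fin n → ℝ) = v := by
    funext m
    simp [Finset.sum_apply, Pi.single_apply]
  rw [h2] at h1
  exact h1




end

end Crest.Agent.R96.Sg5_199
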