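import Mathlib
import Crest.Agent.R96.Sg2_199

-- ▼ part R96/Sg6_199
section

set_option autoImplicit false

open MeasureTheory Set Filter Metric
open scoped Topology ENNReal Pointwise

namespace Crest.Agent.R96.Sg6_199

noncomputable section

variable {E : Type*} [NormedAddCommGroup E] [NormedSpace ℝ E] [FiniteDimensional ℝ E]
  [MeasurableSpace E] [BorelSpace E] {μ : Measure E} [μ.IsAddHaarMeasure]

/-- some translate of `N` meets `G` in positive measure -/
theorem exists_inter {G N : Set E} (hG : MeasurableSet G) (hN : MeasurableSet N) (hG0 : μ G ≠ 0)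
    (hN0 : μ N ≠ 0) : ∃ x : E, μ {y | y ∈ G ∧ y - x ∈ N} ≠ 0 := by
  by_contra hcon
  push Not at hcon
  have hmeas : Measurable fun q : E × E => G.indicator (1 : E → ℝ≥0∞) q.2 *
      N.indicator (1 : E → ℝ≥0∞) (q.2 - q.1) :=
    ((measurable_one.indicator hG).comp measurable_snd).mul
      ((measurable_one.indicator hN).comp (measurable_snd.sub measurable_fst))
  have h1 : ∫⁻ x, ∫⁻ y, G.indicator (1 : E → ℝ≥0∞) y * N.indicator (1 : E → ℝ≥0∞) (y - x) ∂μ ∂μ
      = 0 := by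
    have h2 : ∀ x : E, ∫⁻ y, G.indicator (1 : E → ℝ≥0∞) y *
        N.indicator (1 : E → ℝ≥0∞) (y - x) ∂μ = 0 := by
      intro x
      have h3 : ∀ y, G.indicator (1 : E → ℝ≥0∞) y * N.indicator (1 : E → ℝ≥0∞) (y - x) =
          {y | y ∈ G ∧ y - x ∈ N}.indicator 1 y := by
        intro y
        by_cases hy : y ∈ G <;> by_cases hy' : y - x ∈ N <;> simp [hy, hy']
      have h4 : MeasurableSet {y | y ∈ G ∧ y - x ∈ N} :=
        hG.inter ((measurable_id.sub_const x) hN)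
      simp only [h3]
      rw [lintegral_indicator_one h4]
      exact hcon x
    simp only [h2, lintegral_zero]
  rw [lintegral_lintegral_swap hmeas.aemeasurable] at h1
  have h4 : ∀ y : E, ∫⁻ x, G.indicator (1 : E → ℝ≥0∞) y * N.indicator (1 : E → ℝ≥0∞) (y - x) ∂μ =
      G.indicator (1 : E → ℝ≥0∞) y * μ N := by
    intro y
    have h5 : Measurable fun x : E => N.indicator (1 : E → ℝ≥0∞) (y - x) :=
      (measurable_one.indicator hN).comp (measurable_const.sub measurable_id)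
    rw [lintegral_const_mul _ h5, lintegral_sub_left_eq_self (μ := μ) (N.indicator 1) y,
      lintegral_indicator_one hN]
  simp only [h4] at h1
  rw [lintegral_mul_const _ (measurable_one.indicator hG), lintegral_indicator_one hG,
    mul_eq_zero] at h1
  exact h1.elim hG0 hN0

/-- **for almost every `a` there is `w` in the dense set `Γ` with `a + w ∈ G`** -/
theorem ae_exists_shift {G : Set E} (hG : MeasurableSet G) (hG0 : μ G ≠ 0) (hG1 : μ G ≠ ∞)
    {Γ : Set E} (hΓ : Γ.Countable) (hd : Dense Γ) : ∀ᵐ a ∂μ, ∃ w ∈ Γ, a + w ∈ G := by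
  have hNm : MeasurableSet {a : E | ¬ ∃ w ∈ Γ, a + w ∈ G} := by
    have : {a : E | ¬ ∃ w ∈ Γ, a + w ∈ G} = ⋂ w ∈ Γ, (fun a => a + w) ⁻¹' Gᶜ := by
      ext a
      simp only [not_exists, not_and, mem_ofPred_eq, mem_iInter, mem_preimage, mem_compl_iff]
    rw [this]
    exact MeasurableSet.biInter hΓ fun w _ => (measurable_id.add_const w) hG.compl
  rw [ae_iff]
  by_contra hN0
  obtain ⟨x, hx⟩ := exists_inter (μ := μ) hG hNm hG0 hN0
  have hS : MeasurableSet {y | y ∈ G ∧ y - x ∈ {a : E | ¬ ∃ w ∈ Γ, a + w ∈ G}} :=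
    hG.inter ((measurable_id.sub_const x) hNm)
  have hS1 : μ {y | y ∈ G ∧ y - x ∈ {a : E | ¬ ∃ w ∈ Γ, a + w ∈ G}} ≠ ∞ :=
    ((measure_mono fun y hy => hy.1).trans_lt hG1.lt_top).ne
  have h1 := Measure.sub_mem_nhds_zero_of_addHaar_pos_ne_top μ _ hS (pos_iff_ne_zero.2 hx) hS1
  rw [Metric.mem_nhds_iff] at h1
  obtain ⟨ρ, hρ, h2⟩ := h1
  obtain ⟨γ, hγx, hγ⟩ := Metric.dense_iff.1 hd x ρ hρ
  have h3 : γ - x ∈ ball (0:E) ρ := by
    rw [mem_ball, dist_zero_right, ← dist_eq_norm]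
    exact hγx
  obtain ⟨s1, hs1, s2, hs2, h4⟩ := h2 h3
  refine hs2.2 ⟨γ, hγ, ?_⟩
  have h5 : s2 - x + γ = s1 := by
    have : s1 - s2 = γ - x := h4
    rw [sub_eq_sub_iff_add_eq_add] at this
    calc s2 - x + γ = (γ + s2) - x := by abel
      _ = (s1 + x) - x := by rw [← this]
      _ = s1 := add_sub_cancel_right _ _
  rw [h5]
  exact hs1.1

/-- **finite list of shifts**: off a set of `a`'s of small measure one of the shifts of a finite
list is good (`Γ j` increasing, with dense union) -/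
theorem exists_list {G : Set E} (hG : MeasurableSet G) (hG0 : μ G ≠ 0) (hG1 : μ G ≠ ∞)
    {Γ : ℕ → Set E} (hΓ : ∀ j, (Γ j).Countable) (hm : Monotone Γ) (hd : Dense (⋃ j, Γ j))
    {A : Set E} (hA : MeasurableSet A) (hA1 : μ A ≠ ∞) {ε : ℝ≥0∞} (hε : ε ≠ 0) :
    ∃ j, μ {a | a ∈ A ∧ ∀ w ∈ Γ j, a + w ∉ G} ≤ ε := by
  have h1 := ae_exists_shift (μ := μ) hG hG0 hG1 (countable_iUnion hΓ) hd
  set N : ℕ → Set E := fun j => {a | a ∈ A ∧ ∀ w ∈ Γ j, a + w ∉ G} with hN
  have hNm : ∀ j, MeasurableSet (N j) := by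
    intro j
    have : N j = A ∩ ⋂ w ∈ Γ j, (fun a => a + w) ⁻¹' Gᶜ := by
      ext a
      simp only [hN, mem_ofPred_eq, mem_inter_iff, mem_iInter, mem_preimage, mem_compl_iff]
    rw [this]
    exact hA.inter (MeasurableSet.biInter (hΓ j) fun w _ => (measurable_id.add_const w) hG.compl)
  have hanti : Antitone N := fun j j' h a ha => ⟨ha.1, fun w hw => ha.2 w (hm h hw)⟩
  have h2 : Tendsto (fun j => μ (N j)) atTop (𝓝 (μ (⋂ j, N j))) :=
    tendsto_measure_iInter_atTop (fun j => (hNm j).nullMeasurableSet) hanti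
      ⟨0, ((measure_mono fun a ha => ha.1).trans_lt hA1.lt_top).ne⟩
  have h3 : μ (⋂ j, N j) = 0 := by
    refine measure_mono_null ?_ (ae_iff.1 h1)
    intro a ha
    rintro ⟨w, hw, hwG⟩
    obtain ⟨j, hj⟩ := mem_iUnion.1 hw
    exact (mem_iInter.1 ha j).2 w hj hwG
  rw [h3] at h2
  obtain ⟨j, hj⟩ := ((ENNReal.tendsto_nhds_zero.1 h2) ε (pos_iff_ne_zero.2 hε)).exists
  exact ⟨j, hj⟩


end

end Crest.Agent.R96.Sg6_199
end

-- ▼ part R96/Sg7_199

set_option autoImplicit false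

open MeasureTheory Set Filter Metric
open scoped Topology ENNReal Pointwise

namespace Crest.Agent.R96.Sg7_199

open Crest.Agent.R96.Sg6_199

noncomputable section

variable {E : Type*} [NormedAddCommGroup E] [NormedSpace ℝ E] [FiniteDimensional ℝ E]
  [MeasurableSpace E] [BorelSpace E] {μ : Measure E} [μ.IsAddHaarMeasure]



/-- **Chebyshev for the shifts of one block**: the set of the good total shifts in `B` has positive
measure (at least `(1 - Σ 1/κ) μ B`) -/
theorem good_shifts {ι' : Type*} [Countable ι'] {B : Set E} (hB : MeasurableSet B)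
    {F : ι' → E → ℝ≥0∞} (hF : ∀ i, Measurable (F i)) {κ m : ι' → ℝ≥0∞}
    (hm0 : ∀ i, m i ≠ 0) (hκ1 : ∀ i, κ i ≠ ∞) (hκ0 : ∀ i, κ i ≠ 0)
    (hm : ∀ i, ∫⁻ a in B, F i a ∂μ ≤ m i * μ B)
    {θ : ℝ≥0∞} (hκ : ∑' i, (κ i)⁻¹ ≤ θ) {P : E → Prop} (hP : ∀ᵐ a ∂μ, a ∈ B → P a) :
    ∃ G ⊆ B, MeasurableSet G ∧ μ (B \ G) ≤ θ * μ B ∧ ∀ a ∈ G, P a ∧ ∀ i, F i a ≤ κ i * m i := by
  set N : Set E := toMeasurable μ {a | ¬ (a ∈ B → P a)} with hN
  have hN0 : μ N = 0 := by rw [hN, measure_toMeasurable]; exact ae_iff.1 hP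
  have hNm : MeasurableSet N := measurableSet_toMeasurable _ _
  set Z : ι' → Set E := fun i => B ∩ {a | κ i * m i < F i a} with hZ
  have hZm : ∀ i, MeasurableSet (Z i) := fun i =>
    hB.inter (measurableSet_lt measurable_const (hF i))
  refine ⟨B \ (N ∪ ⋃ i, Z i), sdiff_subset, hB.diff (hNm.union (MeasurableSet.iUnion hZm)), ?_,
    fun a ha => ⟨?_, fun i => ?_⟩⟩
  · have h1 : B \ (B \ (N ∪ ⋃ i, Z i)) ⊆ N ∪ ⋃ i, Z i := by
      intro a ha
      by_contra h
      exact ha.2 ⟨ha.1, h⟩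
    have h2 : ∀ i, μ (Z i) ≤ (κ i)⁻¹ * μ B := by
      intro i
      by_cases hmi : m i = ∞
      · have h3 : Z i = ∅ := by
          rw [eq_empty_iff_forall_notMem]
          rintro a ⟨-, ha⟩
          have ha' : κ i * m i < F i a := ha
          rw [hmi, ENNReal.mul_top (hκ0 i)] at ha'
          exact not_top_lt ha'
        rw [h3, measure_empty]
        exact zero_le
      have hkm0 : κ i * m i ≠ 0 := mul_ne_zero (hκ0 i) (hm0 i)
      have hkm1 : κ i * m i ≠ ∞ := ENNReal.mul_ne_top (hκ1 i) hmi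
      have h3 : μ.restrict B {a | κ i * m i ≤ F i a} ≤ (∫⁻ a in B, F i a ∂μ) / (κ i * m i) :=
        meas_ge_le_lintegral_div (hF i).aemeasurable hkm0 hkm1
      have h4 : μ (Z i) ≤ μ.restrict B {a | κ i * m i ≤ F i a} := by
        rw [Measure.restrict_apply (measurableSet_le measurable_const (hF i))]
        refine measure_mono ?_
        rintro a ⟨ha1, ha2⟩
        exact ⟨le_of_lt (show κ i * m i < F i a from ha2), ha1⟩
      refine h4.trans (h3.trans (ENNReal.div_le_of_le_mul ((hm i).trans (le_of_eq ?_))))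
      calc m i * μ B = ((κ i)⁻¹ * κ i) * (m i * μ B) := by
            rw [ENNReal.inv_mul_cancel (hκ0 i) (hκ1 i), one_mul]
        _ = _ := by ring
    calc μ (B \ (B \ (N ∪ ⋃ i, Z i))) ≤ μ (N ∪ ⋃ i, Z i) := measure_mono h1
      _ ≤ μ N + ∑' i, μ (Z i) := (measure_union_le _ _).trans
          (add_le_add_right (measure_iUnion_le _) _)
      _ ≤ 0 + ∑' i, (κ i)⁻¹ * μ B := by
          rw [hN0]
          gcongr with i
          exact h2 i
      _ = (∑' i, (κ i)⁻¹) * μ B := by rw [zero_add, ENNReal.tsum_mul_right]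
      _ ≤ θ * μ B := by gcongr
  · by_contra hcon
    exact ha.2 (Or.inl (subset_toMeasurable _ _ fun h => hcon (h ha.1)))
  · by_contra hcon
    exact ha.2 (Or.inr (mem_iUnion.2 ⟨i, ha.1, not_le.1 hcon⟩))

end

end Crest.Agent.R96.Sg7_199
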