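/-
helper199, row 96, TILE-ENERGY, part 4: tiles which are active only for some of the shifts (outer
Whitney meshes with a fixed size function, layers at the walls, transition cells); the average is
controlled by the multiplicity `Σ_i μ (Til i) 1_(Til i + Ac i)`.
-/
import Mathlib
import Crest.Agent.R96.Sg5_199
import Crest.Agent.R96.Sg7_199

set_option autoImplicit false

open MeasureTheory Set Filter Metric
open scoped Topology ENNReal

namespace Crest.Agent.R96.Sg8_199

open Crest.Agent.R96.Acl_392 Crest.Agent.R96.Sob2_199 Crest.Agent.R96.Sob3_199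
  Crest.Agent.R96.Sg1_199 Crest.Agent.R96.Sg2_199 Crest.Agent.R96.Sg3_199
  Crest.Agent.R96.Sg4_199 Crest.Agent.R96.Sg5_199 Crest.Agent.R96.Sg7_199

noncomputable section

variable {E : Type*} [NormedAddCommGroup E] [NormedSpace ℝ E] [FiniteDimensional ℝ E]
  [MeasurableSpace E] [BorelSpace E] {μ : Measure E} [μ.IsAddHaarMeasure]

/-- the energy of the tiles which are active for the shift `a` -/
def EnA {τ η : Type*} (μ : Measure E) (Til : τ → Set E) (Ac : τ → Set E) (Ed : τ → Finset η)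
    (β : τ → ℝ≥0∞) (G : η → E → ℝ≥0∞) (x v : η → E) (p : ℝ) (a : E) : ℝ≥0∞ :=
  ∑' i, (Ac i).indicator (fun a => μ (Til i) * (β i * ∑ j ∈ Ed i, li (G j) (x j + a) (v j)) ^ p) a

/-- the multiplicity -/
def Mu {τ : Type*} (μ : Measure E) (Til : τ → Set E) (Ac : τ → Set E) (z : E) : ℝ≥0∞ :=
  ∑' i, {z : E | ∃ y ∈ Til i, z - y ∈ Ac i}.indicator (fun _ => μ (Til i)) z

omit [μ.IsAddHaarMeasure] in
theorem measurable_EnA {τ η : Type*} [Countable τ] (Til : τ → Set E) {Ac : τ → Set E}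
    (hA : ∀ i, MeasurableSet (Ac i)) (Ed : τ → Finset η)
    (β : τ → ℝ≥0∞) (x v : η → E) {G : η → E → ℝ≥0∞} (hG : ∀ j, Measurable (G j)) (p : ℝ) :
    Measurable (EnA μ Til Ac Ed β G x v p) := by
  unfold EnA
  refine Measurable.tsum fun i => ?_
  refine Measurable.indicator ?_ (hA i)
  refine (Measurable.pow_const ?_ p).const_mul _
  refine (Finset.measurable_sum _ fun j _ => ?_).const_mul _
  exact measurable_li (hG j) (x j) (v j)

omit [FiniteDimensional ℝ E] in
theorem measurable_dn {B : Set E} (hB : MeasurableSet B) (x v : E) :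
    Measurable fun z => dn B x v z := by
  unfold dn
  have hc : Continuous fun q : E × ℝ => q.1 - (x + q.2 • v) := by fun_prop
  have hS : MeasurableSet {q : E × ℝ | q.2 ∈ Icc (0:ℝ) 1 ∧ q.1 - (x + q.2 • v) ∈ B} :=
    (measurable_snd measurableSet_Icc).inter (hc.measurable hB)
  exact measurable_measure_prodMk_left hS

/-- **AVERAGE OF THE ENERGY OF THE ACTIVE TILES** -/
theorem act_avg {τ η : Type*} [Countable τ] {Til : τ → Set E} {Ac : τ → Set E}
    (hA : ∀ i, MeasurableSet (Ac i)) (Ed : τ → Finset η) {n : ℕ} (hn : ∀ i, (Ed i).card ≤ n)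
    (x v : η → E) (hsub : ∀ i, ∀ j ∈ Ed i, sgm (x j) (v j) ⊆ Til i) (β : τ → ℝ≥0∞)
    {G : η → E → ℝ≥0∞} (hG : ∀ j, Measurable (G j)) {H : E → ℝ≥0∞} {c : η → ℝ≥0∞}
    (hGH : ∀ᵐ z ∂μ, ∀ i, ∀ j ∈ Ed i, G j z ≤ c j * H z) {K : ℝ≥0∞} (hK : K ≠ ∞)
    (hβ : ∀ i, ∀ j ∈ Ed i, β i * c j ≤ K) {R : Set E} (hR : MeasurableSet R)
    (hRA : ∀ i, ∀ y ∈ Til i, ∀ b ∈ Ac i, y + b ∈ R) {M : ℝ≥0∞} (hM1 : M ≠ ∞)
    (hM : ∀ z ∈ R, Mu μ Til Ac z ≤ M) {p : ℝ} (hp : 1 ≤ p) :
    ∫⁻ a, EnA μ Til Ac Ed β G x v p a ∂μ ≤ (n * K) ^ p * M * ∫⁻ z in R, H z ^ p ∂μ := by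
  have hp0 : 0 ≤ p := by linarith
  have hfin : (n * K) ^ p * M ≠ ∞ := ENNReal.mul_ne_top (ENNReal.rpow_ne_top_of_nonneg hp0
      (ENNReal.mul_ne_top (ENNReal.natCast_ne_top n) hK)) hM1
  -- one tile
  have h1 : ∀ i, ∫⁻ a, (Ac i).indicator
      (fun a => μ (Til i) * (β i * ∑ j ∈ Ed i, li (G j) (x j + a) (v j)) ^ p) a ∂μ ≤
      ∫⁻ z, ∑ j ∈ Ed i, (μ (Til i) * ((n:ℝ≥0∞) ^ (p - 1) * β i ^ p)) *
        (G j z ^ p * dn (Ac i) (x j) (v j) z) ∂μ := by
    intro i
    have h2 : ∀ a, μ (Til i) * (β i * ∑ j ∈ Ed i, li (G j) (x j + a) (v j)) ^ p ≤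
        ∑ j ∈ Ed i, (μ (Til i) * ((n:ℝ≥0∞) ^ (p - 1) * β i ^ p)) *
            li (fun y => G j y ^ p) (x j + a) (v j) := by
      intro a
      have h3 : (∑ j ∈ Ed i, li (G j) (x j + a) (v j)) ^ p ≤
          (n:ℝ≥0∞) ^ (p - 1) * ∑ j ∈ Ed i, li (fun y => G j y ^ p) (x j + a) (v j) := by
        refine (ENNReal.rpow_sum_le_const_mul_sum_rpow (Ed i) _ hp).trans ?_
        refine mul_le_mul' (ENNReal.rpow_le_rpow (by exact_mod_cast hn i) (by linarith)) ?_
        exact Finset.sum_le_sum fun j _ => li_rpow_le (hG j) _ _ hp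
      calc μ (Til i) * (β i * ∑ j ∈ Ed i, li (G j) (x j + a) (v j)) ^ p
          = μ (Til i) * (β i ^ p * (∑ j ∈ Ed i, li (G j) (x j + a) (v j)) ^ p) := by
            rw [ENNReal.mul_rpow_of_nonneg _ _ hp0]
        _ ≤ μ (Til i) * (β i ^ p * ((n:ℝ≥0∞) ^ (p - 1) *
              ∑ j ∈ Ed i, li (fun y => G j y ^ p) (x j + a) (v j))) := by gcongr
        _ = _ := by
            rw [← Finset.mul_sum]; ring
    rw [lintegral_indicator (hA i)]
    refine (lintegral_mono h2).trans ?_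
    have hm1 : ∀ j, Measurable fun a => li (fun y => G j y ^ p) (x j + a) (v j) := fun j =>
      measurable_li ((hG j).pow_const p) (x j) (v j)
    have hm2 : ∀ j, Measurable fun z => G j z ^ p * dn (Ac i) (x j) (v j) z := fun j =>
      ((hG j).pow_const p).mul (measurable_dn (hA i) _ _)
    rw [lintegral_finsetSum _ fun j _ => (hm1 j).const_mul _,
      lintegral_finsetSum _ fun j _ => (hm2 j).const_mul _]
    refine Finset.sum_le_sum fun j _ => ?_
    rw [lintegral_const_mul _ (hm1 j), lintegral_const_mul _ (hm2 j),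
      tonelli_one (hA i) ((hG j).pow_const p)]
  -- all tiles
  have h4 : ∫⁻ a, EnA μ Til Ac Ed β G x v p a ∂μ ≤
      ∫⁻ z, ∑' i, ∑ j ∈ Ed i, (μ (Til i) * ((n:ℝ≥0∞) ^ (p - 1) * β i ^ p)) *
        (G j z ^ p * dn (Ac i) (x j) (v j) z) ∂μ := by
    unfold EnA
    rw [lintegral_tsum, lintegral_tsum]
    · exact ENNReal.tsum_le_tsum h1
    · intro i
      refine (Finset.measurable_sum _ fun j _ => ?_).aemeasurable
      exact (((hG j).pow_const p).mul (measurable_dn (hA i) _ _)).const_mul _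
    · intro i
      refine (Measurable.indicator ?_ (hA i)).aemeasurable
      refine (Measurable.pow_const ?_ p).const_mul _
      refine (Finset.measurable_sum _ fun j _ => ?_).const_mul _
      exact measurable_li (hG j) (x j) (v j)
  refine h4.trans ?_
  rw [← lintegral_const_mul' _ _ hfin, ← lintegral_indicator hR]
  apply lintegral_mono_ae
  filter_upwards [hGH] with z hz
  -- one tile, at the point `z`
  have h5 : ∀ i, ∑ j ∈ Ed i, (μ (Til i) * ((n:ℝ≥0∞) ^ (p - 1) * β i ^ p)) *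
      (G j z ^ p * dn (Ac i) (x j) (v j) z) ≤
      (n * K) ^ p * {z : E | ∃ y ∈ Til i, z - y ∈ Ac i}.indicator (fun _ => μ (Til i)) z *
        H z ^ p := by
    intro i
    by_cases hi : z ∈ {z : E | ∃ y ∈ Til i, z - y ∈ Ac i}
    · rw [indicator_of_mem hi]
      have h6 : ∀ j ∈ Ed i, (μ (Til i) * ((n:ℝ≥0∞) ^ (p - 1) * β i ^ p)) *
          (G j z ^ p * dn (Ac i) (x j) (v j) z) ≤
          (n:ℝ≥0∞) ^ (p - 1) * K ^ p * μ (Til i) * H z ^ p := by
        intro j hj
        calc (μ (Til i) * ((n:ℝ≥0∞) ^ (p - 1) * β i ^ p)) *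
              (G j z ^ p * dn (Ac i) (x j) (v j) z)
            ≤ (μ (Til i) * ((n:ℝ≥0∞) ^ (p - 1) * β i ^ p)) * ((c j * H z) ^ p * 1) := by
              gcongr
              · exact hz i j hj
              · exact dn_le_one _ _ _ _
          _ = (n:ℝ≥0∞) ^ (p - 1) * (β i * c j) ^ p * μ (Til i) * H z ^ p := by
              rw [ENNReal.mul_rpow_of_nonneg _ _ hp0, ENNReal.mul_rpow_of_nonneg _ _ hp0]
              ring
          _ ≤ _ := by
              gcongr
              exact hβ i j hj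
      calc ∑ j ∈ Ed i, (μ (Til i) * ((n:ℝ≥0∞) ^ (p - 1) * β i ^ p)) *
            (G j z ^ p * dn (Ac i) (x j) (v j) z)
          ≤ ∑ _j ∈ Ed i, (n:ℝ≥0∞) ^ (p - 1) * K ^ p * μ (Til i) * H z ^ p :=
            Finset.sum_le_sum h6
        _ = (Ed i).card * ((n:ℝ≥0∞) ^ (p - 1) * K ^ p * μ (Til i) * H z ^ p) := by
            rw [Finset.sum_const, nsmul_eq_mul]
        _ ≤ n * ((n:ℝ≥0∞) ^ (p - 1) * K ^ p * μ (Til i) * H z ^ p) := by
            gcongr
            exact hn i
        _ = (n * K) ^ p * μ (Til i) * H z ^ p := by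
            rw [ENNReal.mul_rpow_of_nonneg _ _ hp0]
            have h5 : (n:ℝ≥0∞) ^ p = n * (n:ℝ≥0∞) ^ (p - 1) := by
              rcases Nat.eq_zero_or_pos n with h | h
              · rw [h, Nat.cast_zero, zero_mul, ENNReal.zero_rpow_of_pos (by linarith)]
              · have hn0 : (n:ℝ≥0∞) ≠ 0 := by exact_mod_cast h.ne'
                have : p = 1 + (p - 1) := by ring
                conv_lhs => rw [this]
                rw [ENNReal.rpow_add _ _ hn0 (ENNReal.natCast_ne_top n), ENNReal.rpow_one]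
            rw [h5]
            ring
    · rw [indicator_of_notMem hi, mul_zero, zero_mul]
      refine le_of_eq (Finset.sum_eq_zero fun j hj => ?_)
      rw [dn_eq_zero fun y hy hyB => hi ⟨y, hsub i j hj hy, hyB⟩, mul_zero, mul_zero]
  calc ∑' i, ∑ j ∈ Ed i, (μ (Til i) * ((n:ℝ≥0∞) ^ (p - 1) * β i ^ p)) *
        (G j z ^ p * dn (Ac i) (x j) (v j) z)
      ≤ ∑' i, (n * K) ^ p *
          {z : E | ∃ y ∈ Til i, z - y ∈ Ac i}.indicator (fun _ => μ (Til i)) z * H z ^ p :=
        ENNReal.tsum_le_tsum h5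
    _ = (n * K) ^ p * Mu μ Til Ac z * H z ^ p := by
        rw [ENNReal.tsum_mul_right, ENNReal.tsum_mul_left]
        rfl
    _ ≤ R.indicator (fun z => (n * K) ^ p * M * H z ^ p) z := by
        by_cases hzR : z ∈ R
        · rw [indicator_of_mem hzR]
          gcongr
          exact hM z hzR
        · rw [indicator_of_notMem hzR]
          have h7 : Mu μ Til Ac z = 0 := by
            unfold Mu
            refine ENNReal.tsum_eq_zero.2 fun i => indicator_of_notMem ?_ _
            rintro ⟨y, hy, hb⟩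
            apply hzR
            have := hRA i y hy _ hb
            rwa [add_sub_cancel] at this
          rw [h7, mul_zero, zero_mul]

/-! ### bounds for the multiplicity -/

omit [NormedSpace ℝ E] [FiniteDimensional ℝ E] [BorelSpace E] [μ.IsAddHaarMeasure] in
/-- (a) tiles with pairwise disjoint interiors: volume of a ball -/
theorem Mu_le_ball {τ : Type*} [Countable τ] {Til : τ → Set E} {Ac : τ → Set E}
    (hm : ∀ i, MeasurableSet (Til i)) (hdis : Pairwise (Function.onFun (AEDisjoint μ) Til))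
    {D r : ℝ} (hD : ∀ i, ∀ y ∈ Til i, ∀ y' ∈ Til i, dist y' y ≤ D)
    (hBr : ∀ i, ∀ w ∈ Ac i, ‖w‖ ≤ r) (z : E) : Mu μ Til Ac z ≤ μ (closedBall z (r + D)) := by
  set S : Set τ := {i | ∃ y ∈ Til i, z - y ∈ Ac i} with hS
  have h1 : Mu μ Til Ac z = ∑' i : S, μ (Til i) := by
    unfold Mu
    rw [tsum_subtype S fun i => μ (Til i)]
    refine tsum_congr fun i => ?_
    by_cases hi : i ∈ S
    · rw [indicator_of_mem hi, indicator_of_mem (by exact hi)]
    · rw [indicator_of_notMem hi, indicator_of_notMem (by exact hi)]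
  rw [h1]
  refine sum_vol_le hm hdis hD z fun i hi => ?_
  obtain ⟨y, hy, hb⟩ := hi
  refine ⟨y, hy, ?_⟩
  rw [dist_comm, dist_eq_norm]
  exact hBr i _ hb

omit [NormedSpace ℝ E] [FiniteDimensional ℝ E] [BorelSpace E] [μ.IsAddHaarMeasure] in
/-- (b) the total volume of the tiles (thin layers) -/
theorem Mu_le_vol {τ : Type*} {Til : τ → Set E} {Ac : τ → Set E} (z : E) :
    Mu μ Til Ac z ≤ ∑' i, μ (Til i) := by
  unfold Mu
  exact ENNReal.tsum_le_tsum fun i => indicator_le_self _ _ _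

omit [NormedSpace ℝ E] [FiniteDimensional ℝ E] [BorelSpace E] [μ.IsAddHaarMeasure] in
/-- (c) families of families (scales): the multiplicities add up -/
theorem Mu_sigma {σ : Type*} {τ : σ → Type*} {Til : (Σ s, τ s) → Set E}
    {Ac : (Σ s, τ s) → Set E} (z : E) :
    Mu μ Til Ac z = ∑' s, Mu μ (fun i : τ s => Til ⟨s, i⟩) (fun i => Ac ⟨s, i⟩) z := by
  unfold Mu
  rw [ENNReal.tsum_sigma']


/-! ### choice of the shift -/



end

end Crest.Agent.R96.Sg8_199
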