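/-
helper538, row 96, p ≤ 2: energies on the edges of the tiles of a mesh.
* `sum_tiles_le`: sums over the tiles of a finite set against one random measure `segM`;
* `rm_outer`: the random measure of a graded dyadic mesh of `R3` (all scales);
* `outer_sum`: both together.
-/
import Mathlib
import Crest.Agent.R96.Intr28_538
import Crest.Agent.R96.Wm1_72

set_option autoImplicit false
set_option linter.unusedSectionVars false
set_option maxHeartbeats 400000

open MeasureTheory Set Filter Metric Module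
open scoped ENNReal NNReal Topology

namespace Crest.Agent.R96.Rmo_538

open Crest.AnalysisR.VecCalc3 (R3)
open Crest.Agent.R96.Intr_538 Crest.Agent.R96.Coarse_538
open Crest.Agent.R096.Msh_810 (Dat Cu ps mem_Cu)
open Crest.Agent.R96.Wm_72 (Zr measurableSet_Zr encard_Zr)

noncomputable section


/-! ### the graded outer mesh -/

/-- the region of the grid of scale `κ`: points of regions `Zr D s` with `κ = s` or `κ = s + 1` -/
def Zg (φ : R3 ≃L[ℝ] (Fin 3 → ℝ)) (D : Dat 3) (κ : ℕ) : Set R3 :=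
  φ ⁻¹' ⋃ s ∈ {s : ℕ | κ = s ∨ κ = s + 1}, Zr D s

theorem meas_Zg (φ : R3 ≃L[ℝ] (Fin 3 → ℝ)) (D : Dat 3) (κ : ℕ) : MeasurableSet (Zg φ D κ) :=
  (MeasurableSet.biUnion (to_countable _) fun s _ => measurableSet_Zr D s).preimage
    φ.continuous.measurable

theorem mem_Zg {φ : R3 ≃L[ℝ] (Fin 3 → ℝ)} {D : Dat 3} {κ : ℕ} {y : R3} :
    y ∈ Zg φ D κ ↔ ∃ s, (κ = s ∨ κ = s + 1) ∧ φ y ∈ Zr D s := by
  simp only [Zg, mem_preimage, mem_iUnion, exists_prop, mem_ofPred_eq]

/-- every point lies in at most six of these regions -/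
theorem encard_Zg (φ : R3 ≃L[ℝ] (Fin 3 → ℝ)) (D : Dat 3) (K0 : ℕ) (y : R3) :
    {j : ℕ | y ∈ Zg φ D (K0 + j)}.encard ≤ (6 : ℕ) := by
  have h1 : {j : ℕ | y ∈ Zg φ D (K0 + j)} ⊆
      (fun s => s - K0) '' {s | φ y ∈ Zr D s} ∪ (fun s => s + 1 - K0) '' {s | φ y ∈ Zr D s} := by
    intro j hj
    obtain ⟨s, h | h, hs⟩ := mem_Zg.1 hj
    · exact Or.inl ⟨s, hs, by simp only; omega⟩
    · exact Or.inr ⟨s, hs, by simp only; omega⟩
  have h3 : (3 : ℕ∞) + 3 = ((6 : ℕ) : ℕ∞) := rfl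
  refine (encard_le_encard h1).trans ((encard_union_le _ _).trans ?_)
  rw [← h3]
  exact add_le_add ((encard_image_le _ _).trans (encard_Zr D _))
    ((encard_image_le _ _).trans (encard_Zr D _))

/-- length of the edges of scale `K0 + j` -/
def hs (K0 j : ℕ) : ℝ := ((2:ℝ) ^ K0)⁻¹ / ((2 ^ j : ℕ) : ℝ)

theorem hs_pos (K0 j : ℕ) : 0 < hs K0 j := by unfold hs; positivity

theorem hs_mul (K0 j : ℕ) : (2:ℝ) ^ (K0 + j) * hs K0 j = 1 := by
  unfold hs
  push_cast
  rw [pow_add]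
  field_simp

/-- **the random measure of the graded mesh** with shift `a`: the grids of the scales `K0 + j` in
their regions, an edge of length `h` has the weight `h³` -/
def muO (φ : R3 ≃L[ℝ] (Fin 3 → ℝ)) (D : Dat 3) (K0 : ℕ) (a : R3) : Measure R3 :=
  segM (fun q : ℕ × (Fin 3 → ℤ) × Fin 3 => gx (hs K0 q.1) q.2)
    (fun q => gv (hs K0 q.1) q.2) (fun q => ENNReal.ofReal (hs K0 q.1 ^ 3))
    (fun q => Zg φ D (K0 + q.1)) a

/-- **density of the graded mesh** -/
theorem rm_outer (φ : R3 ≃L[ℝ] (Fin 3 → ℝ)) (D : Dat 3) (K0 : ℕ) :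
    RM (Dt ((2:ℝ) ^ K0)⁻¹) 18 (muO φ D K0) := by
  have h := rm_grids (J := ℕ) (t := ((2:ℝ) ^ K0)⁻¹) (by positivity) (fun j => 2 ^ j)
    (fun j => by positivity) (A := fun j => Zg φ D (K0 + j)) (fun j => meas_Zg φ D _)
    (K := 6) (fun y => encard_Zg φ D K0 y)
  have e : (3 * ((6 : ℕ) : ℝ≥0∞)) = 18 := by norm_num
  rw [e] at h
  exact h

/-- the number of closed cubes of the scale `k` through one point -/
theorem card_cubes (a : Fin 3 → ℝ) (k : ℕ) (p : Fin 3 → ℝ) :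
    {z : Fin 3 → ℤ | p ∈ Cu a k z} ⊆
      (Fintype.piFinset fun i => Finset.Icc (⌈ps a k p i⌉ - 1) ⌊ps a k p i⌋ :
        Finset (Fin 3 → ℤ)) := by
  intro z hz
  rw [Finset.mem_coe, Fintype.mem_piFinset]
  intro i
  obtain ⟨h1, h2⟩ := mem_Cu.1 hz i
  rw [Finset.mem_Icc]
  constructor
  · rw [sub_le_iff_le_add, Int.ceil_le]
    push_cast
    exact h2
  · exact Int.le_floor.2 h1

theorem card_cubes_le (a : Fin 3 → ℝ) (k : ℕ) (p : Fin 3 → ℝ) :
    (Fintype.piFinset fun i => Finset.Icc (⌈ps a k p i⌉ - 1) ⌊ps a k p i⌋ :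
        Finset (Fin 3 → ℤ)).card ≤ 8 := by
  rw [Fintype.card_piFinset]
  calc ∏ i : Fin 3, (Finset.Icc (⌈ps a k p i⌉ - 1) ⌊ps a k p i⌋).card ≤ ∏ _i : Fin 3, 2 := by
        refine Finset.prod_le_prod' fun i _ => ?_
        rw [Int.card_Icc]
        have h := Int.floor_le_ceil (ps a k p i)
        omega
    _ = 8 := by simp


end

end Crest.Agent.R96.Rmo_538
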