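import Crest.Agent.R096.Bd3_416

-- ▼ part R96/Hole1_348
section

/-!
# R96, P4-HOLE, part 1: the squeeze of a cube into a thin collar (helper348)

`hf τ N ρ : [-1,1]^n ⟶ [-ρ,ρ]^n` maps the dyadic shell `2^-(k+1) ≤ ‖x‖ ≤ 2^-k` along the lines of
416's PL collar of the cube onto the shell `ρ - (k+1) τ ≤ ‖y‖ ≤ ρ - k τ` (`k < N`) and the cube
`‖x‖ ≤ 2^-N` onto `‖y‖ ≤ ρ - N τ`.  `chi N τ` is the resulting PL homeomorphism of the space,
equal to the identity off the open unit cube.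
-/

set_option autoImplicit false

open Set Metric

namespace Crest.Agent.R96.Hole_348

open Crest.Agent.R096.Ce_537 Crest.Agent.R096.Bd_416

variable {n : ℕ}

/-- forward map -/
noncomputable def hf (τ : ℝ) : ℕ → ℝ → (Fin n → ℝ) → (Fin n → ℝ)
  | 0, ρ, x => fun j => cg ρ (x j)
  | N + 1, ρ, x => if ‖x‖ ≤ 1/2 then hf τ N (ρ - τ) ((2:ℝ) • x)
      else fun j => cg (ρ - τ + (2 * ‖x‖ - 1) * τ) (cf ‖x‖ (x j))

/-- backward map -/
noncomputable def hg (τ : ℝ) : ℕ → ℝ → (Fin n → ℝ) → (Fin n → ℝ)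
  | 0, ρ, y => fun j => cf ρ (y j)
  | N + 1, ρ, y => if ‖y‖ ≤ ρ - τ then (1/2 : ℝ) • hg τ N (ρ - τ) y
      else fun j => cg ((1 + (‖y‖ - (ρ - τ)) / τ) / 2) (cf ‖y‖ (y j))

lemma cf_half (x : ℝ) : cf (1/2) x = 2 * x := by
  unfold cf
  rcases le_total 0 x with h | h
  · rw [max_eq_right (by linarith), max_eq_left (by linarith)]; ring
  · rw [max_eq_left (by linarith), max_eq_right (by linarith)]; ring

lemma cg_half (x : ℝ) : cg (1/2) x = x / 2 := by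
  unfold cg
  rcases le_total 0 x with h | h
  · rw [max_eq_right (by linarith), max_eq_left (by linarith)]; ring
  · rw [max_eq_left (by linarith), max_eq_right (by linarith)]; ring

lemma norm_cg_le {ρ : ℝ} (h1 : 1/2 ≤ ρ) (h2 : ρ ≤ 1) {x : Fin n → ℝ} (hx : ‖x‖ ≤ 1) :
    ‖fun j => cg ρ (x j)‖ ≤ ρ := by
  rw [pi_norm_le_iff_of_nonneg (by linarith)]
  intro i
  rw [Real.norm_eq_abs, abs_cg _ _ h1]
  calc cg ρ |x i| ≤ cg ρ 1 := cg_mono h1 (abs_nonneg _) ((abs_apply_le x i).trans hx)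
    _ = ρ := cg_top h1 h2

lemma norm_cf_le {ρ : ℝ} (h1 : 1/2 ≤ ρ) (h2 : ρ ≤ 1) {y : Fin n → ℝ} (hy : ‖y‖ ≤ ρ) :
    ‖fun j => cf ρ (y j)‖ ≤ 1 := by
  rw [pi_norm_le_iff_of_nonneg zero_le_one]
  intro i
  rw [Real.norm_eq_abs, abs_cf _ _ h1]
  calc cf ρ |y i| ≤ cf ρ ρ := cf_mono h1 (abs_nonneg _) ((abs_apply_le y i).trans hy)
    _ = 1 := cf_top h1 h2

/-- the hypotheses on the parameters -/
structure Par (τ : ℝ) (N : ℕ) (ρ : ℝ) : Prop where
  t0 : 0 < τ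
  lo : 1/2 ≤ ρ - N * τ
  hi : ρ ≤ 1

lemma Par.half_le {τ : ℝ} {N : ℕ} {ρ : ℝ} (h : Par τ N ρ) : 1/2 ≤ ρ := by
  have h1 := h.lo
  have h2 : 0 ≤ (N : ℝ) * τ := mul_nonneg (Nat.cast_nonneg _) h.t0.le
  linarith

lemma Par.pred {τ : ℝ} {N : ℕ} {ρ : ℝ} (h : Par τ (N + 1) ρ) : Par τ N (ρ - τ) := by
  refine ⟨h.t0, ?_, ?_⟩
  · have := h.lo
    push_cast at this
    linarith
  · have := h.hi
    have := h.t0
    linarith

lemma hf_bd {τ : ℝ} : ∀ {N : ℕ} {ρ : ℝ} {x : Fin n → ℝ}, ‖x‖ = 1 →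
    hf τ N ρ x = fun j => cg ρ (x j)
  | 0, ρ, x, _ => rfl
  | N + 1, ρ, x, hx => by
    rw [hf, if_neg (by rw [hx]; norm_num), hx]
    funext j
    rw [cf_one (by rw [← hx]; exact abs_apply_le x j)]
    congr 1
    ring

lemma hg_bd {τ : ℝ} : ∀ {N : ℕ} {ρ : ℝ}, Par τ N ρ → ∀ {y : Fin n → ℝ}, ‖y‖ = ρ →
    hg τ N ρ y = fun j => cf ρ (y j)
  | 0, ρ, _, y, _ => rfl
  | N + 1, ρ, h, y, hy => by
    have ht := h.t0
    rw [hg, if_neg (by rw [hy]; linarith), hy]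
    funext j
    have e : (1 + (ρ - (ρ - τ)) / τ) / 2 = 1 := by
      rw [sub_sub_cancel, div_self ht.ne']; norm_num
    rw [e, cg_one]
    have := norm_cf_le h.half_le h.hi (y := y) hy.le
    exact (abs_apply_le (fun j => cf ρ (y j)) j).trans this

/-- norm on the outer shell -/
lemma norm_outer {τ ρ : ℝ} (ht : 0 < τ) (h1 : 1/2 ≤ ρ - τ) (h2 : ρ ≤ 1) {x : Fin n → ℝ}
    (hx1 : 1/2 ≤ ‖x‖) (hx : ‖x‖ ≤ 1) :
    ‖fun j => cg (ρ - τ + (2 * ‖x‖ - 1) * τ) (cf ‖x‖ (x j))‖ = ρ - τ + (2 * ‖x‖ - 1) * τ := by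
  have hm : (fun j => cf ‖x‖ (x j)) ∈ sph n := by
    simpa using norm_cf (n := n) ⟨hx1, hx⟩
  refine norm_cg hm ⟨?_, ?_⟩
  · nlinarith
  · nlinarith

lemma norm_hf {τ : ℝ} : ∀ {N : ℕ} {ρ : ℝ}, Par τ N ρ → ∀ {x : Fin n → ℝ}, ‖x‖ ≤ 1 →
    ‖hf τ N ρ x‖ ≤ ρ
  | 0, ρ, h, x, hx => norm_cg_le h.half_le h.hi hx
  | N + 1, ρ, h, x, hx => by
    have ht := h.t0
    by_cases h1 : ‖x‖ ≤ 1/2
    · rw [hf, if_pos h1]
      have := norm_hf h.pred (x := (2:ℝ) • x) (by rw [norm_smul]; norm_num; linarith)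
      linarith
    · rw [hf, if_neg h1, norm_outer ht h.pred.half_le h.hi (not_le.1 h1).le hx]
      nlinarith

lemma norm_outer_inv {τ ρ : ℝ} (ht : 0 < τ) (h1 : 1/2 ≤ ρ - τ) (h2 : ρ ≤ 1) {y : Fin n → ℝ}
    (hy1 : ρ - τ ≤ ‖y‖) (hy : ‖y‖ ≤ ρ) :
    ‖fun j => cg ((1 + (‖y‖ - (ρ - τ)) / τ) / 2) (cf ‖y‖ (y j))‖ =
      (1 + (‖y‖ - (ρ - τ)) / τ) / 2 := by
  have hm : (fun j => cf ‖y‖ (y j)) ∈ sph n := by
    simpa using norm_cf (n := n) ⟨by linarith, hy.trans h2⟩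
  have e1 : 0 ≤ (‖y‖ - (ρ - τ)) / τ := div_nonneg (by linarith) ht.le
  have e2 : (‖y‖ - (ρ - τ)) / τ ≤ 1 := by rw [div_le_one ht]; linarith
  exact norm_cg hm ⟨by linarith, by linarith⟩

lemma norm_hg {τ : ℝ} : ∀ {N : ℕ} {ρ : ℝ}, Par τ N ρ → ∀ {y : Fin n → ℝ}, ‖y‖ ≤ ρ →
    ‖hg τ N ρ y‖ ≤ 1
  | 0, ρ, h, y, hy => norm_cf_le h.half_le h.hi hy
  | N + 1, ρ, h, y, hy => by
    have ht := h.t0
    by_cases h1 : ‖y‖ ≤ ρ - τ
    · rw [hg, if_pos h1, norm_smul]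
      have := norm_hg h.pred h1
      norm_num
      linarith
    · rw [hg, if_neg h1, norm_outer_inv ht h.pred.half_le h.hi (not_le.1 h1).le hy]
      have e2 : (‖y‖ - (ρ - τ)) / τ ≤ 1 := by rw [div_le_one ht]; linarith
      linarith

lemma hg_hf {τ : ℝ} : ∀ {N : ℕ} {ρ : ℝ}, Par τ N ρ → ∀ {x : Fin n → ℝ}, ‖x‖ ≤ 1 →
    hg τ N ρ (hf τ N ρ x) = x
  | 0, ρ, h, x, _ => by
    funext j
    exact cf_cg h.half_le
  | N + 1, ρ, h, x, hx => by
    have ht := h.t0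
    by_cases h1 : ‖x‖ ≤ 1/2
    · have h2 : ‖(2:ℝ) • x‖ ≤ 1 := by rw [norm_smul]; norm_num; linarith
      rw [hf, if_pos h1, hg, if_pos (norm_hf h.pred h2), hg_hf h.pred h2, smul_smul]
      norm_num
    · have h1' := not_le.1 h1
      have e := norm_outer ht h.pred.half_le h.hi h1'.le hx
      rw [hf, if_neg h1, hg, e, if_neg (by nlinarith)]
      funext j
      rw [cf_cg (by nlinarith [h.pred.half_le])]
      have e2 : (1 + (ρ - τ + (2 * ‖x‖ - 1) * τ - (ρ - τ)) / τ) / 2 = ‖x‖ := by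
        field_simp; ring
      rw [e2, cg_cf h1'.le]

lemma hf_hg {τ : ℝ} : ∀ {N : ℕ} {ρ : ℝ}, Par τ N ρ → ∀ {y : Fin n → ℝ}, ‖y‖ ≤ ρ →
    hf τ N ρ (hg τ N ρ y) = y
  | 0, ρ, h, y, _ => by
    funext j
    exact cg_cf h.half_le
  | N + 1, ρ, h, y, hy => by
    have ht := h.t0
    by_cases h1 : ‖y‖ ≤ ρ - τ
    · have h2 : ‖(1/2:ℝ) • hg τ N (ρ - τ) y‖ ≤ 1/2 := by
        rw [norm_smul]
        have := norm_hg h.pred h1
        norm_num
        linarith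
      rw [hg, if_pos h1, hf, if_pos h2, smul_smul]
      norm_num
      exact hf_hg h.pred h1
    · have h1' := not_le.1 h1
      have e := norm_outer_inv ht h.pred.half_le h.hi h1'.le hy
      have e1 : 0 < (‖y‖ - (ρ - τ)) / τ := div_pos (by linarith) ht
      rw [hg, if_neg h1, hf, e, if_neg (by linarith)]
      funext j
      rw [cf_cg (by linarith)]
      have e2 : ρ - τ + (2 * ((1 + (‖y‖ - (ρ - τ)) / τ) / 2) - 1) * τ = ‖y‖ := by
        field_simp; ring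
      rw [e2, cg_cf (by linarith [h.pred.half_le])]

lemma plOn_hf {τ : ℝ} : ∀ {N : ℕ} {ρ : ℝ}, Par τ N ρ →
    PLOn (hf (n := n) τ N ρ) (closedBall 0 1)
  | 0, ρ, h => pl_pi fun j => pl_cg (plOn_const _ _) (pl_apply (plOn_id _) j)
  | N + 1, ρ, h => by
    have hA : PLOn (hf (n := n) τ (N + 1) ρ) (closedBall 0 (1/2)) := by
      have h1 : PLOn (fun x : Fin n → ℝ => hf τ N (ρ - τ) ((2:ℝ) • x)) (closedBall 0 (1/2)) := by
        refine (plOn_hf h.pred).comp (pl_smul 2 (plOn_id _)) ?_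
        intro x hx
        rw [mem_closedBall_zero_iff] at hx ⊢
        rw [norm_smul]; norm_num; linarith
      refine h1.congr ?_
      intro x hx
      rw [mem_closedBall_zero_iff] at hx
      show hf τ (N + 1) ρ x = _
      rw [hf, if_pos hx]
    have hB : PLOn (hf (n := n) τ (N + 1) ρ) (Ann n) := by
      have h1 : PLOn (fun x : Fin n → ℝ =>
          fun j => cg (ρ - τ + (2 * ‖x‖ - 1) * τ) (cf ‖x‖ (x j))) (Ann n) := by
        refine pl_pi fun j => pl_cg ?_ (pl_cf (pl_norm _) (pl_apply (plOn_id _) j))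
        have h2 : PLOn (fun x : Fin n → ℝ => τ * (2 * ‖x‖ - 1) + (ρ - τ)) (Ann n) :=
          pl_add_const (pl_mul τ (pl_sub_const (pl_mul 2 (pl_norm _)) 1)) _
        refine h2.congr ?_
        intro x _
        show ρ - τ + (2 * ‖x‖ - 1) * τ = _
        ring
      refine h1.congr ?_
      intro x hx
      by_cases hx2 : ‖x‖ ≤ 1/2
      · have e : ‖x‖ = 1/2 := le_antisymm hx2 hx.1
        show hf τ (N + 1) ρ x = _
        rw [hf, if_pos hx2, hf_bd (by rw [norm_smul, e]; norm_num)]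
        funext j
        show cg (ρ - τ) (2 * x j) = cg (ρ - τ + (2 * ‖x‖ - 1) * τ) (cf ‖x‖ (x j))
        rw [e, cf_half]
        congr 1
        ring
      · show hf τ (N + 1) ρ x = _
        rw [hf, if_neg hx2]
    have hU : (closedBall (0 : Fin n → ℝ) 1) = closedBall 0 (1/2) ∪ Ann n := by
      ext x
      simp only [mem_closedBall_zero_iff, mem_union, Ann, mem_setOf_eq]
      constructor
      · intro hx
        rcases le_total ‖x‖ (1/2) with h1 | h1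
        · exact Or.inl h1
        · exact Or.inr ⟨h1, hx⟩
      · rintro (hx | hx)
        · linarith
        · exact hx.2
    rw [hU]
    exact hA.union hB isClosed_closedBall isClosed_Ann

lemma plOn_hg {τ : ℝ} : ∀ {N : ℕ} {ρ : ℝ}, Par τ N ρ →
    PLOn (hg (n := n) τ N ρ) (closedBall 0 ρ)
  | 0, ρ, h => pl_pi fun j => pl_cf (plOn_const _ _) (pl_apply (plOn_id _) j)
  | N + 1, ρ, h => by
    have ht := h.t0
    have hA : PLOn (hg (n := n) τ (N + 1) ρ) (closedBall 0 (ρ - τ)) := by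
      have h1 : PLOn (fun y : Fin n → ℝ => (1/2:ℝ) • hg τ N (ρ - τ) y) (closedBall 0 (ρ - τ)) :=
        pl_smul _ (plOn_hg h.pred)
      refine h1.congr ?_
      intro x hx
      rw [mem_closedBall_zero_iff] at hx
      show hg τ (N + 1) ρ x = _
      rw [hg, if_pos hx]
    have hB : PLOn (hg (n := n) τ (N + 1) ρ) {y | ρ - τ ≤ ‖y‖ ∧ ‖y‖ ≤ ρ} := by
      have h1 : PLOn (fun y : Fin n → ℝ =>
          fun j => cg ((1 + (‖y‖ - (ρ - τ)) / τ) / 2) (cf ‖y‖ (y j)))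
            {y | ρ - τ ≤ ‖y‖ ∧ ‖y‖ ≤ ρ} := by
        refine pl_pi fun j => pl_cg ?_ (pl_cf (pl_norm _) (pl_apply (plOn_id _) j))
        have h2 : PLOn (fun y : Fin n → ℝ => ((‖y‖ - (ρ - τ)) / τ + 1) / 2)
            {y | ρ - τ ≤ ‖y‖ ∧ ‖y‖ ≤ ρ} :=
          pl_div (pl_add_const (pl_div (pl_sub_const (pl_norm _) _) τ) 1) 2
        refine h2.congr ?_
        intro x _
        show (1 + (‖x‖ - (ρ - τ)) / τ) / 2 = _
        ring
      refine h1.congr ?_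
      intro y hy
      by_cases hy2 : ‖y‖ ≤ ρ - τ
      · have e : ‖y‖ = ρ - τ := le_antisymm hy2 hy.1
        show hg τ (N + 1) ρ y = _
        rw [hg, if_pos hy2, hg_bd h.pred e]
        funext j
        show (1/2) * cf (ρ - τ) (y j) = cg ((1 + (‖y‖ - (ρ - τ)) / τ) / 2) (cf ‖y‖ (y j))
        rw [e, sub_self, zero_div, add_zero, cg_half]
        ring
      · show hg τ (N + 1) ρ y = _
        rw [hg, if_neg hy2]
    have hU : (closedBall (0 : Fin n → ℝ) ρ) = closedBall 0 (ρ - τ) ∪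
        {y | ρ - τ ≤ ‖y‖ ∧ ‖y‖ ≤ ρ} := by
      ext x
      simp only [mem_closedBall_zero_iff, mem_union, mem_setOf_eq]
      constructor
      · intro hx
        rcases le_total ‖x‖ (ρ - τ) with h1 | h1
        · exact Or.inl h1
        · exact Or.inr ⟨h1, hx⟩
      · rintro (hx | hx)
        · linarith
        · exact hx.2
    rw [hU]
    exact hA.union hB isClosed_closedBall ((isClosed_le continuous_const continuous_norm).inter
      (isClosed_le continuous_norm continuous_const))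

/-! ### explicit forms -/

/-- on the `k`-th dyadic shell -/
lemma hf_shell {τ : ℝ} : ∀ {k N : ℕ} {ρ : ℝ}, k < N → ∀ {x : Fin n → ℝ},
    1/2 ≤ 2^k * ‖x‖ → 2^k * ‖x‖ ≤ 1 → hf τ N ρ x =
      fun j => cg (ρ - (k + 1) * τ + (2 * (2^k * ‖x‖) - 1) * τ) (cf (2^k * ‖x‖) (2^k * x j))
  | 0, 0, _, h, _, _, _ => absurd h (lt_irrefl _)
  | 0, N + 1, ρ, _, x, h1, h2 => by
    rw [pow_zero, one_mul] at h1 h2
    have : hf τ (N + 1) ρ x = fun j => cg (ρ - τ + (2 * ‖x‖ - 1) * τ) (cf ‖x‖ (x j)) := by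
      by_cases hx2 : ‖x‖ ≤ 1/2
      · have e : ‖x‖ = 1/2 := le_antisymm hx2 h1
        rw [hf, if_pos hx2, hf_bd (by rw [norm_smul, e]; norm_num)]
        funext j
        show cg (ρ - τ) (2 * x j) = _
        rw [e, cf_half]
        congr 1
        ring
      · rw [hf, if_neg hx2]
    rw [this]
    funext j
    simp only [pow_zero, one_mul, Nat.cast_zero, zero_add]
  | k + 1, 0, _, h, _, _, _ => absurd h (Nat.not_lt_zero _)
  | k + 1, N + 1, ρ, h, x, h1, h2 => by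
    have hp : (1:ℝ) ≤ 2^k := one_le_pow₀ (by norm_num)
    have hx : ‖x‖ ≤ 1/2 := by
      rw [pow_succ] at h2
      have := norm_nonneg x
      nlinarith
    have e : ‖(2:ℝ) • x‖ = 2 * ‖x‖ := by rw [norm_smul]; norm_num
    have e2 : (2:ℝ)^k * (2 * ‖x‖) = 2^(k+1) * ‖x‖ := by ring
    rw [hf, if_pos hx, hf_shell (Nat.lt_of_succ_lt_succ h) (by rw [e, e2]; exact h1)
      (by rw [e, e2]; exact h2)]
    funext j
    rw [e, e2]
    congr 1
    · push_cast; ring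
    · congr 1
      simp only [Pi.smul_apply, smul_eq_mul]
      ring

/-- in the inner cube -/
lemma hf_inner {τ : ℝ} : ∀ {N : ℕ} {ρ : ℝ} {x : Fin n → ℝ}, 2^N * ‖x‖ ≤ 1 →
    hf τ N ρ x = fun j => cg (ρ - N * τ) (2^N * x j)
  | 0, ρ, x, _ => by
    show (fun j => cg ρ (x j)) = _
    simp
  | N + 1, ρ, x, h => by
    have hp : (1:ℝ) ≤ 2^N := one_le_pow₀ (by norm_num)
    have hx : ‖x‖ ≤ 1/2 := by
      rw [pow_succ] at h
      have := norm_nonneg x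
      nlinarith
    have e : ‖(2:ℝ) • x‖ = 2 * ‖x‖ := by rw [norm_smul]; norm_num
    rw [hf, if_pos hx, hf_inner (by rw [e]; calc (2:ℝ)^N * (2 * ‖x‖) = 2^(N+1) * ‖x‖ := by ring
      _ ≤ 1 := h)]
    funext j
    congr 1
    · push_cast; ring
    · simp only [Pi.smul_apply, smul_eq_mul]
      ring

/-! ### the homeomorphism of the space -/

/-- the extension by the identity -/
noncomputable def chf (τ : ℝ) (N : ℕ) (x : Fin n → ℝ) : Fin n → ℝ :=
  if ‖x‖ ≤ 1 then hf τ N 1 x else x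

/-- its inverse -/
noncomputable def chg (τ : ℝ) (N : ℕ) (x : Fin n → ℝ) : Fin n → ℝ :=
  if ‖x‖ ≤ 1 then hg τ N 1 x else x

lemma chf_out {τ : ℝ} {N : ℕ} {x : Fin n → ℝ} (hx : 1 ≤ ‖x‖) : chf τ N x = x := by
  by_cases h : ‖x‖ ≤ 1
  · have e : ‖x‖ = 1 := le_antisymm h hx
    rw [chf, if_pos h, hf_bd e]
    funext j
    exact cg_one (by rw [← e]; exact abs_apply_le x j)
  · rw [chf, if_neg h]

lemma chg_out {τ : ℝ} {N : ℕ} (hP : Par τ N 1) {x : Fin n → ℝ} (hx : 1 ≤ ‖x‖) :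
    chg τ N x = x := by
  by_cases h : ‖x‖ ≤ 1
  · have e : ‖x‖ = 1 := le_antisymm h hx
    rw [chg, if_pos h, hg_bd hP e]
    funext j
    exact cf_one (by rw [← e]; exact abs_apply_le x j)
  · rw [chg, if_neg h]

lemma univ_eq_union : (univ : Set (Fin n → ℝ)) = closedBall 0 1 ∪ {x | 1 ≤ ‖x‖} := by
  ext x
  simp only [mem_univ, mem_closedBall_zero_iff, mem_union, mem_setOf_eq, true_iff]
  exact le_total _ _

lemma plOn_chf {τ : ℝ} {N : ℕ} (hP : Par τ N 1) : PLOn (chf (n := n) τ N) univ := by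
  rw [univ_eq_union]
  refine PLOn.union ((plOn_hf hP).congr ?_) ((plOn_id _).congr ?_) isClosed_closedBall
    (isClosed_le continuous_const continuous_norm)
  · intro x hx
    rw [mem_closedBall_zero_iff] at hx
    exact if_pos hx
  · intro x hx
    exact chf_out hx

lemma plOn_chg {τ : ℝ} {N : ℕ} (hP : Par τ N 1) : PLOn (chg (n := n) τ N) univ := by
  rw [univ_eq_union]
  refine PLOn.union ((plOn_hg hP).congr ?_) ((plOn_id _).congr ?_) isClosed_closedBall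
    (isClosed_le continuous_const continuous_norm)
  · intro x hx
    rw [mem_closedBall_zero_iff] at hx
    exact if_pos hx
  · intro x hx
    exact chg_out hP hx

/-- the squeeze as a homeomorphism of the space -/
noncomputable def chi {τ : ℝ} {N : ℕ} (hP : Par τ N 1) : (Fin n → ℝ) ≃ₜ (Fin n → ℝ) where
  toFun := chf τ N
  invFun := chg τ N
  left_inv x := by
    by_cases h : ‖x‖ ≤ 1
    · have h2 := norm_hf hP h
      rw [chf, if_pos h, chg, if_pos h2, hg_hf hP h]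
    · rw [chf, if_neg h, chg, if_neg h]
  right_inv x := by
    by_cases h : ‖x‖ ≤ 1
    · have h2 := norm_hg hP h
      rw [chg, if_pos h, chf, if_pos h2, hf_hg hP h]
    · rw [chg, if_neg h, chf, if_neg h]
  continuous_toFun := continuousOn_univ.1 (plOn_chf hP).1
  continuous_invFun := continuousOn_univ.1 (plOn_chg hP).1

@[simp] lemma chi_apply {τ : ℝ} {N : ℕ} (hP : Par τ N 1) (x : Fin n → ℝ) :
    chi hP x = chf τ N x := rfl

@[simp] lemma chi_symm_apply {τ : ℝ} {N : ℕ} (hP : Par τ N 1) (x : Fin n → ℝ) :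
    (chi hP).symm x = chg τ N x := rfl

end Crest.Agent.R96.Hole_348
private theorem rz_6003a4bdbb : type_of% @_root_.Crest.Agent.R96.Hole_348.hf.eq_def := @_root_.Crest.Agent.R96.Hole_348.hf.eq_def -- L23
private theorem rz_aa79c4fea4 : type_of% @_root_.Crest.Agent.R96.Hole_348.hf.eq_1 := @_root_.Crest.Agent.R96.Hole_348.hf.eq_1 -- L23
private theorem rz_711a30d682 : type_of% @_root_.Crest.Agent.R96.Hole_348.hg.eq_def := @_root_.Crest.Agent.R96.Hole_348.hg.eq_def -- L29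
private theorem rz_9fb96f3a07 : type_of% @_root_.Crest.Agent.R96.Hole_348.hg.eq_1 := @_root_.Crest.Agent.R96.Hole_348.hg.eq_1 -- L29
end

-- ▼ part R96/Hole2_348
section

/-!
# R96, P4-HOLE, part 2: Lipschitz constants and volumes (helper348)
-/

set_option autoImplicit false

open Set Metric Filter Topology MeasureTheory

namespace Crest.Agent.R96.Hole_348

open Crest.Agent.R096.Ce_537 Crest.Agent.R096.Bd_416

variable {n : ℕ}

/-- local Lipschitz constant at a point -/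
def LLV {E F : Type*} [NormedAddCommGroup E] [NormedAddCommGroup F] (K : ℝ) (f : E → F)
    (x : E) : Prop := ∀ᶠ y in 𝓝 x, ‖f y - f x‖ ≤ K * ‖y - x‖

lemma max_lip (a b : ℝ) : |max 0 a - max 0 b| ≤ |a - b| := by
  have h1 := abs_max_sub_max_le_max 0 a 0 b
  rw [sub_self, abs_zero] at h1
  exact h1.trans (le_of_eq (max_eq_right (abs_nonneg _)))

lemma cf_lip (r r' x x' : ℝ) : |cf r x - cf r' x'| ≤ 3 * |x - x'| + 4 * |r - r'| := by
  have h1 := max_lip (x + 1 - 2 * r) (x' + 1 - 2 * r')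
  have h2 := max_lip (-x + 1 - 2 * r) (-x' + 1 - 2 * r')
  have h3 : |x + 1 - 2 * r - (x' + 1 - 2 * r')| ≤ |x - x'| + 2 * |r - r'| := by
    have e : x + 1 - 2 * r - (x' + 1 - 2 * r') = (x - x') - 2 * (r - r') := by ring
    rw [e]
    calc |(x - x') - 2 * (r - r')| ≤ |x - x'| + |2 * (r - r')| := abs_sub _ _
      _ = _ := by rw [abs_mul]; norm_num
  have h4 : |-x + 1 - 2 * r - (-x' + 1 - 2 * r')| ≤ |x - x'| + 2 * |r - r'| := by
    have e : -x + 1 - 2 * r - (-x' + 1 - 2 * r') = (x' - x) - 2 * (r - r') := by ring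
    rw [e]
    calc |(x' - x) - 2 * (r - r')| ≤ |x' - x| + |2 * (r - r')| := abs_sub _ _
      _ = _ := by rw [abs_mul, abs_sub_comm x' x]; norm_num
  have h5 := abs_le.1 (h1.trans h3)
  have h6 := abs_le.1 (h2.trans h4)
  have h7 := abs_le.1 (le_refl |x - x'|)
  unfold cf
  rw [abs_le]
  constructor <;> linarith [h5.1, h5.2, h6.1, h6.2, h7.1, h7.2]

lemma cg_lip (r r' x x' : ℝ) : |cg r x - cg r' x'| ≤ 2 * |x - x'| + 2 * |r - r'| := by
  have h1 := max_lip ((x + 1 - 2 * r) / 2) ((x' + 1 - 2 * r') / 2)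
  have h2 := max_lip ((-x + 1 - 2 * r) / 2) ((-x' + 1 - 2 * r') / 2)
  have h7 := abs_le.1 (le_refl |x - x'|)
  have h8 := abs_le.1 (le_refl |r - r'|)
  have h3 : |(x + 1 - 2 * r) / 2 - (x' + 1 - 2 * r') / 2| ≤ |x - x'| / 2 + |r - r'| := by
    rw [abs_le]
    constructor <;> linarith [h7.1, h7.2, h8.1, h8.2]
  have h4 : |(-x + 1 - 2 * r) / 2 - (-x' + 1 - 2 * r') / 2| ≤ |x - x'| / 2 + |r - r'| := by
    rw [abs_le]
    constructor <;> linarith [h7.1, h7.2, h8.1, h8.2]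
  have h5 := abs_le.1 (h1.trans h3)
  have h6 := abs_le.1 (h2.trans h4)
  unfold cg
  rw [abs_le]
  constructor <;> linarith [h5.1, h5.2, h6.1, h6.2, h7.1, h7.2]

lemma abs_norm_sub_le' (x y : Fin n → ℝ) : |‖x‖ - ‖y‖| ≤ ‖x - y‖ := abs_norm_sub_norm_le x y

lemma abs_sub_apply_le (x y : Fin n → ℝ) (j : Fin n) : |x j - y j| ≤ ‖x - y‖ := by
  simpa using norm_le_pi_norm (x - y) j

/-- the foot of the collar line of a point of the `k`-th shell -/
noncomputable def foot (k : ℕ) (x : Fin n → ℝ) : Fin n → ℝ :=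
  fun j => cf (2^k * ‖x‖) (2^k * x j)

lemma foot_zero (x : Fin n → ℝ) : foot 0 x = fun j => cf ‖x‖ (x j) := by
  funext j; simp [foot]

lemma foot_eq (k : ℕ) (x : Fin n → ℝ) : foot k x = foot 0 ((2:ℝ)^k • x) := by
  funext j
  rw [foot_zero]
  show cf (2^k * ‖x‖) (2^k * x j) = cf ‖(2:ℝ)^k • x‖ ((2:ℝ)^k * x j)
  rw [norm_smul]
  simp

lemma foot_sub_le (k : ℕ) (x y : Fin n → ℝ) :
    ‖foot k x - foot k y‖ ≤ 7 * 2^k * ‖x - y‖ := by
  have hp : (0:ℝ) < 2^k := by positivity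
  rw [pi_norm_le_iff_of_nonneg (by positivity)]
  intro j
  have h1 := cf_lip (2^k * ‖x‖) (2^k * ‖y‖) (2^k * x j) (2^k * y j)
  rw [← mul_sub, ← mul_sub, abs_mul, abs_mul, abs_of_pos hp] at h1
  have h2 := abs_norm_sub_le' x y
  have h3 := abs_sub_apply_le x y j
  have h4 : (2:ℝ)^k * |x j - y j| ≤ 2^k * ‖x - y‖ := mul_le_mul_of_nonneg_left h3 hp.le
  have h5 : (2:ℝ)^k * |‖x‖ - ‖y‖| ≤ 2^k * ‖x - y‖ := mul_le_mul_of_nonneg_left h2 hp.le
  show |cf (2^k * ‖x‖) (2^k * x j) - cf (2^k * ‖y‖) (2^k * y j)| ≤ _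
  linarith

lemma continuous_foot (k : ℕ) : Continuous (foot (n := n) k) := by
  refine (LipschitzWith.of_dist_le_mul (K := ⟨7 * 2^k, by positivity⟩) ?_).continuous
  intro x y
  rw [dist_eq_norm, dist_eq_norm]
  exact foot_sub_le k x y

lemma Par.t_le {τ : ℝ} {N : ℕ} {ρ : ℝ} (h : Par τ N ρ) (hN : 0 < N) : τ ≤ 1/2 := by
  have h1 := h.lo
  have h2 := h.hi
  have h3 := h.t0
  have h4 : (1:ℝ) ≤ N := by exact_mod_cast hN
  nlinarith

/-- the value in the collar -/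
lemma chf_shell {τ : ℝ} {N k : ℕ} (hk : k < N) {x : Fin n → ℝ}
    (h1 : 1/2 ≤ 2^k * ‖x‖) (h2 : 2^k * ‖x‖ ≤ 1) :
    chf τ N x = fun j => cg (1 - (k + 1) * τ + (2 * (2^k * ‖x‖) - 1) * τ) (foot k x j) := by
  have hp : (1:ℝ) ≤ 2^k := one_le_pow₀ (by norm_num)
  have hx : ‖x‖ ≤ 1 := by nlinarith [norm_nonneg x]
  rw [chf, if_pos hx, hf_shell hk h1 h2]
  rfl

lemma chf_shell_lip {τ : ℝ} {N k : ℕ} (hP : Par τ N 1) (hk : k < N) {x y : Fin n → ℝ}
    (h1 : 1/2 ≤ 2^k * ‖x‖) (h2 : 2^k * ‖x‖ ≤ 1) (h1' : 1/2 ≤ 2^k * ‖y‖) (h2' : 2^k * ‖y‖ ≤ 1) :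
    ‖chf τ N x - chf τ N y‖ ≤ 16 * 2^k * ‖x - y‖ := by
  have hp : (0:ℝ) < 2^k := by positivity
  have ht := hP.t0
  have ht2 := hP.t_le (lt_of_le_of_lt (Nat.zero_le _) hk)
  rw [chf_shell hk h1 h2, chf_shell hk h1' h2', pi_norm_le_iff_of_nonneg (by positivity)]
  intro j
  have h3 := cg_lip (1 - (k + 1) * τ + (2 * (2^k * ‖x‖) - 1) * τ)
    (1 - (k + 1) * τ + (2 * (2^k * ‖y‖) - 1) * τ) (foot k x j) (foot k y j)
  have h4 := (abs_sub_apply_le (foot k x) (foot k y) j).trans (foot_sub_le k x y)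
  have e : 1 - (k + 1) * τ + (2 * (2^k * ‖x‖) - 1) * τ -
    (1 - (k + 1) * τ + (2 * (2^k * ‖y‖) - 1) * τ) = (2 * τ) * (2^k * (‖x‖ - ‖y‖)) := by ring
  have h5 : |(2 * τ) * (2^k * (‖x‖ - ‖y‖))| ≤ 2^k * ‖x - y‖ := by
    rw [abs_mul (2 * τ), abs_mul (2^k), abs_of_pos hp, abs_of_pos (by linarith : 0 < 2 * τ)]
    have h6 := abs_norm_sub_le' x y
    have h7 : (2:ℝ)^k * |‖x‖ - ‖y‖| ≤ 2^k * ‖x - y‖ := mul_le_mul_of_nonneg_left h6 hp.le
    have h8 : 0 ≤ (2:ℝ)^k * |‖x‖ - ‖y‖| := by positivity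
    nlinarith
  rw [e] at h3
  show |cg _ _ - cg _ _| ≤ _
  refine h3.trans ?_
  linarith

lemma chf_inner_lip {τ : ℝ} {N : ℕ} {x y : Fin n → ℝ}
    (h1 : 2^N * ‖x‖ ≤ 1) (h2 : 2^N * ‖y‖ ≤ 1) :
    ‖chf τ N x - chf τ N y‖ ≤ 2 * 2^N * ‖x - y‖ := by
  have hp : (0:ℝ) < 2^N := by positivity
  have hp1 : (1:ℝ) ≤ 2^N := one_le_pow₀ (by norm_num)
  have hx : ‖x‖ ≤ 1 := by nlinarith [norm_nonneg x]
  have hy : ‖y‖ ≤ 1 := by nlinarith [norm_nonneg y]
  rw [chf, if_pos hx, chf, if_pos hy, hf_inner h1, hf_inner h2,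
    pi_norm_le_iff_of_nonneg (by positivity)]
  intro j
  have h3 := cg_lip (1 - N * τ) (1 - N * τ) (2^N * x j) (2^N * y j)
  rw [sub_self, abs_zero, mul_zero, add_zero, ← mul_sub, abs_mul, abs_of_pos hp] at h3
  have h4 := mul_le_mul_of_nonneg_left (abs_sub_apply_le x y j) hp.le
  show |cg _ _ - cg _ _| ≤ _
  linarith

lemma continuous_chf {τ : ℝ} {N : ℕ} (hP : Par τ N 1) : Continuous (chf (n := n) τ N) :=
  (chi hP).continuous

section comp

variable {F : Type*} [NormedAddCommGroup F] {g : (Fin n → ℝ) → F}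

lemma LLV_shell {τ μ : ℝ} {N k : ℕ} (hP : Par τ N 1) (hk : k < N) {x : Fin n → ℝ}
    (h1 : 1/2 < 2^k * ‖x‖) (h2 : 2^k * ‖x‖ < 1) (hμ : 0 ≤ μ) (hg : LLV μ g (chf τ N x)) :
    LLV (μ * (16 * 2^k)) (fun y => g (chf τ N y)) x := by
  have hc : Tendsto (chf (n := n) τ N) (𝓝 x) (𝓝 (chf τ N x)) :=
    (continuous_chf hP).continuousAt
  have ho : ∀ᶠ y in 𝓝 x, 1/2 < 2^k * ‖y‖ ∧ 2^k * ‖y‖ < 1 := by
    have hcn : Continuous (fun y : Fin n → ℝ => 2^k * ‖y‖) := continuous_const.mul continuous_norm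
    exact ((isOpen_lt continuous_const hcn).inter (isOpen_lt hcn continuous_const)).mem_nhds
      ⟨h1, h2⟩
  filter_upwards [hc.eventually hg, ho] with y hy hy2
  have h3 := chf_shell_lip hP hk hy2.1.le hy2.2.le h1.le h2.le
  calc ‖g (chf τ N y) - g (chf τ N x)‖ ≤ μ * ‖chf τ N y - chf τ N x‖ := hy
    _ ≤ μ * (16 * 2^k * ‖y - x‖) := mul_le_mul_of_nonneg_left h3 hμ
    _ = _ := by ring

lemma LLV_inner {τ μ : ℝ} {N : ℕ} (hP : Par τ N 1) {x : Fin n → ℝ}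
    (h2 : 2^N * ‖x‖ < 1) (hμ : 0 ≤ μ) (hg : LLV μ g (chf τ N x)) :
    LLV (μ * (2 * 2^N)) (fun y => g (chf τ N y)) x := by
  have hc : Tendsto (chf (n := n) τ N) (𝓝 x) (𝓝 (chf τ N x)) :=
    (continuous_chf hP).continuousAt
  have ho : ∀ᶠ y in 𝓝 x, 2^N * ‖y‖ < 1 := by
    have hcn : Continuous (fun y : Fin n → ℝ => 2^N * ‖y‖) := continuous_const.mul continuous_norm
    exact (isOpen_lt hcn continuous_const).mem_nhds h2
  filter_upwards [hc.eventually hg, ho] with y hy hy2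
  have h3 := chf_inner_lip (τ := τ) hy2.le h2.le
  calc ‖g (chf τ N y) - g (chf τ N x)‖ ≤ μ * ‖chf τ N y - chf τ N x‖ := hy
    _ ≤ μ * (2 * 2^N * ‖y - x‖) := mul_le_mul_of_nonneg_left h3 hμ
    _ = _ := by ring

end comp

/-- position of the image of a point of the shell -/
lemma chf_near {τ : ℝ} {N k : ℕ} (hP : Par τ N 1) (hk : k < N) {x : Fin n → ℝ}
    (h1 : 1/2 < 2^k * ‖x‖) (h2 : 2^k * ‖x‖ < 1) :
    ‖foot k x‖ = 1 ∧ ‖chf τ N x‖ < 1 ∧ ‖chf τ N x - foot k x‖ ≤ 2 * (N * τ) := by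
  have ht := hP.t0
  have e2 : ‖(2:ℝ)^k • x‖ = 2^k * ‖x‖ := by rw [norm_smul]; simp
  have hf1 : ‖foot k x‖ = 1 := by
    rw [foot_eq, foot_zero]
    exact norm_cf ⟨by rw [e2]; exact h1.le, by rw [e2]; exact h2.le⟩
  have hkN : (k : ℝ) + 1 ≤ N := by exact_mod_cast hk
  have hlo := hP.lo
  have hk0 : (0:ℝ) ≤ k := Nat.cast_nonneg _
  set ρ := 1 - (k + 1) * τ + (2 * (2^k * ‖x‖) - 1) * τ with hρ
  have hρ1 : ρ < 1 := by
    have : (2 * (2^k * ‖x‖) - 1) * τ < τ := by nlinarith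
    nlinarith
  have hρ2 : 1 - N * τ ≤ ρ := by
    have : 0 ≤ (2 * (2^k * ‖x‖) - 1) * τ := by
      apply mul_nonneg _ ht.le; linarith
    nlinarith
  have hm : foot k x ∈ sph n := by simpa using hf1
  refine ⟨hf1, ?_, ?_⟩
  · rw [chf_shell hk h1.le h2.le, ← hρ, norm_cg hm ⟨by linarith, hρ1.le⟩]
    exact hρ1
  · rw [chf_shell hk h1.le h2.le, ← hρ, pi_norm_le_iff_of_nonneg
      (by have := mul_nonneg (Nat.cast_nonneg (α := ℝ) N) ht.le; linarith)]
    intro j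
    show |cg ρ (foot k x j) - foot k x j| ≤ _
    have e : foot k x j = cg 1 (foot k x j) :=
      (cg_one (by rw [← hf1]; exact abs_apply_le _ j)).symm
    have h3 := cg_lip ρ 1 (foot k x j) (foot k x j)
    rw [sub_self, abs_zero, mul_zero, zero_add] at h3
    have h4 : |ρ - 1| ≤ N * τ := by
      rw [abs_le]; constructor <;> linarith
    calc |cg ρ (foot k x j) - foot k x j| = |cg ρ (foot k x j) - cg 1 (foot k x j)| := by
          rw [← e]
      _ ≤ 2 * |ρ - 1| := h3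
      _ ≤ _ := by linarith

/-! ### volumes -/

/-- the part of the shell over a small set -/
def sect (k : ℕ) (F : Set (Fin n → ℝ)) : Set (Fin n → ℝ) :=
  {x | 1/2 ≤ 2^k * ‖x‖ ∧ 2^k * ‖x‖ ≤ 1 ∧ foot k x ∈ F}

lemma isClosed_sect (k : ℕ) {F : Set (Fin n → ℝ)} (hF : IsClosed F) : IsClosed (sect k F) := by
  have hcn : Continuous (fun y : Fin n → ℝ => 2^k * ‖y‖) := continuous_const.mul continuous_norm
  exact (isClosed_le continuous_const hcn).inter ((isClosed_le hcn continuous_const).inter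
    (hF.preimage (continuous_foot k)))

lemma dist_of_foot {F : Set (Fin n → ℝ)} {r : ℝ}
    (hd : ∀ x ∈ F, ∀ y ∈ F, ‖x - y‖ ≤ r) {x y : Fin n → ℝ} (hx : x ∈ sect 0 F)
    (hy : y ∈ sect 0 F) (h : |‖x‖ - ‖y‖| ≤ r) : ‖x - y‖ ≤ 4 * r := by
  obtain ⟨hx1, hx2, hx3⟩ := hx
  obtain ⟨hy1, hy2, hy3⟩ := hy
  rw [pow_zero, one_mul] at hx1 hx2 hy1 hy2
  have hr : 0 ≤ r := (abs_nonneg _).trans h
  have h1 := hd _ hx3 _ hy3
  rw [pi_norm_le_iff_of_nonneg (by linarith)]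
  intro j
  have h2 := (abs_sub_apply_le (foot 0 x) (foot 0 y) j).trans h1
  have h3 := cg_lip ‖x‖ ‖y‖ (foot 0 x j) (foot 0 y j)
  have ex : cg ‖x‖ (foot 0 x j) = x j := by rw [foot_zero]; exact cg_cf hx1
  have ey : cg ‖y‖ (foot 0 y j) = y j := by rw [foot_zero]; exact cg_cf hy1
  rw [ex, ey] at h3
  show |x j - y j| ≤ _
  linarith

lemma volume_sect_zero (F : Set (Fin n → ℝ)) {r : ℝ} (hr0 : 0 < r)
    (hr1 : r ≤ 1) (hd : ∀ x ∈ F, ∀ y ∈ F, ‖x - y‖ ≤ r) :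
    volume (sect 0 F) ≤ ENNReal.ofReal (2 * 8^n * (r^n / r)) := by
  classical
  set M := ⌊1 / (2 * r)⌋₊ with hM
  set T : ℕ → Set (Fin n → ℝ) := fun m => {x | x ∈ sect 0 F ∧ 1/2 + m * r ≤ ‖x‖ ∧
    ‖x‖ ≤ 1/2 + (m + 1) * r} with hT
  have hcov : sect 0 F ⊆ ⋃ m ∈ Finset.range (M + 1), T m := by
    intro x hx
    have hx1 := hx.1
    have hx2 := hx.2.1
    rw [pow_zero, one_mul] at hx1 hx2
    have h0 : 0 ≤ (‖x‖ - 1/2) / r := div_nonneg (by linarith) hr0.le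
    simp only [mem_iUnion, Finset.mem_range]
    refine ⟨⌊(‖x‖ - 1/2) / r⌋₊, ?_, hx, ?_, ?_⟩
    · refine Nat.lt_succ_of_le (Nat.floor_le_floor ?_)
      rw [div_le_div_iff₀ hr0 (by linarith)]
      nlinarith
    · have := Nat.floor_le h0
      rw [le_div_iff₀ hr0] at this
      linarith
    · have := (Nat.lt_floor_add_one ((‖x‖ - 1/2) / r)).le
      rw [div_le_iff₀ hr0] at this
      linarith
  have hT1 : ∀ m, volume (T m) ≤ ENNReal.ofReal ((8 * r)^n) := by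
    intro m
    rcases (T m).eq_empty_or_nonempty with h | ⟨y, hy⟩
    · rw [h]; simp
    · have hsub : T m ⊆ closedBall y (4 * r) := by
        intro x hx
        rw [mem_closedBall, dist_eq_norm]
        refine dist_of_foot hd hx.1 hy.1 ?_
        have a1 := hx.2.1
        have a2 := hx.2.2
        have a3 := hy.2.1
        have a4 := hy.2.2
        rw [abs_le]
        constructor <;> nlinarith
      refine (measure_mono hsub).trans ?_
      rw [Real.volume_pi_closedBall _ (by linarith), Fintype.card_fin]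
      apply ENNReal.ofReal_le_ofReal
      apply le_of_eq
      congr 1
      ring
  have hMr : ((M + 1 : ℕ) : ℝ) ≤ 2 / r := by
    have h1 : (M : ℝ) ≤ 1 / (2 * r) := Nat.floor_le (by positivity)
    have h2 : 1 / (2 * r) + 1 ≤ 2 / r := by
      rw [div_add_one (by linarith), div_le_div_iff₀ (by linarith) hr0]
      nlinarith
    push_cast
    linarith
  calc volume (sect 0 F) ≤ volume (⋃ m ∈ Finset.range (M + 1), T m) := measure_mono hcov
    _ ≤ ∑ m ∈ Finset.range (M + 1), volume (T m) := measure_biUnion_finset_le _ _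
    _ ≤ ∑ m ∈ Finset.range (M + 1), ENNReal.ofReal ((8 * r)^n) :=
        Finset.sum_le_sum fun m _ => hT1 m
    _ = ENNReal.ofReal (((M + 1 : ℕ) : ℝ) * (8 * r)^n) := by
        rw [Finset.sum_const, Finset.card_range, nsmul_eq_mul,
          ENNReal.ofReal_mul (Nat.cast_nonneg _), ENNReal.ofReal_natCast]
    _ ≤ ENNReal.ofReal (2 / r * (8 * r)^n) := by
        apply ENNReal.ofReal_le_ofReal
        exact mul_le_mul_of_nonneg_right hMr (by positivity)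
    _ = _ := by
        congr 1
        rw [mul_pow]
        field_simp

lemma volume_sect (k : ℕ) (F : Set (Fin n → ℝ)) {r : ℝ} (hr0 : 0 < r)
    (hr1 : r ≤ 1) (hd : ∀ x ∈ F, ∀ y ∈ F, ‖x - y‖ ≤ r) :
    volume (sect k F) ≤ ENNReal.ofReal (((2:ℝ)^k)⁻¹^n * (2 * 8^n * (r^n / r))) := by
  have hp : (0:ℝ) < 2^k := by positivity
  have e : sect k F = (fun x : Fin n → ℝ => (2:ℝ)^k • x) ⁻¹' sect 0 F := by
    ext x
    have e2 : ‖(2:ℝ)^k • x‖ = 2^k * ‖x‖ := by rw [norm_smul]; simp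
    show _ ↔ (1/2 ≤ 2^0 * ‖(2:ℝ)^k • x‖ ∧ 2^0 * ‖(2:ℝ)^k • x‖ ≤ 1 ∧ foot 0 ((2:ℝ)^k • x) ∈ F)
    rw [e2, pow_zero, one_mul, ← foot_eq]
    rfl
  rw [e, Measure.addHaar_preimage_smul _ hp.ne', ENNReal.ofReal_mul (by positivity)]
  refine mul_le_mul' ?_ (volume_sect_zero F hr0 hr1 hd)
  apply ENNReal.ofReal_le_ofReal
  rw [Module.finrank_fin_fun, abs_of_pos (by positivity), inv_pow]

end Crest.Agent.R96.Hole_348
end

-- ▼ part R96/Hole3_348

/-!
# R96, P4-HOLE, part 3: the energy of the squeezed map (helper348)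

`hole`: a map `g`, locally Lipschitz with an arbitrary constant inside a cube and with local
Lipschitz constant `≤ μ i` near the piece `F i` of the boundary, becomes after precomposition with
a PL homeomorphism of the cube, equal to the identity on its boundary, a map of energy
`≤ C(n,p) R r^(n-1) ∑ μ_i^p + ε`, for every `0 < p < n`.
-/

set_option autoImplicit false

open Set Metric Filter Topology MeasureTheory

namespace Crest.Agent.R96.Hole_348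

open Crest.Agent.R096.Ce_537 Crest.Agent.R096.Bd_416

variable {n : ℕ}

/-- the constant -/
noncomputable def Chole (n : ℕ) (p : ℝ) : ℝ :=
  (16:ℝ)^p * (2 * 8^n) / (1 - (2:ℝ)^(p - n))

lemma q_lt_one {p : ℝ} (hpn : p < n) : (2:ℝ)^(p - n) < 1 :=
  Real.rpow_lt_one_of_one_lt_of_neg (by norm_num) (by linarith)

lemma q_pos {p : ℝ} : 0 < (2:ℝ)^(p - n) := Real.rpow_pos_of_pos (by norm_num) _

lemma Chole_nonneg {p : ℝ} (hpn : p < n) : 0 ≤ Chole n p := by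
  have := q_lt_one hpn
  exact div_nonneg (by positivity) (by linarith)

lemma norm_chf_lt {τ : ℝ} {N : ℕ} (hP : Par τ N 1) {x : Fin n → ℝ} (hx : ‖x‖ < 1) :
    ‖chf τ N x‖ < 1 := by
  by_contra h
  have h1 := chg_out hP (not_lt.1 h)
  have h2 : chg τ N (chf τ N x) = x := (chi hP).symm_apply_apply x
  rw [h2] at h1
  rw [← h1] at h
  exact h hx

lemma pow_aux (k : ℕ) {p : ℝ} :
    ((2:ℝ)^k)^p * (((2:ℝ)^k)⁻¹)^n = ((2:ℝ)^(p - n))^k := by
  have h2 : (0:ℝ) < 2 := by norm_num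
  rw [← Real.rpow_natCast (2:ℝ) k, ← Real.rpow_mul h2.le, ← Real.rpow_neg h2.le,
    ← Real.rpow_natCast (((2:ℝ)^(-(k:ℝ)))) n, ← Real.rpow_mul h2.le, ← Real.rpow_add h2,
    ← Real.rpow_natCast ((2:ℝ)^(p - n)) k, ← Real.rpow_mul h2.le]
  congr 1
  ring

lemma geom_le {q : ℝ} (h0 : 0 ≤ q) (h1 : q < 1) (N : ℕ) :
    ∑ k ∈ Finset.range N, q^k ≤ 1 / (1 - q) := by
  have h2 : 0 < 1 - q := by linarith
  rw [le_div_iff₀ h2, geom_sum_mul_neg]
  have := pow_nonneg h0 N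
  linarith

/-- **Finite cover form of an energy bound**: `K` is covered by finitely many measurable sets
`S j` on which (a.e.) `f` has local Lipschitz constant `≤ c j`, and `∑ (c j)^p |S j| ≤ A`. -/
def EnCov {E G : Type*} [NormedAddCommGroup E] [MeasurableSpace E] [NormedAddCommGroup G]
    (m : Measure E) (p : ℝ) (f : E → G) (K : Set E) (A : ENNReal) : Prop :=
  ∃ (J : Type) (_ : Fintype J) (S : J → Set E) (c : J → ℝ), (∀ j, MeasurableSet (S j)) ∧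
    (∀ j, 0 ≤ c j) ∧ K ⊆ ⋃ j, S j ∧ (∀ j, ∀ᵐ x ∂m, x ∈ S j → LLV (c j) f x) ∧
    ∑ j, ENNReal.ofReal (c j ^ p) * m (S j) ≤ A

/-- an energy integral -/
lemma EnCov.lintegral_le {E G : Type*} [NormedAddCommGroup E] [MeasurableSpace E]
    [NormedAddCommGroup G] {m : Measure E} {p : ℝ} {f : E → G} {K : Set E} {A : ENNReal}
    (h : EnCov m p f K A) {w : E → ENNReal}
    (hw : ∀ x c, 0 ≤ c → LLV c f x → w x ≤ ENNReal.ofReal (c^p)) :
    ∫⁻ x in K, w x ∂m ≤ A := by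
  obtain ⟨J, _, S, c, hS, hc, hK, hL, hA⟩ := h
  calc ∫⁻ x in K, w x ∂m ≤ ∫⁻ x in ⋃ j, S j, w x ∂m := lintegral_mono_set hK
    _ ≤ ∑' j, ∫⁻ x in S j, w x ∂m := lintegral_iUnion_le _ _
    _ = ∑ j, ∫⁻ x in S j, w x ∂m := tsum_fintype _
    _ ≤ ∑ j, ENNReal.ofReal (c j ^ p) * m (S j) := by
        refine Finset.sum_le_sum fun j _ => ?_
        calc ∫⁻ x in S j, w x ∂m ≤ ∫⁻ _x in S j, ENNReal.ofReal (c j ^ p) ∂m := by
              refine setLIntegral_mono_ae' (hS j) ?_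
              filter_upwards [hL j] with x hx hxS
              exact hw x _ (hc j) (hx hxS)
          _ = _ := by rw [setLIntegral_const]
    _ ≤ A := hA

lemma EnCov.fderiv_le {E G : Type*} [NormedAddCommGroup E] [NormedSpace ℝ E] [MeasurableSpace E]
    [NormedAddCommGroup G] [NormedSpace ℝ G] {m : Measure E} {p : ℝ} (hp : 0 < p)
    {f : E → G} {K : Set E} {A : ENNReal} (h : EnCov m p f K A) :
    ∫⁻ x in K, ‖fderiv ℝ f x‖ₑ^p ∂m ≤ A := by
  refine h.lintegral_le ?_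
  intro x c hc hx
  rw [← ENNReal.ofReal_rpow_of_nonneg hc hp.le]
  refine ENNReal.rpow_le_rpow ?_ hp.le
  rw [← ofReal_norm]
  exact ENNReal.ofReal_le_ofReal (norm_fderiv_le_of_lip' ℝ hc hx)

lemma ae_norm_ne (c : ℝ) (hn : 0 < n) : ∀ᵐ x : Fin n → ℝ, ‖x‖ ≠ c := by
  have : Nonempty (Fin n) := ⟨⟨0, hn⟩⟩
  have h : volume (sphere (0 : Fin n → ℝ) c) = 0 := Measure.addHaar_sphere _ _ _
  have : ∀ᵐ x : Fin n → ℝ, x ∉ sphere (0 : Fin n → ℝ) c := measure_eq_zero_iff_ae_notMem.1 h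
  filter_upwards [this] with x hx h2
  exact hx (by simpa using h2)



end Crest.Agent.R96.Hole_348
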