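import Mathlib
import Crest.Agent.R96.Push16_899

/-!
# Row 96, U2 PUSH (helper899), part 19: mixed cores (`p < n`): prescribed cores and box holes in the
bricks of `G` (pointwise factor), random point holes in the others (averaged factor).
-/

set_option autoImplicit false
set_option linter.unusedSectionVars false
set_option linter.unusedVariables false

open MeasureTheory Set Filter Topology
open scoped NNReal ENNReal

noncomputable section

namespace Crest.Agent.R96.Push_899

open Crest.Agent.R96.Acl_392 Crest.Agent.R96.Sob1_199 Crest.Agent.R96.Sob2_199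
  Crest.Agent.R96.Sob3_199 Crest.Agent.R96.Sob4_199 Crest.Agent.R96.Sob5_199

variable {ι : Type*} [Fintype ι] [Nonempty ι] [DecidableEq ι]

variable {E : Type*} [NormedAddCommGroup E] [NormedSpace ℝ E] [FiniteDimensional ℝ E]
  [MeasurableSpace E] [BorelSpace E] {μ : Measure E} [μ.IsAddHaarMeasure]




/-- mixed cores -/
def mixC {I : Type*} (G : Set I) (Q C₁ : I → Box ι) (z : I → ι → ℝ) (c : I) : Box ι := by
  classical exact if c ∈ G then C₁ c else coreBF (Q c) (z c)

/-- mixed holes -/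
def mixB {I : Type*} (G : Set I) (B₁ : I → Box ι) (z : I → ι → ℝ) (c : I) : Box ι := by
  classical exact if c ∈ G then B₁ c else Box.pt (z c)

/-- mixed scales -/
def mixρ {I : Type*} (G : Set I) (Q : I → Box ι) (ρ₁ : I → ℝ) (c : I) : ℝ := by
  classical exact if c ∈ G then ρ₁ c else side (Q c)

section mix

variable {I : Type*} {G : Set I} {Q C₁ B₁ : I → Box ι} {z : I → ι → ℝ} {ρ₁ : I → ℝ} {c : I}

theorem mixC_mem (h : c ∈ G) : mixC G Q C₁ z c = C₁ c := by
  classical
  unfold mixC; rw [if_pos h]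
theorem mixC_not (h : c ∉ G) : mixC G Q C₁ z c = coreBF (Q c) (z c) := by
  classical
  unfold mixC; rw [if_neg h]
theorem mixB_mem (h : c ∈ G) : mixB G B₁ z c = B₁ c := by
  classical
  unfold mixB; rw [if_pos h]
theorem mixB_not (h : c ∉ G) : mixB G B₁ z c = Box.pt (z c) := by
  classical
  unfold mixB; rw [if_neg h]
theorem mixρ_mem (h : c ∈ G) : mixρ G Q ρ₁ c = ρ₁ c := by
  classical
  unfold mixρ; rw [if_pos h]
theorem mixρ_not (h : c ∉ G) : mixρ G Q ρ₁ c = side (Q c) := by
  classical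
  unfold mixρ; rw [if_neg h]

end mix

/-- the prescribed cores and holes -/
structure Given {I : Type*} (G : Set I) (a0 M : ℝ) (Q C₁ B₁ : I → Box ι) (ρ₁ : I → ℝ) : Prop where
  shape : ∀ c ∈ G, Shape ∅ (1 / (8 * a0)) 0 (ρ₁ c) (Q c) (C₁ c)
  inner : ∀ c ∈ G, Inner (C₁ c) (B₁ c)
  asp : ∀ c ∈ G, ∀ i j, (Q c).W i ≤ 4 * a0 * (C₁ c).W j
  hole : ∀ c ∈ G, ∀ i, (C₁ c).W i ≤ M * (B₁ c).W i
  pos : ∀ c ∈ G, ∀ i, 0 < (B₁ c).W i

variable {Λ : Set (EE ι)} {I : Type*} {Q C₁ B₁ : I → Box ι} {ρ₁ : I → ℝ} {G : Set I}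


variable [Countable I]





end Crest.Agent.R96.Push_899
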