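import Mathlib
import Crest.Agent.R96.Push19_899
import Crest.Agent.R96.Push20_899
import Crest.Agent.R096.Bxs7_627
import Crest.Agent.R096.Mbf_337
import Crest.Agent.R096.EaX1_766
import Crest.Agent.R096.Der1_764

-- ▼ part R96/EaP1_899
section

/-!
# Row 96, EA-PUSH (helper899), part 1: mixed cores with general constants: prescribed cores (of any
ratio) in the bricks of `G` with a pointwise factor; random point holes in the others, with an averaged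
factor, brick by brick.
-/

set_option autoImplicit false
set_option linter.unusedSectionVars false
set_option linter.unusedVariables false

open MeasureTheory Set Filter Topology
open scoped NNReal ENNReal

noncomputable section

namespace Crest.Agent.R96.EaP_899

open Crest.Agent.R96.Acl_392 Crest.Agent.R96.Sob1_199 Crest.Agent.R96.Sob2_199
  Crest.Agent.R96.Sob3_199 Crest.Agent.R96.Sob4_199 Crest.Agent.R96.Sob5_199
  Crest.Agent.R96.Push_899

variable {ι : Type*} [Fintype ι] [Nonempty ι] [DecidableEq ι]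

variable {E : Type*} [NormedAddCommGroup E] [NormedSpace ℝ E] [FiniteDimensional ℝ E]
  [MeasurableSpace E] [BorelSpace E] {μ : Measure E} [μ.IsAddHaarMeasure]

omit [Nonempty ι] [DecidableEq ι] in
theorem shape_mono {P : Finset ι} {c c' κ ρ : ℝ} {Q C : Box ι} (h : Shape P c κ ρ Q C)
    (h0 : 0 < c') (h1 : c' ≤ c) : Shape P c' κ ρ Q C := by
  have hr := h.r0
  exact ⟨h0, h1.trans h.c1, h.r0, h.k0, h.W0,
    fun i => (mul_le_mul_of_nonneg_right h1 hr.le).trans (h.lo1 i), h.lo2,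
    fun i => (mul_le_mul_of_nonneg_right h1 hr.le).trans (h.hi1 i), h.hi2,
    fun i => (mul_le_mul_of_nonneg_right h1 (h.W0 i).le).trans (h.wd i), h.wdP⟩

/-- the prescribed cores and holes: shape constant `c₁`, the core is at most `a` times narrower than
the brick, the hole at most `M` times narrower than the core -/
structure Giv {I : Type*} (G : Set I) (c₁ a M : ℝ) (Q C₁ B₁ : I → Box ι) (ρ₁ : I → ℝ) : Prop where
  shape : ∀ c ∈ G, Shape ∅ c₁ 0 (ρ₁ c) (Q c) (C₁ c)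
  inner : ∀ c ∈ G, Inner (C₁ c) (B₁ c)
  asp : ∀ c ∈ G, ∀ i j, (Q c).W i ≤ a * (C₁ c).W j
  hole : ∀ c ∈ G, ∀ i, (C₁ c).W i ≤ M * (B₁ c).W i
  pos : ∀ c ∈ G, ∀ i, 0 < (B₁ c).W i

/-- the pointwise constant -/
def K1 (ι : Type*) [Fintype ι] (c₁ a M : ℝ) : ℝ := Fintype.card ι ^ 2 * (2 / c₁ ^ 2 + 18 * a * M)

/-- the averaged constant -/
def K2 (ι : Type*) [Fintype ι] [Nonempty ι] (c₁ a M p : ℝ) : ℝ≥0∞ :=
  ENNReal.ofReal ((18 * Fintype.card ι * (a * Fintype.card ι)) ^ p) * Kc ι p +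
    ENNReal.ofReal (K1 ι c₁ a M ^ p)

theorem K2_lt_top {c₁ a M p : ℝ} (hp : p < Fintype.card ι) : K2 ι c₁ a M p < ⊤ :=
  ENNReal.add_lt_top.2 ⟨ENNReal.mul_lt_top ENNReal.ofReal_lt_top (Kc_lt_top hp), ENNReal.ofReal_lt_top⟩

variable {Λ : Set (EE ι)} {I : Type*} {Q C₁ B₁ : I → Box ι} {ρ₁ : I → ℝ} {G : Set I}
  {a0 c₁ a M : ℝ}

theorem foamMix2 (ha0 : 1 ≤ a0) (hc₁ : 0 < c₁) (hc₁' : c₁ ≤ 1 / (8 * a0)) (h : Foam0 Λ Q)
    (hA : ∀ c i j, (Q c).W i ≤ a0 * (Q c).W j) (hG : Giv G c₁ a M Q C₁ B₁ ρ₁)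
    {z : I → ι → ℝ} (hz : ∀ c, c ∉ G → z c ∈ Mid (Q c)) :
    FoamC Λ Q (mixC G Q C₁ z) (mixB G B₁ z) ∅ c₁ (fun _ => 0) (mixρ G Q ρ₁) := by
  refine ⟨h.cells, h.disj, fun c => ?_, fun c => ?_⟩
  · by_cases hc : c ∈ G
    · rw [mixC_mem hc, mixρ_mem hc]; exact hG.shape c hc
    · rw [mixC_not hc, mixρ_not hc]
      exact shape_mono (shapeBF ha0 (h.W0 c) (hA c) (hz c hc)) hc₁ hc₁'
  · by_cases hc : c ∈ G
    · rw [mixC_mem hc, mixB_mem hc]; exact hG.inner c hc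
    · rw [mixC_not hc, mixB_not hc]; exact (admBF (h.W0 c)).inner (hz c hc)

theorem mix_asp2 (ha0 : 1 ≤ a0) (h : Foam0 Λ Q) (hA : ∀ c i j, (Q c).W i ≤ a0 * (Q c).W j)
    (ha : 4 * a0 ≤ a) (hG : Giv G c₁ a M Q C₁ B₁ ρ₁) (z : I → ι → ℝ) :
    ∀ c i j, (Q c).W i ≤ a * (mixC G Q C₁ z c).W j := by
  intro c i j
  by_cases hc : c ∈ G
  · rw [mixC_mem hc]; exact hG.asp c hc i j
  · rw [mixC_not hc, coreBF_W (h.W0 c)]
    have h1 := hA c i j
    have h2 := h.W0 c j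
    have h3 : 4 * a0 * ((Q c).W j / 4) ≤ a * ((Q c).W j / 4) :=
      mul_le_mul_of_nonneg_right ha (by positivity)
    linarith

variable [Countable I]

/-- **pointwise factor** off the cores of the bricks which are not in `G` -/
theorem mix_ptw2 (ha0 : 1 ≤ a0) (hc₁ : 0 < c₁) (hc₁' : c₁ ≤ 1 / (8 * a0)) (ha4 : 4 * a0 ≤ a)
    (hM : 1 ≤ M) (hΛ : IsOpen Λ) (h : Foam0 Λ Q)
    (hA : ∀ c i j, (Q c).W i ≤ a0 * (Q c).W j) (hG : Giv G c₁ a M Q C₁ B₁ ρ₁)
    {z : I → ι → ℝ} (hz : ∀ c, c ∉ G → z c ∈ Mid (Q c)) {Ω : Set E} (hΩ : IsOpen Ω) {φ : E → EE ι}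
    (hφ : ContinuousOn φ Ω) {e : E} {D D' : E → EE ι} (hD : VWD Ω μ φ D e)
    (hD' : VWD (Ω ∩ φ ⁻¹' (Pun Λ (mixB G B₁ z))) μ
      (fun x => Psi Q (mixC G Q C₁ z) (mixB G B₁ z) (φ x)) D' e) :
    ∀ᵐ x ∂μ, x ∈ Ω ∩ φ ⁻¹' (Pun Λ (mixB G B₁ z)) →
      (∀ c, φ x ∈ IE (mixC G Q C₁ z c) → c ∈ G) → ‖D' x‖ ≤ K1 ι c₁ a M * ‖D x‖ := by
  have a0p : 0 < a0 := by linarith
  have ap : 0 < a := by linarith
  have hF := foamMix2 ha0 hc₁ hc₁' h hA hG hz
  have ha := mix_asp2 ha0 h hA ha4 hG z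
  filter_upwards [hF.bound_off hΛ hΩ hφ hD hD' ap.le ha,
    hF.bound_core hΛ hΩ hφ hD hD' (fun _ _ => a) ha] with x h1 h2 hx hxG
  by_cases hc : ∃ c, φ x ∈ IE (mixC G Q C₁ z c)
  · obtain ⟨c, hc⟩ := hc
    have hcG := hxG c hc
    have h3 := h2 hx c hc
    have ht := hF.tt_pos hx.2 c
    have hmm : mm (mixC G Q C₁ z c) (mixB G B₁ z c) (co (φ x)) ≤ M := by
      have e1 : mixC G Q C₁ z c = C₁ c := mixC_mem hcG
      have e2 : mixB G B₁ z c = B₁ c := mixB_mem hcG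
      rw [e1, e2] at ht ⊢
      exact mm_le_of (hG.inner c hcG) (hG.hole c hcG) (hG.pos c hcG) ht
    have hmm0 := mm_pos (hF.inner c) ht
    have key : ∀ i, |D' x i| ≤ (18 * a * M) * (Fintype.card ι * ‖D x‖) := by
      intro i
      refine (h3 i).trans ?_
      rw [← Finset.mul_sum]
      calc _ ≤ 18 * M * (a * (Fintype.card ι * ‖D x‖)) := by
            apply mul_le_mul
            · linarith
            · exact mul_le_mul_of_nonneg_left (sum_abs_le _) ap.le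
            · exact mul_nonneg ap.le (Finset.sum_nonneg fun _ _ => abs_nonneg _)
            · linarith
        _ = _ := by ring
    calc ‖D' x‖ ≤ ∑ i, |D' x i| := norm_le_sum _
      _ ≤ ∑ i : ι, (18 * a * M) * (Fintype.card ι * ‖D x‖) :=
          Finset.sum_le_sum fun i _ => key i
      _ = (Fintype.card ι ^ 2 * (18 * a * M)) * ‖D x‖ := by
          rw [Finset.sum_const, Finset.card_univ, nsmul_eq_mul]; ring
      _ ≤ _ := by
          apply mul_le_mul_of_nonneg_right _ (norm_nonneg _)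
          unfold K1
          apply mul_le_mul_of_nonneg_left _ (by positivity)
          have : 0 ≤ 2 / c₁ ^ 2 := by positivity
          linarith
  · push Not at hc
    refine (h1 hx hc).trans ?_
    apply mul_le_mul_of_nonneg_right _ (norm_nonneg _)
    unfold K1
    apply mul_le_mul_of_nonneg_left _ (by positivity)
    nlinarith

/-- **mixed cores, `p < n`, brick by brick.** -/
theorem push_mix2 {p : ℝ} (ha0 : 1 ≤ a0) (hc₁ : 0 < c₁) (hc₁' : c₁ ≤ 1 / (8 * a0))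
    (ha4 : 4 * a0 ≤ a) (hM : 1 ≤ M) (hp0 : 0 ≤ p) (hΛ : IsOpen Λ)
    (h : Foam0 Λ Q) (hA : ∀ c i j, (Q c).W i ≤ a0 * (Q c).W j) (hG : Giv G c₁ a M Q C₁ B₁ ρ₁)
    {Ω : Set E} (hΩ : IsOpen Ω) {φ : E → EE ι}
    (hφ : ContinuousOn φ Ω) {J : Type*} [Fintype J] {e : J → E} {D : J → E → EE ι}
    (hD : ∀ l, VWD Ω μ φ (D l) (e l)) {N : Set (ι → ℝ)} (hN : volume N = 0) :
    ∃ z : I → ι → ℝ, (∀ c, z c ∈ Mid (Q c)) ∧ (∀ c, z c ∉ N) ∧
      ∀ D' : J → E → EE ι, (∀ l, VWD (Ω ∩ φ ⁻¹' (Pun Λ (mixB G B₁ z))) μ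
        (fun x => Psi Q (mixC G Q C₁ z) (mixB G B₁ z) (φ x)) (D' l) (e l)) →
      ∀ c, c ∉ G → (∫⁻ x in Ω ∩ φ ⁻¹' (Pun Λ (mixB G B₁ z) ∩ IE (mixC G Q C₁ z c)),
        ∑ l, ‖D' l x‖ₑ ^ p ∂μ ≤ K2 ι c₁ a M p * ∫⁻ x in Ω ∩ φ ⁻¹' (IE (Q c)),
        ∑ l, ‖D l x‖ₑ ^ p ∂μ) ∧
        (∫⁻ x in Ω ∩ φ ⁻¹' (Pun Λ (mixB G B₁ z) ∩ SE (Q c)),
        ∑ l, ‖D' l x‖ₑ ^ p ∂μ ≤ K2 ι c₁ a M p * ∫⁻ x in Ω ∩ φ ⁻¹' (SE (Q c)),
        ∑ l, ‖D l x‖ₑ ^ p ∂μ) := by
  have a0p : 0 < a0 := by linarith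
  have ap : 0 < a := by linarith
  have hn : (1:ℝ) ≤ Fintype.card ι := by exact_mod_cast Fintype.card_pos
  have hK1 : 0 ≤ K1 ι c₁ a M := by unfold K1; positivity
  -- measurability
  have mD : ∀ l, AEMeasurable (fun x => ‖D l x‖ₑ ^ p) (μ.restrict Ω) := fun l =>
    ((hD l).aemeas.enorm).pow_const p
  set g : E → ℝ≥0∞ := fun x => ∑ l, ‖D l x‖ₑ ^ p with hg
  have mg : AEMeasurable g (μ.restrict Ω) := Finset.aemeasurable_fun_sum _ fun l _ => mD l
  have mφ : AEMeasurable (fun x => co (φ x)) (μ.restrict Ω) :=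
    continuous_co.measurable.comp_aemeasurable
      (hφ.aestronglyMeasurable hΩ.measurableSet).aemeasurable
  have hs0 : ∀ c, Ω ∩ φ ⁻¹' (IE (Q c)) ⊆ Ω := fun c x hx => hx.1
  have hcen : ∀ c, ∃ z ∈ Mid (Q c), z ∉ N ∧
      ∫⁻ x, gW (wN ∅ 1 (1/4) (Q c)) p (co (φ x) - z) * g x
        ∂(μ.restrict (Ω ∩ φ ⁻¹' (IE (Q c)))) ≤
      ENNReal.ofReal (2 ^ Fintype.card ι * (1/4) ^ (∅ᶜ : Finset ι).card) * Kc ι p *
        ∫⁻ x, g x ∂(μ.restrict (Ω ∩ φ ⁻¹' (IE (Q c)))) := fun c =>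
    (admBF (h.W0 c)).centre p (mφ.mono_measure (Measure.restrict_mono (hs0 c) le_rfl))
      (mg.mono_measure (Measure.restrict_mono (hs0 c) le_rfl)) hN
  choose z hz hzN hb using hcen
  refine ⟨z, hz, hzN, ?_⟩
  intro D' hD' c hcG
  have hF := foamMix2 ha0 hc₁ hc₁' h hA hG (fun c _ => hz c)
  have ha := mix_asp2 ha0 h hA ha4 hG z
  set B : I → Box ι := mixB G B₁ z with hB
  set C : I → Box ι := mixC G Q C₁ z with hC
  have hCW : ∀ i, (C c).W i = 1 / 4 * (Q c).W i := by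
    intro i
    rw [hC, mixC_not hcG, coreBF_W (h.W0 c)]; ring
  have hO := hF.isOpen_dom hΛ hΩ hφ
  have mPun := (hF.isOpen_pun hΛ).measurableSet
  -- core part
  have hBc : B c = Box.pt (z c) := by rw [hB]; exact mixB_not hcG
  have part1 : ∫⁻ x in Ω ∩ φ ⁻¹' (Pun Λ B ∩ IE (C c)), ∑ l, ‖D' l x‖ₑ ^ p ∂μ ≤
      (ENNReal.ofReal ((18 * Fintype.card ι * (a * Fintype.card ι)) ^ p) * Kc ι p) *
        ∫⁻ x in Ω ∩ φ ⁻¹' (IE (Q c)), g x ∂μ := by
    rw [mul_assoc]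
    have hs1 : Ω ∩ φ ⁻¹' (Pun Λ B ∩ IE (C c)) ⊆ Ω ∩ φ ⁻¹' (Pun Λ B) :=
      fun x hx => ⟨hx.1, hx.2.1⟩
    have hs2 : Ω ∩ φ ⁻¹' (IE (C c)) ⊆ Ω ∩ φ ⁻¹' (IE (Q c)) :=
      fun x hx => ⟨hx.1, hF.core_sub c (IE_subset_SE _ hx.2)⟩
    have mD' : ∀ l, AEMeasurable (fun x => ‖D' l x‖ₑ ^ p)
        (μ.restrict (Ω ∩ φ ⁻¹' (Pun Λ B ∩ IE (C c)))) := fun l =>
      (((hD' l).aemeas.enorm).pow_const p).mono_measure (Measure.restrict_mono hs1 le_rfl)
    rw [lintegral_finsetSum' _ fun l _ => mD' l]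
    have e1 : ∀ l, ∫⁻ x in Ω ∩ φ ⁻¹' (Pun Λ B ∩ IE (C c)), ‖D' l x‖ₑ ^ p ∂μ ≤
        ENNReal.ofReal ((18 * Fintype.card ι * (a * Fintype.card ι)) ^ p) *
          ∫⁻ x in Ω ∩ φ ⁻¹' (IE (Q c)), gW (C c).W p (co (φ x) - z c) *
            ‖D l x‖ₑ ^ p ∂μ := by
      intro l
      have h1 := hF.core_int hΛ hΩ hφ (hD l) (hD' l) hp0 (fun _ _ => a)
        (fun c i j => ha c i j) c (z := z c) hBc (X := univ) nullMeasurableSet_univ
      rw [univ_inter, univ_inter] at h1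
      refine h1.trans ?_
      have e2 : ∀ x, ENNReal.ofReal ((∑ j, a * |D l x j|) ^ p) ≤
          ENNReal.ofReal ((a * Fintype.card ι) ^ p) * ‖D l x‖ₑ ^ p := by
        intro x
        rw [← ofReal_norm, ENNReal.ofReal_rpow_of_nonneg (norm_nonneg _) hp0,
          ← ENNReal.ofReal_mul (by positivity), ← Real.mul_rpow (by positivity) (norm_nonneg _)]
        apply ENNReal.ofReal_le_ofReal
        apply Real.rpow_le_rpow _ _ hp0
        · exact Finset.sum_nonneg fun j _ => by positivity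
        · rw [← Finset.mul_sum]
          refine (mul_le_mul_of_nonneg_left (sum_abs_le (D l x)) ap.le).trans
            (le_of_eq (by ring))
      calc _ ≤ ENNReal.ofReal ((18 * Fintype.card ι) ^ p) *
            ∫⁻ x in Ω ∩ φ ⁻¹' (IE (Q c)), gW (C c).W p (co (φ x) - z c) *
              (ENNReal.ofReal ((a * Fintype.card ι) ^ p) * ‖D l x‖ₑ ^ p) ∂μ := by
            refine mul_le_mul' le_rfl ?_
            refine (lintegral_mono_set hs2).trans (lintegral_mono fun x => ?_)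
            exact mul_le_mul' le_rfl (e2 x)
        _ = ENNReal.ofReal ((18 * Fintype.card ι) ^ p) * (ENNReal.ofReal
            ((a * Fintype.card ι) ^ p) * ∫⁻ x in Ω ∩ φ ⁻¹' (IE (Q c)),
              gW (C c).W p (co (φ x) - z c) * ‖D l x‖ₑ ^ p ∂μ) := by
            congr 1
            rw [← lintegral_const_mul' _ _ ENNReal.ofReal_ne_top]
            apply lintegral_congr
            intro x; ring
        _ = _ := by
            rw [← mul_assoc, ← ENNReal.ofReal_mul (by positivity),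
              ← Real.mul_rpow (by positivity) (by positivity)]
    refine (Finset.sum_le_sum fun l _ => e1 l).trans ?_
    rw [← Finset.mul_sum]
    refine mul_le_mul' le_rfl ?_
    rw [← lintegral_finsetSum']
    · have e3 : ∀ x, ∑ l, gW (C c).W p (co (φ x) - z c) * ‖D l x‖ₑ ^ p =
          gW (wN ∅ 1 (1/4) (Q c)) p (co (φ x) - z c) * g x := by
        intro x
        rw [← Finset.mul_sum]
        congr 2
        funext i
        rw [hCW]; simp [wN]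
      rw [lintegral_congr e3]
      refine (hb c).trans ?_
      have e4 : ENNReal.ofReal (2 ^ Fintype.card ι * (1/4) ^ (∅ᶜ : Finset ι).card) ≤ 1 := by
        rw [Finset.compl_empty, Finset.card_univ, ← mul_pow]
        apply ENNReal.ofReal_le_one.2
        exact pow_le_one₀ (by norm_num) (by norm_num)
      calc _ ≤ 1 * Kc ι p * ∫⁻ x, g x ∂(μ.restrict (Ω ∩ φ ⁻¹' (IE (Q c)))) := by gcongr
        _ = _ := by rw [one_mul]
    · intro l _
      apply AEMeasurable.mul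
      · refine (measurable_gW _ p).comp_aemeasurable ?_
        exact (mφ.mono_measure (Measure.restrict_mono (hs0 c) le_rfl)).sub aemeasurable_const
      · exact (mD l).mono_measure (Measure.restrict_mono (hs0 c) le_rfl)
  refine ⟨part1.trans (mul_le_mul' (by unfold K2; exact le_self_add) le_rfl), ?_⟩
  -- the rest of the brick
  have part2 : ∫⁻ x in Ω ∩ φ ⁻¹' (Pun Λ B ∩ (SE (Q c) \ IE (C c))), ∑ l, ‖D' l x‖ₑ ^ p ∂μ ≤
        ENNReal.ofReal (K1 ι c₁ a M ^ p) *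
          ∫⁻ x in Ω ∩ φ ⁻¹' (Pun Λ B ∩ (SE (Q c) \ IE (C c))), g x ∂μ := by
    rw [← lintegral_const_mul' _ _ ENNReal.ofReal_ne_top]
    apply lintegral_mono_ae
    have hT : MeasurableSet (Pun Λ B ∩ (SE (Q c) \ IE (C c))) :=
      mPun.inter ((isClosed_SE (Q c)).measurableSet.diff (isOpen_IE (C c)).measurableSet)
    have hm : NullMeasurableSet (Ω ∩ φ ⁻¹' (Pun Λ B ∩ (SE (Q c) \ IE (C c)))) μ := by
      have h1 := hF.nm (μ := μ) hΩ hφ hT
      have h2 := (nullMeasurableSet_restrict hΩ.measurableSet.nullMeasurableSet).1 h1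
      rw [inter_comm] at h2
      exact h2
    refine (ae_restrict_iff'₀ hm).2 ?_
    have h1 : ∀ᵐ x ∂μ, ∀ l, x ∈ Ω ∩ φ ⁻¹' (Pun Λ B) → (∀ c, φ x ∉ IE (C c)) →
        ‖D' l x‖ ≤ (Fintype.card ι ^ 2 * (2 / c₁ ^ 2 + 18 * a)) * ‖D l x‖ :=
      ae_all_iff.2 fun l => hF.bound_off hΛ hΩ hφ (hD l) (hD' l) ap.le ha
    filter_upwards [h1] with x hx hx2
    rw [hg]
    simp only
    rw [Finset.mul_sum]
    apply Finset.sum_le_sum
    intro l _
    have h2 := hx l ⟨hx2.1, hx2.2.1⟩ (hF.not_core hx2.2.2.1 hx2.2.2.2)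
    rw [← ofReal_norm (D l x), ENNReal.ofReal_rpow_of_nonneg (norm_nonneg _) hp0,
          ← ENNReal.ofReal_mul (by positivity), ← Real.mul_rpow hK1 (norm_nonneg _)]
    apply enorm_rpow_le hp0
    refine h2.trans (mul_le_mul_of_nonneg_right ?_ (norm_nonneg _))
    unfold K1
    apply mul_le_mul_of_nonneg_left _ (by positivity)
    nlinarith
  set GG' := ∫⁻ x in Ω ∩ φ ⁻¹' (SE (Q c)), g x ∂μ with hGG
  have s1 : Ω ∩ φ ⁻¹' (Pun Λ B ∩ SE (Q c)) ⊆
      (Ω ∩ φ ⁻¹' (Pun Λ B ∩ IE (C c))) ∪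
      (Ω ∩ φ ⁻¹' (Pun Λ B ∩ (SE (Q c) \ IE (C c)))) := by
    intro x h1
    rcases hF.brick_split c h1 with h2 | h2
    · exact Or.inl h2
    · exact Or.inr h2
  have s2 : Ω ∩ φ ⁻¹' (IE (Q c)) ⊆ Ω ∩ φ ⁻¹' (SE (Q c)) :=
    fun x hx => ⟨hx.1, IE_subset_SE _ hx.2⟩
  have s3 : Ω ∩ φ ⁻¹' (Pun Λ B ∩ (SE (Q c) \ IE (C c))) ⊆ Ω ∩ φ ⁻¹' (SE (Q c)) :=
    fun x hx => ⟨hx.1, hx.2.2.1⟩
  calc _ ≤ ∫⁻ x in (Ω ∩ φ ⁻¹' (Pun Λ B ∩ IE (C c))) ∪
        (Ω ∩ φ ⁻¹' (Pun Λ B ∩ (SE (Q c) \ IE (C c)))), ∑ l, ‖D' l x‖ₑ ^ p ∂μ :=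
        lintegral_mono_set s1
    _ ≤ _ := lintegral_union_le _ _ _
    _ ≤ (ENNReal.ofReal ((18 * Fintype.card ι * (a * Fintype.card ι)) ^ p) * Kc ι p) * GG' +
        ENNReal.ofReal (K1 ι c₁ a M ^ p) * GG' := by
        refine add_le_add (part1.trans ?_) (part2.trans ?_)
        · exact mul_le_mul' le_rfl (lintegral_mono_set s2)
        · exact mul_le_mul' le_rfl (lintegral_mono_set s3)
    _ = K2 ι c₁ a M p * GG' := by unfold K2; ring

end Crest.Agent.R96.EaP_899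
end
end

-- ▼ part R96/EaP2_899

/-!
# Row 96, EA-PUSH (helper899), part 2: the `FoamD` with exact concentric cores in the bricks of `X` and
point holes in the others; `Mbf_337.Exact` for the bricks of `X` from `EaX_766.ExIn`.
-/

set_option autoImplicit false
set_option linter.unusedSectionVars false
set_option linter.unusedVariables false
set_option linter.style.longLine false

open MeasureTheory Set Filter Topology
open scoped NNReal ENNReal

noncomputable section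

namespace Crest.Agent.R96.EaP_899

open Crest.Agent.R096.Bsp_628 Crest.Agent.R096.Brk5_582 Crest.Agent.R096.SkC1_961
open Crest.Agent.R096.Bxs_627 hiding E3
open Crest.Agent.R96.Push_899 Crest.Agent.R096.EaX_766
open Crest.Agent.R096.Msh_715

variable {δ κ0 R c0 : ℝ} {La : Set E3} {F : Set (Bx (Fin 3))}

/-- the shape constant -/
def cm (κ0 c0 : ℝ) : ℝ := min c0 (1 / (8 * κ0))

theorem cm_pos (hκ : 1 ≤ κ0) (hc : 0 < c0) : 0 < cm κ0 c0 := lt_min hc (by positivity)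

theorem cm_le : cm κ0 c0 ≤ c0 := min_le_left _ _

theorem cm_le' : cm κ0 c0 ≤ 1 / (8 * κ0) := min_le_right _ _

/-- the core of ratio `lam` of a brick (junk value the brick) -/
def coreX (bf : BoxFoam La F δ κ0) (lam : F → ℝ) (c : F) : Box (Fin 3) := by
  classical
  exact if h : 0 < lam c then cb c.1 (bf.pos _ c.2) (lam c) h.le else brk' bf c

/-- the hole of ratio `lam / 2` of a brick -/
def holeX (bf : BoxFoam La F δ κ0) (lam : F → ℝ) (c : F) : Box (Fin 3) := by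
  classical
  exact if h : 0 < lam c then cb c.1 (bf.pos _ c.2) (lam c / 2) (half_pos h).le else brk' bf c

theorem coreX_eq {bf : BoxFoam La F δ κ0} {lam : F → ℝ} {c : F} (h : 0 < lam c) :
    coreX bf lam c = cb c.1 (bf.pos _ c.2) (lam c) h.le := by
  unfold coreX; rw [dif_pos h]

theorem holeX_eq {bf : BoxFoam La F δ κ0} {lam : F → ℝ} {c : F} (h : 0 < lam c) :
    holeX bf lam c = cb c.1 (bf.pos _ c.2) (lam c / 2) (half_pos h).le := by
  unfold holeX; rw [dif_pos h]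

/-- data of the foam with exact cores on `X`, ratio `lam`, and point holes `z` off `X` -/
structure XD (bf : BoxFoam La F δ κ0) (c0 : ℝ) (X : Set F) (lam : F → ℝ) (z : F → E3) : Prop where
  hκ : 1 ≤ κ0
  hc : 0 < c0
  hc2 : c0 * κ0 ≤ 1
  hl : ∀ c ∈ X, c0 ≤ lam c
  hl1 : ∀ c ∈ X, lam c < 1
  hz : ∀ c, c ∉ X → z c ∈ Mid (brk' bf c)

/-- ratio of the narrowest core -/
def aX (κ0 c0 : ℝ) : ℝ := max (κ0 / c0) (4 * κ0)

theorem giv {bf : BoxFoam La F δ κ0} {X : Set F} {lam : F → ℝ}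
    (hκ : 1 ≤ κ0) (hc : 0 < c0) (hc2 : c0 * κ0 ≤ 1) (hl : ∀ c ∈ X, c0 ≤ lam c)
    (hl1 : ∀ c ∈ X, lam c < 1) :
    Giv X (cm κ0 c0) (aX κ0 c0) 2 (brk' bf) (coreX bf lam) (holeX bf lam)
      (fun c => (1 - lam c) * c.1.sz / 2) := by
  refine ⟨fun c hX => ?_, fun c hX => ?_, fun c hX i j => ?_, fun c hX i => ?_, fun c hX i => ?_⟩
  · have h0 := hc.trans_le (hl c hX)
    rw [coreX_eq h0]
    exact shape_mono (shape_cb' (bf.pos _ c.2) hκ (bf.asp _ c.2) h0 (hl1 c hX) hc (hl c hX) hc2)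
      (cm_pos hκ hc) cm_le
  · have h0 := hc.trans_le (hl c hX)
    rw [coreX_eq h0, holeX_eq h0]
    exact inner_cb (bf.pos _ c.2) h0
  · have h0 := hc.trans_le (hl c hX)
    rw [coreX_eq h0]
    have e1 : (brk' bf c).W i = c.1.side i := rfl
    have e2 : (cb c.1 (bf.pos _ c.2) (lam c) h0.le).W j = lam c * c.1.side j := by
      rw [cb, hb_W, qb_W]
    rw [e1, e2]
    have h1 := c.1.side_le_sz i
    have h2 := bf.asp _ c.2 j
    have h3 := Bx.side_pos (bf.pos _ c.2) j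
    have h4 : κ0 / c0 * (c0 * c.1.side j) ≤ aX κ0 c0 * (lam c * c.1.side j) := by
      refine mul_le_mul (le_max_left _ _) (mul_le_mul_of_nonneg_right (hl c hX) h3.le)
        (by positivity) ?_
      unfold aX
      exact le_trans (by positivity) (le_max_left _ _)
    have h5 : κ0 / c0 * (c0 * c.1.side j) = κ0 * c.1.side j := by field_simp
    linarith
  · have h0 := hc.trans_le (hl c hX)
    rw [coreX_eq h0, holeX_eq h0]
    rw [cb, hb_W, cb, hb_W]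
    apply le_of_eq; ring
  · have h0 := hc.trans_le (hl c hX)
    rw [holeX_eq h0, cb, hb_W, qb_W]
    exact mul_pos (half_pos h0) (Bx.side_pos (bf.pos _ c.2) i)

namespace XD

variable {bf : BoxFoam La F δ κ0} {X : Set F} {lam : F → ℝ} {z : F → E3} (H : XD bf c0 X lam z)
include H

theorem pos {c : F} (hc : c ∈ X) : 0 < lam c := H.hc.trans_le (H.hl c hc)

theorem foamC : FoamC (LaE La) (brk' bf) (mixC X (brk' bf) (coreX bf lam) z)
    (mixB X (holeX bf lam) z) ∅ (cm κ0 c0) (fun _ => 0)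
    (mixρ X (brk' bf) (fun c => (1 - lam c) * c.1.sz / 2)) :=
  foamMix2 H.hκ (cm_pos H.hκ H.hc) cm_le' (foam0' bf) (fun c i j => asp' bf c i j)
    (giv H.hκ H.hc H.hc2 H.hl H.hl1) H.hz

end XD

/-- **the `FoamD`** with exact concentric cores on `X` and point holes off `X` -/
def fX (bf : BoxFoam La F δ κ0) (cmp : Cmp F R) {X : Set F} {lam : F → ℝ} {z : F → E3}
    (H : XD bf c0 X lam z) : FoamD δ κ0 R (cm κ0 c0) La := mkFoamD bf cmp H.foamC

section fX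

variable (bf : BoxFoam La F δ κ0) (cmp : Cmp F R) {X : Set F} {lam : F → ℝ} {z : F → E3}
  (H : XD bf c0 X lam z)


theorem fX_B_mem {c : F} (hc : c ∈ X) :
    (fX bf cmp H).B c = cb c.1 (bf.pos _ c.2) (lam c / 2) (half_pos (H.pos hc)).le := by
  show mixB X (holeX bf lam) z c = _
  rw [mixB_mem hc, holeX_eq (H.pos hc)]

theorem fX_pu_mem {c : F} (hc : c ∈ X) :
    (fX bf cmp H).pu c = pus c.1 (bf.pos _ c.2) (lam c) (H.pos hc) := by
  show psi (brk' bf c) (mixC X (brk' bf) (coreX bf lam) z c) (mixB X (holeX bf lam) z c) = _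
  rw [mixC_mem hc, mixB_mem hc, coreX_eq (H.pos hc), holeX_eq (H.pos hc)]
  rfl

theorem fX_B_not {c : F} (hc : c ∉ X) : (fX bf cmp H).B c = Box.pt (z c) := by
  show mixB X (holeX bf lam) z c = _
  rw [mixB_not hc]

theorem fX_pt {c : F} (hc : c ∉ X) : ((fX bf cmp H).B c).lo = ((fX bf cmp H).B c).hi := by
  rw [fX_B_not bf cmp H hc]; rfl


/-- the two core boxes -/
theorem cbx_eq (Q : Bx (Fin 3)) (lam : ℝ) :
    {y : E3 | ∀ k, zz Q lam k + lam * Q.lo k ≤ y k ∧ y k ≤ zz Q lam k + lam * Q.hi k} =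
      cbx Q lam := by
  ext y
  simp only [mem_ofPred_eq, cbx]
  refine forall_congr' fun k => ?_
  rw [zz_lo, zz_hi, abs_le]
  constructor
  · rintro ⟨h1, h2⟩; constructor <;> linarith
  · rintro ⟨h1, h2⟩; constructor <;> linarith

/-- **`Mbf_337.Exact`** for the bricks of `X` -/
theorem exact_fX {p : ℝ} {Om : Set E3} {f : E3 → E3} {D : E3 → E3 →L[ℝ] E3} {o : E3} {u κ1 κ2 : ℝ}
    (h2 : κ2 ≤ 1 / 4) (h20 : 0 ≤ κ2) (h1 : 0 ≤ κ1) (h10 : κ1 * κ0 ≤ 1 / 4)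
    {c : F} (hc : c ∈ X) (hlam : (1 + 2 * (κ1 * κ0)) * lam c < 1) {A : E3 ≃ᵃ[ℝ] E3}
    (hE : ∀ x : E3, (x ∈ Om ∧ f x ∈ cbx c.1 (lam c)) ∨ A x ∈ cbx c.1 ((1 + 2 * κ2) * lam c) →
      x ∈ Om ∧ ‖f x - A x‖ ≤ κ1 * (lam c * c.1.sz))
    {ι : Type} {T : Tiling Om ι} {i : ι} (hT : P (T.H i) = A ⁻¹' cbx c.1 (lam c)) :
    Crest.Agent.R096.Mbf_337.Exact (fX bf cmp H) T f κ1 κ2 c i A (lam c) (zz c.1 (lam c)) := by
  have hpos := bf.pos _ c.2
  have hl0 := H.pos hc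
  have hl1 := H.hl1 c hc
  have hs : ∀ k, 0 < c.1.side k := fun k => Bx.side_pos hpos k
  have hasp : ∀ k, κ1 * (lam c * c.1.sz) ≤ κ1 * κ0 * (lam c * c.1.side k) := by
    intro k
    have h3 := bf.asp _ c.2 k
    calc κ1 * (lam c * c.1.sz) ≤ κ1 * (lam c * (κ0 * c.1.side k)) := by gcongr
      _ = κ1 * κ0 * (lam c * c.1.side k) := by ring
  have hsub : ∀ x : E3, A x ∈ cbx c.1 (lam c) → A x ∈ cbx c.1 ((1 + 2 * κ2) * lam c) := by
    intro x hx k
    refine (hx k).trans ?_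
    have := mul_pos hl0 (hs k)
    nlinarith
  refine ⟨hl0, hl1, cl_box_in hpos hl1, ?_, ?_, ?_, ?_, ?_, ?_⟩
  · intro k
    rw [fX_B_mem bf cmp H hc]
    exact cl_hole hpos hl0 h2 k
  · intro y hy hy'
    rw [fX_pu_mem bf cmp H hc]
    exact pus_ray hpos hl0 hl1 y hy hy'
  · rw [hT, cbx_eq]
  · intro x hx
    have h3 : A x ∈ cbx c.1 ((1 + 2 * κ2) * lam c) := by
      intro k
      have h4 := hx k
      rw [zz_lo, zz_hi] at h4
      have h5 : (c.1 : Bx (Fin 3)).side k = c.1.side k := rfl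
      rw [abs_le]
      constructor <;> nlinarith [h4.1, h4.2]
    obtain ⟨h4, h5⟩ := hE x (Or.inr h3)
    exact ⟨h4, fun _ => h5⟩
  · intro x hx k
    rw [hT] at hx
    obtain ⟨-, h5⟩ := hE x (Or.inr (hsub x hx))
    have h6 := hx k
    have h7 := norm_le_pi_norm (f x - A x) k
    rw [Pi.sub_apply, Real.norm_eq_abs] at h7
    have h8 := abs_le.1 (h7.trans (h5.trans (hasp k)))
    have h9 := abs_le.1 h6
    have h10' := ctr_lo c.1 k
    have h11 := ctr_hi c.1 k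
    have h12 : (1 + 2 * (κ1 * κ0)) * lam c * c.1.side k < 1 * c.1.side k :=
      mul_lt_mul_of_pos_right hlam (hs k)
    constructor <;> nlinarith [h8.1, h8.2, h9.1, h9.2]
  · intro x hx hxT hxB
    rw [fX_B_mem bf cmp H hc, mem_cb] at hxB
    apply hxT
    have h3 : f x ∈ cbx c.1 (lam c) := by
      intro k
      refine (hxB k).trans ?_
      have := mul_pos hl0 (hs k)
      linarith
    obtain ⟨-, h5⟩ := hE x (Or.inl ⟨hx, h3⟩)
    rw [hT]
    intro k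
    have h7 := norm_le_pi_norm (f x - A x) k
    rw [Pi.sub_apply, Real.norm_eq_abs] at h7
    have h8 := abs_le.1 (h7.trans (h5.trans (hasp k)))
    have h9 := abs_le.1 (hxB k)
    have h10' : κ1 * κ0 * (lam c * c.1.side k) ≤ 1 / 4 * (lam c * c.1.side k) :=
      mul_le_mul_of_nonneg_right h10 (mul_pos hl0 (hs k)).le
    rw [abs_le]
    constructor <;> linarith [h8.1, h8.2, h9.1, h9.2]

end fX

end Crest.Agent.R96.EaP_899
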