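import Mathlib
import Crest.Agent.R96.Push5_899

-- ▼ part R96/Push6_899
section

/-!
# Row 96, U2 PUSH (helper899), part 6: pointwise bounds for the weak derivatives of `Psi ∘ φ`
-/

set_option autoImplicit false
set_option linter.unusedSectionVars false
set_option linter.unusedVariables false

open MeasureTheory Set Filter Topology
open scoped NNReal

noncomputable section

namespace Crest.Agent.R96.Push_899

open Crest.Agent.R96.Acl_392 Crest.Agent.R96.Sob1_199 Crest.Agent.R96.Sob2_199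
  Crest.Agent.R96.Sob3_199 Crest.Agent.R96.Sob4_199 Crest.Agent.R96.Sob5_199

variable {E : Type*} [NormedAddCommGroup E] [NormedSpace ℝ E] [FiniteDimensional ℝ E]
  [MeasurableSpace E] [BorelSpace E] {μ : Measure E} [μ.IsAddHaarMeasure]

variable {ι : Type*} [Fintype ι] [Nonempty ι] [DecidableEq ι]

variable {Λ : Set (EE ι)} {I : Type*} [Countable I] {Q C B : I → Box ι} {P : Finset ι} {c₀ : ℝ}
  {κ ρ : I → ℝ}

/-- the good set at level `κ₀` -/
def Gd (Q C : I → Box ι) (P : Finset ι) (κ : I → ℝ) (κ₀ : ℝ) : Set (EE ι) :=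
  {y | ∀ c, y ∉ SE (C c) ∧ (y ∈ SE (Q c) → κ c ≤ κ₀ ∧ ∀ i ∈ P, (C c).lo i < y i ∧
    y i < (C c).hi i)}


variable (h : FoamC Λ Q C B P c₀ κ ρ)

namespace FoamC

include h

theorem isOpen_dom (hΛ : IsOpen Λ) {Ω : Set E} (hΩ : IsOpen Ω) {φ : E → EE ι}
    (hφ : ContinuousOn φ Ω) : IsOpen (Ω ∩ φ ⁻¹' (Pun Λ B)) :=
  hφ.isOpen_inter_preimage hΩ (h.isOpen_pun hΛ)

/-- existence of the weak derivatives of `Psi ∘ φ` -/
theorem exists_wd (hΛ : IsOpen Λ) {Ω : Set E} (hΩ : IsOpen Ω) {φ D : E → EE ι} {e : E}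
    (hφ : ContinuousOn φ Ω) (hD : VWD Ω μ φ D e) :
    ∃ D', VWD (Ω ∩ φ ⁻¹' (Pun Λ B)) μ (fun x => Psi Q C B (φ x)) D' e :=
  comp_exists (h.isOpen_dom hΛ hΩ hφ) (fun i => wd_mono (hD i) inter_subset_left)
    (hφ.mono inter_subset_left) (S := Pun Λ B) (fun x hx => hx.2) (h.locLip hΛ)

/-- bounds near `y`, outside the cores -/
theorem near_out {y : EE ι} (hy : y ∈ Pun Λ B) (hyC : ∀ c, y ∉ SE (C c)) (i : ι) :
    ∀ᶠ y' in 𝓝[Pun Λ B] y, |Psi Q C B y' i - Psi Q C B y i| ≤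
      2 / c₀ ^ 2 * ∑ j, |y' j - y j| := by
  apply h.fine.eventually sdiff_subset hy
  rintro ⟨c, b⟩ hc
  cases b
  · filter_upwards [self_mem_nhdsWithin] with y' hy'
    have h1 : y ∈ SE (Q c) \ IE (C c) := hc
    have h2 : y' ∈ SE (Q c) \ IE (C c) := hy'.1
    rw [h.Psi_apply h1.1, h.Psi_apply h2.1]
    exact psi_incr_out (h.shape c) (h.inner c) h1.2 h2.2 i
  · exact absurd hc (hyC c)

/-- bounds near `y` in the good set: coordinates in `P` -/
theorem near_good {κ₀ : ℝ} {y : EE ι} (hy : y ∈ Pun Λ B) (hyG : y ∈ Gd Q C P κ κ₀) {i : ι}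
    (hi : i ∈ P) : ∀ᶠ y' in 𝓝[Pun Λ B] y,
      |Psi Q C B y' i - Psi Q C B y i - (y' i - y i)| ≤
        κ₀ * |y' i - y i| + (1 + κ₀) / c₀ * ∑ j ∈ Pᶜ, |y' j - y j| := by
  apply h.fine.eventually sdiff_subset hy
  rintro ⟨c, b⟩ hc
  cases b
  · have h1 : y ∈ SE (Q c) \ IE (C c) := hc
    obtain ⟨hκ, hP⟩ := (hyG c).2 h1.1
    have hev : ∀ᶠ y' in 𝓝 y, ∀ i ∈ P, (C c).lo i < y' i ∧ y' i < (C c).hi i := by
      rw [eventually_all_finset]
      intro i hi
      exact ((isOpen_lt continuous_const (continuous_coord i)).inter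
        (isOpen_lt (continuous_coord i) continuous_const)).mem_nhds (hP i hi)
    filter_upwards [self_mem_nhdsWithin, nhdsWithin_le_nhds hev] with y' hy' hev'
    have h2 : y' ∈ SE (Q c) \ IE (C c) := hy'.1
    rw [h.Psi_apply h1.1, h.Psi_apply h2.1, psi_out (h.inner c).nest h1.2,
      psi_out (h.inner c).nest h2.2]
    have hs := h.shape c
    have t1 : 0 ≤ tt (Q c) (C c) (co y) := not_lt.1 (mt (tt_lt_zero_iff hs.nest _).1 h1.2)
    have t2 : 0 ≤ tt (Q c) (C c) (co y') := not_lt.1 (mt (tt_lt_zero_iff hs.nest _).1 h2.2)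
    have t3 : tt (Q c) (C c) (co y') ≤ 1 := (tt_le_one_iff hs.nest _).2 h2.1
    have key := hs.incrP t1 t2 t3 (fun i hi => ⟨(hP i hi).1.le, (hP i hi).2.le⟩)
      (fun i hi => ⟨(hev' i hi).1.le, (hev' i hi).2.le⟩) hi
    refine key.trans (add_le_add ?_ ?_)
    · exact mul_le_mul_of_nonneg_right hκ (abs_nonneg _)
    · apply mul_le_mul_of_nonneg_right _ (Finset.sum_nonneg fun _ _ => abs_nonneg _)
      exact div_le_div_of_nonneg_right (by linarith) hs.c0.le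
  · exact absurd hc (hyG c).1


/-- bounds near `y` in the interior of a core -/
theorem near_core {c : I} {y : EE ι} (hy : y ∈ Pun Λ B) (hyC : y ∈ IE (C c)) {a : ι → ℝ}
    (ha : ∀ i j, (Q c).W i ≤ a j * (C c).W j) (i : ι) :
    ∀ᶠ y' in 𝓝[Pun Λ B] y, |Psi Q C B y' i - Psi Q C B y i| ≤
      18 * mm (C c) (B c) (co y) * ∑ j, a j * |y' j - y j| := by
  have hyS := IE_subset_SE _ hyC
  have hQy : y ∈ SE (Q c) := IE_subset_SE _ (h.core_sub c hyS)
  apply h.fine.eventually sdiff_subset hy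
  rintro ⟨c', b⟩ hc'
  cases b
  · have hc'' : y ∈ SE (Q c') \ IE (C c') := hc'
    obtain rfl : c' = c := h.core_unique hyS hc''.1
    exact absurd hyC hc''.2
  · have hc'' : y ∈ SE (C c') := hc'
    obtain rfl : c' = c := h.core_unique hyS (IE_subset_SE _ (h.core_sub c' hc''))
    obtain ⟨V, hV, hVb⟩ := h.core_local c' hyS hy
    filter_upwards [self_mem_nhdsWithin, nhdsWithin_le_nhds hV] with y' hy' hV'
    have h2 : y' ∈ SE (C c') := hy'.1
    rw [h.Psi_apply hQy, h.Psi_apply (IE_subset_SE _ (h.core_sub c' h2))]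
    refine (psi_incr_in (h.shape c') (h.inner c') hyS h2 (h.off hy c') (h.off hy'.2 c')
      (hVb y' hV') ha i).trans (le_of_eq ?_)
    have e1 : 9 * (2 * mm (C c') (B c') (co y)) = 18 * mm (C c') (B c') (co y) := by ring
    rw [e1]; rfl

/-- bounds near `y` on the boundary of a core -/
theorem near_bd {c : I} {y : EE ι} (hy : y ∈ Pun Λ B) (hyC : y ∈ SE (C c)) (hyI : y ∉ IE (C c))
    {a : ι → ℝ} (ha0 : ∀ j, 0 ≤ a j) (ha : ∀ i j, (Q c).W i ≤ a j * (C c).W j) (i : ι) :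
    ∀ᶠ y' in 𝓝[Pun Λ B] y, |Psi Q C B y' i - Psi Q C B y i| ≤
      ∑ j, (2 / c₀ ^ 2 + 18 * a j) * |y' j - y j| := by
  have hQy : y ∈ SE (Q c) := IE_subset_SE _ (h.core_sub c hyC)
  have hc0 := h.c0 c
  have ht1 : tt (C c) (B c) (co y) = 1 := tt_eq_one (h.inner c).nest hyC hyI
  apply h.fine.eventually sdiff_subset hy
  rintro ⟨c', b⟩ hc'
  cases b
  · have hc'' : y ∈ SE (Q c') \ IE (C c') := hc'
    obtain rfl : c' = c := h.core_unique hyC hc''.1
    filter_upwards [self_mem_nhdsWithin] with y' hy'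
    have h2 : y' ∈ SE (Q c') \ IE (C c') := hy'.1
    rw [h.Psi_apply hQy, h.Psi_apply h2.1]
    refine (psi_incr_out (h.shape c') (h.inner c') hc''.2 h2.2 i).trans ?_
    rw [Finset.mul_sum]
    apply Finset.sum_le_sum
    intro j _
    change 2 / c₀ ^ 2 * |y' j - y j| ≤ _
    apply mul_le_mul_of_nonneg_right _ (abs_nonneg _)
    linarith [ha0 j]
  · have hc'' : y ∈ SE (C c') := hc'
    obtain rfl : c' = c := h.core_unique hyC (IE_subset_SE _ (h.core_sub c' hc''))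
    obtain ⟨V, hV, hVb⟩ := h.core_local c' hyC hy
    have hmm : mm (C c') (B c') (co y) ≤ 1 := by
      have := mm_le (h.inner c') (h.tt_pos hy c') ht1.le
      rwa [ht1, div_one] at this
    filter_upwards [self_mem_nhdsWithin, nhdsWithin_le_nhds hV] with y' hy' hV'
    have h2 : y' ∈ SE (C c') := hy'.1
    rw [h.Psi_apply hQy, h.Psi_apply (IE_subset_SE _ (h.core_sub c' h2))]
    refine (psi_incr_in (h.shape c') (h.inner c') hyC h2 (h.off hy c') (h.off hy'.2 c')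
      (hVb y' hV') ha i).trans ?_
    rw [Finset.mul_sum]
    apply Finset.sum_le_sum
    intro j _
    change _ * (a j * |y' j - y j|) ≤ _
    rw [← mul_assoc]
    apply mul_le_mul_of_nonneg_right _ (abs_nonneg _)
    have h3 : 0 ≤ 2 / c₀ ^ 2 := by positivity
    have h4 : 9 * (2 * mm (C c') (B c') (co y)) * a j ≤ 18 * a j := by
      nlinarith [ha0 j, mul_le_mul_of_nonneg_right hmm (ha0 j)]
    linarith

/-- measurability of preimages -/
theorem nm {Ω : Set E} (hΩ : IsOpen Ω) {φ : E → EE ι} (hφ : ContinuousOn φ Ω) {T : Set (EE ι)}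
    (hT : MeasurableSet T) : NullMeasurableSet (φ ⁻¹' T) (μ.restrict Ω) :=
  (hφ.aestronglyMeasurable hΩ.measurableSet).aemeasurable.nullMeasurable hT

variable (hΛ : IsOpen Λ) {Ω : Set E} (hΩ : IsOpen Ω) {φ D D' : E → EE ι} {e : E}
  (hφ : ContinuousOn φ Ω) (hD : VWD Ω μ φ D e)
  (hD' : VWD (Ω ∩ φ ⁻¹' (Pun Λ B)) μ (fun x => Psi Q C B (φ x)) D' e)
include hΛ hΩ hφ hD hD'

/-- **(a)** -/
theorem bound_out : ∀ᵐ x ∂μ, x ∈ Ω ∩ φ ⁻¹' (Pun Λ B) → (∀ c, φ x ∉ SE (C c)) →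
    ∀ i, |D' x i| ≤ 2 / c₀ ^ 2 * ∑ j, |D x j| := by
  have hO := h.isOpen_dom hΛ hΩ hφ
  have hφ' := hφ.mono (inter_subset_left (t := φ ⁻¹' (Pun Λ B)))
  have hT : MeasurableSet {y : EE ι | ∀ c, y ∉ SE (C c)} := by
    have : {y : EE ι | ∀ c, y ∉ SE (C c)} = ⋂ c, (SE (C c))ᶜ := by ext; simp
    rw [this]
    exact MeasurableSet.iInter fun c => (isClosed_SE _).measurableSet.compl
  have key : ∀ i, ∀ᵐ x ∂μ, x ∈ Ω ∩ φ ⁻¹' (Pun Λ B) → x ∈ φ ⁻¹' {y | ∀ c, y ∉ SE (C c)} →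
      |D' x i - ∑ j, (fun _ _ => (0:ℝ)) x j * D x j| ≤ ∑ j, (fun _ _ => 2 / c₀ ^ 2) x j * |D x j| := by
    intro i
    refine comp_aniso hO (fun i => wd_mono (hD i) inter_subset_left) hφ' (S := Pun Λ B)
      (fun x hx => hx.2) (θ := fun y => Psi Q C B y i)
      (continuousOn_comp_apply (h.continuousOn_Psi hΛ) i) (hD' i)
      (nm h hO hφ' hT) (fun _ => aemeasurable_const) (fun _ => aemeasurable_const) ?_
    intro x hx hxT
    filter_upwards [h.near_out hx.2 hxT i] with y' hy'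
    simpa [Finset.mul_sum] using hy'
  filter_upwards [ae_all_iff.2 key] with x hx h1 h2 i
  simpa [Finset.mul_sum] using hx i h1 h2


/-- **(c)** -/
theorem bound_core (a : I → ι → ℝ) (ha : ∀ c i j, (Q c).W i ≤ a c j * (C c).W j) :
    ∀ᵐ x ∂μ, x ∈ Ω ∩ φ ⁻¹' (Pun Λ B) → ∀ c, φ x ∈ IE (C c) → ∀ i, |D' x i| ≤
      18 * mm (C c) (B c) (co (φ x)) * ∑ j, a c j * |D x j| := by
  have hO := h.isOpen_dom hΛ hΩ hφ
  have hφ' := hφ.mono (inter_subset_left (t := φ ⁻¹' (Pun Λ B)))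
  have hmm : ∀ c, AEMeasurable (fun x => mm (C c) (B c) (co (φ x)))
      (μ.restrict (Ω ∩ φ ⁻¹' (Pun Λ B))) := by
    intro c
    have h1 : ContinuousOn (fun x => mm (C c) (B c) (co (φ x))) (Ω ∩ φ ⁻¹' (Pun Λ B)) := by
      apply (continuousOn_mm (h.inner c)).comp (continuous_co.comp_continuousOn hφ')
      intro x hx
      exact h.tt_pos hx.2 c
    exact (h1.aestronglyMeasurable hO.measurableSet).aemeasurable
  have key : ∀ c, ∀ i, ∀ᵐ x ∂μ, x ∈ Ω ∩ φ ⁻¹' (Pun Λ B) → x ∈ φ ⁻¹' IE (C c) →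
      |D' x i - ∑ j, (fun _ _ => (0:ℝ)) x j * D x j| ≤
      ∑ j, (fun x j => 18 * mm (C c) (B c) (co (φ x)) * a c j) x j * |D x j| := by
    intro c i
    refine comp_aniso hO (fun i => wd_mono (hD i) inter_subset_left) hφ' (S := Pun Λ B)
      (fun x hx => hx.2) (θ := fun y => Psi Q C B y i)
      (continuousOn_comp_apply (h.continuousOn_Psi hΛ) i) (hD' i)
      (nm h hO hφ' (isOpen_IE _).measurableSet) (fun _ => aemeasurable_const)
      (fun j => (((hmm c).const_mul _)).mul_const _) ?_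
    intro x hx hxT
    filter_upwards [h.near_core hx.2 hxT (ha c) i] with y' hy'
    simp only [zero_mul, Finset.sum_const_zero, sub_zero]
    refine hy'.trans (le_of_eq ?_)
    rw [Finset.mul_sum]
    exact Finset.sum_congr rfl fun j _ => by ring
  filter_upwards [ae_all_iff.2 fun c => ae_all_iff.2 (key c)] with x hx h1 c h2 i
  have h3 := hx c i h1 h2
  simp only [zero_mul, Finset.sum_const_zero, sub_zero] at h3
  refine h3.trans (le_of_eq ?_)
  rw [Finset.mul_sum]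
  exact Finset.sum_congr rfl fun j _ => by ring

/-- **(d)** -/
theorem bound_bd (a : I → ι → ℝ) (ha0 : ∀ c j, 0 ≤ a c j)
    (ha : ∀ c i j, (Q c).W i ≤ a c j * (C c).W j) :
    ∀ᵐ x ∂μ, x ∈ Ω ∩ φ ⁻¹' (Pun Λ B) → ∀ c, φ x ∈ SE (C c) → φ x ∉ IE (C c) → ∀ i,
      |D' x i| ≤ ∑ j, (2 / c₀ ^ 2 + 18 * a c j) * |D x j| := by
  have hO := h.isOpen_dom hΛ hΩ hφ
  have hφ' := hφ.mono (inter_subset_left (t := φ ⁻¹' (Pun Λ B)))
  have key : ∀ c, ∀ i, ∀ᵐ x ∂μ, x ∈ Ω ∩ φ ⁻¹' (Pun Λ B) → x ∈ φ ⁻¹' (SE (C c) \ IE (C c)) →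
      |D' x i - ∑ j, (fun _ _ => (0:ℝ)) x j * D x j| ≤
      ∑ j, (fun _ j => 2 / c₀ ^ 2 + 18 * a c j) x j * |D x j| := by
    intro c i
    refine comp_aniso hO (fun i => wd_mono (hD i) inter_subset_left) hφ' (S := Pun Λ B)
      (fun x hx => hx.2) (θ := fun y => Psi Q C B y i)
      (continuousOn_comp_apply (h.continuousOn_Psi hΛ) i) (hD' i)
      (nm h hO hφ' ((isClosed_SE _).measurableSet.diff (isOpen_IE _).measurableSet))
      (fun _ => aemeasurable_const) (fun j => aemeasurable_const) ?_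
    intro x hx hxT
    filter_upwards [h.near_bd hx.2 hxT.1 hxT.2 (ha0 c) (ha c) i] with y' hy'
    simpa only [zero_mul, Finset.sum_const_zero, sub_zero] using hy'
  filter_upwards [ae_all_iff.2 fun c => ae_all_iff.2 (key c)] with x hx h1 c h2 h2' i
  have h3 := hx c i h1 ⟨h2, h2'⟩
  simpa only [zero_mul, Finset.sum_const_zero, sub_zero] using h3

end FoamC

end Crest.Agent.R96.Push_899
end
end

-- ▼ part R96/Push7_899
section

/-!
# Row 96, U2 PUSH (helper899), part 7: averaging over the centre (`p < n`) and the choice of a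
centre outside a null set.
-/

set_option autoImplicit false
set_option linter.unusedSectionVars false
set_option linter.unusedVariables false

open MeasureTheory Set Filter Topology
open scoped NNReal ENNReal

noncomputable section

namespace Crest.Agent.R96.Push_899

variable {ι : Type*} [Fintype ι] [Nonempty ι] [DecidableEq ι]

/-- weighted sup norm -/
def nu (w u : ι → ℝ) : ℝ := Finset.univ.sup' Finset.univ_nonempty (fun i => |u i| / w i)

/-- the kernel -/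
def gW (w : ι → ℝ) (p : ℝ) (u : ι → ℝ) : ℝ≥0∞ :=
  if nu w u ≤ 1 then ENNReal.ofReal (nu w u ^ (-p)) else 0

theorem continuous_nu (w : ι → ℝ) : Continuous (nu w) := by
  unfold nu
  apply Continuous.finset_sup'_apply
  intro i _
  fun_prop

theorem measurable_gW (w : ι → ℝ) (p : ℝ) : Measurable (gW w p) := by
  unfold gW
  apply Measurable.ite
  · exact measurableSet_le (continuous_nu w).measurable measurable_const
  · exact ((continuous_nu w).measurable.pow_const _).ennreal_ofReal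
  · exact measurable_const

theorem nu_one (u : ι → ℝ) : nu (fun _ => (1:ℝ)) u = ‖u‖ := by
  apply le_antisymm
  · unfold nu
    rw [Finset.sup'_le_iff]
    intro i _
    rw [div_one]
    exact norm_le_pi_norm u i
  · rw [pi_norm_le_iff_of_nonempty]
    intro i
    have h1 : |u i| / (1:ℝ) ≤ nu (fun _ => (1:ℝ)) u :=
      Finset.le_sup' (fun i => |u i| / (1:ℝ)) (Finset.mem_univ i)
    rwa [div_one] at h1

theorem nu_scale {w : ι → ℝ} (hw : ∀ i, 0 < w i) (u : ι → ℝ) :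
    nu w (fun i => w i * u i) = nu (fun _ => (1:ℝ)) u := by
  unfold nu
  congr 1
  funext i
  rw [abs_mul, abs_of_pos (hw i), mul_div_cancel_left₀ _ (hw i).ne', div_one]

theorem gW_scale {w : ι → ℝ} (hw : ∀ i, 0 < w i) (p : ℝ) (u : ι → ℝ) :
    gW w p (fun i => w i * u i) = gW (fun _ => (1:ℝ)) p u := by
  unfold gW; rw [nu_scale hw]

/-- the constant -/
def Kc (ι : Type*) [Fintype ι] [Nonempty ι] (p : ℝ) : ℝ≥0∞ := ∫⁻ u : ι → ℝ, gW (fun _ => (1:ℝ)) p u

theorem Kc_lt_top {p : ℝ} (hp : p < Fintype.card ι) : Kc ι p < ⊤ := by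
  set f : ℝ → ℝ := fun r => if r ≤ 1 then r ^ (-p) else 0 with hf
  have h0 : Module.finrank ℝ (ι → ℝ) = Fintype.card ι := Module.finrank_fintype_fun_eq_card ℝ
  have : Nontrivial (ι → ℝ) := inferInstance
  have h1 : Integrable (fun u : ι → ℝ => f ‖u‖) volume := by
    rw [integrable_fun_norm_addHaar (volume : Measure (ι → ℝ)) (f := f)]
    rw [h0]
    have hc : 1 ≤ Fintype.card ι := Fintype.card_pos
    have h2 : IntegrableOn (fun r : ℝ => r ^ ((Fintype.card ι : ℝ) - 1 - p)) (Ioc 0 1) := by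
      have h3 := (intervalIntegral.intervalIntegrable_rpow' (a := 0) (b := 1)
        (r := (Fintype.card ι : ℝ) - 1 - p) (by linarith))
      exact (intervalIntegrable_iff_integrableOn_Ioc_of_le zero_le_one).1 h3
    have h4 : IntegrableOn (fun r : ℝ => r ^ (Fintype.card ι - 1) • f r) (Ioc 0 1) := by
      refine h2.congr_fun ?_ measurableSet_Ioc
      intro r hr
      simp only [hf, smul_eq_mul]
      rw [if_pos hr.2, ← Real.rpow_natCast, ← Real.rpow_add hr.1, Nat.cast_sub hc]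
      congr 1
      push_cast; ring
    have h5 : IntegrableOn (fun r : ℝ => r ^ (Fintype.card ι - 1) • f r) (Ioi 1) := by
      refine (integrableOn_zero).congr_fun ?_ measurableSet_Ioi
      intro r hr
      simp only [hf, smul_eq_mul]
      rw [if_neg (not_le.2 hr), mul_zero]
    have h6 : Ioi (0:ℝ) = Ioc 0 1 ∪ Ioi 1 := (Ioc_union_Ioi_eq_Ioi zero_le_one).symm
    rw [h6]
    exact h4.union h5
  have h7 : Kc ι p = ∫⁻ u : ι → ℝ, ENNReal.ofReal (f ‖u‖) := by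
    unfold Kc
    apply lintegral_congr
    intro u
    unfold gW
    rw [nu_one]
    simp only [hf]
    split_ifs <;> simp
  rw [h7]
  exact h1.lintegral_lt_top

theorem lintegral_gW {w : ι → ℝ} (hw : ∀ i, 0 < w i) (p : ℝ) :
    ∫⁻ u : ι → ℝ, gW w p u = ENNReal.ofReal (∏ i, w i) * Kc ι p := by
  have hdet : (Matrix.diagonal w).det = ∏ i, w i := Matrix.det_diagonal
  have hpos : 0 < ∏ i, w i := Finset.prod_pos fun i _ => hw i
  have h1 := Real.smul_map_diagonal_volume_pi (D := w) (by rw [hdet]; exact hpos.ne')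
  conv_lhs => rw [← h1]
  rw [lintegral_smul_measure, hdet, abs_of_pos hpos, smul_eq_mul]
  congr 1
  rw [lintegral_map (measurable_gW w p)]
  · unfold Kc
    apply lintegral_congr
    intro u
    rw [← gW_scale hw p u]
    congr 1
    funext i
    simp [Matrix.toLin'_apply, Matrix.mulVec_diagonal]
  · exact (LinearMap.continuous_on_pi _).measurable

/-- translation + restriction to a set of centres -/
theorem lintegral_gW_sub {w : ι → ℝ} (hw : ∀ i, 0 < w i) (p : ℝ) (y : ι → ℝ) (M : Set (ι → ℝ)) :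
    ∫⁻ z in M, gW w p (y - z) ≤ ENNReal.ofReal (∏ i, w i) * Kc ι p := by
  rw [← lintegral_gW hw p]
  refine (setLIntegral_le_lintegral _ _).trans (le_of_eq ?_)
  exact lintegral_sub_left_eq_self (μ := (volume : Measure (ι → ℝ))) (fun u => gW w p u) y

/-- **choice of the centre**: `M` a set of centres of finite positive measure, `N` null. -/
theorem exists_centre {X : Type*} [MeasurableSpace X] {ν : Measure X} [SFinite ν] {w : ι → ℝ}
    (hw : ∀ i, 0 < w i) (p : ℝ) {φ : X → ι → ℝ} (hφ : AEMeasurable φ ν) {g : X → ℝ≥0∞}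
    (hg : AEMeasurable g ν) {M : Set (ι → ℝ)} (hM0 : volume M ≠ 0)
    (hM1 : volume M ≠ ⊤) {N : Set (ι → ℝ)} (hN : volume N = 0) (hMm : MeasurableSet M) :
    ∃ z ∈ M, z ∉ N ∧ ∫⁻ x, gW w p (φ x - z) * g x ∂ν ≤
      ENNReal.ofReal (∏ i, w i) * Kc ι p / volume M * ∫⁻ x, g x ∂ν := by
  have hmeas : AEMeasurable (fun q : (ι → ℝ) × X => gW w p (φ q.2 - q.1) * g q.2)
      ((volume.restrict M).prod ν) := by
    apply AEMeasurable.mul
    · refine (measurable_gW w p).comp_aemeasurable ?_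
      exact (hφ.comp_snd).sub measurable_fst.aemeasurable
    · exact hg.comp_snd
  set F : (ι → ℝ) → ℝ≥0∞ := fun z => ∫⁻ x, gW w p (φ x - z) * g x ∂ν with hF
  have hFm : AEMeasurable F (volume.restrict M) := hmeas.lintegral_prod_right'
  have hne : volume.restrict M ≠ 0 := by
    rw [Ne, Measure.restrict_eq_zero]; exact hM0
  have hN' : (volume.restrict M) (N ∪ Mᶜ) = 0 := by
    rw [Measure.restrict_apply' hMm, union_inter_distrib_right, compl_inter_self, union_empty]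
    exact measure_mono_null inter_subset_left hN
  have : IsFiniteMeasure (volume.restrict M) := ⟨by
    rw [Measure.restrict_apply_univ]; exact lt_top_iff_ne_top.2 hM1⟩
  obtain ⟨z, hz, hz2⟩ := exists_notMem_null_le_laverage hne hFm hN'
  rw [mem_union, not_or] at hz
  refine ⟨z, not_not.1 hz.2, hz.1, hz2.trans ?_⟩
  rw [laverage_eq, Measure.restrict_apply_univ]
  have h1 : ∫⁻ z in M, F z = ∫⁻ x, (∫⁻ z in M, gW w p (φ x - z)) * g x ∂ν := by
    simp only [hF]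
    rw [lintegral_lintegral_swap hmeas]
    apply lintegral_congr
    intro x
    rw [lintegral_mul_const]
    exact (measurable_gW w p).comp (measurable_const.sub measurable_id)
  rw [h1]
  have h2 : ∫⁻ x, (∫⁻ z in M, gW w p (φ x - z)) * g x ∂ν ≤
      (ENNReal.ofReal (∏ i, w i) * Kc ι p) * ∫⁻ x, g x ∂ν := by
    rw [← lintegral_const_mul'' _ hg]
    apply lintegral_mono
    intro x
    exact mul_le_mul_left (lintegral_gW_sub hw p (φ x) M) _
  calc _ ≤ ((ENNReal.ofReal (∏ i, w i) * Kc ι p) * ∫⁻ x, g x ∂ν) / volume M :=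
        ENNReal.div_le_div_right h2 _
    _ = _ := by
      rw [div_eq_mul_inv, div_eq_mul_inv]; ring

end Crest.Agent.R96.Push_899
end
end

-- ▼ part R96/Push8_899
section

/-!
# Row 96, U2 PUSH (helper899), part 8: cores around random centres, `p < n`; `pushBF_lt`.
-/

set_option autoImplicit false
set_option linter.unusedSectionVars false
set_option linter.unusedVariables false

open MeasureTheory Set Filter Topology
open scoped NNReal ENNReal

noncomputable section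

namespace Crest.Agent.R96.Push_899

open Crest.Agent.R96.Acl_392 Crest.Agent.R96.Sob1_199 Crest.Agent.R96.Sob2_199
  Crest.Agent.R96.Sob3_199 Crest.Agent.R96.Sob4_199 Crest.Agent.R96.Sob5_199

variable {ι : Type*} [Fintype ι] [Nonempty ι] [DecidableEq ι]

/-- total box constructor -/
def mkBox (lo hi : ι → ℝ) : Box ι := ⟨fun i => min (lo i) (hi i), hi, fun _ => min_le_right _ _⟩

/-- the core around `z`: margin `m` in the directions `P`, relative width `c₁` in the others. -/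
def coreN (P : Finset ι) (m c₁ : ℝ) (Q : Box ι) (z : ι → ℝ) : Box ι :=
  mkBox (fun i => if i ∈ P then Q.lo i + m else z i - c₁ * Q.W i / 2)
    (fun i => if i ∈ P then Q.hi i - m else z i + c₁ * Q.W i / 2)

/-- its widths -/
def wN (P : Finset ι) (m c₁ : ℝ) (Q : Box ι) (i : ι) : ℝ :=
  if i ∈ P then Q.W i - 2 * m else c₁ * Q.W i

/-- the set of centres -/
def Mid (Q : Box ι) : Set (ι → ℝ) :=
  Icc (fun i => Q.lo i + Q.W i / 4) (fun i => Q.hi i - Q.W i / 4)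

/-- admissible parameters -/
structure Adm (P : Finset ι) (m c₁ : ℝ) (Q : Box ι) : Prop where
  W0 : ∀ i, 0 < Q.W i
  m0 : 0 < m
  mW : ∀ i ∈ P, 8 * m ≤ Q.W i
  c0 : 0 < c₁
  c1 : c₁ ≤ 1 / 4

namespace Adm

variable {P : Finset ι} {m c₁ : ℝ} {Q : Box ι} (h : Adm P m c₁ Q)
include h

theorem lo (z : ι → ℝ) (i : ι) : (coreN P m c₁ Q z).lo i =
    if i ∈ P then Q.lo i + m else z i - c₁ * Q.W i / 2 := by
  unfold coreN mkBox
  simp only
  apply min_eq_left
  have h1 := h.W0 i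
  have h2 := mul_pos h.c0 h1
  split_ifs with hi
  · have h3 := h.mW i hi
    have h4 := h.m0
    have h5 : Q.W i = Q.hi i - Q.lo i := rfl
    linarith
  · linarith

theorem hi (z : ι → ℝ) (i : ι) : (coreN P m c₁ Q z).hi i =
    if i ∈ P then Q.hi i - m else z i + c₁ * Q.W i / 2 := rfl

theorem W (z : ι → ℝ) (i : ι) : (coreN P m c₁ Q z).W i = wN P m c₁ Q i := by
  unfold Box.W wN
  rw [h.lo, h.hi]
  split_ifs with hi
  · unfold Box.W; ring
  · unfold Box.W; ring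

theorem W' (z : ι → ℝ) : (coreN P m c₁ Q z).W = wN P m c₁ Q := funext (h.W z)

theorem wN_pos (i : ι) : 0 < wN P m c₁ Q i := by
  unfold wN
  split_ifs with hi
  · have := h.mW i hi; have := h.m0; linarith
  · exact mul_pos h.c0 (h.W0 i)


theorem le_wN (i : ι) : c₁ * Q.W i ≤ wN P m c₁ Q i := by
  unfold wN
  have := h.W0 i
  split_ifs with hi
  · have := h.mW i hi; nlinarith [h.c1]
  · exact le_rfl

theorem inner {z : ι → ℝ} (hz : z ∈ Mid Q) : Inner (coreN P m c₁ Q z) (Box.pt z) := by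
  have h1 := hz.1
  have h2 := hz.2
  refine ⟨fun i => ?_, fun i => ?_, fun i => ?_⟩
  · rw [h.W]; exact h.wN_pos i
  · rw [h.W, h.lo, Box.pt_lo]
    have a1 := h1 i
    have a2 := h.W0 i
    simp only at a1
    unfold wN
    split_ifs with hi
    · have := h.mW i hi; have := h.m0; linarith
    · have := mul_pos h.c0 a2; linarith
  · rw [h.W, h.hi, Box.pt_hi]
    have a1 := h2 i
    have a2 := h.W0 i
    simp only at a1
    unfold wN
    split_ifs with hi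
    · have := h.mW i hi; have := h.m0; linarith
    · have := mul_pos h.c0 a2; linarith

theorem shape {P₀ : Finset ι} {c₀ κ ρ : ℝ} (hc0 : 0 < c₀) (hc1 : c₀ ≤ c₁) (hκ : 0 ≤ κ)
    (hρ : 0 < ρ) (hm1 : c₀ * ρ ≤ m ∨ P = ∅) (hm2 : m ≤ ρ ∨ P = ∅)
    (hW1 : ∀ i ∉ P, c₀ * ρ ≤ Q.W i / 8)
    (hW2 : ∀ i ∉ P, Q.W i ≤ ρ) (hP : ∀ i ∈ P₀, Q.W i ≤ (1 + κ) * wN P m c₁ Q i)
    {z : ι → ℝ} (hz : z ∈ Mid Q) : Shape P₀ c₀ κ ρ Q (coreN P m c₁ Q z) := by
  have z1 := hz.1
  have z2 := hz.2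
  have hne : ∀ i ∈ P, ¬ P = ∅ := fun i hi he => by rw [he] at hi; simp at hi
  refine ⟨hc0, by linarith [h.c1], hρ, hκ, h.W0, fun i => ?_, fun i => ?_, fun i => ?_,
    fun i => ?_, fun i => ?_, fun i hi => ?_⟩
  · rw [h.lo]
    have a1 := z1 i
    have a2 := h.W0 i
    simp only at a1
    split_ifs with hi
    · have := hm1.resolve_right (hne i hi); linarith
    · have := hW1 i hi
      nlinarith [h.c1]
  · rw [h.lo]
    have a1 := z2 i
    have a2 := h.W0 i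
    have a3 : Q.W i = Q.hi i - Q.lo i := rfl
    simp only at a1
    split_ifs with hi
    · have := hm2.resolve_right (hne i hi); linarith
    · have := hW2 i hi
      nlinarith [h.c0]
  · rw [h.hi]
    have a1 := z2 i
    have a2 := h.W0 i
    simp only at a1
    split_ifs with hi
    · have := hm1.resolve_right (hne i hi); linarith
    · have := hW1 i hi
      nlinarith [h.c1]
  · rw [h.hi]
    have a1 := z1 i
    have a2 := h.W0 i
    have a3 : Q.W i = Q.hi i - Q.lo i := rfl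
    simp only at a1
    split_ifs with hi
    · have := hm2.resolve_right (hne i hi); linarith
    · have := hW2 i hi
      nlinarith [h.c0]
  · rw [h.W]
    exact (mul_le_mul_of_nonneg_right hc1 (h.W0 i).le).trans (h.le_wN i)
  · rw [h.W]; exact hP i hi

/-- **choice of the centre in a brick** -/
theorem centre {X : Type*} [MeasurableSpace X] {ν : Measure X} [SFinite ν]
    (p : ℝ) {φ : X → ι → ℝ} (hφ : AEMeasurable φ ν) {g : X → ℝ≥0∞} (hg : AEMeasurable g ν)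
    {N : Set (ι → ℝ)} (hN : volume N = 0) :
    ∃ z ∈ Mid Q, z ∉ N ∧ ∫⁻ x, gW (wN P m c₁ Q) p (φ x - z) * g x ∂ν ≤
      ENNReal.ofReal (2 ^ Fintype.card ι * c₁ ^ Pᶜ.card) * Kc ι p * ∫⁻ x, g x ∂ν := by
  have hvol : volume (Mid Q) = ENNReal.ofReal (∏ i, Q.W i / 2) := by
    unfold Mid
    rw [Real.volume_Icc_pi, ENNReal.ofReal_prod_of_nonneg]
    · apply Finset.prod_congr rfl
      intro i _
      congr 1
      unfold Box.W; ring
    · intro i _
      have := h.W0 i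
      positivity
  have hpos : 0 < ∏ i, Q.W i / 2 := Finset.prod_pos fun i _ => by have := h.W0 i; positivity
  obtain ⟨z, hz, hzN, hb⟩ := exists_centre (M := Mid Q) h.wN_pos p hφ hg
    (by rw [hvol]; exact (ENNReal.ofReal_pos.2 hpos).ne') (by rw [hvol]; exact ENNReal.ofReal_ne_top)
    hN measurableSet_Icc
  refine ⟨z, hz, hzN, hb.trans ?_⟩
  gcongr
  rw [hvol, mul_comm (ENNReal.ofReal _) (Kc ι p), mul_div_assoc, mul_comm (Kc ι p)]
  gcongr
  rw [← ENNReal.ofReal_div_of_pos hpos]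
  apply ENNReal.ofReal_le_ofReal
  rw [div_le_iff₀ hpos]
  have e1 : (2:ℝ) ^ Fintype.card ι * c₁ ^ Pᶜ.card * ∏ i, Q.W i / 2 =
      c₁ ^ Pᶜ.card * ∏ i, Q.W i := by
    rw [Finset.prod_div_distrib, Finset.prod_const, Finset.card_univ]
    field_simp
  rw [e1]
  have e2 : c₁ ^ Pᶜ.card * ∏ i, Q.W i = ∏ i, (if i ∈ P then Q.W i else c₁ * Q.W i) := by
    have e3 : ∀ i, (if i ∈ P then Q.W i else c₁ * Q.W i) =
        (if i ∈ Pᶜ then c₁ else 1) * Q.W i := by
      intro i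
      by_cases hi : i ∈ P <;> simp [hi]
    rw [Finset.prod_congr rfl fun i _ => e3 i, Finset.prod_mul_distrib, Finset.prod_ite_mem,
      Finset.univ_inter, Finset.prod_const]
  rw [e2]
  apply Finset.prod_le_prod
  · intro i _; exact (h.wN_pos i).le
  · intro i _
    unfold wN
    split_ifs with hi
    · linarith [h.m0]
    · exact le_rfl

end Adm

/-- the kernel bounds `mm ^ p` in a core with a point hole -/
theorem core_kernel {C : Box ι} {z y : ι → ℝ} (h : Inner C (Box.pt z)) (hy : y ∈ C.S)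
    (ht : 0 < tt C (Box.pt z) y) {p : ℝ} (hp : 0 ≤ p) :
    ENNReal.ofReal (mm C (Box.pt z) y ^ p) ≤ gW C.W p (y - z) := by
  have ht1 : tt C (Box.pt z) y ≤ 1 := (tt_le_one_iff h.nest y).2 hy
  have hnu : nu C.W (y - z) ≤ tt C (Box.pt z) y := by
    unfold nu
    rw [Finset.sup'_le_iff]
    intro i _
    obtain ⟨b1, b2⟩ := tt_bounds h.nest y i
    have hW := h.W0 i
    have g := h.gapU i
    simp only [Box.pt_lo, Box.pt_hi] at g
    unfold cl at b1
    unfold ch at b2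
    simp only [Box.pt_lo, Box.pt_hi] at b1 b2
    rw [div_le_iff₀ hW, abs_le, Pi.sub_apply]
    constructor <;> nlinarith
  have hnu0 : 0 < nu C.W (y - z) := by
    by_contra hneg
    have h1 : ∀ i, y i = z i := by
      intro i
      have h2 : |(y - z) i| / C.W i ≤ nu C.W (y - z) :=
        Finset.le_sup' (fun i => |(y - z) i| / C.W i) (Finset.mem_univ i)
      have h3 : |(y - z) i| / C.W i ≤ 0 := h2.trans (not_lt.1 hneg)
      rw [div_le_iff₀ (h.W0 i), zero_mul] at h3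
      have h4 := abs_nonpos_iff.1 h3
      rw [Pi.sub_apply] at h4
      linarith
    have h5 : tt C (Box.pt z) y ≤ 0 := by
      rw [tt_le_zero_iff h.nest]
      intro i
      simp [h1 i]
    linarith
  unfold gW
  rw [if_pos (hnu.trans ht1)]
  apply ENNReal.ofReal_le_ofReal
  rw [Real.rpow_neg hnu0.le, ← Real.inv_rpow hnu0.le]
  apply Real.rpow_le_rpow (mm_pos h ht).le _ hp
  refine (mm_le h ht ht1).trans ?_
  rw [one_div]
  exact inv_anti₀ hnu0 hnu

variable {E : Type*} [NormedAddCommGroup E] [NormedSpace ℝ E] [FiniteDimensional ℝ E]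
  [MeasurableSpace E] [BorelSpace E] {μ : Measure E} [μ.IsAddHaarMeasure]

variable {Λ : Set (EE ι)} {I : Type*} [Countable I] {Q C B : I → Box ι} {P : Finset ι} {c₀ : ℝ}
  {κ ρ : I → ℝ}

theorem enorm_rpow_le {F : Type*} [NormedAddCommGroup F] {v : F} {a p : ℝ} (hp : 0 ≤ p)
    (h : ‖v‖ ≤ a) : ‖v‖ₑ ^ p ≤ ENNReal.ofReal (a ^ p) := by
  rw [← ofReal_norm, ENNReal.ofReal_rpow_of_nonneg (norm_nonneg v) hp]
  exact ENNReal.ofReal_le_ofReal (Real.rpow_le_rpow (norm_nonneg v) h hp)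

/-- energy in the core with a point hole, on a set `X` -/
theorem FoamC.core_int (h : FoamC Λ Q C B P c₀ κ ρ) (hΛ : IsOpen Λ) {Ω : Set E} (hΩ : IsOpen Ω)
    {φ D D' : E → EE ι} {e : E} (hφ : ContinuousOn φ Ω) (hD : VWD Ω μ φ D e)
    (hD' : VWD (Ω ∩ φ ⁻¹' (Pun Λ B)) μ (fun x => Psi Q C B (φ x)) D' e)
    {p : ℝ} (hp : 0 ≤ p) (a : I → ι → ℝ) (ha : ∀ c i j, (Q c).W i ≤ a c j * (C c).W j)
    (c : I) {z : ι → ℝ} (hz : B c = Box.pt z) {X : Set E} (hX : NullMeasurableSet X μ) :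
    ∫⁻ x in X ∩ (Ω ∩ φ ⁻¹' (Pun Λ B ∩ IE (C c))), ‖D' x‖ₑ ^ p ∂μ ≤
      ENNReal.ofReal ((18 * Fintype.card ι) ^ p) *
        ∫⁻ x in X ∩ (Ω ∩ φ ⁻¹' (IE (C c))), gW (C c).W p (co (φ x) - z) *
          ENNReal.ofReal ((∑ j, a c j * |D x j|) ^ p) ∂μ := by
  have hO := h.isOpen_dom hΛ hΩ hφ
  have hO2 : IsOpen (Ω ∩ φ ⁻¹' (Pun Λ B ∩ IE (C c))) :=
    hφ.isOpen_inter_preimage hΩ ((h.isOpen_pun hΛ).inter (isOpen_IE _))
  have hsub : X ∩ (Ω ∩ φ ⁻¹' (Pun Λ B ∩ IE (C c))) ⊆ X ∩ (Ω ∩ φ ⁻¹' (IE (C c))) :=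
    fun x hx => ⟨hx.1, hx.2.1, hx.2.2.2⟩
  rw [← lintegral_const_mul' _ _ ENNReal.ofReal_ne_top]
  refine le_trans ?_ (lintegral_mono_set hsub)
  apply lintegral_mono_ae
  have key := h.bound_core hΛ hΩ hφ hD hD' a ha
  refine (ae_restrict_iff'₀ (hX.inter hO2.measurableSet.nullMeasurableSet)).2 ?_
  filter_upwards [key] with x hx hx2
  have hPun : φ x ∈ Pun Λ B := hx2.2.2.1
  have hIE : φ x ∈ IE (C c) := hx2.2.2.2
  have h1 := hx ⟨hx2.2.1, hPun⟩ c hIE
  have ht := h.tt_pos hPun c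
  have hin := h.inner c
  rw [hz] at ht hin h1
  have hmm := mm_pos hin ht
  set S := ∑ j, a c j * |D x j| with hS
  have ha0 : ∀ j, 0 ≤ a c j := by
    intro j
    have h2 := ha c j j
    have h3 := (h.shape c).W0 j
    have h4 := (h.inner c).W0 j
    by_contra hneg
    nlinarith
  have hS0 : 0 ≤ S := Finset.sum_nonneg fun j _ => mul_nonneg (ha0 j) (abs_nonneg _)
  have h2 : ‖D' x‖ ≤ (18 * Fintype.card ι) * (mm (C c) (Box.pt z) (co (φ x)) * S) := by
    refine (norm_le_sum _).trans ((Finset.sum_le_sum fun i _ => h1 i).trans ?_)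
    rw [Finset.sum_const, Finset.card_univ, nsmul_eq_mul]
    exact le_of_eq (by ring)
  refine (enorm_rpow_le hp h2).trans ?_
  rw [Real.mul_rpow (by positivity) (by positivity), Real.mul_rpow hmm.le hS0,
    ENNReal.ofReal_mul (by positivity), ENNReal.ofReal_mul (by positivity)]
  gcongr
  exact core_kernel hin (IE_subset_SE _ hIE) ht hp

end Crest.Agent.R96.Push_899
end
end

-- ▼ part R96/Push9_899

/-!
# Row 96, U2 PUSH (helper899), part 9: `pushBF_lt` (bounded factor, `p < n`, random centres).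
-/

set_option autoImplicit false
set_option linter.unusedSectionVars false
set_option linter.unusedVariables false

open MeasureTheory Set Filter Topology
open scoped NNReal ENNReal

noncomputable section

namespace Crest.Agent.R96.Push_899

open Crest.Agent.R96.Acl_392 Crest.Agent.R96.Sob1_199 Crest.Agent.R96.Sob2_199
  Crest.Agent.R96.Sob3_199 Crest.Agent.R96.Sob4_199 Crest.Agent.R96.Sob5_199

variable {ι : Type*} [Fintype ι] [Nonempty ι] [DecidableEq ι]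

variable {E : Type*} [NormedAddCommGroup E] [NormedSpace ℝ E] [FiniteDimensional ℝ E]
  [MeasurableSpace E] [BorelSpace E] {μ : Measure E} [μ.IsAddHaarMeasure]

variable {Λ : Set (EE ι)} {I : Type*} {Q : I → Box ι}

/-- a foam of boxes (input) -/
structure Foam0 (Λ : Set (EE ι)) {I : Type*} (Q : I → Box ι) : Prop where
  W0 : ∀ c i, 0 < (Q c).W i
  cells : Cells Λ (fun c => SE (Q c))
  disj : ∀ c c', c ≠ c' → ∀ y : ι → ℝ, y ∈ (Q c).S → y ∉ (Q c').I

/-- longest side -/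
def side (Q : Box ι) : ℝ := Finset.univ.sup' Finset.univ_nonempty Q.W

theorem W_le_side (Q : Box ι) (i : ι) : Q.W i ≤ side Q := Finset.le_sup' Q.W (Finset.mem_univ i)

theorem side_le {Q : Box ι} {a : ℝ} (h : ∀ i, Q.W i ≤ a) : side Q ≤ a := by
  unfold side; rw [Finset.sup'_le_iff]; exact fun i _ => h i

theorem side_pos {Q : Box ι} (h : ∀ i, 0 < Q.W i) : 0 < side Q := by
  obtain ⟨i⟩ := ‹Nonempty ι›
  exact lt_of_lt_of_le (h i) (W_le_side Q i)

/-- the core around `z` used in BF -/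
def coreBF (Q : Box ι) (z : ι → ℝ) : Box ι := coreN ∅ 1 (1 / 4) Q z

theorem admBF {Q : Box ι} (h : ∀ i, 0 < Q.W i) : Adm ∅ 1 (1 / 4) Q :=
  ⟨h, one_pos, fun i hi => absurd hi (by simp), by norm_num, le_rfl⟩

theorem shapeBF {a0 : ℝ} (ha0 : 1 ≤ a0) {Q : Box ι} (h : ∀ i, 0 < Q.W i)
    (hA : ∀ i j, Q.W i ≤ a0 * Q.W j) {z : ι → ℝ} (hz : z ∈ Mid Q) :
    Shape ∅ (1 / (8 * a0)) 0 (side Q) Q (coreBF Q z) := by
  have h0 : 0 < a0 := by linarith
  refine (admBF h).shape (by positivity) ?_ le_rfl (side_pos h) (Or.inr rfl) (Or.inr rfl)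
    (fun i _ => ?_) (fun i _ => W_le_side Q i) (fun i hi => absurd hi (by simp)) hz
  · rw [div_le_div_iff₀ (by positivity) (by norm_num)]; linarith
  · have h1 : side Q ≤ a0 * Q.W i := side_le fun j => hA j i
    calc 1 / (8 * a0) * side Q ≤ 1 / (8 * a0) * (a0 * Q.W i) := by gcongr
      _ = Q.W i / 8 := by field_simp

/-- the constant -/
def KBF (ι : Type*) [Fintype ι] [Nonempty ι] (a0 p : ℝ) : ℝ≥0∞ :=
  ENNReal.ofReal ((200 * a0 ^ 2 * Fintype.card ι ^ 2) ^ p) * (1 + Kc ι p)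

theorem KBF_lt_top {a0 p : ℝ} (hp : p < Fintype.card ι) : KBF ι a0 p < ⊤ :=
  ENNReal.mul_lt_top ENNReal.ofReal_lt_top (ENNReal.add_lt_top.2 ⟨ENNReal.one_lt_top,
    Kc_lt_top hp⟩)

theorem sum_abs_le (v : EE ι) : ∑ i, |v i| ≤ Fintype.card ι * ‖v‖ := by
  refine (Finset.sum_le_sum fun i _ => abs_le_norm v i).trans ?_
  rw [Finset.sum_const, Finset.card_univ, nsmul_eq_mul]

/-- the foam with cores and point holes -/
theorem foamBF {a0 : ℝ} (ha0 : 1 ≤ a0) (h : Foam0 Λ Q)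
    (hA : ∀ c i j, (Q c).W i ≤ a0 * (Q c).W j) {z : I → ι → ℝ} (hz : ∀ c, z c ∈ Mid (Q c)) :
    FoamC Λ Q (fun c => coreBF (Q c) (z c)) (fun c => Box.pt (z c)) ∅ (1 / (8 * a0))
      (fun _ => 0) (fun c => side (Q c)) :=
  ⟨h.cells, h.disj, fun c => shapeBF ha0 (h.W0 c) (hA c) (hz c),
    fun c => (admBF (h.W0 c)).inner (hz c)⟩

section

variable [Countable I] {C B : I → Box ι} {P : Finset ι} {c₀ : ℝ} {κ ρ : I → ℝ}

/-- **a.e. bound off the open cores** (all `p`) -/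
theorem FoamC.bound_off (h : FoamC Λ Q C B P c₀ κ ρ) (hΛ : IsOpen Λ) {Ω : Set E}
    (hΩ : IsOpen Ω) {φ D D' : E → EE ι} {e : E} (hφ : ContinuousOn φ Ω) (hD : VWD Ω μ φ D e)
    (hD' : VWD (Ω ∩ φ ⁻¹' (Pun Λ B)) μ (fun x => Psi Q C B (φ x)) D' e) {a : ℝ} (ha0 : 0 ≤ a)
    (ha : ∀ c i j, (Q c).W i ≤ a * (C c).W j) :
    ∀ᵐ x ∂μ, x ∈ Ω ∩ φ ⁻¹' (Pun Λ B) → (∀ c, φ x ∉ IE (C c)) →
      ‖D' x‖ ≤ (Fintype.card ι ^ 2 * (2 / c₀ ^ 2 + 18 * a)) * ‖D x‖ := by
  filter_upwards [h.bound_out hΛ hΩ hφ hD hD',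
    h.bound_bd hΛ hΩ hφ hD hD' (fun _ _ => a) (fun _ _ => ha0) ha] with x h1 h2 hx hxI
  have key : ∀ i, |D' x i| ≤ (2 / c₀ ^ 2 + 18 * a) * ∑ j, |D x j| := by
    intro i
    by_cases hc : ∃ c, φ x ∈ SE (C c)
    · obtain ⟨c, hc⟩ := hc
      have := h2 hx c hc (hxI c) i
      rwa [← Finset.mul_sum] at this
    · push Not at hc
      refine (h1 hx hc i).trans ?_
      apply mul_le_mul_of_nonneg_right _ (Finset.sum_nonneg fun _ _ => abs_nonneg _)
      linarith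
  have h0 : 0 ≤ 2 / c₀ ^ 2 + 18 * a := by positivity
  calc ‖D' x‖ ≤ ∑ i, |D' x i| := norm_le_sum _
    _ ≤ ∑ i : ι, (2 / c₀ ^ 2 + 18 * a) * (Fintype.card ι * ‖D x‖) :=
      Finset.sum_le_sum fun i _ => (key i).trans (mul_le_mul_of_nonneg_left (sum_abs_le _) h0)
    _ = _ := by rw [Finset.sum_const, Finset.card_univ, nsmul_eq_mul]; ring

theorem FoamC.not_core (h : FoamC Λ Q C B P c₀ κ ρ) {c : I} {y : EE ι} (hy : y ∈ SE (Q c))
    (hyc : y ∉ IE (C c)) (c' : I) : y ∉ IE (C c') := by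
  intro hc'
  have : c = c' := h.core_unique (IE_subset_SE _ hc') hy
  subst this
  exact hyc hc'

/-- the energy over a brick = core + rest -/
theorem FoamC.brick_split (h : FoamC Λ Q C B P c₀ κ ρ) {Ω : Set E} {φ : E → EE ι} (c : I) :
    Ω ∩ φ ⁻¹' (Pun Λ B ∩ SE (Q c)) ⊆ (Ω ∩ φ ⁻¹' (Pun Λ B ∩ IE (C c))) ∪
      (Ω ∩ φ ⁻¹' (Pun Λ B ∩ (SE (Q c) \ IE (C c)))) := by
  rintro x ⟨h1, h2, h3⟩
  by_cases h4 : φ x ∈ IE (C c)
  · exact Or.inl ⟨h1, h2, h4⟩
  · exact Or.inr ⟨h1, h2, h3, h4⟩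

end

variable [Countable I]

theorem FoamC.open_disj {C B : I → Box ι} {P : Finset ι} {c₀ : ℝ} {κ ρ : I → ℝ}
    (h : FoamC Λ Q C B P c₀ κ ρ) : Pairwise (fun c c' => Disjoint (IE (Q c)) (IE (Q c'))) := by
  intro c c' hcc
  rw [Set.disjoint_left]
  intro y hy hy'
  exact h.disj c c' hcc (co y) (IE_subset_SE _ hy) hy'

/-- **pushBF, `p < n`**: centres `z c` outside a null set; bounded factor in every brick, on a
given set `X`. -/
theorem pushBF_X {a0 p : ℝ} (ha0 : 1 ≤ a0) (hp0 : 0 ≤ p) (hΛ : IsOpen Λ) (h : Foam0 Λ Q)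
    (hA : ∀ c i j, (Q c).W i ≤ a0 * (Q c).W j) {Ω : Set E} (hΩ : IsOpen Ω) {φ : E → EE ι}
    (hφ : ContinuousOn φ Ω) {J : Type*} [Fintype J] {e : J → E} {D : J → E → EE ι}
    (hD : ∀ l, VWD Ω μ φ (D l) (e l)) {N : Set (ι → ℝ)} (hN : volume N = 0)
    {X : Set E} (hX : NullMeasurableSet X μ) :
    ∃ z : I → ι → ℝ, (∀ c, z c ∈ Mid (Q c)) ∧ (∀ c, z c ∉ N) ∧
      ∀ D' : J → E → EE ι, (∀ l, VWD (Ω ∩ φ ⁻¹' (Pun Λ (fun c => Box.pt (z c)))) μ
        (fun x => Psi Q (fun c => coreBF (Q c) (z c)) (fun c => Box.pt (z c)) (φ x))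
          (D' l) (e l)) →
      (∀ c, ∫⁻ x in X ∩ (Ω ∩ φ ⁻¹' (Pun Λ (fun c => Box.pt (z c)) ∩ SE (Q c))),
        ∑ l, ‖D' l x‖ₑ ^ p ∂μ ≤ KBF ι a0 p * ∫⁻ x in X ∩ (Ω ∩ φ ⁻¹' (SE (Q c))),
        ∑ l, ‖D l x‖ₑ ^ p ∂μ) ∧
      ∫⁻ x in X ∩ (Ω ∩ φ ⁻¹' (Pun Λ (fun c => Box.pt (z c)))),
        ∑ l, ‖D' l x‖ₑ ^ p ∂μ ≤ KBF ι a0 p * ∫⁻ x in X ∩ Ω, ∑ l, ‖D l x‖ₑ ^ p ∂μ := by
  have a0pos : 0 < a0 := by linarith
  have hn : (1:ℝ) ≤ Fintype.card ι := by exact_mod_cast Fintype.card_pos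
  -- measurability
  have mD : ∀ l, AEMeasurable (fun x => ‖D l x‖ₑ ^ p) (μ.restrict Ω) := fun l =>
    ((hD l).aemeas.enorm).pow_const p
  set g : E → ℝ≥0∞ := fun x => ∑ l, ‖D l x‖ₑ ^ p with hg
  have mg : AEMeasurable g (μ.restrict Ω) := Finset.aemeasurable_fun_sum _ fun l _ => mD l
  have mφ : AEMeasurable (fun x => co (φ x)) (μ.restrict Ω) :=
    continuous_co.measurable.comp_aemeasurable
      (hφ.aestronglyMeasurable hΩ.measurableSet).aemeasurable
  have hs0 : ∀ c, X ∩ (Ω ∩ φ ⁻¹' (IE (Q c))) ⊆ Ω := fun c x hx => hx.2.1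
  have hcen : ∀ c, ∃ z ∈ Mid (Q c), z ∉ N ∧
      ∫⁻ x, gW (wN ∅ 1 (1/4) (Q c)) p (co (φ x) - z) * g x
        ∂(μ.restrict (X ∩ (Ω ∩ φ ⁻¹' (IE (Q c))))) ≤
      ENNReal.ofReal (2 ^ Fintype.card ι * (1/4) ^ (∅ᶜ : Finset ι).card) * Kc ι p *
        ∫⁻ x, g x ∂(μ.restrict (X ∩ (Ω ∩ φ ⁻¹' (IE (Q c))))) := fun c =>
    (admBF (h.W0 c)).centre p (mφ.mono_measure (Measure.restrict_mono (hs0 c) le_rfl))
      (mg.mono_measure (Measure.restrict_mono (hs0 c) le_rfl)) hN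
  choose z hz hzN hb using hcen
  refine ⟨z, hz, hzN, ?_⟩
  intro D' hD'
  have hF := foamBF ha0 h hA hz
  set B : I → Box ι := fun c => Box.pt (z c) with hB
  set C : I → Box ι := fun c => coreBF (Q c) (z c) with hC
  have hCW : ∀ c i, (C c).W i = 1 / 4 * (Q c).W i := by
    intro c i
    rw [hC]
    change (coreN ∅ 1 (1/4) (Q c) (z c)).W i = _
    rw [(admBF (h.W0 c)).W]
    simp [wN]
  have ha : ∀ c i j, (Q c).W i ≤ (4 * a0) * (C c).W j := by
    intro c i j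
    rw [hCW]
    have := hA c i j
    linarith
  have hO := hF.isOpen_dom hΛ hΩ hφ
  -- core part
  have part1 : ∀ c, ∫⁻ x in X ∩ (Ω ∩ φ ⁻¹' (Pun Λ B ∩ IE (C c))), ∑ l, ‖D' l x‖ₑ ^ p ∂μ ≤
      ENNReal.ofReal ((200 * a0 ^ 2 * Fintype.card ι ^ 2) ^ p) *
        (Kc ι p * ∫⁻ x in X ∩ (Ω ∩ φ ⁻¹' (IE (Q c))), g x ∂μ) := by
    intro c
    have hs1 : X ∩ (Ω ∩ φ ⁻¹' (Pun Λ B ∩ IE (C c))) ⊆ Ω ∩ φ ⁻¹' (Pun Λ B) :=
      fun x hx => ⟨hx.2.1, hx.2.2.1⟩
    have hs2 : X ∩ (Ω ∩ φ ⁻¹' (IE (C c))) ⊆ X ∩ (Ω ∩ φ ⁻¹' (IE (Q c))) :=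
      fun x hx => ⟨hx.1, hx.2.1, hF.core_sub c (IE_subset_SE _ hx.2.2)⟩
    have mD' : ∀ l, AEMeasurable (fun x => ‖D' l x‖ₑ ^ p)
        (μ.restrict (X ∩ (Ω ∩ φ ⁻¹' (Pun Λ B ∩ IE (C c))))) := fun l =>
      (((hD' l).aemeas.enorm).pow_const p).mono_measure (Measure.restrict_mono hs1 le_rfl)
    rw [lintegral_finsetSum' _ fun l _ => mD' l]
    have e1 : ∀ l, ∫⁻ x in X ∩ (Ω ∩ φ ⁻¹' (Pun Λ B ∩ IE (C c))), ‖D' l x‖ₑ ^ p ∂μ ≤
        ENNReal.ofReal ((200 * a0 ^ 2 * Fintype.card ι ^ 2) ^ p) *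
          ∫⁻ x in X ∩ (Ω ∩ φ ⁻¹' (IE (Q c))), gW (C c).W p (co (φ x) - z c) *
            ‖D l x‖ₑ ^ p ∂μ := by
      intro l
      have h1 := hF.core_int hΛ hΩ hφ (hD l) (hD' l) hp0 (fun _ _ => 4 * a0)
        (fun c i j => ha c i j) c (z := z c) rfl hX
      refine h1.trans ?_
      have e2 : ∀ x, ENNReal.ofReal ((∑ j, (4 * a0) * |D l x j|) ^ p) ≤
          ENNReal.ofReal ((4 * a0 * Fintype.card ι) ^ p) * ‖D l x‖ₑ ^ p := by
        intro x
        rw [← ofReal_norm, ENNReal.ofReal_rpow_of_nonneg (norm_nonneg _) hp0,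
          ← ENNReal.ofReal_mul (by positivity), ← Real.mul_rpow (by positivity) (norm_nonneg _)]
        apply ENNReal.ofReal_le_ofReal
        apply Real.rpow_le_rpow _ _ hp0
        · exact Finset.sum_nonneg fun j _ => by positivity
        · rw [← Finset.mul_sum]
          refine (mul_le_mul_of_nonneg_left (sum_abs_le (D l x)) (by positivity)).trans
            (le_of_eq (by ring))
      calc _ ≤ ENNReal.ofReal ((18 * Fintype.card ι) ^ p) *
            ∫⁻ x in X ∩ (Ω ∩ φ ⁻¹' (IE (Q c))), gW (C c).W p (co (φ x) - z c) *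
              (ENNReal.ofReal ((4 * a0 * Fintype.card ι) ^ p) * ‖D l x‖ₑ ^ p) ∂μ := by
            refine mul_le_mul' le_rfl ?_
            refine (lintegral_mono_set hs2).trans (lintegral_mono fun x => ?_)
            exact mul_le_mul' le_rfl (e2 x)
        _ = ENNReal.ofReal ((18 * Fintype.card ι) ^ p) * (ENNReal.ofReal
            ((4 * a0 * Fintype.card ι) ^ p) * ∫⁻ x in X ∩ (Ω ∩ φ ⁻¹' (IE (Q c))),
              gW (C c).W p (co (φ x) - z c) * ‖D l x‖ₑ ^ p ∂μ) := by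
            congr 1
            rw [← lintegral_const_mul' _ _ ENNReal.ofReal_ne_top]
            apply lintegral_congr
            intro x; ring
        _ ≤ _ := by
            rw [← mul_assoc, ← ENNReal.ofReal_mul (by positivity),
              ← Real.mul_rpow (by positivity) (by positivity)]
            gcongr ?_ * _
            apply ENNReal.ofReal_le_ofReal
            apply Real.rpow_le_rpow (by positivity) _ hp0
            nlinarith [mul_nonneg (sub_nonneg.2 ha0) (sq_nonneg (Fintype.card ι : ℝ)),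
              mul_nonneg a0pos.le (mul_nonneg (sub_nonneg.2 ha0) (sq_nonneg (Fintype.card ι : ℝ)))]
    refine (Finset.sum_le_sum fun l _ => e1 l).trans ?_
    rw [← Finset.mul_sum]
    refine mul_le_mul' le_rfl ?_
    rw [← lintegral_finsetSum']
    · have e3 : ∀ x, ∑ l, gW (C c).W p (co (φ x) - z c) * ‖D l x‖ₑ ^ p =
          gW (wN ∅ 1 (1/4) (Q c)) p (co (φ x) - z c) * g x := by
        intro x
        rw [← Finset.mul_sum]
        congr 2
        funext i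
        rw [hCW]; simp [wN]
      rw [lintegral_congr e3]
      refine (hb c).trans ?_
      have e4 : ENNReal.ofReal (2 ^ Fintype.card ι * (1/4) ^ (∅ᶜ : Finset ι).card) ≤ 1 := by
        rw [Finset.compl_empty, Finset.card_univ, ← mul_pow]
        apply ENNReal.ofReal_le_one.2
        exact pow_le_one₀ (by norm_num) (by norm_num)
      calc _ ≤ 1 * Kc ι p * ∫⁻ x, g x ∂(μ.restrict (X ∩ (Ω ∩ φ ⁻¹' (IE (Q c))))) := by gcongr
        _ = _ := by rw [one_mul]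
    · intro l _
      apply AEMeasurable.mul
      · refine (measurable_gW _ p).comp_aemeasurable ?_
        exact (mφ.mono_measure (Measure.restrict_mono (hs0 c) le_rfl)).sub aemeasurable_const
      · exact (mD l).mono_measure (Measure.restrict_mono (hs0 c) le_rfl)
  -- rest: any measurable set of values off the open cores
  have part2 : ∀ T : Set (EE ι), MeasurableSet T → T ⊆ Pun Λ B → (∀ y ∈ T, ∀ c, y ∉ IE (C c)) →
      ∫⁻ x in X ∩ (Ω ∩ φ ⁻¹' T), ∑ l, ‖D' l x‖ₑ ^ p ∂μ ≤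
        ENNReal.ofReal ((200 * a0 ^ 2 * Fintype.card ι ^ 2) ^ p) *
          ∫⁻ x in X ∩ (Ω ∩ φ ⁻¹' T), g x ∂μ := by
    intro T hT hTP hTC
    rw [← lintegral_const_mul' _ _ ENNReal.ofReal_ne_top]
    apply lintegral_mono_ae
    have hm : NullMeasurableSet (X ∩ (Ω ∩ φ ⁻¹' T)) μ := by
      have h1 := hF.nm (μ := μ) hΩ hφ hT
      have h2 := (nullMeasurableSet_restrict hΩ.measurableSet.nullMeasurableSet).1 h1
      rw [inter_comm] at h2
      exact hX.inter h2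
    refine (ae_restrict_iff'₀ hm).2 ?_
    have h1 : ∀ᵐ x ∂μ, ∀ l, x ∈ Ω ∩ φ ⁻¹' (Pun Λ B) → (∀ c, φ x ∉ IE (C c)) →
        ‖D' l x‖ ≤ (Fintype.card ι ^ 2 * (2 / (1 / (8 * a0)) ^ 2 + 18 * (4 * a0))) * ‖D l x‖ :=
      ae_all_iff.2 fun l => hF.bound_off hΛ hΩ hφ (hD l) (hD' l) (by positivity) ha
    filter_upwards [h1] with x hx hx2
    rw [Finset.mul_sum]
    apply Finset.sum_le_sum
    intro l _
    have h2 := hx l ⟨hx2.2.1, hTP hx2.2.2⟩ (hTC _ hx2.2.2)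
    rw [← ofReal_norm (D l x), ENNReal.ofReal_rpow_of_nonneg (norm_nonneg _) hp0,
          ← ENNReal.ofReal_mul (by positivity), ← Real.mul_rpow (by positivity) (norm_nonneg _)]
    apply enorm_rpow_le hp0
    refine h2.trans (mul_le_mul_of_nonneg_right ?_ (norm_nonneg _))
    have e5 : 2 / (1 / (8 * a0)) ^ 2 = 128 * a0 ^ 2 := by field_simp; norm_num
    rw [e5]
    nlinarith [mul_nonneg a0pos.le (mul_nonneg (sub_nonneg.2 ha0) (sq_nonneg (Fintype.card ι : ℝ)))]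
  have mPun := (hF.isOpen_pun hΛ).measurableSet
  constructor
  · intro c
    set G := ∫⁻ x in X ∩ (Ω ∩ φ ⁻¹' (SE (Q c))), g x ∂μ with hG
    have s1 : X ∩ (Ω ∩ φ ⁻¹' (Pun Λ B ∩ SE (Q c))) ⊆
        (X ∩ (Ω ∩ φ ⁻¹' (Pun Λ B ∩ IE (C c)))) ∪
        (X ∩ (Ω ∩ φ ⁻¹' (Pun Λ B ∩ (SE (Q c) \ IE (C c))))) := by
      rintro x ⟨h0, h1⟩
      rcases hF.brick_split c h1 with h2 | h2
      · exact Or.inl ⟨h0, h2⟩
      · exact Or.inr ⟨h0, h2⟩
    have s2 : X ∩ (Ω ∩ φ ⁻¹' (IE (Q c))) ⊆ X ∩ (Ω ∩ φ ⁻¹' (SE (Q c))) :=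
      fun x hx => ⟨hx.1, hx.2.1, IE_subset_SE _ hx.2.2⟩
    have s3 : X ∩ (Ω ∩ φ ⁻¹' (Pun Λ B ∩ (SE (Q c) \ IE (C c)))) ⊆ X ∩ (Ω ∩ φ ⁻¹' (SE (Q c))) :=
      fun x hx => ⟨hx.1, hx.2.1, hx.2.2.2.1⟩
    calc _ ≤ ∫⁻ x in (X ∩ (Ω ∩ φ ⁻¹' (Pun Λ B ∩ IE (C c)))) ∪
          (X ∩ (Ω ∩ φ ⁻¹' (Pun Λ B ∩ (SE (Q c) \ IE (C c))))), ∑ l, ‖D' l x‖ₑ ^ p ∂μ :=
          lintegral_mono_set s1
      _ ≤ _ := lintegral_union_le _ _ _
      _ ≤ ENNReal.ofReal ((200 * a0 ^ 2 * Fintype.card ι ^ 2) ^ p) * (Kc ι p * G) +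
          ENNReal.ofReal ((200 * a0 ^ 2 * Fintype.card ι ^ 2) ^ p) * G := by
          refine add_le_add ((part1 c).trans ?_) ((part2 (Pun Λ B ∩ (SE (Q c) \ IE (C c)))
            (mPun.inter ((isClosed_SE (Q c)).measurableSet.diff (isOpen_IE (C c)).measurableSet))
            inter_subset_left
            (fun y hy => hF.not_core hy.2.1 hy.2.2)).trans ?_)
          · exact mul_le_mul' le_rfl (mul_le_mul' le_rfl (lintegral_mono_set s2))
          · exact mul_le_mul' le_rfl (lintegral_mono_set s3)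
      _ = KBF ι a0 p * G := by unfold KBF; ring
  · set G := ∫⁻ x in X ∩ Ω, g x ∂μ with hG
    set T : Set (EE ι) := Pun Λ B \ ⋃ c, IE (C c) with hT
    have mT : MeasurableSet T := mPun.diff (MeasurableSet.iUnion fun c =>
      (isOpen_IE (C c)).measurableSet)
    have s1 : X ∩ (Ω ∩ φ ⁻¹' (Pun Λ B)) ⊆
        (⋃ c, X ∩ (Ω ∩ φ ⁻¹' (Pun Λ B ∩ IE (C c)))) ∪ (X ∩ (Ω ∩ φ ⁻¹' T)) := by
      rintro x ⟨h0, h1, h2⟩
      by_cases h3 : φ x ∈ ⋃ c, IE (C c)
      · obtain ⟨c, hc⟩ := mem_iUnion.1 h3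
        exact Or.inl (mem_iUnion.2 ⟨c, h0, h1, h2, hc⟩)
      · exact Or.inr ⟨h0, h1, h2, h3⟩
    have s2 : (⋃ c, X ∩ (Ω ∩ φ ⁻¹' (IE (Q c)))) ⊆ X ∩ Ω :=
      iUnion_subset fun c x hx => ⟨hx.1, hx.2.1⟩
    have s3 : X ∩ (Ω ∩ φ ⁻¹' T) ⊆ X ∩ Ω := fun x hx => ⟨hx.1, hx.2.1⟩
    have nmc : ∀ c, NullMeasurableSet (X ∩ (Ω ∩ φ ⁻¹' (IE (Q c)))) μ := fun c =>
      hX.inter (hφ.isOpen_inter_preimage hΩ (isOpen_IE (Q c))).measurableSet.nullMeasurableSet
    calc _ ≤ ∫⁻ x in (⋃ c, X ∩ (Ω ∩ φ ⁻¹' (Pun Λ B ∩ IE (C c)))) ∪ (X ∩ (Ω ∩ φ ⁻¹' T)),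
          ∑ l, ‖D' l x‖ₑ ^ p ∂μ := lintegral_mono_set s1
      _ ≤ _ := lintegral_union_le _ _ _
      _ ≤ ENNReal.ofReal ((200 * a0 ^ 2 * Fintype.card ι ^ 2) ^ p) * (Kc ι p * G) +
          ENNReal.ofReal ((200 * a0 ^ 2 * Fintype.card ι ^ 2) ^ p) * G := by
          refine add_le_add ?_ ((part2 T mT sdiff_subset (fun y hy c hc =>
            hy.2 (mem_iUnion.2 ⟨c, hc⟩))).trans (mul_le_mul' le_rfl (lintegral_mono_set s3)))
          refine (lintegral_iUnion_le _ _).trans ?_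
          refine (ENNReal.tsum_le_tsum part1).trans ?_
          rw [ENNReal.tsum_mul_left, ENNReal.tsum_mul_left]
          refine mul_le_mul' le_rfl (mul_le_mul' le_rfl ?_)
          rw [← lintegral_iUnion₀ nmc]
          · exact lintegral_mono_set s2
          · intro c c' hcc
            apply Disjoint.aedisjoint
            rw [Set.disjoint_left]
            rintro x ⟨_, _, hx⟩ ⟨_, _, hx'⟩
            exact (Set.disjoint_left.1 (hF.open_disj hcc)) hx hx'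
      _ = KBF ι a0 p * G := by unfold KBF; ring


end Crest.Agent.R96.Push_899
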