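/-
helper520, row 96, leaf P6-STRONG, part 2: smooth cut-offs, density of test functions supported in
an open set in `L^p(ν)` for a finite measure `ν` carried by the open set.
-/
import Mathlib

set_option autoImplicit false
set_option linter.unusedSectionVars false

open MeasureTheory Filter Set
open scoped Topology ENNReal ContDiff Manifold

namespace Crest.Agent.R96.Str_520

noncomputable section

variable {E : Type*} [NormedAddCommGroup E] [NormedSpace ℝ E] [FiniteDimensional ℝ E]
variable {H : Type*} [NormedAddCommGroup H] [NormedSpace ℝ H]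

/-- smooth cut-off: `1` on the compact set `K`, supported in the open set `Ω`. -/
theorem exists_cutoff {K Ω : Set E} (hK : IsCompact K) (hΩ : IsOpen Ω) (hKΩ : K ⊆ Ω) :
    ∃ χ : E → ℝ, ContDiff ℝ ∞ χ ∧ HasCompactSupport χ ∧ tsupport χ ⊆ Ω ∧
      (∀ x, χ x ∈ Icc (0:ℝ) 1) ∧ (∀ x ∈ K, χ x = 1) := by
  obtain ⟨K', hK', hKK', hK'Ω⟩ := exists_compact_between hK hΩ hKΩ
  obtain ⟨f, hf0, hf1, hf⟩ := exists_contMDiffMap_zero_one_of_isClosed (n := (⊤ : ℕ∞)) 𝓘(ℝ, E)
    (s := (interior K')ᶜ) (t := K) isOpen_interior.isClosed_compl hK.isClosed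
    (by
      rw [Set.disjoint_left]
      intro x hx hxK
      exact hx (hKK' hxK))
  have hsupp : Function.support f ⊆ K' := by
    intro x hx
    by_contra hxK
    exact hx (hf0 (fun h => hxK (interior_subset h)))
  have hts : tsupport f ⊆ K' := closure_minimal hsupp hK'.isClosed
  refine ⟨f, f.contMDiff.contDiff, ?_, hts.trans hK'Ω, hf, fun x hx => hf1 hx⟩
  exact hK'.of_isClosed_subset (isClosed_tsupport _) hts

variable [MeasurableSpace E] [BorelSpace E]

/-- test functions on `Ω` with values in `H` -/
structure Test (Ω : Set E) (φ : E → H) : Prop where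
  smooth : ContDiff ℝ ∞ φ
  cpt : HasCompactSupport φ
  supp : tsupport φ ⊆ Ω



end

end Crest.Agent.R96.Str_520
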