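import Mathlib
import Crest.Agent.R96.Push5_899
import Crest.Agent.R96.Push9_899

-- ▼ part R96/Push10_899
section

/-!
# Row 96, U2 PUSH (helper899), part 10: the stretch map `St` (one vertical direction `k`).
-/

set_option autoImplicit false
set_option linter.unusedSectionVars false
set_option linter.unusedVariables false

open MeasureTheory Set Filter Topology
open scoped NNReal

noncomputable section

namespace Crest.Agent.R96.Push_899

/-! ### one dimension -/

/-- clamp -/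
def cc (w u : ℝ) : ℝ := max 0 (min 1 ((u - 1 / 2) / (2 * w) + 1 / 2))

theorem cc_nonneg (w u : ℝ) : 0 ≤ cc w u := le_max_left _ _

theorem cc_le_one (w u : ℝ) : cc w u ≤ 1 := max_le zero_le_one (min_le_left _ _)

theorem cc_mono {w : ℝ} (hw : 0 < w) {u v : ℝ} (h : u ≤ v) : cc w u ≤ cc w v := by
  unfold cc
  have : (u - 1 / 2) / (2 * w) + 1 / 2 ≤ (v - 1 / 2) / (2 * w) + 1 / 2 := by gcongr
  exact max_le_max le_rfl (min_le_min le_rfl this)

theorem cc_sub_le {w : ℝ} (hw : 0 < w) {u v : ℝ} (h : u ≤ v) :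
    cc w v - cc w u ≤ (v - u) / (2 * w) := by
  unfold cc
  set A := (u - 1 / 2) / (2 * w) + 1 / 2 with hA
  set B := (v - 1 / 2) / (2 * w) + 1 / 2 with hB
  have h1 : B - A = (v - u) / (2 * w) := by rw [hA, hB]; ring
  have h2 : 0 ≤ (v - u) / (2 * w) := by
    have := sub_nonneg.2 h; positivity
  rw [← h1] at h2 ⊢
  have h3 : min 1 B ≤ min 1 A + (B - A) := by
    rcases le_total 1 A with h | h
    · rw [min_eq_left h]; exact (min_le_left _ _).trans (by linarith)
    · rw [min_eq_right h]; exact (min_le_right _ _).trans (by linarith)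
  have h4 : max 0 (min 1 B) ≤ max 0 (min 1 A) + (B - A) := by
    apply max_le
    · have := le_max_left 0 (min 1 A); linarith
    · have := le_max_right 0 (min 1 A); linarith
  linarith

theorem cc_eq_zero {w : ℝ} (hw : 0 < w) {u : ℝ} (h : u ≤ 1 / 2 - w) : cc w u = 0 := by
  unfold cc
  apply max_eq_left
  refine (min_le_right _ _).trans ?_
  have : (u - 1 / 2) / (2 * w) ≤ -(1 / 2) := by
    rw [div_le_iff₀ (by positivity)]; linarith
  linarith

theorem cc_eq_one {w : ℝ} (hw : 0 < w) {u : ℝ} (h : 1 / 2 + w ≤ u) : cc w u = 1 := by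
  unfold cc
  have : 1 / 2 ≤ (u - 1 / 2) / (2 * w) := by
    rw [le_div_iff₀ (by positivity)]; linarith
  rw [min_eq_left (by linarith)]
  exact max_eq_right zero_le_one

/-- the devil's staircase of the slabs -/
def GG (w x : ℝ) : ℝ := ⌊x⌋ + cc w (Int.fract x)


theorem GG_bounds (w x : ℝ) : (⌊x⌋ : ℝ) ≤ GG w x ∧ GG w x ≤ ⌊x⌋ + 1 := by
  unfold GG
  have := cc_nonneg w (Int.fract x)
  have := cc_le_one w (Int.fract x)
  constructor <;> linarith

theorem abs_GG_sub_le (w x : ℝ) : |GG w x - x| ≤ 1 := by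
  obtain ⟨h1, h2⟩ := GG_bounds w x
  have h3 := Int.floor_le x
  have h4 := Int.lt_floor_add_one x
  rw [abs_le]; constructor <;> linarith

/-- monotone and Lipschitz -/
theorem GG_sub {w : ℝ} (hw : 0 < w) (hw1 : w ≤ 1 / 2) {x y : ℝ} (h : x ≤ y) :
    0 ≤ GG w y - GG w x ∧ GG w y - GG w x ≤ (y - x) / (2 * w) := by
  have hxf : Int.fract x = x - ⌊x⌋ := rfl
  have hyf : Int.fract y = y - ⌊y⌋ := rfl
  rcases eq_or_lt_of_le (Int.floor_mono h) with he | hlt
  · have h1 : Int.fract x ≤ Int.fract y := by rw [hxf, hyf, he]; linarith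
    unfold GG
    rw [he]
    have h2 := cc_mono hw h1
    have h3 := cc_sub_le hw h1
    rw [hxf, hyf, he] at h3
    constructor
    · linarith
    · rw [hyf, hxf, he]
      calc _ = cc w (y - ⌊y⌋) - cc w (x - ⌊y⌋) := by ring
        _ ≤ _ := h3
        _ = _ := by ring
  · have h5 : (⌊x⌋ : ℝ) + 1 ≤ ⌊y⌋ := by exact_mod_cast hlt
    have h6 : GG w y - GG w x = (cc w (Int.fract y) - cc w 0) + (⌊y⌋ - (⌊x⌋ + 1)) +
        (cc w 1 - cc w (Int.fract x)) := by
      rw [cc_eq_zero hw (by linarith : (0:ℝ) ≤ 1 / 2 - w),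
        cc_eq_one hw (by linarith : 1 / 2 + w ≤ (1:ℝ))]
      unfold GG; ring
    have h7 := cc_sub_le hw (Int.fract_nonneg y)
    have h8 := cc_sub_le hw (Int.fract_lt_one x).le
    have h9 := cc_mono hw (Int.fract_nonneg y)
    have h10 := cc_mono hw (Int.fract_lt_one x).le
    have h11 : (⌊y⌋ - (⌊x⌋ + 1) : ℝ) ≤ (⌊y⌋ - (⌊x⌋ + 1)) / (2 * w) := by
      rw [le_div_iff₀ (by positivity)]
      nlinarith
    rw [h6]
    constructor
    · linarith
    · calc _ ≤ (Int.fract y - 0) / (2 * w) + (⌊y⌋ - (⌊x⌋ + 1)) / (2 * w) +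
            (1 - Int.fract x) / (2 * w) := by linarith
        _ = _ := by rw [hxf, hyf]; ring

theorem GG_off {w : ℝ} (hw : 0 < w) {x : ℝ} (h : w ≤ |Int.fract x - 1 / 2|) :
    ∃ N : ℤ, GG w x = N ∧ |x - N| ≤ 1 / 2 := by
  have hxf : Int.fract x = x - ⌊x⌋ := rfl
  have h0 := Int.fract_nonneg x
  have h1 := (Int.fract_lt_one x).le
  unfold GG
  rcases le_abs'.1 h with h2 | h2
  · refine ⟨⌊x⌋, ?_, ?_⟩
    · rw [cc_eq_zero hw (by linarith), add_zero]
    · rw [← hxf, abs_of_nonneg h0]; linarith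
  · refine ⟨⌊x⌋ + 1, ?_, ?_⟩
    · rw [cc_eq_one hw (by linarith)]; push_cast; ring
    · push_cast
      rw [abs_le]; constructor <;> linarith

/-- the stretch function -/
def sg (a s w ε t : ℝ) : ℝ := a + s * (ε * ((t - a) / s) + (1 - ε) * GG w ((t - a) / s))

/-- off the sheets -/
def OffSh (a s w t : ℝ) : Prop := ∀ n : ℤ, w * s < |t - (a + s / 2 + n * s)|

section sg

variable {a s w ε : ℝ} (hs : 0 < s) (hw : 0 < w) (hw1 : w ≤ 1 / 2) (hε : 0 ≤ ε) (hε1 : ε ≤ 1)
include hs hw hw1 hε hε1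

theorem abs_sg_sub_le (t : ℝ) : |sg a s w ε t - t| ≤ s := by
  have h1 : sg a s w ε t - t = s * ((1 - ε) * (GG w ((t - a) / s) - (t - a) / s)) := by
    unfold sg; field_simp; ring
  rw [h1, abs_mul, abs_of_pos hs, abs_mul, abs_of_nonneg (by linarith)]
  have h2 := abs_GG_sub_le w ((t - a) / s)
  have h3 := abs_nonneg (GG w ((t - a) / s) - (t - a) / s)
  nlinarith [mul_nonneg (mul_nonneg hs.le hε) h3, mul_nonneg hs.le (sub_nonneg.2 h2)]

theorem sg_sub {t t' : ℝ} (h : t ≤ t') : ε * (t' - t) ≤ sg a s w ε t' - sg a s w ε t ∧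
    sg a s w ε t' - sg a s w ε t ≤ 1 / (2 * w) * (t' - t) := by
  have h0 : (t - a) / s ≤ (t' - a) / s := by gcongr
  obtain ⟨h1, h2⟩ := GG_sub hw hw1 h0
  have e1 : sg a s w ε t' - sg a s w ε t = ε * (t' - t) +
      s * ((1 - ε) * (GG w ((t' - a) / s) - GG w ((t - a) / s))) := by
    unfold sg; field_simp; ring
  have e2 : s * ((t' - a) / s - (t - a) / s) = t' - t := by field_simp; ring
  rw [e1]
  constructor
  · have : 0 ≤ s * ((1 - ε) * (GG w ((t' - a) / s) - GG w ((t - a) / s))) :=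
      mul_nonneg hs.le (mul_nonneg (by linarith) h1)
    linarith
  · have h3 : s * ((1 - ε) * (GG w ((t' - a) / s) - GG w ((t - a) / s))) ≤
        (1 - ε) * ((t' - t) / (2 * w)) := by
      calc _ = (1 - ε) * (s * (GG w ((t' - a) / s) - GG w ((t - a) / s))) := by ring
        _ ≤ (1 - ε) * (s * (((t' - a) / s - (t - a) / s) / (2 * w))) :=
            mul_le_mul_of_nonneg_left (mul_le_mul_of_nonneg_left h2 hs.le) (by linarith)
        _ = (1 - ε) * ((s * ((t' - a) / s - (t - a) / s)) / (2 * w)) := by ring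
        _ = _ := by rw [e2]
    have h4 : t' - t ≤ (t' - t) / (2 * w) := by
      rw [le_div_iff₀ (by positivity)]; nlinarith
    have h5 : ε * (t' - t) ≤ ε * ((t' - t) / (2 * w)) := mul_le_mul_of_nonneg_left h4 hε
    calc _ ≤ ε * ((t' - t) / (2 * w)) + (1 - ε) * ((t' - t) / (2 * w)) := add_le_add h5 h3
      _ = _ := by ring

theorem abs_sg_sub {t t' : ℝ} : |sg a s w ε t' - sg a s w ε t| ≤ 1 / (2 * w) * |t' - t| := by
  rcases le_total t t' with h | h
  · obtain ⟨h1, h2⟩ := sg_sub (a := a) hs hw hw1 hε hε1 h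
    have h3 : 0 ≤ ε * (t' - t) := mul_nonneg hε (by linarith)
    rwa [abs_of_nonneg (by linarith), abs_of_nonneg (by linarith)]
  · obtain ⟨h1, h2⟩ := sg_sub (a := a) hs hw hw1 hε hε1 h
    have h3 : 0 ≤ ε * (t - t') := mul_nonneg hε (by linarith)
    rwa [abs_sub_comm, abs_sub_comm t' t, abs_of_nonneg (by linarith), abs_of_nonneg (by linarith)]


theorem fract_off {t : ℝ} (h : OffSh a s w t) : w < |Int.fract ((t - a) / s) - 1 / 2| := by
  have h1 := h ⌊(t - a) / s⌋
  have h2 : t - (a + s / 2 + ⌊(t - a) / s⌋ * s) = s * (Int.fract ((t - a) / s) - 1 / 2) := by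
    have : Int.fract ((t - a) / s) = (t - a) / s - ⌊(t - a) / s⌋ := rfl
    rw [this]; field_simp; ring
  rw [h2, abs_mul, abs_of_pos hs, mul_comm] at h1
  exact lt_of_mul_lt_mul_left h1 hs.le

/-- off the sheets `sg` is close to the lattice -/
theorem sg_off {t : ℝ} (h : OffSh a s w t) : ∃ N : ℤ, |sg a s w ε t - (a + N * s)| ≤ ε * s / 2 := by
  obtain ⟨N, h1, h2⟩ := GG_off hw (fract_off hs hw hw1 hε hε1 h).le
  refine ⟨N, ?_⟩
  have e1 : sg a s w ε t - (a + N * s) = ε * s * ((t - a) / s - N) := by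
    unfold sg; rw [h1]; ring
  rw [e1, abs_mul, abs_of_nonneg (mul_nonneg hε hs.le)]
  have := mul_le_mul_of_nonneg_left h2 (mul_nonneg hε hs.le)
  linarith

/-- off the sheets, `sg` has locally slope `ε` -/
theorem sg_off_slope {t : ℝ} (h : OffSh a s w t) :
    ∀ᶠ t' in 𝓝 t, sg a s w ε t' - sg a s w ε t = ε * (t' - t) := by
  -- the nearest sheets
  have h0 := fract_off hs hw hw1 hε hε1 h
  set x := (t - a) / s with hx
  have hxf : Int.fract x = x - ⌊x⌋ := rfl
  have hf0 := Int.fract_nonneg x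
  have hf1 := Int.fract_lt_one x
  -- an interval around `x` on which `GG` is constant
  have key : ∀ᶠ x' in 𝓝 x, GG w x' = GG w x := by
    rcases lt_abs.1 h0 with h2 | h2
    · -- right part : fract x > 1/2 + w
      have h3 : ∀ᶠ x' in 𝓝 x, (⌊x⌋ : ℝ) + 1 / 2 + w < x' :=
        lt_mem_nhds (by linarith)
      have h4 : ∀ᶠ x' in 𝓝 x, x' < (⌊x⌋ : ℝ) + 1 + 1 / 2 - w := by
        apply gt_mem_nhds
        linarith
      filter_upwards [h3, h4] with x' a1 a2
      have e1 : GG w x = ⌊x⌋ + 1 := by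
        unfold GG; rw [cc_eq_one hw (by linarith)]
      have e0 : (⌊x⌋ : ℝ) = ((⌊x⌋ : ℤ) : ℝ) := rfl
      rcases lt_or_ge x' (⌊x⌋ + 1) with h5 | h5
      · have h6 : ⌊x'⌋ = ⌊x⌋ := by
          rw [Int.floor_eq_iff]; constructor <;> linarith
        unfold GG at e1 ⊢
        rw [e1, h6, cc_eq_one hw]
        change 1 / 2 + w ≤ x' - ⌊x'⌋
        rw [h6]; linarith
      · have h6 : ⌊x'⌋ = ⌊x⌋ + 1 := by
          rw [Int.floor_eq_iff]; push_cast; constructor <;> linarith
        rw [e1]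
        unfold GG
        rw [h6, cc_eq_zero hw]
        · push_cast; ring
        · change x' - ⌊x'⌋ ≤ _
          rw [h6]; push_cast; linarith
    · have h3 : ∀ᶠ x' in 𝓝 x, x' < (⌊x⌋ : ℝ) + 1 / 2 - w :=
        gt_mem_nhds (by linarith)
      have h4 : ∀ᶠ x' in 𝓝 x, (⌊x⌋ : ℝ) - 1 + 1 / 2 + w < x' := by
        apply lt_mem_nhds
        have : w < 1 / 2 := by linarith
        linarith
      filter_upwards [h3, h4] with x' a1 a2
      have e1 : GG w x = ⌊x⌋ := by
        unfold GG; rw [cc_eq_zero hw (by linarith), add_zero]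
      rcases lt_or_ge x' (⌊x⌋) with h5 | h5
      · have h6 : ⌊x'⌋ = ⌊x⌋ - 1 := by
          rw [Int.floor_eq_iff]; push_cast; constructor <;> linarith
        rw [e1]
        unfold GG
        rw [h6, cc_eq_one hw]
        · push_cast; ring
        · change _ ≤ x' - ⌊x'⌋
          rw [h6]; push_cast; linarith
      · have h6 : ⌊x'⌋ = ⌊x⌋ := by
          rw [Int.floor_eq_iff]; constructor <;> linarith
        rw [e1]
        unfold GG
        rw [h6, cc_eq_zero hw, add_zero]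
        change x' - ⌊x'⌋ ≤ _
        rw [h6]; linarith
  have hc : Tendsto (fun t' : ℝ => (t' - a) / s) (𝓝 t) (𝓝 x) := by
    have : Continuous (fun t' : ℝ => (t' - a) / s) := by fun_prop
    exact this.tendsto t
  filter_upwards [hc.eventually key] with t' ht'
  unfold sg
  rw [ht', ← hx]
  rw [hx]
  field_simp
  ring

end sg

/-! ### the stretch map -/

variable {ι : Type*} [Fintype ι] [Nonempty ι] [DecidableEq ι]

/-- **the stretch map** (cut-off `χ`) -/
def St (k : ι) (χ : EE ι → ℝ) (a s w ε : ℝ) (y : EE ι) : EE ι :=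
  WithLp.toLp 2 (Function.update (co y) k (y k + χ y * (sg a s w ε (y k) - y k)))

theorem St_ne {k : ι} {χ : EE ι → ℝ} {a s w ε : ℝ} (y : EE ι) {i : ι} (hi : i ≠ k) :
    St k χ a s w ε y i = y i := by
  change Function.update (co y) k _ i = y i
  rw [Function.update_of_ne hi]; rfl

theorem St_k {k : ι} {χ : EE ι → ℝ} {a s w ε : ℝ} (y : EE ι) :
    St k χ a s w ε y k = y k + χ y * (sg a s w ε (y k) - y k) := by
  change Function.update (co y) k _ k = _
  rw [Function.update_self]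

section St

variable {k : ι} {χ : EE ι → ℝ} {a s w ε L : ℝ} (hs : 0 < s) (hw : 0 < w) (hw1 : w ≤ 1 / 2)
  (hε : 0 ≤ ε) (hε1 : ε ≤ 1) (hχ0 : ∀ y, 0 ≤ χ y) (hχ1 : ∀ y, χ y ≤ 1)
  (hL : ∀ y y', |χ y' - χ y| ≤ L * ‖y' - y‖)
include hs hw hw1 hε hε1 hχ0 hχ1 hL

theorem St_sub_k (y y' : EE ι) :
    |St k χ a s w ε y' k - St k χ a s w ε y k| ≤
      1 / (2 * w) * |y' k - y k| + L * s * ‖y' - y‖ := by
  rw [St_k, St_k]
  have e1 : y' k + χ y' * (sg a s w ε (y' k) - y' k) - (y k + χ y * (sg a s w ε (y k) - y k)) =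
      ((1 - χ y') * (y' k - y k) + χ y' * (sg a s w ε (y' k) - sg a s w ε (y k))) +
      (χ y' - χ y) * (sg a s w ε (y k) - y k) := by ring
  rw [e1]
  refine (abs_add_le _ _).trans (add_le_add ?_ ?_)
  · refine (abs_add_le _ _).trans ?_
    rw [abs_mul, abs_mul, abs_of_nonneg (hχ0 y'), abs_of_nonneg (sub_nonneg.2 (hχ1 y'))]
    have h1 := abs_sg_sub (a := a) (t := y k) (t' := y' k) hs hw hw1 hε hε1
    have h2 : |y' k - y k| ≤ 1 / (2 * w) * |y' k - y k| := by
      have : 1 ≤ 1 / (2 * w) := by rw [le_div_iff₀ (by positivity)]; linarith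
      nlinarith [abs_nonneg (y' k - y k)]
    have h3 := mul_le_mul_of_nonneg_left h1 (hχ0 y')
    have h4 := mul_le_mul_of_nonneg_left h2 (sub_nonneg.2 (hχ1 y'))
    linarith
  · rw [abs_mul]
    have h1 := abs_sg_sub_le (a := a) hs hw hw1 hε hε1 (y k)
    calc _ ≤ (L * ‖y' - y‖) * s := mul_le_mul (hL y y') h1 (abs_nonneg _)
          ((abs_nonneg _).trans (hL y y'))
      _ = _ := by ring

theorem St_sub_k_lower (y y' : EE ι) :
    ε * |y' k - y k| - L * s * ‖y' - y‖ ≤ |St k χ a s w ε y' k - St k χ a s w ε y k| := by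
  rw [St_k, St_k]
  set d := (χ y' - χ y) * (sg a s w ε (y k) - y k) with hd
  set m := (1 - χ y') * (y' k - y k) + χ y' * (sg a s w ε (y' k) - sg a s w ε (y k)) with hm
  have e1 : y' k + χ y' * (sg a s w ε (y' k) - y' k) - (y k + χ y * (sg a s w ε (y k) - y k)) =
      m + d := by rw [hm, hd]; ring
  rw [e1]
  have h1 : |d| ≤ L * s * ‖y' - y‖ := by
    rw [hd, abs_mul]
    have h1 := abs_sg_sub_le (a := a) hs hw hw1 hε hε1 (y k)
    calc _ ≤ (L * ‖y' - y‖) * s := mul_le_mul (hL y y') h1 (abs_nonneg _)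
          ((abs_nonneg _).trans (hL y y'))
      _ = _ := by ring
  have h2 : ε * |y' k - y k| ≤ |m| := by
    have c0 := hχ0 y'
    have c1 := hχ1 y'
    rcases le_total (y k) (y' k) with h | h
    · obtain ⟨b1, b2⟩ := sg_sub (a := a) hs hw hw1 hε hε1 h
      have h3 : ε * (y' k - y k) ≤ m := by
        rw [hm]
        nlinarith [mul_le_mul_of_nonneg_left b1 c0, mul_nonneg (sub_nonneg.2 c1)
          (mul_nonneg (sub_nonneg.2 hε1) (sub_nonneg.2 h))]
      rw [abs_of_nonneg (sub_nonneg.2 h)]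
      exact h3.trans (le_abs_self _)
    · obtain ⟨b1, b2⟩ := sg_sub (a := a) hs hw hw1 hε hε1 h
      have h3 : ε * (y k - y' k) ≤ -m := by
        rw [hm]
        nlinarith [mul_le_mul_of_nonneg_left b1 c0, mul_nonneg (sub_nonneg.2 c1)
          (mul_nonneg (sub_nonneg.2 hε1) (sub_nonneg.2 h))]
      rw [abs_of_nonpos (by linarith)]
      have h4 := neg_le_abs m
      linarith
  have h3 : |m| ≤ |m + d| + |d| := by
    have := abs_sub_abs_le_abs_sub m (-d)
    rw [abs_neg, sub_neg_eq_add] at this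
    linarith
  linarith

theorem St_dist (y : EE ι) : ‖St k χ a s w ε y - y‖ ≤ s := by
  have e1 : St k χ a s w ε y - y = EuclideanSpace.single k (χ y * (sg a s w ε (y k) - y k)) := by
    ext i
    rw [PiLp.sub_apply]
    by_cases hi : i = k
    · subst hi; rw [St_k, EuclideanSpace.single_apply, if_pos rfl]; ring
    · rw [St_ne y hi, EuclideanSpace.single_apply, if_neg hi, sub_self]
  rw [e1, EuclideanSpace.norm_single, Real.norm_eq_abs, abs_mul, abs_of_nonneg (hχ0 y)]
  have h1 := abs_sg_sub_le (a := a) hs hw hw1 hε hε1 (y k)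
  nlinarith [hχ0 y, hχ1 y, abs_nonneg (sg a s w ε (y k) - y k)]


theorem St_lip (hL0 : 0 ≤ L) : ∃ K : ℝ≥0, LipschitzWith K (St k χ a s w ε) := by
  refine ⟨Real.toNNReal (Fintype.card ι * (1 / (2 * w) + L * s + 1)), ?_⟩
  apply LipschitzWith.of_dist_le_mul
  intro y' y
  rw [dist_eq_norm, dist_eq_norm, Real.coe_toNNReal _ (by positivity)]
  refine (norm_le_sum _).trans ?_
  have h1 : ∀ i, |(St k χ a s w ε y' - St k χ a s w ε y) i| ≤
      (1 / (2 * w) + L * s + 1) * ‖y' - y‖ := by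
    intro i
    rw [PiLp.sub_apply]
    have h0 : |y' i - y i| ≤ ‖y' - y‖ := abs_le_norm (y' - y) i
    have hn := norm_nonneg (y' - y)
    have hp : 0 ≤ 1 / (2 * w) := by positivity
    have hLs : 0 ≤ L * s := by positivity
    by_cases hi : i = k
    · subst hi
      refine (St_sub_k hs hw hw1 hε hε1 hχ0 hχ1 hL y y').trans ?_
      nlinarith [mul_le_mul_of_nonneg_left h0 hp]
    · rw [St_ne y hi, St_ne y' hi]
      nlinarith [mul_nonneg hp hn, mul_nonneg hLs hn]
  refine (Finset.sum_le_sum fun i _ => h1 i).trans ?_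
  rw [Finset.sum_const, Finset.card_univ, nsmul_eq_mul, mul_assoc]

theorem St_anti (hε0 : 0 < ε) (hL0 : 0 ≤ L) (hLs : L * s ≤ ε / 2) :
    ∃ K : ℝ≥0, AntilipschitzWith K (St k χ a s w ε) := by
  refine ⟨Real.toNNReal (2 * (Fintype.card ι + 1 / ε)), ?_⟩
  apply AntilipschitzWith.of_le_mul_dist
  intro y' y
  rw [dist_eq_norm, dist_eq_norm, Real.coe_toNNReal _ (by positivity)]
  set Δ := ‖y' - y‖ with hΔ
  set T := ‖St k χ a s w ε y' - St k χ a s w ε y‖ with hT
  have hΔ0 : 0 ≤ Δ := norm_nonneg _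
  have hT0 : 0 ≤ T := norm_nonneg _
  have h1 : ∀ i, i ≠ k → |y' i - y i| ≤ T := by
    intro i hi
    have := abs_le_norm (St k χ a s w ε y' - St k χ a s w ε y) i
    rwa [PiLp.sub_apply, St_ne y hi, St_ne y' hi] at this
  have h2 : |y' k - y k| ≤ 1 / ε * (T + L * s * Δ) := by
    have h3 := St_sub_k_lower (k := k) (a := a) hs hw hw1 hε hε1 hχ0 hχ1 hL y y'
    have h4 := abs_le_norm (St k χ a s w ε y' - St k χ a s w ε y) k
    rw [PiLp.sub_apply] at h4
    rw [one_div, inv_mul_eq_div, le_div_iff₀ hε0]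
    linarith
  have h5 : Δ ≤ ∑ i, (T + if i = k then 1 / ε * (T + L * s * Δ) else 0) := by
    refine (norm_le_sum _).trans (Finset.sum_le_sum fun i _ => ?_)
    rw [PiLp.sub_apply]
    split_ifs with hi
    · rw [hi]; linarith
    · rw [add_zero]; exact h1 i hi
  rw [Finset.sum_add_distrib, Finset.sum_const, Finset.card_univ, nsmul_eq_mul,
    Finset.sum_ite_eq' Finset.univ k, if_pos (Finset.mem_univ k)] at h5
  have h6 : 1 / ε * (T + L * s * Δ) ≤ 1 / ε * T + 1 / 2 * Δ := by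
    have h7 : 1 / ε * (L * s * Δ) ≤ 1 / ε * (ε / 2 * Δ) := by gcongr
    have h8 : 1 / ε * (ε / 2 * Δ) = 1 / 2 * Δ := by field_simp
    linarith
  linarith

theorem St_surj (hL0 : 0 ≤ L) : Function.Surjective (St k χ a s w ε) := by
  intro u
  obtain ⟨K, hK⟩ := St_lip (k := k) (a := a) hs hw hw1 hε hε1 hχ0 hχ1 hL hL0
  set P : ℝ → EE ι := fun t => WithLp.toLp 2 (Function.update (co u) k t) with hP
  have hPc : Continuous P := by
    have h1 : Continuous (fun t : ℝ => Function.update (co u) k t) :=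
      continuous_const.update k continuous_id
    exact (PiLp.continuous_toLp 2 _).comp h1
  have hPk : ∀ t, P t k = t := fun t => by
    change Function.update (co u) k t k = t
    rw [Function.update_self]
  have hPi : ∀ t i, i ≠ k → P t i = u i := fun t i hi => by
    change Function.update (co u) k t i = u i
    rw [Function.update_of_ne hi]; rfl
  set h : ℝ → ℝ := fun t => St k χ a s w ε (P t) k with hh
  have hc : Continuous h := (continuous_coord k).comp (hK.continuous.comp hPc)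
  have hb : ∀ t, |h t - t| ≤ s := by
    intro t
    have h1 := abs_le_norm (St k χ a s w ε (P t) - P t) k
    rw [PiLp.sub_apply, hPk] at h1
    exact h1.trans (St_dist hs hw hw1 hε hε1 hχ0 hχ1 hL _)
  have h1 : h (u k - s) ≤ u k := by have := (abs_le.1 (hb (u k - s))).2; linarith
  have h2 : u k ≤ h (u k + s) := by have := (abs_le.1 (hb (u k + s))).1; linarith
  obtain ⟨t, ht1, ht2⟩ := intermediate_value_Icc (by linarith : u k - s ≤ u k + s)
    hc.continuousOn ⟨h1, h2⟩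
  refine ⟨P t, ?_⟩
  ext i
  by_cases hi : i = k
  · subst hi; exact ht2
  · rw [St_ne _ hi, hPi t i hi]

/-- **`St` is a homeomorphism, `= id` where `χ = 0`** -/
theorem St_homeo (hε0 : 0 < ε) (hL0 : 0 ≤ L) (hLs : L * s ≤ ε / 2) :
    ∃ S : EE ι ≃ₜ EE ι, ⇑S = St k χ a s w ε := by
  obtain ⟨K, hK⟩ := St_lip (k := k) (a := a) hs hw hw1 hε hε1 hχ0 hχ1 hL hL0
  obtain ⟨K', hK'⟩ := St_anti (k := k) (a := a) hs hw hw1 hε hε1 hχ0 hχ1 hL hε0 hL0 hLs
  have hsur := St_surj (k := k) (a := a) hs hw hw1 hε hε1 hχ0 hχ1 hL hL0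
  have hemb : IsEmbedding (St k χ a s w ε) := (hK'.isUniformEmbedding hK.uniformContinuous).isEmbedding
  exact ⟨(hemb.toHomeomorphOfSurjective hsur), rfl⟩

end St

theorem St_eq_self {k : ι} {χ : EE ι → ℝ} {a s w ε : ℝ} {y : EE ι} (h : χ y = 0) :
    St k χ a s w ε y = y := by
  ext i
  by_cases hi : i = k
  · subst hi; rw [St_k, h]; ring
  · rw [St_ne y hi]

/-- `St` preserves `Λ` if `χ = 0` off `Λ`. -/
theorem St_image {k : ι} {χ : EE ι → ℝ} {a s w ε : ℝ} {Λ : Set (EE ι)} (h : ∀ y ∉ Λ, χ y = 0)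
    (hbij : Function.Bijective (St k χ a s w ε)) : St k χ a s w ε '' Λ = Λ := by
  have h1 : ∀ y, St k χ a s w ε y ∉ Λ → y ∉ Λ → True := fun _ _ _ => trivial
  ext u
  constructor
  · rintro ⟨y, hy, rfl⟩
    by_contra hn
    have h2 := St_eq_self (k := k) (a := a) (s := s) (w := w) (ε := ε) (h _ hn)
    have h3 := hbij.1 h2
    rw [h3] at hn
    exact hn hy
  · intro hu
    obtain ⟨y, hy⟩ := hbij.2 u
    refine ⟨y, ?_, hy⟩
    by_contra hn
    rw [St_eq_self (h _ hn)] at hy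
    exact hn (hy ▸ hu)

end Crest.Agent.R96.Push_899
end
end

-- ▼ part R96/Push11_899
section

/-!
# Row 96, U2 PUSH (helper899), part 11: weak derivatives of `St ∘ φ`; near isometry of `Psi` near
the horizontal walls.
-/

set_option autoImplicit false
set_option linter.unusedSectionVars false
set_option linter.unusedVariables false

open MeasureTheory Set Filter Topology
open scoped NNReal ENNReal

noncomputable section

namespace Crest.Agent.R96.Push_899

open Crest.Agent.R96.Acl_392 Crest.Agent.R96.Sob1_199 Crest.Agent.R96.Sob2_199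
  Crest.Agent.R96.Sob3_199 Crest.Agent.R96.Sob4_199 Crest.Agent.R96.Sob5_199

variable {ι : Type*} [Fintype ι] [Nonempty ι] [DecidableEq ι]

variable {E : Type*} [NormedAddCommGroup E] [NormedSpace ℝ E] [FiniteDimensional ℝ E]
  [MeasurableSpace E] [BorelSpace E] {μ : Measure E} [μ.IsAddHaarMeasure]

/-- the good set for the stretch -/
def GoodSt (k : ι) (χ : EE ι → ℝ) (a s w : ℝ) : Set (EE ι) :=
  {y | (∀ᶠ y' in 𝓝 y, χ y' = 1) ∧ OffSh a s w (y k)}

theorem isOpen_offSh {a s w : ℝ} (hs : 0 < s) (hw : 0 < w) (hw1 : w ≤ 1 / 2) :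
    IsOpen {t : ℝ | OffSh a s w t} := by
  rw [isOpen_iff_mem_nhds]
  intro t ht
  have h0 := fract_off (ε := 0) hs hw hw1 le_rfl zero_le_one ht
  -- only the sheets near `t` matter
  set N := ⌊(t - a) / s⌋ with hN
  have h1 : ∀ᶠ t' in 𝓝 t, ∀ n ∈ ({N - 1, N, N + 1} : Finset ℤ),
      w * s < |t' - (a + s / 2 + n * s)| := by
    rw [eventually_all_finset]
    intro n _
    have hc : Continuous fun t' : ℝ => |t' - (a + s / 2 + n * s)| := by fun_prop
    exact (isOpen_lt continuous_const hc).mem_nhds (ht n)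
  have h2 : ∀ᶠ t' in 𝓝 t, |t' - t| < s / 2 := by
    have hc : Continuous fun t' : ℝ => |t' - t| := by fun_prop
    exact (isOpen_lt hc continuous_const).mem_nhds (by simpa using half_pos hs)
  filter_upwards [h1, h2] with t' a1 a2 n
  by_cases hn : n ∈ ({N - 1, N, N + 1} : Finset ℤ)
  · exact a1 n hn
  · simp only [Finset.mem_insert, Finset.mem_singleton, not_or] at hn
    have hf0 : (N : ℝ) ≤ (t - a) / s := Int.floor_le _
    have hf1 : (t - a) / s < N + 1 := Int.lt_floor_add_one _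
    rw [le_div_iff₀ hs] at hf0
    rw [div_lt_iff₀ hs] at hf1
    have hws : w * s ≤ s / 2 := by nlinarith
    have hn' : n ≤ N - 2 ∨ N + 2 ≤ n := by omega
    rw [abs_lt] at a2
    rcases hn' with h | h
    · have h3 : (n : ℝ) ≤ N - 2 := by exact_mod_cast h
      have h4 : (n : ℝ) * s ≤ (N - 2) * s := mul_le_mul_of_nonneg_right h3 hs.le
      rw [lt_abs]; left; nlinarith
    · have h3 : (N : ℝ) + 2 ≤ n := by exact_mod_cast h
      have h4 : ((N : ℝ) + 2) * s ≤ n * s := mul_le_mul_of_nonneg_right h3 hs.le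
      rw [lt_abs]; right; nlinarith

theorem isOpen_goodSt {k : ι} {χ : EE ι → ℝ} {a s w : ℝ} (hs : 0 < s) (hw : 0 < w)
    (hw1 : w ≤ 1 / 2) : IsOpen (GoodSt k χ a s w) := by
  have h1 : IsOpen {y : EE ι | ∀ᶠ y' in 𝓝 y, χ y' = 1} := by
    have := isOpen_interior (s := {y : EE ι | χ y = 1})
    rwa [interior_eq_nhds'] at this
  exact h1.inter ((isOpen_offSh hs hw hw1).preimage (continuous_coord k))

section

variable {k : ι} {χ : EE ι → ℝ} {a s w ε L : ℝ} (hs : 0 < s) (hw : 0 < w) (hw1 : w ≤ 1 / 2)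
  (hε : 0 ≤ ε) (hε1 : ε ≤ 1) (hχ0 : ∀ y, 0 ≤ χ y) (hχ1 : ∀ y, χ y ≤ 1)
  (hL : ∀ y y', |χ y' - χ y| ≤ L * ‖y' - y‖) (hL0 : 0 ≤ L)
include hs hw hw1 hε hε1 hχ0 hχ1 hL hL0

theorem continuous_St : Continuous (St k χ a s w ε) := by
  obtain ⟨K, hK⟩ := St_lip (k := k) (a := a) hs hw hw1 hε hε1 hχ0 hχ1 hL hL0
  exact hK.continuous

theorem St_wd {Ω : Set E} (hΩ : IsOpen Ω) {φ D : E → EE ι} {e : E} (hφ : ContinuousOn φ Ω)
    (hD : VWD Ω μ φ D e) : ∃ D₁, VWD Ω μ (fun x => St k χ a s w ε (φ x)) D₁ e := by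
  obtain ⟨K, hK⟩ := St_lip (k := k) (a := a) hs hw hw1 hε hε1 hχ0 hχ1 hL hL0
  exact comp_exists hΩ hD hφ (S := univ) (fun x _ => mem_univ _)
    hK.locallyLipschitz.locallyLipschitzOn

theorem St_bounds {Ω : Set E} (hΩ : IsOpen Ω) {φ D D₁ : E → EE ι} {e : E}
    (hφ : ContinuousOn φ Ω) (hD : VWD Ω μ φ D e)
    (hD₁ : VWD Ω μ (fun x => St k χ a s w ε (φ x)) D₁ e) :
    ∀ᵐ x ∂μ, x ∈ Ω → (∀ i, i ≠ k → D₁ x i = D x i) ∧
      |D₁ x k| ≤ 1 / (2 * w) * |D x k| + L * s * ∑ j, |D x j| ∧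
      (φ x ∈ GoodSt k χ a s w → |D₁ x k| ≤ ε * |D x k|) := by
  have hc := continuous_St (k := k) (a := a) hs hw hw1 hε hε1 hχ0 hχ1 hL hL0
  have hci : ∀ i, ContinuousOn (fun y => St k χ a s w ε y i) univ := fun i =>
    ((continuous_coord i).comp hc).continuousOn
  have hsum : ∀ (i : ι) (f : ι → ℝ), ∑ j, (if j = i then (1:ℝ) else 0) * f j = f i := by
    intro i f; simp
  have key1 : ∀ i, ∀ᵐ x ∂μ, i ≠ k → x ∈ Ω → D₁ x i = D x i := by
    intro i
    by_cases hi : i = k
    · exact Eventually.of_forall fun x h => absurd hi h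
    · have h1 := comp_aniso hΩ hD hφ (S := univ) (fun x _ => mem_univ _)
        (θ := fun y => St k χ a s w ε y i) (hci i) (hD₁ i) (T := univ)
        (MeasurableSet.univ.nullMeasurableSet) (b := fun _ j => if j = i then (1:ℝ) else 0)
        (A := fun _ _ => 0) (fun _ => aemeasurable_const) (fun _ => aemeasurable_const) (by
          intro x _ _
          refine Eventually.of_forall fun y' => ?_
          rw [hsum]
          simp only
          rw [St_ne y' hi, St_ne _ hi]; simp)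
      filter_upwards [h1] with x hx _ hxΩ
      have h2 := hx hxΩ (mem_univ _)
      rw [hsum] at h2
      simp only [zero_mul, Finset.sum_const_zero] at h2
      have h3 := abs_nonpos_iff.1 h2
      linarith
  have key2 : ∀ᵐ x ∂μ, x ∈ Ω → |D₁ x k| ≤ 1 / (2 * w) * |D x k| + L * s * ∑ j, |D x j| := by
    have h1 := comp_aniso hΩ hD hφ (S := univ) (fun x _ => mem_univ _)
        (θ := fun y => St k χ a s w ε y k) (hci k) (hD₁ k) (T := univ)
        (MeasurableSet.univ.nullMeasurableSet) (b := fun _ _ => 0)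
        (A := fun _ j => (if j = k then 1 / (2 * w) else 0) + L * s)
        (fun _ => aemeasurable_const) (fun _ => aemeasurable_const) (by
          intro x _ _
          refine Eventually.of_forall fun y' => ?_
          simp only [zero_mul, Finset.sum_const_zero, sub_zero, add_mul, Finset.sum_add_distrib,
            ite_mul]
          rw [Finset.sum_ite_eq' Finset.univ k, if_pos (Finset.mem_univ k), ← Finset.mul_sum]
          refine (St_sub_k hs hw hw1 hε hε1 hχ0 hχ1 hL _ _).trans ?_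
          have h2 := norm_le_sum (y' - φ x)
          have h3 : 0 ≤ L * s := by positivity
          exact add_le_add le_rfl (mul_le_mul_of_nonneg_left h2 h3))
    filter_upwards [h1] with x hx hxΩ
    have h2 := hx hxΩ (mem_univ _)
    simp only [zero_mul, Finset.sum_const_zero, sub_zero, add_mul, Finset.sum_add_distrib,
      ite_mul] at h2
    rwa [Finset.sum_ite_eq' Finset.univ k, if_pos (Finset.mem_univ k), ← Finset.mul_sum] at h2
  have key3 : ∀ᵐ x ∂μ, x ∈ Ω → φ x ∈ GoodSt k χ a s w → |D₁ x k| ≤ ε * |D x k| := by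
    have hT : NullMeasurableSet (φ ⁻¹' GoodSt k χ a s w) (μ.restrict Ω) :=
      (hφ.aestronglyMeasurable hΩ.measurableSet).aemeasurable.nullMeasurable
        (isOpen_goodSt hs hw hw1).measurableSet
    have h1 := comp_aniso hΩ hD hφ (S := univ) (fun x _ => mem_univ _)
        (θ := fun y => St k χ a s w ε y k) (hci k) (hD₁ k) (T := φ ⁻¹' GoodSt k χ a s w)
        hT (b := fun _ _ => 0) (A := fun _ j => (if j = k then ε else 0))
        (fun _ => aemeasurable_const) (fun _ => aemeasurable_const) (by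
          intro x _ hxT
          have h2 : ∀ᶠ y' in 𝓝 (φ x), χ y' = 1 := hxT.1
          have h3 : ∀ᶠ y' in 𝓝 (φ x), sg a s w ε (y' k) - sg a s w ε (φ x k) =
              ε * (y' k - φ x k) :=
            ((continuous_coord k).tendsto (φ x)).eventually
              (sg_off_slope hs hw hw1 hε hε1 hxT.2)
          filter_upwards [nhdsWithin_le_nhds h2, nhdsWithin_le_nhds h3] with y' b1 b2
          simp only [zero_mul, Finset.sum_const_zero, sub_zero, ite_mul]
          rw [Finset.sum_ite_eq' Finset.univ k, if_pos (Finset.mem_univ k), St_k, St_k, b1,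
            h2.self_of_nhds]
          have e1 : y' k + 1 * (sg a s w ε (y' k) - y' k) -
              (φ x k + 1 * (sg a s w ε (φ x k) - φ x k)) =
              sg a s w ε (y' k) - sg a s w ε (φ x k) := by ring
          rw [e1, b2, abs_mul, abs_of_nonneg hε])
    filter_upwards [h1] with x hx hxΩ hxT
    have h2 := hx hxΩ hxT
    simp only [zero_mul, Finset.sum_const_zero, sub_zero, ite_mul] at h2
    rwa [Finset.sum_ite_eq' Finset.univ k, if_pos (Finset.mem_univ k)] at h2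
  filter_upwards [ae_all_iff.2 key1, key2, key3] with x h1 h2 h3 hx
  exact ⟨fun i hi => h1 i hi hx, h2 hx, h3 hx⟩

end

/-! ### near isometry near the horizontal walls -/

/-- near-isometry in the coordinate `i`, with the actual width -/
theorem abs_psh_sub_sub_le' {Q C : Box ι} (h : Nest C Q) (y y' : ι → ℝ) (ht : 0 ≤ tt Q C y)
    (hW : ∀ i, 0 < C.W i) (ht' : 0 ≤ tt Q C y') (ht1' : tt Q C y' ≤ 1) (i : ι) {G : ℝ}
    (hG1 : Q.hi i - C.hi i ≤ G) (hG2 : C.lo i - Q.lo i ≤ G) :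
    |psh Q C y' i - psh Q C y i - (y' i - y i)| ≤
      (Q.W i / ww Q C i (tt Q C y') - 1) * |y' i - y i| +
      (Q.W i / ww Q C i (tt Q C y')) * (|tt Q C y' - tt Q C y| * G) := by
  obtain ⟨l, hl, he⟩ := psh_sub h y y' ht (Or.inr hW) ht' (Or.inr hW) i
  have hw' := ww_pos h i ht' (Or.inr hW)
  set a := Q.W i / ww Q C i (tt Q C y') with ha
  have hCW : C.W i ≤ Q.W i := by
    unfold Box.W
    have := h.g1 i; have := h.g2 i; linarith
  have hw1 : ww Q C i (tt Q C y') ≤ Q.W i := by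
    rw [ww_eq]; nlinarith
  have ha1 : 1 ≤ a := by rw [ha, le_div_iff₀ hw', one_mul]; exact hw1
  have e1 : psh Q C y' i - psh Q C y i - (y' i - y i) = (a - 1) * (y' i - y i) +
      a * ((tt Q C y' - tt Q C y) * ((1 - l) * (C.lo i - Q.lo i) - l * (Q.hi i - C.hi i))) := by
    rw [he]; ring
  rw [e1]
  apply (abs_add_le _ _).trans
  apply add_le_add
  · rw [abs_mul, abs_of_nonneg (by linarith)]
  · rw [abs_mul, abs_of_nonneg (by linarith), abs_mul]
    apply mul_le_mul_of_nonneg_left _ (by linarith)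
    exact mul_le_mul_of_nonneg_left (abs_gap_le (h.g2 i).le (h.g1 i).le hl hG2 hG1)
      (abs_nonneg _)

/-- the gauge is attained only in the direction `k`, value `> t₀` -/
def Hor (Q C : Box ι) (k : ι) (t₀ : ℝ) (y : ι → ℝ) : Prop :=
  t₀ < gg Q C y k ∧ ∀ i, i ≠ k → gg Q C y i < gg Q C y k

theorem Hor.tt_eq {Q C : Box ι} {k : ι} {t₀ : ℝ} {y : ι → ℝ} (h : Hor Q C k t₀ y) :
    tt Q C y = gg Q C y k := by
  apply le_antisymm
  · rw [tt_le_iff]
    intro i
    by_cases hi : i = k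
    · rw [hi]
    · exact (h.2 i hi).le
  · exact gg_le_tt Q C y k

theorem continuous_gg (Q C : Box ι) (i : ι) : Continuous fun y : ι → ℝ => gg Q C y i := by
  unfold gg; fun_prop

theorem Hor.eventually {Q C : Box ι} {k : ι} {t₀ : ℝ} {y : ι → ℝ} (h : Hor Q C k t₀ y) :
    ∀ᶠ y' in 𝓝 y, Hor Q C k t₀ y' := by
  have h1 : ∀ᶠ y' in 𝓝 y, t₀ < gg Q C y' k :=
    (isOpen_lt continuous_const (continuous_gg Q C k)).mem_nhds h.1
  have h2 : ∀ᶠ y' in 𝓝 y, ∀ i, i ≠ k → gg Q C y' i < gg Q C y' k := by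
    rw [eventually_all]
    intro i
    by_cases hi : i = k
    · exact Eventually.of_forall fun _ h => absurd hi h
    · filter_upwards [(isOpen_lt (continuous_gg Q C i) (continuous_gg Q C k)).mem_nhds
        (h.2 i hi)] with y' hy' _ using hy'
  filter_upwards [h1, h2] with y' a b using ⟨a, b⟩

theorem Hor.incr {P : Finset ι} {c₀ κ ρ : ℝ} {Q C : Box ι} (hS : Shape P c₀ κ ρ Q C) {k : ι}
    {t₀ : ℝ} (ht0 : 0 < t₀) {y y' : ι → ℝ} (h : Hor Q C k t₀ y) (h' : Hor Q C k t₀ y')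
    (hy1 : tt Q C y ≤ 1) (hy1' : tt Q C y' ≤ 1) :
    (∀ i, i ≠ k → |psh Q C y' i - psh Q C y i - (y' i - y i)| ≤
      (1 / t₀ - 1) * |y' i - y i| + 1 / (t₀ * c₀) * |y' k - y k|) ∧
    |psh Q C y' k - psh Q C y k| ≤ (1 / t₀ * (1 + 1 / c₀)) * |y' k - y k| := by
  have hN := hS.nest
  have hc := hS.c0
  have hr := hS.r0
  have ht : t₀ < tt Q C y := by rw [h.tt_eq]; exact h.1
  have ht' : t₀ < tt Q C y' := by rw [h'.tt_eq]; exact h'.1
  have hdt : |tt Q C y' - tt Q C y| ≤ |y' k - y k| / (c₀ * ρ) := by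
    rw [h.tt_eq, h'.tt_eq]
    have g0 : 0 < c₀ * ρ := mul_pos hc hr
    rw [abs_le]
    have a1 := gg_lip hN y y' k g0 (hS.hi1 k) (hS.lo1 k)
    have a2 := gg_lip hN y' y k g0 (hS.hi1 k) (hS.lo1 k)
    rw [abs_sub_comm] at a2
    constructor <;> linarith
  have hdtρ : |tt Q C y' - tt Q C y| * ρ ≤ 1 / c₀ * |y' k - y k| := by
    refine (mul_le_mul_of_nonneg_right hdt hr.le).trans (le_of_eq ?_)
    field_simp
  have hrat : ∀ i, Q.W i / ww Q C i (tt Q C y') ≤ 1 / t₀ := by
    intro i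
    have hw := ww_pos hN i (ht0.le.trans ht'.le) (Or.inl (ht0.trans ht'))
    rw [div_le_div_iff₀ hw ht0, one_mul, ww_eq]
    have h1 := hS.CW i
    have h2 := hS.W0 i
    have h3 : C.W i ≤ Q.W i := by
      have := hN.g1 i; have := hN.g2 i; unfold Box.W; linarith
    nlinarith
  have hrat0 : ∀ i, 0 ≤ Q.W i / ww Q C i (tt Q C y') := fun i =>
    div_nonneg (hS.W0 i).le (ww_pos hN i (ht0.le.trans ht'.le) (Or.inl (ht0.trans ht'))).le
  constructor
  · intro i hi
    refine (abs_psh_sub_sub_le' hN y y' (ht0.trans ht).le hS.CW (ht0.trans ht').le hy1' i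
      (hS.hi2 i) (hS.lo2 i)).trans (add_le_add ?_ ?_)
    · exact mul_le_mul_of_nonneg_right (by linarith [hrat i]) (abs_nonneg _)
    · calc _ ≤ 1 / t₀ * (1 / c₀ * |y' k - y k|) :=
            mul_le_mul (hrat i) hdtρ (by positivity) (by positivity)
        _ = _ := by field_simp
  · refine (abs_psh_sub_le hN y y' (ht0.trans ht).le (Or.inr hS.CW) (ht0.trans ht').le
      (Or.inr hS.CW) k (hS.hi2 k) (hS.lo2 k)).trans ?_
    calc _ ≤ 1 / t₀ * (|y' k - y k| + 1 / c₀ * |y' k - y k|) :=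
          mul_le_mul (hrat k) (add_le_add le_rfl hdtρ) (by positivity) (by positivity)
      _ = _ := by ring

variable {Λ : Set (EE ι)} {I : Type*} [Countable I] {Q C B : I → Box ι} {P : Finset ι} {c₀ : ℝ}
  {κ ρ : I → ℝ}

/-- the horizontal set -/
def HorS (Q C : I → Box ι) (k : ι) (t₀ : ℝ) : Set (EE ι) :=
  {y | ∀ c, y ∈ SE (Q c) → Hor (Q c) (C c) k t₀ (co y)}

theorem measurableSet_HorS (k : ι) (t₀ : ℝ) : MeasurableSet (HorS Q C k t₀) := by
  have h1 : HorS Q C k t₀ = ⋂ c, ((SE (Q c))ᶜ ∪ co ⁻¹' {y | Hor (Q c) (C c) k t₀ y}) := by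
    ext y
    simp only [HorS, mem_ofPred_eq, mem_iInter, mem_union, mem_compl_iff, mem_preimage]
    apply forall_congr'
    intro c
    exact imp_iff_not_or
  rw [h1]
  refine MeasurableSet.iInter fun c => (isClosed_SE _).measurableSet.compl.union ?_
  have h2 : IsOpen {y : ι → ℝ | Hor (Q c) (C c) k t₀ y} := by
    rw [isOpen_iff_mem_nhds]
    intro y hy
    exact Hor.eventually hy
  exact (h2.preimage continuous_co).measurableSet

/-- **near isometry** -/
theorem FoamC.bound_hor (h : FoamC Λ Q C B P c₀ κ ρ) (hΛ : IsOpen Λ) {Ω : Set E}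
    (hΩ : IsOpen Ω) {φ D D' : E → EE ι} {e : E} (hφ : ContinuousOn φ Ω) (hD : VWD Ω μ φ D e)
    (hD' : VWD (Ω ∩ φ ⁻¹' (Pun Λ B)) μ (fun x => Psi Q C B (φ x)) D' e) (k : ι) {t₀ : ℝ}
    (ht0 : 0 < t₀) :
    ∀ᵐ x ∂μ, x ∈ Ω ∩ φ ⁻¹' (Pun Λ B) → φ x ∈ HorS Q C k t₀ →
      (∀ i, i ≠ k → |D' x i - D x i| ≤ (1 / t₀ - 1) * |D x i| + 1 / (t₀ * c₀) * |D x k|) ∧
      |D' x k| ≤ (1 / t₀ * (1 + 1 / c₀)) * |D x k| := by
  have hO := h.isOpen_dom hΛ hΩ hφ
  have hφ' := hφ.mono (inter_subset_left (t := φ ⁻¹' (Pun Λ B)))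
  have hnear : ∀ y ∈ Pun Λ B, y ∈ HorS Q C k t₀ → ∀ᶠ y' in 𝓝[Pun Λ B] y,
      (∀ i, i ≠ k → |Psi Q C B y' i - Psi Q C B y i - (y' i - y i)| ≤
        (1 / t₀ - 1) * |y' i - y i| + 1 / (t₀ * c₀) * |y' k - y k|) ∧
      |Psi Q C B y' k - Psi Q C B y k| ≤ (1 / t₀ * (1 + 1 / c₀)) * |y' k - y k| := by
    intro y hy hyH
    apply h.fine.eventually sdiff_subset hy
    rintro ⟨c, b⟩ hc
    cases b
    · have h1 : y ∈ SE (Q c) \ IE (C c) := hc
      have hH := hyH c h1.1
      filter_upwards [self_mem_nhdsWithin, nhdsWithin_le_nhds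
        (continuous_co.continuousAt.eventually (Hor.eventually hH))] with y' hy' hev'
      have h2 : y' ∈ SE (Q c) \ IE (C c) := hy'.1
      have hs := h.shape c
      have key := Hor.incr hs ht0 hH hev' ((tt_le_one_iff hs.nest _).2 h1.1)
        ((tt_le_one_iff hs.nest _).2 h2.1)
      simp only [h.Psi_apply h1.1, h.Psi_apply h2.1, psi_out (h.inner c).nest h1.2,
        psi_out (h.inner c).nest h2.2]
      exact key
    · exfalso
      have h1 : y ∈ SE (C c) := hc
      have hH := hyH c (IE_subset_SE _ (h.core_sub c h1))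
      have h2 := (tt_le_zero_iff (h.shape c).nest (co y)).2 h1
      rw [hH.tt_eq] at h2
      linarith [hH.1]
  have hsum : ∀ (i : ι) (f : ι → ℝ), ∑ j, (if j = i then (1:ℝ) else 0) * f j = f i := by
    intro i f; simp
  have hsum2 : ∀ (i : ι), i ≠ k → ∀ (K L : ℝ) (f : ι → ℝ),
      ∑ j, (if j = i then K else if j = k then L else 0) * f j = K * f i + L * f k := by
    intro i hi K L f
    have e1 : ∀ j, (if j = i then K else if j = k then L else 0) * f j =
        (if j = i then K * f j else 0) + (if j = k then L * f j else 0) := by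
      intro j
      by_cases hj : j = i
      · subst hj; simp [hi]
      · by_cases hj2 : j = k
        · subst hj2; simp [hj]
        · simp [hj, hj2]
    rw [Finset.sum_congr rfl fun j _ => e1 j, Finset.sum_add_distrib]
    simp
  have hT := h.nm (μ := μ) hO hφ' (measurableSet_HorS (Q := Q) (C := C) k t₀)
  have key1 : ∀ i, ∀ᵐ x ∂μ, i ≠ k → x ∈ Ω ∩ φ ⁻¹' (Pun Λ B) → φ x ∈ HorS Q C k t₀ →
      |D' x i - D x i| ≤ (1 / t₀ - 1) * |D x i| + 1 / (t₀ * c₀) * |D x k| := by
    intro i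
    by_cases hi : i = k
    · exact Eventually.of_forall fun x h => absurd hi h
    · have h1 := comp_aniso hO (fun i => wd_mono (hD i) inter_subset_left) hφ' (S := Pun Λ B)
        (fun x hx => hx.2) (θ := fun y => Psi Q C B y i)
        (continuousOn_comp_apply (h.continuousOn_Psi hΛ) i) (hD' i) hT
        (b := fun _ j => if j = i then (1:ℝ) else 0)
        (A := fun _ j => if j = i then 1 / t₀ - 1 else if j = k then 1 / (t₀ * c₀) else 0)
        (fun _ => aemeasurable_const) (fun _ => aemeasurable_const) (by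
          intro x hx hxT
          filter_upwards [hnear (φ x) hx.2 hxT] with y' hy'
          rw [hsum, hsum2 i hi]
          exact hy'.1 i hi)
      filter_upwards [h1] with x hx _ hx1 hx2
      have h2 := hx hx1 hx2
      rwa [hsum, hsum2 i hi] at h2
  have key2 : ∀ᵐ x ∂μ, x ∈ Ω ∩ φ ⁻¹' (Pun Λ B) → φ x ∈ HorS Q C k t₀ →
      |D' x k| ≤ (1 / t₀ * (1 + 1 / c₀)) * |D x k| := by
    have h1 := comp_aniso hO (fun i => wd_mono (hD i) inter_subset_left) hφ' (S := Pun Λ B)
        (fun x hx => hx.2) (θ := fun y => Psi Q C B y k)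
        (continuousOn_comp_apply (h.continuousOn_Psi hΛ) k) (hD' k) hT
        (b := fun _ _ => (0:ℝ))
        (A := fun _ j => if j = k then (1 / t₀ * (1 + 1 / c₀)) else 0)
        (fun _ => aemeasurable_const) (fun _ => aemeasurable_const) (by
          intro x hx hxT
          filter_upwards [hnear (φ x) hx.2 hxT] with y' hy'
          simp only [zero_mul, Finset.sum_const_zero, sub_zero, ite_mul]
          rw [Finset.sum_ite_eq' Finset.univ k, if_pos (Finset.mem_univ k)]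
          exact hy'.2)
    filter_upwards [h1] with x hx hx1 hx2
    have h2 := hx hx1 hx2
    simp only [zero_mul, Finset.sum_const_zero, sub_zero, ite_mul] at h2
    rwa [Finset.sum_ite_eq' Finset.univ k, if_pos (Finset.mem_univ k)] at h2
  filter_upwards [ae_all_iff.2 key1, key2] with x h1 h2 hx hxT
  exact ⟨fun i hi => h1 i hi hx hxT, h2 hx hxT⟩

end Crest.Agent.R96.Push_899
end
end

-- ▼ part R96/Push12_899

/-!
# Row 96, U2 PUSH (helper899), part 12: offsets by pigeonhole; uniform bricks; the main estimate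
for NO.
-/

set_option autoImplicit false
set_option linter.unusedSectionVars false
set_option linter.unusedVariables false

open MeasureTheory Set Filter Topology
open scoped NNReal ENNReal Function

noncomputable section

namespace Crest.Agent.R96.Push_899

open Crest.Agent.R96.Acl_392 Crest.Agent.R96.Sob1_199 Crest.Agent.R96.Sob2_199
  Crest.Agent.R96.Sob3_199 Crest.Agent.R96.Sob4_199 Crest.Agent.R96.Sob5_199

/-! ### pigeonhole -/

theorem pigeon {X : Type*} [MeasurableSpace X] (ν : Measure X) {m : ℕ} (hm : 0 < m)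
    (T : Fin m → Set X) (hT : ∀ j, NullMeasurableSet (T j) ν) (hd : Pairwise (Disjoint on T)) :
    ∃ j, ν (T j) ≤ ν univ / m := by
  have : Nonempty (Fin m) := ⟨⟨0, hm⟩⟩
  have hm0 : (m : ℝ≥0∞) ≠ 0 := by exact_mod_cast hm.ne'
  by_contra hcon
  push Not at hcon
  have h1 : ∑ _j : Fin m, ν univ / m < ∑ j, ν (T j) :=
    ENNReal.sum_lt_sum_of_nonempty Finset.univ_nonempty fun j _ => hcon j
  have h2 : ∑ _j : Fin m, ν univ / m = ν univ := by
    rw [Finset.sum_const, Finset.card_univ, Fintype.card_fin, nsmul_eq_mul]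
    exact ENNReal.mul_div_cancel hm0 (ENNReal.natCast_ne_top m)
  have h3 : ∑ j, ν (T j) ≤ ν univ := by
    have h4 : ν (⋃ j, T j) = ∑' j, ν (T j) :=
      measure_iUnion₀ (fun i j hij => (hd hij).aedisjoint) hT
    rw [tsum_fintype] at h4
    rw [← h4]
    exact measure_mono (subset_univ _)
  rw [h2] at h1
  exact absurd (h1.trans_le h3) (lt_irrefl _)

/-- `t` is within `r` of the lattice `b + λ ℤ`. -/
def Lat (lam b r t : ℝ) : Prop := ∃ n : ℤ, |t - (b + n * lam)| ≤ r

theorem measurableSet_Lat (lam b r : ℝ) : MeasurableSet {t : ℝ | Lat lam b r t} := by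
  have h1 : {t : ℝ | Lat lam b r t} = ⋃ n : ℤ, {t : ℝ | |t - (b + n * lam)| ≤ r} := by
    ext t; simp [Lat]
  rw [h1]
  refine MeasurableSet.iUnion fun n => IsClosed.measurableSet ?_
  exact isClosed_le (by fun_prop) continuous_const

theorem Lat_disj {lam b : ℝ} (hl : 0 < lam) {m : ℕ} (hm : 0 < m) {j j' : Fin m} (hj : j ≠ j')
    {t : ℝ} (h : Lat lam (b + j * lam / m) (lam / (4 * m)) t)
    (h' : Lat lam (b + j' * lam / m) (lam / (4 * m)) t) : False := by
  obtain ⟨n, hn⟩ := h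
  obtain ⟨n', hn'⟩ := h'
  have hm' : (0:ℝ) < m := by exact_mod_cast hm
  set x : ℤ := ((j:ℤ) - j') + (n - n') * m with hx
  have h1 : |(x : ℝ)| * (lam / m) ≤ lam / (2 * m) := by
    have e1 : (x : ℝ) * (lam / m) = (t - (b + j' * lam / m + n' * lam)) -
        (t - (b + j * lam / m + n * lam)) := by
      rw [hx]; push_cast; field_simp; ring
    have e2 : |(x : ℝ)| * (lam / m) = |(x : ℝ) * (lam / m)| := by
      rw [abs_mul, abs_of_pos (by positivity : (0:ℝ) < lam / m)]
    rw [e2, e1]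
    refine (abs_sub _ _).trans ?_
    have e3 : lam / (2 * m) = lam / (4 * m) + lam / (4 * m) := by field_simp; ring
    linarith
  have h2 : |(x : ℝ)| ≤ 1 / 2 := by
    have h3 : |(x : ℝ)| * (lam / m) ≤ 1 / 2 * (lam / m) := by
      refine h1.trans (le_of_eq ?_); field_simp
    exact le_of_mul_le_mul_right h3 (by positivity)
  have h4 : x = 0 := by
    by_contra hne
    have h5 : (1:ℤ) ≤ |x| := Int.one_le_abs hne
    have h6 : (1:ℝ) ≤ |(x : ℝ)| := by exact_mod_cast h5
    linarith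
  -- so j - j' is a multiple of m
  have hjj : ((j:ℤ) - j') = (n' - n) * m := by rw [hx] at h4; linarith
  have h7 : |((j:ℤ) - j')| < m := by
    have a1 := j.2
    have a2 := j'.2
    rw [abs_lt]; constructor <;> omega
  have h8 : n' - n = 0 := by
    by_contra hne
    have h9 : (1:ℤ) ≤ |n' - n| := Int.one_le_abs hne
    rw [hjj, abs_mul, Nat.abs_cast] at h7
    have : (m:ℤ) ≤ |n' - n| * m := le_mul_of_one_le_left (by positivity) h9
    linarith
  rw [h8, zero_mul] at hjj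
  apply hj
  apply Fin.ext
  omega

variable {E : Type*} [NormedAddCommGroup E] [NormedSpace ℝ E] [FiniteDimensional ℝ E]
  [MeasurableSpace E] [BorelSpace E] {μ : Measure E} [μ.IsAddHaarMeasure]

theorem exists_off {lam : ℝ} (hl : 0 < lam) {m : ℕ} (hm : 0 < m) (b : ℝ) {Ω : Set E}
    {u : E → ℝ} (hu : AEMeasurable u (μ.restrict Ω)) (hΩ : MeasurableSet Ω) :
    ∃ j : Fin m, μ (Ω ∩ {x | Lat lam (b + j * lam / m) (lam / (4 * m)) (u x)}) ≤ μ Ω / m := by
  have hnm : ∀ j : Fin m, NullMeasurableSet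
      {x | Lat lam (b + j * lam / m) (lam / (4 * m)) (u x)} (μ.restrict Ω) := fun j =>
    hu.nullMeasurable (measurableSet_Lat _ _ _)
  obtain ⟨j, hj⟩ := pigeon (μ.restrict Ω) hm
    (fun j : Fin m => {x | Lat lam (b + j * lam / m) (lam / (4 * m)) (u x)}) hnm (by
      intro j j' hjj
      change Disjoint _ _
      rw [Set.disjoint_left]
      intro x hx hx'
      exact Lat_disj hl hm hjj hx hx')
  refine ⟨j, ?_⟩
  rw [Measure.restrict_apply_univ] at hj
  have h1 := Measure.restrict_apply₀ (μ := μ) (s := Ω) (hnm j)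
  rw [inter_comm] at h1
  rw [← h1]
  exact hj

variable {ι : Type*} [Fintype ι] [Nonempty ι] [DecidableEq ι]

/-! ### uniform bricks -/

/-- a uniform brick: slab `[a_k + n s, a_k + (n+1) s]`, other walls in `a_i + (s/2) ℤ`. -/
structure Uni (k : ι) (a : ι → ℝ) (s : ℝ) (Q : Box ι) : Prop where
  lo_k : ∃ n : ℤ, Q.lo k = a k + n * s
  hi_k : Q.hi k = Q.lo k + s
  lo_i : ∀ i, i ≠ k → ∃ n : ℤ, Q.lo i = a i + n * (s / 2)
  hi_i : ∀ i, i ≠ k → ∃ n : ℤ, Q.hi i = a i + n * (s / 2)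

theorem hor_of_good {k : ι} {a : ι → ℝ} {s a0 κ η : ℝ} (hs : 0 < s) (ha0 : 1 ≤ a0) (hη : 0 < η)
    {Q C : Box ι} (hU : Uni k a s Q) (hA : ∀ i j, Q.W i ≤ a0 * Q.W j)
    (hS : Shape ∅ (1 / (8 * a0)) κ (side Q) Q C) {y : ι → ℝ} (hy : y ∈ Q.S) {N : ℤ}
    {ε : ℝ} (hε0 : 0 ≤ ε) (hε : ε ≤ η / (8 * a0 ^ 2)) (hε1 : ε < 1)
    (hyk : |y k - (a k + N * s)| ≤ ε * s / 2)
    (hyi : ∀ i, i ≠ k → ∀ n : ℤ, η * s < |y i - (a i + n * (s / 2))|) :
    Hor Q C k (1 - η / a0) y := by
  have a0p : 0 < a0 := by linarith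
  have hWk : Q.W k = s := by unfold Box.W; rw [hU.hi_k]; ring
  have hside1 : s ≤ side Q := by rw [← hWk]; exact W_le_side Q k
  have hside2 : side Q ≤ a0 * s := by
    rw [← hWk]; exact side_le fun j => hA j k
  have hgapk : ∀ g, 1 / (8 * a0) * side Q ≤ g → s / (8 * a0) ≤ g := by
    intro g hg
    refine le_trans ?_ hg
    rw [div_eq_mul_one_div, mul_comm]
    exact mul_le_mul_of_nonneg_left hside1 (by positivity)
  have hk1 := hgapk _ (hS.lo1 k)
  have hk2 := hgapk _ (hS.hi1 k)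
  have hb : ε * s / 2 ≤ η / (2 * a0) * (s / (8 * a0)) := by
    have h1 : ε * s / 2 ≤ η / (8 * a0 ^ 2) * s / 2 := by gcongr
    refine h1.trans (le_of_eq ?_)
    field_simp
  -- the gauge in direction k
  have hgk : 1 - η / (2 * a0) ≤ gg Q C y k := by
    obtain ⟨n, hn⟩ := hU.lo_k
    have hy1 := (hy k).1
    have hy2 := (hy k).2
    rw [hU.hi_k] at hy2
    rw [abs_le] at hyk
    have hεs : ε * s / 2 < s / 2 := by nlinarith
    have hcase : N ≤ n ∨ n + 1 ≤ N := by omega
    unfold gg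
    rcases hcase with h1 | h1
    · -- near the bottom
      have h2 : (N : ℝ) * s ≤ n * s := mul_le_mul_of_nonneg_right (by exact_mod_cast h1) hs.le
      have h3 : y k - Q.lo k ≤ ε * s / 2 := by rw [hn]; linarith [hyk.2]
      refine le_trans ?_ (le_max_right _ _)
      rw [le_div_iff₀ (hS.nest.g2 k)]
      have h4 : η / (2 * a0) * (s / (8 * a0)) ≤ η / (2 * a0) * (C.lo k - Q.lo k) :=
        mul_le_mul_of_nonneg_left hk1 (by positivity)
      linarith
    · have h2 : ((n : ℝ) + 1) * s ≤ N * s := mul_le_mul_of_nonneg_right (by exact_mod_cast h1) hs.le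
      have h3 : Q.hi k - y k ≤ ε * s / 2 := by rw [hU.hi_k, hn]; linarith [hyk.1]
      refine le_trans ?_ (le_max_left _ _)
      rw [le_div_iff₀ (hS.nest.g1 k)]
      have h4 : η / (2 * a0) * (s / (8 * a0)) ≤ η / (2 * a0) * (Q.hi k - C.hi k) :=
        mul_le_mul_of_nonneg_left hk2 (by positivity)
      linarith
  have hlt : η / (2 * a0) < η / a0 := by
    apply div_lt_div_of_pos_left hη a0p; linarith
  refine ⟨by linarith, fun i hi => lt_of_lt_of_le ?_ hgk⟩
  have hgi : gg Q C y i < 1 - η / a0 := by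
    obtain ⟨n1, hn1⟩ := hU.lo_i i hi
    obtain ⟨n2, hn2⟩ := hU.hi_i i hi
    have hy1 := hyi i hi n1
    have hy2 := hyi i hi n2
    rw [← hn1, abs_of_nonneg (by linarith [(hy i).1])] at hy1
    rw [← hn2, abs_sub_comm, abs_of_nonneg (by linarith [(hy i).2])] at hy2
    have g1 := (hS.hi2 i).trans hside2
    have g2 := (hS.lo2 i).trans hside2
    unfold gg
    apply max_lt
    · rw [div_lt_iff₀ (hS.nest.g1 i)]
      have h4 : η / a0 * (Q.hi i - C.hi i) ≤ η * s := by
        calc _ ≤ η / a0 * (a0 * s) := mul_le_mul_of_nonneg_left g1 (by positivity)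
          _ = _ := by field_simp
      linarith
    · rw [div_lt_iff₀ (hS.nest.g2 i)]
      have h4 : η / a0 * (C.lo i - Q.lo i) ≤ η * s := by
        calc _ ≤ η / a0 * (a0 * s) := mul_le_mul_of_nonneg_left g2 (by positivity)
          _ = _ := by field_simp
      linarith
  linarith

/-! ### real estimates -/

theorem good_real {n a0 η t₀ : ℝ} {k : ι} (hn : (Fintype.card ι : ℝ) = n) (ha0 : 1 ≤ a0)
    (hη : 0 < η) (hη1 : η ≤ 1 / 2) (ht : t₀ = 1 - η / a0) {D D₁ D' v : EE ι} (hv : v k = 0)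
    (h1 : ∀ i, i ≠ k → D₁ i = D i) (h2 : |D₁ k| ≤ |D k|)
    (h3 : ∀ i, i ≠ k → |D' i - D₁ i| ≤ (1 / t₀ - 1) * |D₁ i| +
      1 / (t₀ * (1 / (8 * a0))) * |D₁ k|)
    (h4 : |D' k| ≤ (1 / t₀ * (1 + 1 / (1 / (8 * a0)))) * |D₁ k|) :
    ‖D' - v‖ ≤ (18 * a0 * n) * ‖D - v‖ + (2 * n * η) * ‖v‖ := by
  have a0p : 0 < a0 := by linarith
  have hηa : η / a0 ≤ η := div_le_self hη.le ha0
  have hηa0 : 0 < η / a0 := by positivity
  have ht0 : 1 / 2 ≤ t₀ := by rw [ht]; linarith
  have ht0' : 0 < t₀ := by linarith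
  have e1 : 1 / t₀ - 1 ≤ 2 * η := by
    rw [sub_le_iff_le_add, div_le_iff₀ ht0', ht]
    nlinarith
  have e2 : 1 / (t₀ * (1 / (8 * a0))) ≤ 16 * a0 := by
    have : 1 / (t₀ * (1 / (8 * a0))) = 8 * a0 / t₀ := by field_simp
    rw [this, div_le_iff₀ ht0']; nlinarith
  have e3 : 1 / t₀ * (1 + 1 / (1 / (8 * a0))) ≤ 18 * a0 := by
    have h5 : 1 / (1 / (8 * a0)) = 8 * a0 := by field_simp
    rw [h5, div_mul_eq_mul_div, one_mul, div_le_iff₀ ht0']; nlinarith
  have hDk : |D₁ k| ≤ ‖D - v‖ := by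
    have := abs_le_norm (D - v) k
    rw [PiLp.sub_apply, hv, sub_zero] at this
    exact h2.trans this
  have hi : ∀ i, |(D' - v) i| ≤ 18 * a0 * ‖D - v‖ + 2 * η * ‖v‖ := by
    intro i
    rw [PiLp.sub_apply]
    by_cases hik : i = k
    · subst hik
      rw [hv, sub_zero]
      have h5 : |D' i| ≤ 18 * a0 * ‖D - v‖ := h4.trans
        (mul_le_mul e3 hDk (abs_nonneg _) (by positivity))
      have h6 : 0 ≤ 2 * η * ‖v‖ := by positivity
      linarith
    · have h5 := abs_le_norm (D - v) i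
      rw [PiLp.sub_apply] at h5
      have h6 := abs_le_norm v i
      have h7 : |D i| ≤ ‖v‖ + ‖D - v‖ := by
        have := abs_add_le (v i) (D i - v i)
        rw [add_sub_cancel] at this
        linarith
      have h8 := h3 i hik
      rw [h1 i hik] at h8
      have h9 : (1 / t₀ - 1) * |D i| ≤ 2 * η * (‖v‖ + ‖D - v‖) :=
        (mul_le_mul_of_nonneg_right e1 (abs_nonneg _)).trans
          (mul_le_mul_of_nonneg_left h7 (by positivity))
      have h10 : 1 / (t₀ * (1 / (8 * a0))) * |D₁ k| ≤ 16 * a0 * ‖D - v‖ :=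
        mul_le_mul e2 hDk (abs_nonneg _) (by positivity)
      have h11 : |D' i - v i| ≤ |D' i - D i| + |D i - v i| := by
        have := abs_add_le (D' i - D i) (D i - v i)
        rwa [sub_add_sub_cancel] at this
      have hnn := norm_nonneg (D - v)
      nlinarith
  refine (norm_le_sum _).trans ((Finset.sum_le_sum fun i _ => hi i).trans ?_)
  rw [Finset.sum_const, Finset.card_univ, nsmul_eq_mul, hn]
  exact le_of_eq (by ring)

theorem bad_real {n w Ls : ℝ} {k : ι} (hn : (Fintype.card ι : ℝ) = n) (hw : 0 < w)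
    (hLs : 0 ≤ Ls) (hLs1 : Ls ≤ 1) {D D₁ v : EE ι} (hv : v k = 0)
    (h1 : ∀ i, i ≠ k → D₁ i = D i) (h2 : |D₁ k| ≤ 1 / (2 * w) * |D k| + Ls * ∑ j, |D j|) :
    ‖D₁‖ ≤ (2 * n) * ‖v‖ + (2 * n + 1 / (2 * w)) * ‖D - v‖ := by
  have hn0 : 0 ≤ n := by rw [← hn]; positivity
  have hDk : |D k| ≤ ‖D - v‖ := by
    have := abs_le_norm (D - v) k
    rwa [PiLp.sub_apply, hv, sub_zero] at this
  have hD : ‖D‖ ≤ ‖v‖ + ‖D - v‖ := by
    have := norm_add_le v (D - v)
    rwa [add_sub_cancel] at this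
  have hs : ∑ j, |D j| ≤ n * ‖D‖ := by rw [← hn]; exact sum_abs_le D
  have hk : |D₁ k| ≤ 1 / (2 * w) * ‖D - v‖ + n * ‖D‖ := by
    refine h2.trans (add_le_add (mul_le_mul_of_nonneg_left hDk (by positivity)) ?_)
    calc _ ≤ 1 * (n * ‖D‖) := mul_le_mul hLs1 hs (Finset.sum_nonneg fun _ _ => abs_nonneg _)
          zero_le_one
      _ = _ := one_mul _
  have hall : ∀ i, |D₁ i| ≤ ‖D‖ + (if i = k then 1 / (2 * w) * ‖D - v‖ + n * ‖D‖ else 0) := by
    intro i
    split_ifs with hi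
    · rw [hi]; linarith [norm_nonneg D]
    · rw [h1 i hi, add_zero]; exact abs_le_norm D i
  refine (norm_le_sum _).trans ((Finset.sum_le_sum fun i _ => hall i).trans ?_)
  rw [Finset.sum_add_distrib, Finset.sum_const, Finset.card_univ, nsmul_eq_mul, hn,
    Finset.sum_ite_eq' Finset.univ k, if_pos (Finset.mem_univ k)]
  have := mul_le_mul_of_nonneg_left hD hn0
  linarith

/-- `(a + b)^p ≤ 2^p (a^p + b^p)` for extended norms -/
theorem enorm_two {F : Type*} [NormedAddCommGroup F] {u x y : F} {A B p : ℝ} (hp : 0 ≤ p)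
    (hA : 0 ≤ A) (hB : 0 ≤ B) (h : ‖u‖ ≤ A * ‖x‖ + B * ‖y‖) :
    ‖u‖ₑ ^ p ≤ ENNReal.ofReal ((2 * A) ^ p) * ‖x‖ₑ ^ p +
      ENNReal.ofReal ((2 * B) ^ p) * ‖y‖ₑ ^ p := by
  have key : ∀ (c : ℝ) (v : F), 0 ≤ c → ‖u‖ ≤ c * ‖v‖ →
      ‖u‖ₑ ^ p ≤ ENNReal.ofReal (c ^ p) * ‖v‖ₑ ^ p := by
    intro c v hc h1
    rw [← ofReal_norm v, ENNReal.ofReal_rpow_of_nonneg (norm_nonneg _) hp,
      ← ENNReal.ofReal_mul (by positivity), ← Real.mul_rpow hc (norm_nonneg _)]
    exact enorm_rpow_le hp h1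
  rcases le_total (A * ‖x‖) (B * ‖y‖) with h1 | h1
  · refine (key (2 * B) y (by positivity) (by linarith)).trans ?_
    exact le_add_self
  · refine (key (2 * A) x (by positivity) (by linarith)).trans ?_
    exact le_self_add

end Crest.Agent.R96.Push_899
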