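import Mathlib
import Crest.Agent.R96.Sob5_199
import Crest.Agent.R96.Str2_520
import Crest.Agent.R96.Push16_899

-- ▼ part R96/Push21_899
section

/-!
# Row 96, U2 PUSH (helper899), part 21: rigidity.

`f₂` uniformly close to `f₁`, `‖D f₂‖ ≤ (1 + β) ‖D f₁‖` on most of `Ω`, `D f₁` close to the constant
vector `v` in `L^p`: then `D f₂` is close to `v` in `L^p`.
-/

set_option autoImplicit false
set_option linter.unusedSectionVars false
set_option linter.unusedVariables false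

open MeasureTheory Set Filter Topology
open scoped NNReal ENNReal ContDiff

noncomputable section

namespace Crest.Agent.R96.Push_899

open Crest.Agent.R96.Acl_392 Crest.Agent.R96.Sob1_199 Crest.Agent.R96.Sob2_199
  Crest.Agent.R96.Sob3_199 Crest.Agent.R96.Sob4_199 Crest.Agent.R96.Sob5_199

/-! ### pointwise part -/

/-- the constant -/
def rigK (lam V p : ℝ) : ℝ := (lam * V) ^ (p - 2) + (3 * V) ^ (p - 2)

theorem rigK_pos {lam V p : ℝ} (hl : 0 < lam) (hV : 0 < V) : 0 < rigK lam V p := by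
  unfold rigK; positivity

theorem rig_tp {lam V p t : ℝ} (hl : 0 < lam) (hV : 0 < V) (hp : 0 ≤ p) (ht : 0 ≤ t)
    (ht3 : t ≤ 3 * V) : t ^ p ≤ (lam * V) ^ p + rigK lam V p * t ^ 2 := by
  have hlV : 0 < lam * V := mul_pos hl hV
  rcases le_or_gt t (lam * V) with h | h
  · have h1 : t ^ p ≤ (lam * V) ^ p := Real.rpow_le_rpow ht h hp
    have h2 : 0 ≤ rigK lam V p * t ^ 2 := mul_nonneg (rigK_pos hl hV).le (sq_nonneg t)
    linarith
  · have ht0 : 0 < t := hlV.trans h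
    have e1 : t ^ p = t ^ (p - 2) * t ^ 2 := by
      rw [← Real.rpow_natCast t 2, ← Real.rpow_add ht0]; norm_num
    have h3 : t ^ (p - 2) ≤ rigK lam V p := by
      unfold rigK
      rcases le_total 0 (p - 2) with h4 | h4
      · have := Real.rpow_le_rpow ht ht3 h4
        have := (Real.rpow_pos_of_pos hlV (p - 2)).le
        linarith
      · have := Real.rpow_le_rpow_of_nonpos hlV h.le h4
        have h5 : 0 < (3 * V) ^ (p - 2) := Real.rpow_pos_of_pos (by positivity) _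
        linarith
    have h4 := mul_le_mul_of_nonneg_right h3 (sq_nonneg t)
    have h5 : 0 ≤ (lam * V) ^ p := (Real.rpow_pos_of_pos hlV p).le
    rw [e1]; linarith

theorem rig_l1 {r p t : ℝ} (hr : 0 < r) (hp : 1 ≤ p) (ht : 0 ≤ t) :
    t ≤ r + r ^ (1 - p) * t ^ p := by
  rcases le_or_gt t r with h | h
  · have : 0 ≤ r ^ (1 - p) * t ^ p := by positivity
    linarith
  · have ht0 : 0 < t := hr.trans h
    have h1 : t ^ (1 - p) ≤ r ^ (1 - p) := Real.rpow_le_rpow_of_nonpos hr h.le (by linarith)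
    have e1 : t = t ^ (1 - p) * t ^ p := by
      rw [← Real.rpow_add ht0]; norm_num
    have h2 : t ^ (1 - p) * t ^ p ≤ r ^ (1 - p) * t ^ p :=
      mul_le_mul_of_nonneg_right h1 (by positivity)
    linarith

/-- good points -/
theorem rig_good {H : Type*} [NormedAddCommGroup H] [InnerProductSpace ℝ H] {u w v : H}
    {V τ lam p ψ : ℝ} (hV : ‖v‖ = V) (hV0 : 0 < V) (hτ : 0 < τ)
    (hτ1 : τ ≤ 1 / 4) (hlam : 0 < lam) (hp : 1 ≤ p) (hψ0 : 0 ≤ ψ) (hψ1 : ψ ≤ 1)
    (hg : ‖w‖ ≤ (1 + τ) * ‖u‖) (hn : ‖u - v‖ ≤ τ * V) :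
    ‖w - v‖ ^ p ≤ (lam * V) ^ p +
      rigK lam V p * (8 * τ * V ^ 2 + 2 * (ψ * (V ^ 2 - inner ℝ w v))) +
      (3 * V) ^ p * (1 - ψ) := by
  have hK0 := rigK_pos (p := p) hlam hV0
  have hu1 : ‖u‖ ≤ V + ‖u - v‖ := by
    have := norm_add_le v (u - v)
    rw [add_sub_cancel, hV] at this
    exact this
  have hwv : ‖w - v‖ ^ 2 = ‖w‖ ^ 2 - 2 * inner ℝ w v + V ^ 2 := by
    rw [← hV]; exact norm_sub_sq_real w v
  have hu2 : ‖u‖ ≤ (1 + τ) * V := by linarith
  have hw2 : ‖w‖ ≤ (1 + τ) * ((1 + τ) * V) :=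
    hg.trans (mul_le_mul_of_nonneg_left hu2 (by linarith))
  have h3 : ‖w‖ ^ 2 ≤ (1 + 8 * τ) * V ^ 2 := by
    have h4 : ‖w‖ ^ 2 ≤ ((1 + τ) * ((1 + τ) * V)) ^ 2 := by gcongr
    refine h4.trans ?_
    have h5 : (1 + τ) ^ 4 ≤ 1 + 8 * τ := by
      have c1 : (1 + τ) ^ 2 ≤ 1 + 9 / 4 * τ := by nlinarith
      have c2 : (1 + 9 / 4 * τ) ^ 2 ≤ 1 + 8 * τ := by nlinarith
      calc (1 + τ) ^ 4 = ((1 + τ) ^ 2) ^ 2 := by ring
        _ ≤ (1 + 9 / 4 * τ) ^ 2 := by gcongr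
        _ ≤ _ := c2
    calc ((1 + τ) * ((1 + τ) * V)) ^ 2 = (1 + τ) ^ 4 * V ^ 2 := by ring
      _ ≤ _ := mul_le_mul_of_nonneg_right h5 (sq_nonneg V)
  have ht3 : ‖w - v‖ ≤ 3 * V := by
    have h6 : ‖w - v‖ ≤ ‖w‖ + V := by rw [← hV]; exact norm_sub_le w v
    have h7 : (1 + τ) * ((1 + τ) * V) ≤ 2 * V := by
      have : (1 + τ) * (1 + τ) ≤ 2 := by nlinarith
      rw [← mul_assoc]
      exact mul_le_mul_of_nonneg_right this hV0.le
    linarith
  have h4 := rig_tp (lam := lam) (V := V) (p := p) hlam hV0 (by linarith)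
    (norm_nonneg (w - v)) ht3
  have h5 : ‖w - v‖ ^ 2 ≤ 8 * τ * V ^ 2 + 2 * (V ^ 2 - inner ℝ w v) := by
    rw [hwv]; linarith
  have h6 : ‖w - v‖ ^ p ≤ (3 * V) ^ p := Real.rpow_le_rpow (norm_nonneg _) ht3 (by linarith)
  have l0 : 0 ≤ (lam * V) ^ p := Real.rpow_nonneg (mul_pos hlam hV0).le _
  generalize rigK lam V p = K at *
  generalize (lam * V) ^ p = L at *
  generalize (3 * V) ^ p = M at *
  generalize ‖w - v‖ ^ p = T at *
  generalize ‖w - v‖ = t at *
  generalize inner ℝ w v = I at *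
  have h7 : ψ * T ≤ L + K * (8 * τ * V ^ 2 + 2 * (ψ * (V ^ 2 - I))) := by
    have a1 : ψ * T ≤ ψ * (L + K * t ^ 2) := mul_le_mul_of_nonneg_left h4 hψ0
    have a2 : ψ * L ≤ L := mul_le_of_le_one_left l0 hψ1
    have a3 : ψ * t ^ 2 ≤ 8 * τ * V ^ 2 + 2 * (ψ * (V ^ 2 - I)) := by
      have b1 := mul_le_mul_of_nonneg_left h5 hψ0
      have b2 : ψ * (8 * τ * V ^ 2) ≤ 8 * τ * V ^ 2 := mul_le_of_le_one_left (by positivity) hψ1
      linarith
    have a4 := mul_le_mul_of_nonneg_left a3 hK0.le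
    have a5 : ψ * (L + K * t ^ 2) = ψ * L + K * (ψ * t ^ 2) := by ring
    linarith
  have h8 : (1 - ψ) * T ≤ M * (1 - ψ) := by
    rw [mul_comm]
    exact mul_le_mul_of_nonneg_right h6 (by linarith)
  have h12 : T = ψ * T + (1 - ψ) * T := by ring
  linarith

/-- bad points -/
theorem rig_bad {H : Type*} [NormedAddCommGroup H] [InnerProductSpace ℝ H] {u w v : H}
    {V C τ p ψ θ K Y n : ℝ} (hV : ‖v‖ = V) (hV0 : 0 < V) (hC : 1 ≤ C) (hτ : 0 < τ)
    (hp : 1 ≤ p) (hψ0 : 0 ≤ ψ) (hψ1 : ψ ≤ 1) (hK0 : 0 < K)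
    (hw : ‖w‖ ≤ C * ‖u‖) (hone : 1 ≤ θ) (hn : ‖u - v‖ = n) (hY : n ≤ Y) :
    ‖w - v‖ ^ p ≤ K * (8 * τ * V ^ 2 + 2 * (ψ * (V ^ 2 - inner ℝ w v))) +
      2 * K * C * V * (V * θ + Y) + θ * (2 * (C + 1) * V) ^ p + (2 * C) ^ p * n ^ p := by
  have hn0 : 0 ≤ n := by rw [← hn]; exact norm_nonneg _
  have hu1 : ‖u‖ ≤ V + n := by
    have := norm_add_le v (u - v)
    rw [add_sub_cancel, hV, hn] at this
    exact this
  have hcs : inner ℝ w v ≤ ‖w‖ * V := by rw [← hV]; exact real_inner_le_norm w v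
  have hCu : C * ‖u‖ ≤ C * (V + n) := mul_le_mul_of_nonneg_left hu1 (by linarith)
  have ht : ‖w - v‖ ≤ C * n + (C + 1) * V := by
    have h6 : ‖w - v‖ ≤ ‖w‖ + V := by rw [← hV]; exact norm_sub_le w v
    have h8 : C * (V + n) = C * V + C * n := by ring
    linarith
  have h1 : ‖w - v‖ ^ p ≤ (2 * C) ^ p * n ^ p + (2 * (C + 1) * V) ^ p := by
    have a0 : 0 ≤ C * n := mul_nonneg (by linarith) hn0
    have a1 : 0 ≤ (C + 1) * V := mul_nonneg (by linarith) hV0.le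
    have a2 : ‖w - v‖ ^ p ≤ (C * n + (C + 1) * V) ^ p :=
      Real.rpow_le_rpow (norm_nonneg _) ht (by linarith)
    refine a2.trans ?_
    rcases le_total (C * n) ((C + 1) * V) with h | h
    · have a3 : (C * n + (C + 1) * V) ^ p ≤ (2 * (C + 1) * V) ^ p :=
        Real.rpow_le_rpow (by linarith) (by linarith) (by linarith)
      have a4 : 0 ≤ (2 * C) ^ p * n ^ p :=
        mul_nonneg (Real.rpow_nonneg (by linarith) _) (Real.rpow_nonneg hn0 _)
      linarith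
    · have a3 : (C * n + (C + 1) * V) ^ p ≤ (2 * C * n) ^ p :=
        Real.rpow_le_rpow (by linarith) (by linarith) (by linarith)
      rw [Real.mul_rpow (by linarith) hn0] at a3
      have a4 : 0 ≤ (2 * (C + 1) * V) ^ p := Real.rpow_nonneg (by linarith) _
      linarith
  have h2 : (2 * (C + 1) * V) ^ p ≤ θ * (2 * (C + 1) * V) ^ p :=
    le_mul_of_one_le_left (Real.rpow_nonneg (by nlinarith) _) hone
  have b1 : inner ℝ w v ≤ C * (V + n) * V :=
    hcs.trans (mul_le_mul_of_nonneg_right (hw.trans hCu) hV0.le)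
  have h3 : 0 ≤ K * (8 * τ * V ^ 2 + 2 * (ψ * (V ^ 2 - inner ℝ w v))) +
      2 * K * C * V * (V * θ + Y) := by
    generalize inner ℝ w v = I at *
    have a1 : ψ * (I - V ^ 2) ≤ C * V * (V * θ + Y) := by
      have b2 : V + n ≤ V * θ + Y := by
        have : V ≤ V * θ := le_mul_of_one_le_right hV0.le hone
        linarith
      have b3 : 0 ≤ C * (V + n) * V :=
        mul_nonneg (mul_nonneg (by linarith) (by linarith)) hV0.le
      have b4 : ψ * (I - V ^ 2) ≤ C * (V + n) * V := by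
        rcases le_total (I - V ^ 2) 0 with h | h
        · have := mul_nonpos_of_nonneg_of_nonpos hψ0 h
          linarith
        · have b5 : ψ * (I - V ^ 2) ≤ 1 * (I - V ^ 2) := mul_le_mul_of_nonneg_right hψ1 h
          linarith [sq_nonneg V]
      refine b4.trans ?_
      calc C * (V + n) * V = C * V * (V + n) := by ring
        _ ≤ _ := mul_le_mul_of_nonneg_left b2 (mul_nonneg (by linarith) hV0.le)
    have a2 := mul_le_mul_of_nonneg_left a1 hK0.le
    have a3 : 0 ≤ K * (8 * τ * V ^ 2) := by positivity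
    have a4 : K * (8 * τ * V ^ 2 + 2 * (ψ * (V ^ 2 - I))) + 2 * K * C * V * (V * θ + Y) =
      K * (8 * τ * V ^ 2) + 2 * (K * (C * V * (V * θ + Y)) - K * (ψ * (I - V ^ 2))) := by ring
    rw [a4]
    linarith
  linarith

theorem rig_point {H : Type*} [NormedAddCommGroup H] [InnerProductSpace ℝ H] {u w v : H}
    {V C τ lam p ψ χ : ℝ} (hV : ‖v‖ = V) (hV0 : 0 < V) (hC : 1 ≤ C) (hτ : 0 < τ)
    (hτ1 : τ ≤ 1 / 4) (hlam : 0 < lam) (hp : 1 ≤ p) (hψ0 : 0 ≤ ψ) (hψ1 : ψ ≤ 1)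
    (hχ : χ = 0 ∨ χ = 1) (hw : ‖w‖ ≤ C * ‖u‖) (hg : χ = 0 → ‖w‖ ≤ (1 + τ) * ‖u‖) :
    ‖w - v‖ ^ p ≤ (lam * V) ^ p +
      rigK lam V p * (8 * τ * V ^ 2 + 2 * (ψ * (V ^ 2 - inner ℝ w v))) +
      2 * rigK lam V p * C * V * (V * (χ + ‖u - v‖ ^ p / (τ * V) ^ p) +
        (τ * V + (τ * V) ^ (1 - p) * ‖u - v‖ ^ p)) +
      (3 * V) ^ p * (1 - ψ) + (χ + ‖u - v‖ ^ p / (τ * V) ^ p) * (2 * (C + 1) * V) ^ p +
      (2 * C) ^ p * ‖u - v‖ ^ p := by
  have hK0 := rigK_pos (p := p) hlam hV0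
  have hn0 : 0 ≤ ‖u - v‖ := norm_nonneg _
  have hτV : 0 < τ * V := mul_pos hτ hV0
  have hχ0 : 0 ≤ χ := by rcases hχ with h | h <;> simp [h]
  have hnp : 0 ≤ ‖u - v‖ ^ p := Real.rpow_nonneg hn0 p
  have hτVp : 0 < (τ * V) ^ p := Real.rpow_pos_of_pos hτV p
  have hq : 0 ≤ ‖u - v‖ ^ p / (τ * V) ^ p := div_nonneg hnp hτVp.le
  have hl1 := rig_l1 hτV hp hn0
  have hY0 : 0 ≤ τ * V + (τ * V) ^ (1 - p) * ‖u - v‖ ^ p := hn0.trans hl1
  have l0 : 0 ≤ (lam * V) ^ p := Real.rpow_nonneg (mul_pos hlam hV0).le _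
  have l1 : 0 ≤ (3 * V) ^ p := Real.rpow_nonneg (by linarith) _
  have l2 : 0 ≤ (2 * (C + 1) * V) ^ p := Real.rpow_nonneg (by nlinarith) _
  have l3 : 0 ≤ (2 * C) ^ p := Real.rpow_nonneg (by linarith) _
  by_cases hgood : χ = 0 ∧ ‖u - v‖ ≤ τ * V
  · obtain ⟨h0, h1⟩ := hgood
    have h2 := rig_good (u := u) (w := w) (v := v) hV hV0 hτ hτ1 hlam hp hψ0 hψ1 (hg h0) h1
    have h9 : 0 ≤ 2 * rigK lam V p * C * V * (V * (χ + ‖u - v‖ ^ p / (τ * V) ^ p) +
        (τ * V + (τ * V) ^ (1 - p) * ‖u - v‖ ^ p)) := by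
      apply mul_nonneg
      · exact mul_nonneg (mul_nonneg (by linarith) (by linarith)) hV0.le
      · exact add_nonneg (mul_nonneg hV0.le (add_nonneg hχ0 hq)) hY0
    have h10 : 0 ≤ (χ + ‖u - v‖ ^ p / (τ * V) ^ p) * (2 * (C + 1) * V) ^ p :=
      mul_nonneg (add_nonneg hχ0 hq) l2
    have h11 : 0 ≤ (2 * C) ^ p * ‖u - v‖ ^ p := mul_nonneg l3 hnp
    linarith
  · have hone : 1 ≤ χ + ‖u - v‖ ^ p / (τ * V) ^ p := by
      rcases hχ with h | h
      · have h1 : τ * V < ‖u - v‖ := by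
          by_contra hcon
          exact hgood ⟨h, not_lt.1 hcon⟩
        have h2 : (τ * V) ^ p ≤ ‖u - v‖ ^ p := Real.rpow_le_rpow hτV.le h1.le (by linarith)
        have h3 : 1 ≤ ‖u - v‖ ^ p / (τ * V) ^ p := by rw [le_div_iff₀ hτVp]; linarith
        linarith
      · linarith
    have h2 := rig_bad (u := u) (w := w) (v := v) (K := rigK lam V p) hV hV0 hC hτ hp hψ0 hψ1 hK0
      hw hone rfl hl1
    have h5 : 0 ≤ (3 * V) ^ p * (1 - ψ) := mul_nonneg l1 (by linarith)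
    linarith

end Crest.Agent.R96.Push_899
end
end

-- ▼ part R96/Push22_899
section

/-!
# Row 96, U2 PUSH (helper899), part 22: rigidity, integrated.
-/

set_option autoImplicit false
set_option linter.unusedSectionVars false
set_option linter.unusedVariables false

open MeasureTheory Set Filter Topology
open scoped NNReal ENNReal ContDiff

noncomputable section

namespace Crest.Agent.R96.Push_899

open Crest.Agent.R96.Acl_392 Crest.Agent.R96.Sob1_199 Crest.Agent.R96.Sob2_199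
  Crest.Agent.R96.Sob3_199 Crest.Agent.R96.Sob4_199 Crest.Agent.R96.Sob5_199

variable {E : Type*} [NormedAddCommGroup E] [NormedSpace ℝ E] [FiniteDimensional ℝ E]
  [MeasurableSpace E] [BorelSpace E] {μ : Measure E} [μ.IsAddHaarMeasure]

variable {ι : Type*} [Fintype ι]

/-- products with test functions are integrable -/
theorem integrable_mul_test {Ω : Set E} {g ψ : E → ℝ} (hg : LocallyIntegrableOn g Ω μ)
    (hψ : Continuous ψ) (hc : HasCompactSupport ψ) (hs : tsupport ψ ⊆ Ω) :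
    Integrable (fun x => g x * ψ x) μ := by
  have h1 : IntegrableOn g (tsupport ψ) μ := hg.integrableOn_compact_subset hs hc
  have h2 : IntegrableOn (fun x => g x * ψ x) (tsupport ψ) μ :=
    h1.mul_continuousOn hψ.continuousOn hc
  refine (integrableOn_iff_integrable_of_support_subset ?_).1 h2
  intro x hx
  apply subset_tsupport
  intro h0
  apply hx
  simp only [h0, mul_zero]

/-- weak pairing -/
theorem pairing {Ω : Set E} {f₁ f₂ u w : E → EuclideanSpace ℝ ι} {e : E}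
    (h1 : VWD Ω μ f₁ u e) (h2 : VWD Ω μ f₂ w e) {ψ : E → ℝ} (hψ : ContDiff ℝ ∞ ψ)
    (hc : HasCompactSupport ψ) (hs : tsupport ψ ⊆ Ω) {e₀ : ℝ} (he0 : 0 ≤ e₀)
    (hclose : ∀ x ∈ Ω, ‖f₂ x - f₁ x‖ ≤ e₀) (v : EuclideanSpace ℝ ι) :
    Integrable (fun x => ψ x * inner ℝ (w x) v) μ ∧ Integrable (fun x => ψ x * inner ℝ (u x) v) μ ∧
    |∫ x, ψ x * inner ℝ (w x) v ∂μ - ∫ x, ψ x * inner ℝ (u x) v ∂μ| ≤
      e₀ * ‖v‖ * ∫ x, |fderiv ℝ ψ x e| ∂μ := by
  have hψ' : Continuous (fun x => fderiv ℝ ψ x e) :=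
    (hψ.continuous_fderiv (by simp)).clm_apply continuous_const
  have hdsup : tsupport (fun x => fderiv ℝ ψ x e) ⊆ tsupport ψ :=
    closure_minimal (fun x hx => support_fderiv_subset ℝ (by
      intro h0
      apply hx
      simp only [h0, zero_apply])) (isClosed_tsupport _)
  have hdc : HasCompactSupport (fun x => fderiv ℝ ψ x e) :=
    IsCompact.of_isClosed_subset hc (isClosed_tsupport _) hdsup
  have i1 : ∀ i, Integrable (fun x => w x i * ψ x) μ := fun i =>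
    integrable_mul_test (h2 i).lg hψ.continuous hc hs
  have i2 : ∀ i, Integrable (fun x => u x i * ψ x) μ := fun i =>
    integrable_mul_test (h1 i).lg hψ.continuous hc hs
  have i3 : ∀ i, Integrable (fun x => f₂ x i * fderiv ℝ ψ x e) μ := fun i =>
    integrable_mul_test (h2 i).lv hψ' hdc (hdsup.trans hs)
  have i4 : ∀ i, Integrable (fun x => f₁ x i * fderiv ℝ ψ x e) μ := fun i =>
    integrable_mul_test (h1 i).lv hψ' hdc (hdsup.trans hs)
  have ein : ∀ (a : EuclideanSpace ℝ ι), inner ℝ a v = ∑ i, v i * a i := by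
    intro a
    rw [PiLp.inner_apply]
    exact Finset.sum_congr rfl fun i _ => by simp
  have e1 : ∀ (g : E → EuclideanSpace ℝ ι) x, ψ x * inner ℝ (g x) v =
      ∑ i, v i * (g x i * ψ x) := by
    intro g x
    rw [ein, Finset.mul_sum]
    exact Finset.sum_congr rfl fun i _ => by ring
  have j1 : Integrable (fun x => ψ x * inner ℝ (w x) v) μ := by
    simp only [e1]
    exact integrable_finsetSum _ fun i _ => (i1 i).const_mul _
  have j2 : Integrable (fun x => ψ x * inner ℝ (u x) v) μ := by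
    simp only [e1]
    exact integrable_finsetSum _ fun i _ => (i2 i).const_mul _
  refine ⟨j1, j2, ?_⟩
  have e2 : ∫ x, ψ x * inner ℝ (w x) v ∂μ - ∫ x, ψ x * inner ℝ (u x) v ∂μ =
      - ∫ x, inner ℝ (f₂ x - f₁ x) v * fderiv ℝ ψ x e ∂μ := by
    have a1 : ∫ x, ψ x * inner ℝ (w x) v ∂μ = ∑ i, v i * - ∫ x, f₂ x i * fderiv ℝ ψ x e ∂μ := by
      simp only [e1]
      rw [integral_finsetSum _ fun i _ => (i1 i).const_mul _]
      refine Finset.sum_congr rfl fun i _ => ?_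
      rw [integral_const_mul, (h2 i).weak ψ hψ hc hs, neg_neg]
    have a2 : ∫ x, ψ x * inner ℝ (u x) v ∂μ = ∑ i, v i * - ∫ x, f₁ x i * fderiv ℝ ψ x e ∂μ := by
      simp only [e1]
      rw [integral_finsetSum _ fun i _ => (i2 i).const_mul _]
      refine Finset.sum_congr rfl fun i _ => ?_
      rw [integral_const_mul, (h1 i).weak ψ hψ hc hs, neg_neg]
    have a3 : ∫ x, inner ℝ (f₂ x - f₁ x) v * fderiv ℝ ψ x e ∂μ =
        ∑ i, v i * (∫ x, f₂ x i * fderiv ℝ ψ x e ∂μ - ∫ x, f₁ x i * fderiv ℝ ψ x e ∂μ) := by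
      have b1 : ∀ x, inner ℝ (f₂ x - f₁ x) v * fderiv ℝ ψ x e =
          ∑ i, v i * (f₂ x i * fderiv ℝ ψ x e - f₁ x i * fderiv ℝ ψ x e) := by
        intro x
        rw [ein, Finset.sum_mul]
        exact Finset.sum_congr rfl fun i _ => by simp only [PiLp.sub_apply]; ring
      have b2 : ∀ i, Integrable (fun x => v i * (f₂ x i * fderiv ℝ ψ x e -
          f₁ x i * fderiv ℝ ψ x e)) μ := fun i => ((i3 i).sub (i4 i)).const_mul _
      simp only [b1]
      rw [integral_finsetSum _ fun i _ => b2 i]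
      refine Finset.sum_congr rfl fun i _ => ?_
      rw [integral_const_mul, integral_sub (i3 i) (i4 i)]
    rw [a1, a2, a3, ← Finset.sum_sub_distrib, ← Finset.sum_neg_distrib]
    exact Finset.sum_congr rfl fun i _ => by ring
  rw [e2, abs_neg]
  have hint : Integrable (fun x => |fderiv ℝ ψ x e|) μ :=
    (hψ'.integrable_of_hasCompactSupport hdc).abs
  rw [← integral_const_mul]
  refine (abs_integral_le_integral_abs).trans ?_
  refine integral_mono_of_nonneg (Eventually.of_forall fun x => abs_nonneg _)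
    (hint.const_mul _) (Eventually.of_forall fun x => ?_)
  simp only
  rw [abs_mul]
  by_cases hx : x ∈ tsupport ψ
  · apply mul_le_mul_of_nonneg_right _ (abs_nonneg _)
    refine (abs_real_inner_le_norm _ _).trans ?_
    exact mul_le_mul_of_nonneg_right (hclose x (hs hx)) (norm_nonneg _)
  · have h0 : fderiv ℝ ψ x e = 0 := by
      by_contra hcon
      exact hx (hdsup (subset_tsupport _ hcon))
    rw [h0, abs_zero, mul_zero, mul_zero]

/-- the coefficient of `τ` -/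
def rigT (lam V C p : ℝ) : ℝ := rigK lam V p * V ^ 2 * (10 + 2 * C)

/-- the coefficient of `δ` -/
def rigZ (lam τ V C p : ℝ) : ℝ :=
  2 * rigK lam V p * (V * (τ * V) ^ (1 - p) + V ^ 2) +
  (2 * rigK lam V p * C * V * V + (2 * (C + 1) * V) ^ p) +
  (2 * rigK lam V p * C * V * (V / (τ * V) ^ p + (τ * V) ^ (1 - p)) +
    (2 * (C + 1) * V) ^ p / (τ * V) ^ p + (2 * C) ^ p) + (3 * V) ^ p

theorem enorm_rpow_eq {F : Type*} [NormedAddCommGroup F] (z : F) {p : ℝ} (hp : 0 ≤ p) :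
    ‖z‖ₑ ^ p = ENNReal.ofReal (‖z‖ ^ p) := by
  rw [← ofReal_norm, ENNReal.ofReal_rpow_of_nonneg (norm_nonneg _) hp]

theorem rig_int {Ω : Set E} (hΩ : IsOpen Ω) (hΩf : μ Ω ≠ ⊤) {u w : E → EuclideanSpace ℝ ι}
    {v : EuclideanSpace ℝ ι} {V C τ lam p δ : ℝ} (hV : ‖v‖ = V) (hV0 : 0 < V) (hC : 1 ≤ C)
    (hτ : 0 < τ) (hτ1 : τ ≤ 1 / 4) (hlam : 0 < lam) (hp : 1 ≤ p) (hδ : 0 ≤ δ)
    (mu : AEMeasurable u (μ.restrict Ω)) (mw : AEMeasurable w (μ.restrict Ω))
    {ψ : E → ℝ} (hψc : Continuous ψ) (hψ01 : ∀ x, ψ x ∈ Icc (0:ℝ) 1)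
    (hψs : ∀ x ∉ Ω, ψ x = 0)
    (iw : Integrable (fun x => ψ x * inner ℝ (w x) v) μ)
    (iu : Integrable (fun x => ψ x * inner ℝ (u x) v) μ)
    (hpair : |∫ x, ψ x * inner ℝ (w x) v ∂μ - ∫ x, ψ x * inner ℝ (u x) v ∂μ| ≤
      δ * V ^ 2 * (μ Ω).toReal)
    (hψδ : ∫ x in Ω, (1 - ψ x) ∂μ ≤ δ * (μ Ω).toReal)
    {X : Set E} (hX : MeasurableSet X) (hXδ : μ (Ω ∩ X) ≤ ENNReal.ofReal δ * μ Ω)
    (hw : ∀ᵐ x ∂μ, x ∈ Ω → ‖w x‖ ≤ C * ‖u x‖)
    (hg : ∀ᵐ x ∂μ, x ∈ Ω → x ∉ X → ‖w x‖ ≤ (1 + τ) * ‖u x‖)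
    (hu : ∫⁻ x in Ω, ‖u x - v‖ₑ ^ p ∂μ ≤ ENNReal.ofReal δ * μ Ω) :
    ∫⁻ x in Ω, ‖w x - v‖ₑ ^ p ∂μ ≤
      ENNReal.ofReal ((lam * V) ^ p + τ * rigT lam V C p + δ * rigZ lam τ V C p) * μ Ω := by
  have hp0 : 0 ≤ p := by linarith
  set ν := μ.restrict Ω with hν
  set m := (μ Ω).toReal with hm
  have hm0 : 0 ≤ m := ENNReal.toReal_nonneg
  have : IsFiniteMeasure ν := ⟨by rw [hν, Measure.restrict_apply_univ]; exact hΩf.lt_top⟩
  have hνm : ν.real univ = m := by
    rw [hν, measureReal_restrict_apply_univ]; rfl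
  have hτV : 0 < τ * V := mul_pos hτ hV0
  set K := rigK lam V p with hK
  have hK0 : 0 < K := rigK_pos hlam hV0
  have hδm : (ENNReal.ofReal δ * μ Ω).toReal = δ * m := by
    rw [ENNReal.toReal_mul, ENNReal.toReal_ofReal hδ]
  have hδt : ENNReal.ofReal δ * μ Ω ≠ ⊤ := ENNReal.mul_ne_top ENNReal.ofReal_ne_top hΩf
  -- the function `N`
  set N : E → ℝ := fun x => ‖u x - v‖ ^ p with hN
  have hN0 : ∀ x, 0 ≤ N x := fun x => Real.rpow_nonneg (norm_nonneg _) p
  have mN : AEStronglyMeasurable N ν :=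
    ((mu.sub_const v).norm.pow_const p).aestronglyMeasurable
  have eN : ∀ x, ENNReal.ofReal (N x) = ‖u x - v‖ₑ ^ p := fun x => (enorm_rpow_eq _ hp0).symm
  have lN : ∫⁻ x, ENNReal.ofReal (N x) ∂ν ≤ ENNReal.ofReal δ * μ Ω := by
    rw [lintegral_congr eN]; exact hu
  have iN : Integrable N ν := by
    refine ⟨mN, ?_⟩
    rw [hasFiniteIntegral_iff_ofReal (Eventually.of_forall hN0)]
    exact lN.trans_lt hδt.lt_top
  have bN : ∫ x, N x ∂ν ≤ δ * m := by
    rw [integral_eq_lintegral_of_nonneg_ae (Eventually.of_forall hN0) mN, ← hδm]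
    exact ENNReal.toReal_mono hδt lN
  -- the function `χ`
  set χ : E → ℝ := X.indicator (fun _ => (1:ℝ)) with hχ
  have iχ : Integrable χ ν := (integrable_const (1:ℝ)).indicator hX
  have bχ : ∫ x, χ x ∂ν ≤ δ * m := by
    rw [hχ, integral_indicator hX, setIntegral_const, smul_eq_mul, mul_one, ← hδm]
    have e1 : ν.real X = (μ (Ω ∩ X)).toReal := by
      rw [hν, measureReal_def, Measure.restrict_apply hX, inter_comm]
    rw [e1]
    exact ENNReal.toReal_mono hδt hXδ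
  have hχ01 : ∀ x, χ x = 0 ∨ χ x = 1 := by
    intro x
    by_cases hx : x ∈ X
    · right; rw [hχ, indicator_of_mem hx]
    · left; rw [hχ, indicator_of_notMem hx]
  -- `ψ`
  have iψ : Integrable ψ ν :=
    Integrable.of_bound hψc.aestronglyMeasurable 1 (Eventually.of_forall fun x => by
      rw [Real.norm_eq_abs, abs_of_nonneg (hψ01 x).1]; exact (hψ01 x).2)
  have i1ψ : Integrable (fun x => 1 - ψ x) ν := (integrable_const (1:ℝ)).sub iψ
  -- the pairing
  set a : E → ℝ := fun x => ψ x * (V ^ 2 - inner ℝ (w x) v) with ha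
  have iwν : Integrable (fun x => ψ x * inner ℝ (w x) v) ν := iw.restrict
  have iuν : Integrable (fun x => ψ x * inner ℝ (u x) v) ν := iu.restrict
  have ea : ∀ x, a x = ψ x * V ^ 2 - ψ x * inner ℝ (w x) v := fun x => by
    rw [ha]; ring
  have ia : Integrable a ν := by
    have : a = fun x => ψ x * V ^ 2 - ψ x * inner ℝ (w x) v := funext ea
    rw [this]
    exact (iψ.mul_const _).sub iwν
  have eset : ∀ g : E → ℝ, ∫ x, ψ x * g x ∂ν = ∫ x, ψ x * g x ∂μ := by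
    intro g
    rw [hν]
    apply setIntegral_eq_integral_of_forall_compl_eq_zero
    intro x hx
    rw [hψs x hx, zero_mul]
  have ba : ∫ x, a x ∂ν ≤ V * (τ * V * m + (τ * V) ^ (1 - p) * (δ * m)) + δ * V ^ 2 * m := by
    have e1 : ∫ x, a x ∂ν = ∫ x, (ψ x * V ^ 2 - ψ x * inner ℝ (u x) v) ∂ν +
        (∫ x, ψ x * inner ℝ (u x) v ∂ν - ∫ x, ψ x * inner ℝ (w x) v ∂ν) := by
      rw [integral_congr_ae (Eventually.of_forall ea), integral_sub (iψ.mul_const _) iwν,
        integral_sub (iψ.mul_const _) iuν]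
      ring
    have e2 : ∫ x, ψ x * inner ℝ (u x) v ∂ν - ∫ x, ψ x * inner ℝ (w x) v ∂ν ≤
        δ * V ^ 2 * m := by
      rw [eset, eset]
      have := (abs_le.1 hpair).1
      linarith
    have e3 : ∫ x, (ψ x * V ^ 2 - ψ x * inner ℝ (u x) v) ∂ν ≤
        ∫ x, V * (τ * V + (τ * V) ^ (1 - p) * N x) ∂ν := by
      apply integral_mono ((iψ.mul_const _).sub iuν)
      · exact (((integrable_const (τ * V)).add (iN.const_mul _))).const_mul V
      · intro x
        change ψ x * V ^ 2 - ψ x * inner ℝ (u x) v ≤ V * (τ * V + (τ * V) ^ (1 - p) * N x)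
        have h1 : ψ x * V ^ 2 - ψ x * inner ℝ (u x) v = ψ x * inner ℝ (v - u x) v := by
          rw [inner_sub_left, real_inner_self_eq_norm_sq, hV]; ring
        rw [h1]
        have h2 : inner ℝ (v - u x) v ≤ ‖u x - v‖ * V := by
          rw [← hV, norm_sub_rev]; exact real_inner_le_norm _ _
        have h3 := rig_l1 hτV hp (norm_nonneg (u x - v))
        have h4 : ψ x * inner ℝ (v - u x) v ≤ ‖u x - v‖ * V := by
          rcases le_total (inner ℝ (v - u x) v) 0 with h | h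
          · have := mul_nonpos_of_nonneg_of_nonpos (hψ01 x).1 h
            have := mul_nonneg (norm_nonneg (u x - v)) hV0.le
            linarith
          · have := mul_le_mul_of_nonneg_right (hψ01 x).2 h
            linarith
        refine h4.trans ?_
        rw [mul_comm]
        exact mul_le_mul_of_nonneg_left h3 hV0.le
    have e4 : ∫ x, V * (τ * V + (τ * V) ^ (1 - p) * N x) ∂ν =
        V * (τ * V * m + (τ * V) ^ (1 - p) * ∫ x, N x ∂ν) := by
      have e4a : ∫ x, (τ * V) ^ (1 - p) * N x ∂ν = (τ * V) ^ (1 - p) * ∫ x, N x ∂ν :=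
        integral_const_mul _ _
      rw [integral_const_mul, integral_add (integrable_const _) (iN.const_mul _),
        e4a, integral_const, hνm, smul_eq_mul]
      ring
    have e5 : V * (τ * V * m + (τ * V) ^ (1 - p) * ∫ x, N x ∂ν) ≤
        V * (τ * V * m + (τ * V) ^ (1 - p) * (δ * m)) := by
      have : 0 ≤ (τ * V) ^ (1 - p) := Real.rpow_nonneg hτV.le _
      gcongr
    rw [e1]
    linarith
  -- the right side
  set c0 : ℝ := (lam * V) ^ p + K * (8 * τ * V ^ 2) + 2 * K * C * V * (τ * V) with hc0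
  set c1 : ℝ := 2 * K * C * V * V + (2 * (C + 1) * V) ^ p with hc1
  set c2 : ℝ := 2 * K * C * V * (V / (τ * V) ^ p + (τ * V) ^ (1 - p)) +
    (2 * (C + 1) * V) ^ p / (τ * V) ^ p + (2 * C) ^ p with hc2
  set c3 : ℝ := (3 * V) ^ p with hc3
  have hc1' : 0 ≤ c1 := by positivity
  have hc2' : 0 ≤ c2 := by positivity
  have hc3' : 0 ≤ c3 := by positivity
  set R : E → ℝ := fun x => (((c0 + 2 * K * a x) + c1 * χ x) + c2 * N x) + c3 * (1 - ψ x) with hR
  have iR1 : Integrable (fun x => c0 + 2 * K * a x) ν := (integrable_const c0).add (ia.const_mul _)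
  have iR2 : Integrable (fun x => (c0 + 2 * K * a x) + c1 * χ x) ν := iR1.add (iχ.const_mul _)
  have iR3 : Integrable (fun x => ((c0 + 2 * K * a x) + c1 * χ x) + c2 * N x) ν :=
    iR2.add (iN.const_mul _)
  have iR : Integrable R ν := iR3.add (i1ψ.const_mul _)
  have hle : ∀ᵐ x ∂ν, ‖w x - v‖ ^ p ≤ R x := by
    rw [hν, ae_restrict_iff' hΩ.measurableSet]
    filter_upwards [hw, hg] with x h1 h2 hx
    have h3 := rig_point (u := u x) (w := w x) (v := v) (ψ := ψ x) (χ := χ x) (lam := lam)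
      hV hV0 hC hτ hτ1 hlam hp (hψ01 x).1 (hψ01 x).2 (hχ01 x) (h1 hx) (by
        intro h0
        refine h2 hx ?_
        intro hxX
        rw [hχ, indicator_of_mem hxX] at h0
        exact one_ne_zero h0)
    refine h3.trans (le_of_eq ?_)
    rw [hR, ha, hN, hc0, hc1, hc2, hc3]
    simp only
    ring
  have hR0 : 0 ≤ᵐ[ν] R := by
    filter_upwards [hle] with x hx
    exact (Real.rpow_nonneg (norm_nonneg _) p).trans hx
  have bR : ∫ x, R x ∂ν ≤ ((lam * V) ^ p + τ * rigT lam V C p + δ * rigZ lam τ V C p) * m := by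
    have e1 : ∫ x, R x ∂ν = c0 * m + 2 * K * ∫ x, a x ∂ν + c1 * ∫ x, χ x ∂ν + c2 * ∫ x, N x ∂ν +
        c3 * ∫ x, (1 - ψ x) ∂ν := by
      rw [hR]
      rw [integral_add iR3 (i1ψ.const_mul _), integral_add iR2 (iN.const_mul _),
        integral_add iR1 (iχ.const_mul _), integral_add (integrable_const c0) (ia.const_mul _)]
      rw [integral_const_mul, integral_const_mul, integral_const_mul, integral_const_mul,
        integral_const, hνm, smul_eq_mul]
      ring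
    rw [e1]
    have b1 := mul_le_mul_of_nonneg_left ba (by positivity : 0 ≤ 2 * K)
    have b2 := mul_le_mul_of_nonneg_left bχ hc1'
    have b3 := mul_le_mul_of_nonneg_left bN hc2'
    have b4 := mul_le_mul_of_nonneg_left hψδ hc3'
    have e2 : ((lam * V) ^ p + τ * rigT lam V C p + δ * rigZ lam τ V C p) * m =
        c0 * m + 2 * K * (V * (τ * V * m + (τ * V) ^ (1 - p) * (δ * m)) + δ * V ^ 2 * m) +
        c1 * (δ * m) + c2 * (δ * m) + c3 * (δ * m) := by
      unfold rigT rigZ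
      rw [← hK, hc0, hc1, hc2, hc3]
      ring
    rw [e2]
    linarith
  calc ∫⁻ x in Ω, ‖w x - v‖ₑ ^ p ∂μ = ∫⁻ x, ENNReal.ofReal (‖w x - v‖ ^ p) ∂ν :=
        lintegral_congr fun x => enorm_rpow_eq _ hp0
    _ ≤ ∫⁻ x, ENNReal.ofReal (R x) ∂ν := by
        apply lintegral_mono_ae
        filter_upwards [hle] with x hx using ENNReal.ofReal_le_ofReal hx
    _ = ENNReal.ofReal (∫ x, R x ∂ν) := (ofReal_integral_eq_lintegral_ofReal iR hR0).symm
    _ ≤ ENNReal.ofReal (((lam * V) ^ p + τ * rigT lam V C p + δ * rigZ lam τ V C p) * m) :=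
        ENNReal.ofReal_le_ofReal bR
    _ = _ := by
        rw [mul_comm, ENNReal.ofReal_mul hm0, mul_comm, hm, ENNReal.ofReal_toReal hΩf]

end Crest.Agent.R96.Push_899
end
end

-- ▼ part R96/Push23_899

/-!
# Row 96, U2 PUSH (helper899), part 23: rigidity, final form.
-/

set_option autoImplicit false
set_option linter.unusedSectionVars false
set_option linter.unusedVariables false

open MeasureTheory Set Filter Topology
open scoped NNReal ENNReal ContDiff

noncomputable section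

namespace Crest.Agent.R96.Push_899

open Crest.Agent.R96.Acl_392 Crest.Agent.R96.Sob1_199 Crest.Agent.R96.Sob2_199
  Crest.Agent.R96.Sob3_199 Crest.Agent.R96.Sob4_199 Crest.Agent.R96.Sob5_199

variable {E : Type*} [NormedAddCommGroup E] [NormedSpace ℝ E] [FiniteDimensional ℝ E]
  [MeasurableSpace E] [BorelSpace E] {μ : Measure E} [μ.IsAddHaarMeasure]

variable {ι : Type*} [Fintype ι]

/-- **rigidity**: `f₂` uniformly close to `f₁`, `‖D f₂‖ ≤ (1 + β) ‖D f₁‖` on most of `Ω`, bounded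
factor everywhere, `D f₁` close to the constant `v` in `L^p`: then so is `D f₂`. -/
theorem near_of_contr {p : ℝ} (hp : 1 ≤ p) (v : EuclideanSpace ℝ ι) {C : ℝ} (hC : 1 ≤ C) {d : ℝ}
    (hd : 0 < d) :
    ∃ β : ℝ, 0 < β ∧ ∃ δ : ℝ, 0 < δ ∧ ∀ (Ω : Set E), IsOpen Ω → μ Ω ≠ ⊤ → Ω.Nonempty → ∀ e : E,
      ∃ e₀ : ℝ, 0 < e₀ ∧ ∀ (f₁ f₂ u w : E → EuclideanSpace ℝ ι),
        VWD Ω μ f₁ u e → VWD Ω μ f₂ w e → (∀ x ∈ Ω, ‖f₂ x - f₁ x‖ ≤ e₀) →
        ∀ X : Set E, MeasurableSet X → μ (Ω ∩ X) ≤ ENNReal.ofReal δ * μ Ω →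
        (∀ᵐ x ∂μ, x ∈ Ω → ‖w x‖ ≤ C * ‖u x‖) →
        (∀ᵐ x ∂μ, x ∈ Ω → x ∉ X → ‖w x‖ ≤ (1 + β) * ‖u x‖) →
        ∫⁻ x in Ω, ‖u x - v‖ₑ ^ p ∂μ ≤ ENNReal.ofReal δ * μ Ω →
        ∫⁻ x in Ω, ‖w x - v‖ₑ ^ p ∂μ ≤ ENNReal.ofReal d * μ Ω := by
  have hp0 : 0 < p := by linarith
  by_cases hv : v = 0
  · subst hv
    have hCp : 0 < C ^ p := by positivity
    refine ⟨1, one_pos, d / C ^ p, by positivity, ?_⟩
    intro Ω hΩ hΩf hΩne e
    refine ⟨1, one_pos, ?_⟩
    intro f₁ f₂ u w h1 h2 hcl X hX hXδ hw hg hu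
    simp only [sub_zero] at hu ⊢
    calc ∫⁻ x in Ω, ‖w x‖ₑ ^ p ∂μ ≤ ∫⁻ x in Ω, ENNReal.ofReal (C ^ p) * ‖u x‖ₑ ^ p ∂μ := by
          apply lintegral_mono_ae
          rw [ae_restrict_iff' hΩ.measurableSet]
          filter_upwards [hw] with x hx hxΩ
          rw [enorm_rpow_eq _ hp0.le, enorm_rpow_eq _ hp0.le, ← ENNReal.ofReal_mul hCp.le,
            ← Real.mul_rpow (by linarith) (norm_nonneg _)]
          exact ENNReal.ofReal_le_ofReal (Real.rpow_le_rpow (norm_nonneg _) (hx hxΩ) hp0.le)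
      _ = ENNReal.ofReal (C ^ p) * ∫⁻ x in Ω, ‖u x‖ₑ ^ p ∂μ :=
          lintegral_const_mul' _ _ ENNReal.ofReal_ne_top
      _ ≤ ENNReal.ofReal (C ^ p) * (ENNReal.ofReal (d / C ^ p) * μ Ω) := mul_le_mul' le_rfl hu
      _ = ENNReal.ofReal d * μ Ω := by
          rw [← mul_assoc, ← ENNReal.ofReal_mul hCp.le, mul_div_cancel₀ _ hCp.ne']
  · have hV0 : 0 < ‖v‖ := norm_pos_iff.2 hv
    set V := ‖v‖ with hV
    set lam : ℝ := (d / 3) ^ (1 / p) / V with hlam
    have hl0 : 0 < lam := by positivity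
    have hlV : (lam * V) ^ p = d / 3 := by
      rw [hlam, div_mul_cancel₀ _ hV0.ne', ← Real.rpow_mul (by positivity), one_div,
        inv_mul_cancel₀ hp0.ne', Real.rpow_one]
    set T := rigT lam V C p with hT
    have hT0 : 0 < T := by
      rw [hT]; unfold rigT
      have := rigK_pos (p := p) hl0 hV0
      positivity
    set τ : ℝ := min (1 / 4) (d / 3 / (T + 1)) with hτd
    have hτ : 0 < τ := lt_min (by norm_num) (by positivity)
    have hτ1 : τ ≤ 1 / 4 := min_le_left _ _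
    have hτT : τ * T ≤ d / 3 := by
      have h1 : τ ≤ d / 3 / (T + 1) := min_le_right _ _
      calc τ * T ≤ d / 3 / (T + 1) * T := mul_le_mul_of_nonneg_right h1 hT0.le
        _ ≤ d / 3 / (T + 1) * (T + 1) := mul_le_mul_of_nonneg_left (by linarith) (by positivity)
        _ = d / 3 := div_mul_cancel₀ _ (by positivity)
    set Z := rigZ lam τ V C p with hZ
    have hZ0 : 0 ≤ Z := by
      rw [hZ]; unfold rigZ
      have := rigK_pos (p := p) hl0 hV0
      have hτV : 0 < τ * V := mul_pos hτ hV0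
      positivity
    set δ : ℝ := d / 3 / (Z + 1) with hδd
    have hδ : 0 < δ := by positivity
    have hδZ : δ * Z ≤ d / 3 := by
      calc δ * Z ≤ d / 3 / (Z + 1) * (Z + 1) := mul_le_mul_of_nonneg_left (by linarith) hδ.le
        _ = d / 3 := div_mul_cancel₀ _ (by positivity)
    refine ⟨τ, hτ, δ, hδ, ?_⟩
    intro Ω hΩ hΩf hΩne e
    have hΩ0 : μ Ω ≠ 0 := (hΩ.measure_pos μ hΩne).ne'
    set m := (μ Ω).toReal with hm
    have hm0 : 0 < m := ENNReal.toReal_pos hΩ0 hΩf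
    have ht : ENNReal.ofReal δ * μ Ω ≠ 0 := mul_ne_zero (by simpa using hδ) hΩ0
    obtain ⟨K₁, hK₁Ω, hK₁, hK₁μ⟩ := hΩ.measurableSet.exists_isCompact_sdiff_lt (μ := μ) hΩf ht
    obtain ⟨ψ, hψs, hψc, hψΩ, hψ01, hψ1⟩ := Crest.Agent.R96.Str_520.exists_cutoff hK₁ hΩ hK₁Ω
    set M := ∫ x, |fderiv ℝ ψ x e| ∂μ with hM
    have hM0 : 0 ≤ M := integral_nonneg fun x => abs_nonneg _
    refine ⟨δ * V * m / (M + 1), by positivity, ?_⟩
    intro f₁ f₂ u w h1 h2 hcl X hX hXδ hw hg hu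
    obtain ⟨iw, iu, hpair⟩ := pairing h1 h2 hψs hψc hψΩ (by positivity) hcl v
    have hψ0 : ∀ x ∉ Ω, ψ x = 0 := by
      intro x hx
      by_contra hcon
      exact hx (hψΩ (subset_tsupport _ hcon))
    have hpair' : |∫ x, ψ x * inner ℝ (w x) v ∂μ - ∫ x, ψ x * inner ℝ (u x) v ∂μ| ≤
        δ * V ^ 2 * (μ Ω).toReal := by
      refine hpair.trans ?_
      rw [← hV, ← hM, ← hm]
      calc δ * V * m / (M + 1) * V * M = δ * V ^ 2 * m * (M / (M + 1)) := by ring
        _ ≤ δ * V ^ 2 * m * 1 := by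
            apply mul_le_mul_of_nonneg_left _ (by positivity)
            rw [div_le_one (by positivity)]; linarith
        _ = _ := mul_one _
    have hfin : IsFiniteMeasure (μ.restrict Ω) :=
      ⟨by rw [Measure.restrict_apply_univ]; exact hΩf.lt_top⟩
    have hψδ : ∫ x in Ω, (1 - ψ x) ∂μ ≤ δ * (μ Ω).toReal := by
      have a1 : ∀ x, 1 - ψ x ≤ K₁ᶜ.indicator (fun _ => (1:ℝ)) x := by
        intro x
        by_cases hx : x ∈ K₁
        · rw [indicator_of_notMem (by simpa using hx), hψ1 x hx, sub_self]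
        · rw [indicator_of_mem hx]; linarith [(hψ01 x).1]
      have mK : MeasurableSet K₁ᶜ := hK₁.measurableSet.compl
      have i1 : Integrable (fun x => 1 - ψ x) (μ.restrict Ω) := by
        refine (integrable_const (1:ℝ)).sub ?_
        exact Integrable.of_bound hψs.continuous.aestronglyMeasurable 1
          (Eventually.of_forall fun x => by
            rw [Real.norm_eq_abs, abs_of_nonneg (hψ01 x).1]; exact (hψ01 x).2)
      calc ∫ x in Ω, (1 - ψ x) ∂μ ≤ ∫ x in Ω, K₁ᶜ.indicator (fun _ => (1:ℝ)) x ∂μ :=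
            integral_mono i1 ((integrable_const (1:ℝ)).indicator mK) a1
        _ = (μ (Ω \ K₁)).toReal := by
            rw [integral_indicator mK, setIntegral_const, smul_eq_mul, mul_one, measureReal_def,
              Measure.restrict_apply mK, inter_comm, ← diff_eq]
        _ ≤ (ENNReal.ofReal δ * μ Ω).toReal :=
            ENNReal.toReal_mono (ENNReal.mul_ne_top ENNReal.ofReal_ne_top hΩf) hK₁μ.le
        _ = _ := by rw [ENNReal.toReal_mul, ENNReal.toReal_ofReal hδ.le]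
    have key := rig_int hΩ hΩf hV.symm hV0 hC hτ hτ1 hl0 hp hδ.le h1.aemeas h2.aemeas
      hψs.continuous hψ01 hψ0 iw iu hpair' hψδ hX hXδ hw hg hu
    refine key.trans (mul_le_mul' (ENNReal.ofReal_le_ofReal ?_) le_rfl)
    rw [hlV, ← hT, ← hZ]
    linarith

end Crest.Agent.R96.Push_899
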