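import Crest.Agent.R96.Hole4_348
import Crest.Agent.R096.Sk1_962
import Crest.Agent.R096.Ea1_713
import Crest.Agent.R096.Msh2_715
import Crest.Agent.R096.Ce2_537
import Crest.Agent.R096.Str1_696

-- ▼ part R96/Hole5_348
section

/-!
# R96, HOLE-TRACE, part 1: null sets and the local structure at the boundary (helper348)

The squeeze `chf τ N` of Hole1 puts the `k`-th dyadic shell of the cube into a layer of thickness `τ`
at the boundary.  If `τ → 0` the normal derivative of a PL map `g` is multiplied by `τ`, so only the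
Lipschitz constants of `g` restricted to the boundary of the cube count.
-/

set_option autoImplicit false

open Set Metric Filter Topology MeasureTheory Module
open scoped ENNReal NNReal

namespace Crest.Agent.R96.Hole_348

open Crest.Agent.R096.Ce_537 Crest.Agent.R096.Bd_416

variable {n : ℕ}

/-! ### null sets -/

lemma null_sect_range {d : ℕ} (hd : d + 1 < n) (φ : (Fin d → ℝ) → (Fin n → ℝ)) {K : ℝ≥0}
    (hφ : LipschitzWith K φ) : volume (sect 0 (range φ)) = 0 := by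
  set ψ : (Fin d → ℝ) × ℝ → (Fin n → ℝ) := fun t j => cg t.2 (φ t.1 j) with hψ
  have hL : LipschitzWith (2 * K + 2) ψ := by
    refine LipschitzWith.of_dist_le_mul fun s t => ?_
    rw [dist_eq_norm, dist_eq_norm]
    rw [pi_norm_le_iff_of_nonneg (by positivity)]
    intro j
    have h1 := cg_lip s.2 t.2 (φ s.1 j) (φ t.1 j)
    have h2 := abs_sub_apply_le (φ s.1) (φ t.1) j
    have h3 : ‖φ s.1 - φ t.1‖ ≤ K * ‖s.1 - t.1‖ := by
      have := hφ.dist_le_mul s.1 t.1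
      rwa [dist_eq_norm, dist_eq_norm] at this
    have h4 : ‖s.1 - t.1‖ ≤ ‖s - t‖ := norm_fst_le (s - t)
    have h5 : |s.2 - t.2| ≤ ‖s - t‖ := norm_snd_le (s - t)
    have h6 : (K:ℝ) * ‖s.1 - t.1‖ ≤ K * ‖s - t‖ := mul_le_mul_of_nonneg_left h4 K.2
    show |cg s.2 (φ s.1 j) - cg t.2 (φ t.1 j)| ≤ _
    push_cast
    nlinarith
  have hsub : sect 0 (range φ) ⊆ range ψ := by
    intro x hx
    obtain ⟨h1, h2, t, ht⟩ := hx
    rw [pow_zero, one_mul] at h1 h2
    refine ⟨(t, ‖x‖), ?_⟩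
    funext j
    show cg ‖x‖ (φ t j) = x j
    rw [ht, foot_zero]
    exact cg_cf h1
  have hdim : dimH (range ψ) < ((n : ℝ≥0) : ℝ≥0∞) := by
    refine (hL.dimH_range_le).trans_lt ?_
    rw [Real.dimH_univ_eq_finrank]
    have : finrank ℝ ((Fin d → ℝ) × ℝ) = d + 1 := by simp
    rw [this]
    exact_mod_cast hd
  have h0 : (μH[((n : ℝ≥0) : ℝ)] : Measure (Fin n → ℝ)) (range ψ) = 0 :=
    hausdorffMeasure_of_dimH_lt hdim
  have h1 : (volume : Measure (Fin n → ℝ)) = μH[((n : ℝ≥0) : ℝ)] := by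
    rw [← hausdorffMeasure_pi_real]
    simp
  refine measure_mono_null hsub ?_
  rw [h1]
  exact h0

lemma null_sect_sub {S : Set (Fin n → ℝ)} (D : Submodule ℝ (Fin n → ℝ))
    (hD : finrank ℝ D + 1 < n) (w : Fin n → ℝ) (hS : ∀ ω ∈ S, ω - w ∈ D) :
    volume (sect 0 S) = 0 := by
  set e : (Fin (finrank ℝ D) → ℝ) ≃ₗ[ℝ] D := LinearEquiv.ofFinrankEq _ _ (by simp) with he
  set A : (Fin (finrank ℝ D) → ℝ) →L[ℝ] (Fin n → ℝ) :=
    LinearMap.toContinuousLinearMap (D.subtype ∘ₗ e.toLinearMap) with hA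
  have hφ : LipschitzWith ‖A‖₊ (fun t => w + A t) := by
    refine LipschitzWith.of_dist_le_mul fun s t => ?_
    rw [dist_eq_norm, dist_eq_norm, add_sub_add_left_eq_sub, ← map_sub]
    exact A.le_opNorm _
  refine measure_mono_null ?_ (null_sect_range hD _ hφ)
  rintro x ⟨h1, h2, h3⟩
  refine ⟨h1, h2, e.symm ⟨foot 0 x - w, hS _ h3⟩, ?_⟩
  show w + A (e.symm ⟨foot 0 x - w, hS _ h3⟩) = foot 0 x
  have : A (e.symm ⟨foot 0 x - w, hS _ h3⟩) = foot 0 x - w := by
    show D.subtype (e (e.symm ⟨foot 0 x - w, hS _ h3⟩)) = _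
    rw [LinearEquiv.apply_symm_apply]
    rfl
  rw [this]
  abel

/-- the zero set, in a hyperplane `ω k = σ`, of an affine map which is not identically zero there -/
lemma null_sect_face {F : Type*} [NormedAddCommGroup F] [NormedSpace ℝ F] (k : Fin n) (σ : ℝ)
    (C : (Fin n → ℝ) →ᵃ[ℝ] F) (hC : ∃ ω : Fin n → ℝ, ω k = σ ∧ C ω ≠ 0) :
    volume (sect 0 {ω : Fin n → ℝ | ω k = σ ∧ C ω = 0}) = 0 := by
  rcases (({ω : Fin n → ℝ | ω k = σ ∧ C ω = 0})).eq_empty_or_nonempty with h | ⟨w, hw1, hw2⟩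
  · rw [h]
    have : sect 0 (∅ : Set (Fin n → ℝ)) = ∅ := by
      ext x; simp [sect]
    rw [this, measure_empty]
  obtain ⟨v, hv1, hv2⟩ := hC
  set P : (Fin n → ℝ) →ₗ[ℝ] ℝ := LinearMap.proj k with hP
  set D : Submodule ℝ (Fin n → ℝ) := LinearMap.ker P ⊓ LinearMap.ker C.linear with hD
  have hlin : ∀ x y, C.linear (x - y) = C x - C y := by
    intro x y
    have := C.linearMap_vsub x y
    simpa using this
  have hlt : D < LinearMap.ker P := by
    refine lt_of_le_of_ne inf_le_left ?_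
    intro h
    have h1 : v - w ∈ LinearMap.ker P := by
      rw [LinearMap.mem_ker]
      show v k - w k = 0
      rw [hv1, hw1, sub_self]
    rw [← h] at h1
    have h2 := (Submodule.mem_inf.1 h1).2
    rw [LinearMap.mem_ker, hlin, hw2, sub_zero] at h2
    exact hv2 h2
  have h1 : finrank ℝ D < finrank ℝ (LinearMap.ker P) := Submodule.finrank_lt_finrank_of_lt hlt
  have h2 : finrank ℝ (LinearMap.ker P) + 1 = n := by
    have h3 := LinearMap.finrank_range_add_finrank_ker P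
    have h4 : LinearMap.range P = ⊤ := by
      rw [LinearMap.range_eq_top]
      intro t
      exact ⟨fun _ => t, rfl⟩
    rw [h4, finrank_top, finrank_self, Module.finrank_fin_fun] at h3
    omega
  refine null_sect_sub D (by omega) w ?_
  rintro ω ⟨hω1, hω2⟩
  refine Submodule.mem_inf.2 ⟨?_, ?_⟩
  · rw [LinearMap.mem_ker]
    show ω k - w k = 0
    rw [hω1, hw1, sub_self]
  · rw [LinearMap.mem_ker, hlin, hω2, hw2, sub_zero]

/-! ### the exceptional set -/

section Z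

variable {F : Type*} [NormedAddCommGroup F] [NormedSpace ℝ F]

/-- edges of the cube -/
def Z1 (n : ℕ) : Set (Fin n → ℝ) :=
  {ω | ‖ω‖ = 1 ∧ ∃ k j : Fin n, k ≠ j ∧ |ω k| = 1 ∧ |ω j| = 1}

/-- changes of the affine map on the faces of the cube -/
def Z2 (s : Finset ((Fin n → ℝ) →ᵃ[ℝ] F)) : Set (Fin n → ℝ) :=
  {ω | ‖ω‖ = 1 ∧ ∃ k : Fin n, |ω k| = 1 ∧ ∃ A ∈ s, ∃ B ∈ s,
    (∃ ω' : Fin n → ℝ, ω' k = ω k ∧ A ω' ≠ B ω') ∧ A ω = B ω}

lemma abs_eq_one_iff {t : ℝ} : |t| = 1 ↔ t = 1 ∨ t = -1 := abs_eq zero_le_one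

lemma null_Z1 : volume (sect 0 (Z1 n)) = 0 := by
  have hsub : sect 0 (Z1 n) ⊆ ⋃ (k : Fin n) (j : Fin n) (_ : k ≠ j) (σ ∈ ({1, -1} : Set ℝ))
      (σ' ∈ ({1, -1} : Set ℝ)), sect 0 {ω : Fin n → ℝ | ω k = σ ∧
        (((LinearMap.proj j : (Fin n → ℝ) →ₗ[ℝ] ℝ).toAffineMap - AffineMap.const ℝ _ σ') :
          (Fin n → ℝ) →ᵃ[ℝ] ℝ) ω = 0} := by
    rintro x ⟨h1, h2, h3, k, j, hkj, hk, hj⟩
    simp only [mem_iUnion]
    refine ⟨k, j, hkj, foot 0 x k, ?_, foot 0 x j, ?_, h1, h2, rfl, ?_⟩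
    · simpa using abs_eq_one_iff.1 hk
    · simpa using abs_eq_one_iff.1 hj
    · simp
  refine measure_mono_null hsub ?_
  refine (measure_iUnion_null_iff.2 fun k => ?_)
  refine (measure_iUnion_null_iff.2 fun j => ?_)
  refine (measure_iUnion_null_iff.2 fun hkj => ?_)
  refine (measure_biUnion_null_iff (by simp)).2 fun σ _ => ?_
  refine (measure_biUnion_null_iff (by simp)).2 fun σ' _ => ?_
  refine null_sect_face k σ _ ?_
  refine ⟨Function.update (fun _ => σ' + 1) k σ, by simp, ?_⟩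
  simp [Function.update_of_ne (Ne.symm hkj)]

lemma null_Z2 (s : Finset ((Fin n → ℝ) →ᵃ[ℝ] F)) : volume (sect 0 (Z2 s)) = 0 := by
  classical
  have hsub : sect 0 (Z2 s) ⊆ ⋃ (k : Fin n) (σ ∈ ({1, -1} : Set ℝ)) (A ∈ s) (B ∈ s)
      (_ : ∃ ω' : Fin n → ℝ, ω' k = σ ∧ A ω' ≠ B ω'),
        sect 0 {ω : Fin n → ℝ | ω k = σ ∧ (A - B) ω = 0} := by
    rintro x ⟨h1, h2, h3, k, hk, A, hA, B, hB, hAB, h4⟩
    simp only [mem_iUnion]
    refine ⟨k, foot 0 x k, ?_, A, hA, B, hB, hAB, h1, h2, rfl, ?_⟩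
    · simpa using abs_eq_one_iff.1 hk
    · simp [h4]
  refine measure_mono_null hsub ?_
  refine (measure_iUnion_null_iff.2 fun k => ?_)
  refine (measure_biUnion_null_iff (by simp)).2 fun σ _ => ?_
  refine (measure_biUnion_null_iff s.countable_toSet).2 fun A _ => ?_
  refine (measure_biUnion_null_iff s.countable_toSet).2 fun B _ => ?_
  refine (measure_iUnion_null_iff.2 fun h => ?_)
  obtain ⟨ω, h1, h2⟩ := h
  refine null_sect_face k σ _ ⟨ω, h1, ?_⟩
  simpa [sub_ne_zero] using h2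

lemma isClosed_Z1 : IsClosed (Z1 n) := by
  have e : Z1 n = {ω | ‖ω‖ = 1} ∩ ⋃ (k : Fin n) (j : Fin n) (_ : k ≠ j),
      {ω : Fin n → ℝ | |ω k| = 1 ∧ |ω j| = 1} := by
    ext ω
    simp only [Z1, mem_setOf_eq, mem_inter_iff, mem_iUnion, exists_prop]
  rw [e]
  refine (isClosed_eq continuous_norm continuous_const).inter ?_
  refine isClosed_iUnion_of_finite fun k => isClosed_iUnion_of_finite fun j =>
    isClosed_iUnion_of_finite fun _ => ?_
  exact (isClosed_eq (continuous_apply k).abs continuous_const).inter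
    (isClosed_eq (continuous_apply j).abs continuous_const)

lemma isClosed_Z2 (s : Finset ((Fin n → ℝ) →ᵃ[ℝ] F)) : IsClosed (Z2 s) := by
  have e : Z2 s = {ω | ‖ω‖ = 1} ∩ ⋃ (k : Fin n) (σ ∈ ({1, -1} : Set ℝ)) (A ∈ s) (B ∈ s)
      (_ : ∃ ω' : Fin n → ℝ, ω' k = σ ∧ A ω' ≠ B ω'),
        {ω : Fin n → ℝ | ω k = σ ∧ A ω = B ω} := by
    ext ω
    simp only [Z2, mem_setOf_eq, mem_inter_iff, mem_iUnion, exists_prop]
    refine and_congr_right fun _ => exists_congr fun k => ?_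
    constructor
    · rintro ⟨hk, A, hA, B, hB, h1, h2⟩
      exact ⟨ω k, by simpa using abs_eq_one_iff.1 hk, A, hA, B, hB, h1, rfl, h2⟩
    · rintro ⟨σ, hσ, A, hA, B, hB, h1, h2, h3⟩
      subst h2
      exact ⟨abs_eq_one_iff.2 (by simpa using hσ), A, hA, B, hB, h1, h3⟩
  rw [e]
  refine (isClosed_eq continuous_norm continuous_const).inter ?_
  refine isClosed_iUnion_of_finite fun k => ?_
  refine Set.Finite.isClosed_biUnion (by simp) fun σ _ => ?_
  refine Set.Finite.isClosed_biUnion s.finite_toSet fun A _ => ?_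
  refine Set.Finite.isClosed_biUnion s.finite_toSet fun B _ => ?_
  refine isClosed_iUnion_of_finite fun _ => ?_
  exact (isClosed_eq (continuous_apply k) continuous_const).inter
    (isClosed_eq A.continuous_of_finiteDimensional B.continuous_of_finiteDimensional)

end Z

end Crest.Agent.R96.Hole_348
end

-- ▼ part R96/Hole6_348
section

/-!
# R96, HOLE-TRACE, part 2: local structure of a PL map at the boundary of the cube (helper348)
-/

set_option autoImplicit false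

open Set Metric Filter Topology MeasureTheory Module
open scoped ENNReal NNReal

namespace Crest.Agent.R96.Hole_348

open Crest.Agent.R096.Ce_537 Crest.Agent.R096.Bd_416

variable {n : ℕ} {G : Type*} [NormedAddCommGroup G] [NormedSpace ℝ G]

/-- near `ω` the boundary of the cube is a face and `g` is affine in the cube -/
structure Nice (g : (Fin n → ℝ) → G) (s : Finset ((Fin n → ℝ) →ᵃ[ℝ] G)) (ω : Fin n → ℝ) (δ : ℝ)
    (k : Fin n) (A : (Fin n → ℝ) →ᵃ[ℝ] G) : Prop where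
  pos : 0 < δ
  mem : A ∈ s
  bd : |ω k| = 1
  side : ∀ y ∈ ball ω δ, ∀ j, j ≠ k → |y j| < 1
  face : ∀ y ∈ ball ω δ, ‖y‖ = 1 → y k = ω k
  eq : ∀ y ∈ ball ω δ, ‖y‖ ≤ 1 → g y = A y

lemma exists_max_coord (hn : 0 < n) {ω : Fin n → ℝ} (h : ‖ω‖ = 1) : ∃ k, |ω k| = 1 := by
  have : Nonempty (Fin n) := ⟨⟨0, hn⟩⟩
  obtain ⟨k, hk⟩ := Finite.exists_max (fun k => |ω k|)
  refine ⟨k, le_antisymm (by rw [← h]; exact norm_le_pi_norm ω k) ?_⟩
  rw [← h]
  exact (pi_norm_le_iff_of_nonneg (abs_nonneg _)).2 hk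

/-- two affine maps which agree on a hyperplane `ω k = σ` and at a point off it are equal -/
lemma affine_eq_of {A B : (Fin n → ℝ) →ᵃ[ℝ] G} {k : Fin n} {σ : ℝ}
    (h : ∀ ω : Fin n → ℝ, ω k = σ → A ω = B ω) {y : Fin n → ℝ} (hy : y k ≠ σ) (h2 : A y = B y) :
    A = B := by
  have hlin : ∀ (C : (Fin n → ℝ) →ᵃ[ℝ] G) x y, C.linear (x - y) = C x - C y := by
    intro C x y
    have := C.linearMap_vsub x y
    simpa using this
  ext x
  -- choose ω₀ in the hyperplane and scale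
  set ω₀ : Fin n → ℝ := Function.update y k σ with hω₀
  have h0 : ω₀ k = σ := by simp [hω₀]
  set c : ℝ := (x k - σ) / (y k - σ) with hc
  have hyσ : y k - σ ≠ 0 := sub_ne_zero.2 hy
  set w : Fin n → ℝ := x - c • (y - ω₀) with hw
  have hwk : w k = σ := by
    show x k - c * (y k - ω₀ k) = σ
    rw [h0, hc, div_mul_cancel₀ _ hyσ]
    ring
  have e : ∀ C : (Fin n → ℝ) →ᵃ[ℝ] G, C x = C w + c • (C y - C ω₀) := by
    intro C
    rw [← hlin, ← map_smul]
    have : c • (y - ω₀) = x - w := by rw [hw]; abel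
    rw [this, hlin]
    abel
  rw [e A, e B, h w hwk, h ω₀ h0, h2]

lemma exists_nice (hn : 0 < n) {g : (Fin n → ℝ) → G} (hc : ContinuousOn g (closedBall 0 1))
    {s : Finset ((Fin n → ℝ) →ᵃ[ℝ] G)} (hs : ∀ x ∈ closedBall (0 : Fin n → ℝ) 1, ∃ A ∈ s, g x = A x)
    {ω : Fin n → ℝ} (hω : ‖ω‖ = 1) (h1 : ω ∉ Z1 n) (h2 : ω ∉ Z2 s) :
    ∃ δ k A, Nice g s ω δ k A := by
  classical
  obtain ⟨k, hk⟩ := exists_max_coord hn hω
  have hj : ∀ j, j ≠ k → |ω j| < 1 := by
    intro j hjk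
    refine lt_of_le_of_ne (by rw [← hω]; exact norm_le_pi_norm ω j) ?_
    intro h
    exact h1 ⟨hω, j, k, hjk, h, hk⟩
  -- the pairs
  have hpair : ∀ A ∈ s, ∀ B ∈ s, A ≠ B → ∀ᶠ y in 𝓝 ω, ‖y‖ < 1 → A y ≠ B y := by
    intro A hA B hB hAB
    by_cases he : A ω = B ω
    · have hall : ∀ ω' : Fin n → ℝ, ω' k = ω k → A ω' = B ω' := by
        intro ω' hω'
        by_contra hne
        exact h2 ⟨hω, k, hk, A, hA, B, hB, ⟨ω', hω', hne⟩, he⟩
      refine Eventually.of_forall fun y hy h3 => hAB ?_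
      refine affine_eq_of hall ?_ h3
      intro h4
      have : |y k| ≤ ‖y‖ := norm_le_pi_norm y k
      rw [h4, hk] at this
      linarith
    · have hcA : Continuous A := A.continuous_of_finiteDimensional
      have hcB : Continuous B := B.continuous_of_finiteDimensional
      have : ∀ᶠ y in 𝓝 ω, A y ≠ B y :=
        (isOpen_ne_fun hcA hcB).mem_nhds he
      filter_upwards [this] with y hy _
      exact hy
  have hside : ∀ᶠ y in 𝓝 ω, ∀ j, j ≠ k → |y j| < 1 := by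
    rw [eventually_all]
    intro j
    by_cases hjk : j = k
    · exact Eventually.of_forall fun y h => absurd hjk h
    · have : ∀ᶠ y in 𝓝 ω, |y j| < 1 :=
        (isOpen_lt (continuous_apply j).abs continuous_const).mem_nhds (hj j hjk)
      filter_upwards [this] with y hy _
      exact hy
  have hface : ∀ᶠ y in 𝓝 ω, |y k - ω k| < 1 :=
    (isOpen_lt ((continuous_apply k).sub continuous_const).abs continuous_const).mem_nhds
      (by simp)
  have hall : ∀ᶠ y in 𝓝 ω, ∀ A ∈ s, ∀ B ∈ s, A ≠ B → ‖y‖ < 1 → A y ≠ B y := by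
    refine (Filter.eventually_all_finset s).2 fun A hA => ?_
    refine (Filter.eventually_all_finset s).2 fun B hB => ?_
    by_cases hAB : A = B
    · exact Eventually.of_forall fun y h => absurd hAB h
    · filter_upwards [hpair A hA B hB hAB] with y hy _
      exact hy
  obtain ⟨δ, hδ, hball⟩ := Metric.eventually_nhds_iff_ball.1 ((hall.and hside).and hface)
  -- the map on the open part
  set U : Set (Fin n → ℝ) := ball ω δ ∩ ball 0 1 with hU
  have hUc : Convex ℝ U := (convex_ball _ _).inter (convex_ball _ _)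
  have happ : ∀ y : Fin n → ℝ, ‖y‖ ≤ 1 → y ∈ ball ω δ → y ∈ closure U := by
    intro y hy hyb
    have ht : Tendsto (fun t : ℝ => (1 - t) • y) (𝓝[>] 0) (𝓝 y) := by
      have : Tendsto (fun t : ℝ => (1 - t) • y) (𝓝 0) (𝓝 ((1 - 0 : ℝ) • y)) :=
        ((continuous_const.sub continuous_id).smul continuous_const).tendsto 0
      rw [sub_zero, one_smul] at this
      exact this.mono_left nhdsWithin_le_nhds
    refine mem_closure_of_tendsto ht ?_
    have e1 : ∀ᶠ t : ℝ in 𝓝[>] 0, (1 - t) • y ∈ ball ω δ := ht.eventually (isOpen_ball.mem_nhds hyb)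
    have e2 : ∀ᶠ t : ℝ in 𝓝[>] 0, t < 1 := by
      have : ∀ᶠ t : ℝ in 𝓝 0, t < 1 := isOpen_Iio.mem_nhds (by norm_num)
      exact this.filter_mono nhdsWithin_le_nhds
    filter_upwards [e1, e2, self_mem_nhdsWithin] with t h3 h4 h5
    refine ⟨h3, ?_⟩
    rw [mem_ball_zero_iff, norm_smul, Real.norm_eq_abs, abs_of_pos (by linarith)]
    have h5' : (0:ℝ) < t := h5
    nlinarith [norm_nonneg y]
  have hUne : U.Nonempty := by
    rw [← closure_nonempty_iff]
    exact ⟨ω, happ ω hω.le (mem_ball_self hδ)⟩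
  obtain ⟨y₀, hy₀⟩ := hUne
  obtain ⟨A, hA, hgA⟩ := hs y₀ (ball_subset_closedBall hy₀.2)
  set T : Set (Fin n → ℝ) := {y | y ∈ closedBall (0 : Fin n → ℝ) 1 ∧ g y = A y} with hT
  have hclosed : ∀ B : (Fin n → ℝ) →ᵃ[ℝ] G,
      IsClosed {y | y ∈ closedBall (0 : Fin n → ℝ) 1 ∧ g y = B y} := by
    intro B
    have hd : ContinuousOn (fun y => g y - B y) (closedBall (0 : Fin n → ℝ) 1) :=
      hc.sub B.continuous_of_finiteDimensional.continuousOn
    have h3 := hd.preimage_isClosed_of_isClosed isClosed_closedBall (isClosed_singleton (x := (0:G)))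
    convert h3 using 1
    ext y
    simp [sub_eq_zero]
  have hUT : U ⊆ T := by
    set T' : Set (Fin n → ℝ) := ⋃ B ∈ s.erase A, {y | y ∈ closedBall (0 : Fin n → ℝ) 1 ∧ g y = B y}
      with hT'
    have hT'c : IsClosed T' := (s.erase A).finite_toSet.isClosed_biUnion fun B _ => hclosed B
    have hcov : U ⊆ T ∪ T' := by
      intro y hy
      have hy1 := ball_subset_closedBall hy.2
      obtain ⟨B, hB, hgB⟩ := hs y hy1
      by_cases hBA : B = A
      · exact Or.inl ⟨hy1, by rw [← hBA]; exact hgB⟩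
      · right
        simp only [hT', mem_iUnion]
        exact ⟨B, Finset.mem_erase.2 ⟨hBA, hB⟩, hy1, hgB⟩
    intro y hy
    rcases hcov hy with h3 | h3
    · exact h3
    · exfalso
      have hpre := isPreconnected_closed_iff.1 hUc.isPreconnected T T' (hclosed A) hT'c hcov
        ⟨y₀, hy₀, ball_subset_closedBall hy₀.2, hgA⟩ ⟨y, hy, h3⟩
      obtain ⟨z, hz, hz1, hz2⟩ := hpre
      simp only [hT', mem_iUnion] at hz2
      obtain ⟨B, hB, hz3⟩ := hz2
      have hB' := Finset.mem_erase.1 hB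
      exact (hball z hz.1).1.1 A hA B hB'.2 (Ne.symm hB'.1) (by simpa using hz.2)
        (hz1.2.symm.trans hz3.2)
  refine ⟨δ, k, A, hδ, hA, hk, fun y hy j hjk => (hball y hy).1.2 j hjk, ?_, ?_⟩
  · intro y hy hy1
    have hyk : |y k| = 1 := by
      obtain ⟨k', hk'⟩ := exists_max_coord hn hy1
      by_cases hkk : k' = k
      · rw [← hkk]; exact hk'
      · have := (hball y hy).1.2 k' hkk
        linarith
    have h3 := (hball y hy).2
    rcases abs_eq_one_iff.1 hyk with h4 | h4 <;> rcases abs_eq_one_iff.1 hk with h5 | h5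
    · rw [h4, h5]
    · rw [h4, h5] at h3; norm_num at h3
    · rw [h4, h5] at h3; norm_num at h3
    · rw [h4, h5]
  · intro y hy hy1
    have h3 : closure U ⊆ T := (hclosed A).closure_subset_iff.2 hUT
    exact (h3 (happ y hy1 hy)).2

/-- the points of `S` at which `g` restricted to `S` has local Lipschitz constant `≤ μ` -/
def TB {E G' : Type*} [NormedAddCommGroup E] [NormedAddCommGroup G'] (μ : ℝ) (g : E → G')
    (S : Set E) : Set E := {z | z ∈ S ∧ ∀ᶠ y in 𝓝[S] z, ‖g y - g z‖ ≤ μ * ‖y - z‖}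

/-- the tangential bound -/
lemma Nice.tan {g : (Fin n → ℝ) → G} {s : Finset ((Fin n → ℝ) →ᵃ[ℝ] G)} {ω : Fin n → ℝ} {δ : ℝ}
    {k : Fin n} {A : (Fin n → ℝ) →ᵃ[ℝ] G} (h : Nice g s ω δ k A) {μ : ℝ}
    (hμ : ω ∈ closure (TB μ g (sphere 0 1))) (v : Fin n → ℝ) (hv : v k = 0) :
    ‖A.linear v‖ ≤ μ * ‖v‖ := by
  have hlin : ∀ x y, A.linear (x - y) = A x - A y := by
    intro x y
    have := A.linearMap_vsub x y
    simpa using this
  obtain ⟨z, hzb, hz1, hz2⟩ := mem_closure_iff_nhds.1 hμ _ (ball_mem_nhds ω h.pos)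
  have hzn : ‖z‖ = 1 := by simpa using hz1
  have hzk : z k = ω k := h.face z hzb hzn
  have h1 : Tendsto (fun t : ℝ => z + t • v) (𝓝[>] 0) (𝓝 z) := by
    have : Tendsto (fun t : ℝ => z + t • v) (𝓝 0) (𝓝 (z + (0:ℝ) • v)) :=
      (continuous_const.add (continuous_id.smul continuous_const)).tendsto 0
    rw [zero_smul, add_zero] at this
    exact this.mono_left nhdsWithin_le_nhds
  have hb : ∀ᶠ t : ℝ in 𝓝[>] 0, z + t • v ∈ ball ω δ := h1.eventually (isOpen_ball.mem_nhds hzb)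
  have hs : ∀ t : ℝ, z + t • v ∈ ball ω δ → ‖z + t • v‖ = 1 := by
    intro t ht
    have hk : (z + t • v) k = ω k := by simp [hv, hzk]
    refine le_antisymm ((pi_norm_le_iff_of_nonneg zero_le_one).2 fun j => ?_) ?_
    · by_cases hj : j = k
      · rw [hj, Real.norm_eq_abs, hk, h.bd]
      · exact (h.side _ ht j hj).le
    · calc (1:ℝ) = |(z + t • v) k| := by rw [hk, h.bd]
        _ ≤ _ := norm_le_pi_norm (z + t • v) k
  have ht : Tendsto (fun t : ℝ => z + t • v) (𝓝[>] 0) (𝓝[sphere 0 1] z) := by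
    refine tendsto_nhdsWithin_iff.2 ⟨h1, ?_⟩
    filter_upwards [hb] with t ht
    rw [mem_sphere_zero_iff_norm]
    exact hs t ht
  have h2 := ht.eventually hz2
  obtain ⟨t, ⟨h4, h5⟩, h7⟩ := ((h2.and hb).and self_mem_nhdsWithin).exists
  have h7' : (0:ℝ) < t := h7
  rw [h.eq _ h5 (hs t h5).le, h.eq _ hzb hzn.le, ← hlin, add_sub_cancel_left,
    map_smul, norm_smul, norm_smul, Real.norm_eq_abs, abs_of_pos h7'] at h4
  have : t * ‖A.linear v‖ ≤ t * (μ * ‖v‖) := by linarith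
  exact le_of_mul_le_mul_left this h7'

/-- **the local Lipschitz constant of the squeezed map in the shells: only the tangential
constant, up to a term with the factor `τ`** -/
lemma LLV_shell_tan {g : (Fin n → ℝ) → G} {s : Finset ((Fin n → ℝ) →ᵃ[ℝ] G)} {δ : ℝ}
    {k₀ : Fin n} {A : (Fin n → ℝ) →ᵃ[ℝ] G} {τ μ L : ℝ} {N k : ℕ} (hP : Par τ N 1) (hk : k < N)
    {x : Fin n → ℝ} (h1 : 1/2 < 2^k * ‖x‖) (h2 : 2^k * ‖x‖ < 1)
    (h : Nice g s (foot k x) δ k₀ A) (hμ0 : 0 ≤ μ)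
    (hμ : ∀ v : Fin n → ℝ, v k₀ = 0 → ‖A.linear v‖ ≤ μ * ‖v‖)
    (hL : ∀ v, ‖A.linear v‖ ≤ L * ‖v‖) (hL0 : 0 ≤ L) (hτ : 2 * (N * τ) < δ) :
    LLV (14 * 2^k * μ + 4 * τ * 2^k * L) (fun y => g (chf τ N y)) x := by
  have hlin : ∀ x y, A.linear (x - y) = A x - A y := by
    intro x y
    have := A.linearMap_vsub x y
    simpa using this
  obtain ⟨hf1, hf2, hf3⟩ := chf_near hP hk h1 h2
  have hp : (0:ℝ) < 2^k := by positivity
  have ht0 := hP.t0
  have hc : Tendsto (chf (n := n) τ N) (𝓝 x) (𝓝 (chf τ N x)) :=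
    (continuous_chf hP).continuousAt
  have hyb : chf τ N x ∈ ball (foot k x) δ := by
    rw [mem_ball, dist_eq_norm]; linarith
  have ho : ∀ᶠ y in 𝓝 x, 1/2 < 2^k * ‖y‖ ∧ 2^k * ‖y‖ < 1 := by
    have hcn : Continuous (fun y : Fin n → ℝ => 2^k * ‖y‖) := continuous_const.mul continuous_norm
    exact ((isOpen_lt continuous_const hcn).inter (isOpen_lt hcn continuous_const)).mem_nhds
      ⟨h1, h2⟩
  have hb1 : ∀ᶠ y in 𝓝 x, chf τ N y ∈ ball (foot k x) δ := hc.eventually (isOpen_ball.mem_nhds hyb)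
  have hb2 : ∀ᶠ y in 𝓝 x, foot k y ∈ ball (foot k x) δ :=
    (continuous_foot k).continuousAt.eventually (ball_mem_nhds _ h.pos)
  filter_upwards [ho, hb1, hb2] with y hy hy1 hy2
  obtain ⟨hg1, hg2, hg3⟩ := chf_near hP hk hy.1 hy.2
  rw [h.eq _ hy1 hg2.le, h.eq _ hyb hf2.le, ← hlin]
  set ρ := 1 - (k + 1) * τ + (2 * (2^k * ‖x‖) - 1) * τ with hρ
  set ρ' := 1 - (k + 1) * τ + (2 * (2^k * ‖y‖) - 1) * τ with hρ'
  have e1 : chf τ N x = fun j => cg ρ (foot k x j) := chf_shell hk h1.le h2.le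
  have e2 : chf τ N y = fun j => cg ρ' (foot k y j) := chf_shell hk hy.1.le hy.2.le
  set z : Fin n → ℝ := fun j => cg ρ (foot k y j) with hz
  have h5 : chf τ N y - chf τ N x = (chf τ N y - z) + (z - chf τ N x) := by abel
  rw [h5, map_add]
  have h6 : ‖chf τ N y - z‖ ≤ 4 * τ * 2^k * ‖y - x‖ := by
    rw [pi_norm_le_iff_of_nonneg (by positivity)]
    intro j
    have h7 := cg_lip ρ' ρ (foot k y j) (foot k y j)
    have e : ρ' - ρ = (2 * τ) * (2^k * (‖y‖ - ‖x‖)) := by rw [hρ, hρ']; ring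
    rw [sub_self, abs_zero, mul_zero, zero_add, e, abs_mul (2 * τ), abs_mul (2^k), abs_of_pos hp,
      abs_of_pos (by linarith : 0 < 2 * τ)] at h7
    have h8 := abs_norm_sub_le' y x
    have h9 : 2 * τ * (2^k * |‖y‖ - ‖x‖|) ≤ 2 * τ * (2^k * ‖y - x‖) := by gcongr
    rw [e2]
    show |cg ρ' (foot k y j) - cg ρ (foot k y j)| ≤ _
    calc _ ≤ 2 * (2 * τ * (2^k * |‖y‖ - ‖x‖|)) := h7
      _ ≤ 2 * (2 * τ * (2^k * ‖y - x‖)) := by linarith
      _ = _ := by ring
  have h7 : ‖z - chf τ N x‖ ≤ 14 * 2^k * ‖y - x‖ := by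
    rw [e1, pi_norm_le_iff_of_nonneg (by positivity)]
    intro j
    have h8 := cg_lip ρ ρ (foot k y j) (foot k x j)
    rw [sub_self, abs_zero, mul_zero, add_zero] at h8
    have h9 := (abs_sub_apply_le (foot k y) (foot k x) j).trans (foot_sub_le k y x)
    show |cg ρ (foot k y j) - cg ρ (foot k x j)| ≤ _
    linarith
  have h8 : (z - chf τ N x) k₀ = 0 := by
    rw [e1]
    show cg ρ (foot k y k₀) - cg ρ (foot k x k₀) = 0
    rw [h.face _ hy2 hg1, sub_self]
  have h9 := hμ _ h8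
  calc ‖A.linear (chf τ N y - z) + A.linear (z - chf τ N x)‖
      ≤ ‖A.linear (chf τ N y - z)‖ + ‖A.linear (z - chf τ N x)‖ := norm_add_le _ _
    _ ≤ L * (4 * τ * 2^k * ‖y - x‖) + μ * (14 * 2^k * ‖y - x‖) := by
        refine add_le_add ((hL _).trans ?_) (h9.trans ?_)
        · exact mul_le_mul_of_nonneg_left h6 hL0
        · exact mul_le_mul_of_nonneg_left h7 hμ0
    _ = _ := by ring

/-- uniform size on compact sets -/
lemma exists_nice_unif {g : (Fin n → ℝ) → G} {s : Finset ((Fin n → ℝ) →ᵃ[ℝ] G)}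
    {K : Set (Fin n → ℝ)} (hK : IsCompact K) (hK1 : ∀ ω ∈ K, ‖ω‖ = 1)
    (h : ∀ ω ∈ K, ∃ δ k A, Nice g s ω δ k A) :
    ∃ δ > 0, ∀ ω ∈ K, ∃ k A, Nice g s ω δ k A := by
  have key : ∃ δ > 0, ∀ ω ∈ K, ‖ω‖ = 1 → ∃ k A, Nice g s ω δ k A := by
    refine hK.induction_on (p := fun S => ∃ δ > 0, ∀ ω ∈ S, ‖ω‖ = 1 → ∃ k A, Nice g s ω δ k A)
      ⟨1, one_pos, fun ω hω => absurd hω (notMem_empty _)⟩ ?_ ?_ ?_
    · rintro S T hST ⟨δ, hδ, h1⟩
      exact ⟨δ, hδ, fun ω hω => h1 ω (hST hω)⟩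
    · rintro S T ⟨δ, hδ, h1⟩ ⟨δ', hδ', h1'⟩
      refine ⟨min δ δ', lt_min hδ hδ', ?_⟩
      have hmono : ∀ {ω : Fin n → ℝ} {a b : ℝ} {k A}, 0 < b → b ≤ a → Nice g s ω a k A →
          Nice g s ω b k A := by
        intro ω a b k A hb hab hn
        have hsub := ball_subset_ball (x := ω) hab
        exact ⟨hb, hn.mem, hn.bd, fun y hy => hn.side y (hsub hy), fun y hy => hn.face y (hsub hy),
          fun y hy => hn.eq y (hsub hy)⟩
      rintro ω (hω | hω) hω1
      · obtain ⟨k, A, h2⟩ := h1 ω hω hω1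
        exact ⟨k, A, hmono (lt_min hδ hδ') (min_le_left _ _) h2⟩
      · obtain ⟨k, A, h2⟩ := h1' ω hω hω1
        exact ⟨k, A, hmono (lt_min hδ hδ') (min_le_right _ _) h2⟩
    · intro ω hω
      obtain ⟨δ, k, A, h1⟩ := h ω hω
      refine ⟨ball ω (δ/2), mem_nhdsWithin_of_mem_nhds (ball_mem_nhds _ (half_pos h1.pos)),
        δ/2, half_pos h1.pos, ?_⟩
      intro ω' hω' hn1
      have hsub : ball ω' (δ/2) ⊆ ball ω δ := by
        refine ball_subset_ball' ?_
        rw [mem_ball] at hω'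
        linarith
      have hmem : ω' ∈ ball ω δ := hsub (mem_ball_self (half_pos h1.pos))
      have hf := h1.face ω' hmem hn1
      exact ⟨k, A, half_pos h1.pos, h1.mem, by rw [hf]; exact h1.bd,
        fun y hy => h1.side y (hsub hy), fun y hy hy1 => by rw [hf]; exact h1.face y (hsub hy) hy1,
        fun y hy => h1.eq y (hsub hy)⟩
  obtain ⟨δ, hδ, h1⟩ := key
  exact ⟨δ, hδ, fun ω hω => h1 ω hω (hK1 ω hω)⟩

end Crest.Agent.R96.Hole_348
end

-- ▼ part R96/Hole7_348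
section

/-!
# R96, HOLE-TRACE, part 3: the unit cube (helper348)

`hole_unit_trace`: for a PL map `g` on the closed cube, only the Lipschitz constants of `g`
restricted to the boundary sphere count.
-/

set_option autoImplicit false

open Set Metric Filter Topology MeasureTheory Module
open scoped ENNReal NNReal

namespace Crest.Agent.R96.Hole_348

open Crest.Agent.R096.Ce_537 Crest.Agent.R096.Bd_416

variable {n : ℕ} {G : Type*} [NormedAddCommGroup G] [NormedSpace ℝ G]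

lemma volume_sect_null (k : ℕ) {Z : Set (Fin n → ℝ)} (h : volume (sect 0 Z) = 0) :
    volume (sect k Z) = 0 := by
  have hp : (0:ℝ) < 2^k := by positivity
  have e : sect k Z = (fun x : Fin n → ℝ => (2:ℝ)^k • x) ⁻¹' sect 0 Z := by
    ext x
    have e2 : ‖(2:ℝ)^k • x‖ = 2^k * ‖x‖ := by rw [norm_smul]; simp
    show _ ↔ (1/2 ≤ 2^0 * ‖(2:ℝ)^k • x‖ ∧ 2^0 * ‖(2:ℝ)^k • x‖ ≤ 1 ∧ foot 0 ((2:ℝ)^k • x) ∈ Z)
    rw [e2, pow_zero, one_mul, ← foot_eq]
    rfl
  rw [e, Measure.addHaar_preimage_smul _ hp.ne', h, mul_zero]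

lemma sect_sub_closedBall (k : ℕ) (Z : Set (Fin n → ℝ)) : sect k Z ⊆ closedBall 0 1 := by
  rintro x ⟨_, h2, _⟩
  rw [mem_closedBall_zero_iff]
  have hp : (1:ℝ) ≤ 2^k := one_le_pow₀ (by norm_num)
  nlinarith [norm_nonneg x]

/-- the shells over small neighbourhoods of a null set are small -/
lemma exists_thick {Z : Set (Fin n → ℝ)} (hZc : IsClosed Z) (hZ : volume (sect 0 Z) = 0) (N : ℕ)
    (c : ℕ → ℝ) {ε : ℝ} (hε : 0 < ε) : ∃ m : ℕ, ∑ k : Fin N,
      ENNReal.ofReal (c k) * volume (sect k (cthickening (1 / ((m:ℝ) + 1)) Z)) ≤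
        ENNReal.ofReal ε := by
  have hk : ∀ k : ℕ, Tendsto (fun m : ℕ => volume (sect k (cthickening (1 / ((m:ℝ) + 1)) Z)))
      atTop (𝓝 0) := by
    intro k
    have hanti : Antitone (fun m : ℕ => sect k (cthickening (1 / ((m:ℝ) + 1)) Z)) := by
      intro m m' hm x hx
      obtain ⟨h1, h2, h3⟩ := hx
      refine ⟨h1, h2, cthickening_mono ?_ _ h3⟩
      have h4 : (m:ℝ) ≤ m' := by exact_mod_cast hm
      have h5 : (0:ℝ) ≤ m := Nat.cast_nonneg _
      exact one_div_le_one_div_of_le (by linarith) (by linarith)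
    have h1 := tendsto_measure_iInter_atTop (μ := (volume : Measure (Fin n → ℝ)))
      (s := fun m : ℕ => sect k (cthickening (1 / ((m:ℝ) + 1)) Z))
      (fun m => (isClosed_sect k isClosed_cthickening).measurableSet.nullMeasurableSet) hanti
      ⟨0, ne_top_of_le_ne_top (measure_closedBall_lt_top (x := (0 : Fin n → ℝ)) (r := 1)).ne
        (measure_mono (sect_sub_closedBall _ _))⟩
    have h2 : (⋂ m : ℕ, sect k (cthickening (1 / ((m:ℝ) + 1)) Z)) ⊆ sect k Z := by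
      intro x hx
      rw [mem_iInter] at hx
      refine ⟨(hx 0).1, (hx 0).2.1, ?_⟩
      have h3 : foot k x ∈ ⋂ m : ℕ, cthickening (1 / ((m:ℝ) + 1)) Z :=
        mem_iInter.2 fun m => (hx m).2.2
      have h4 : infEDist (foot k x) Z = 0 := by
        have h5 : ∀ m : ℕ, infEDist (foot k x) Z ≤ ENNReal.ofReal (1 / ((m:ℝ) + 1)) := fun m =>
          mem_iInter.1 h3 m
        have h6 : Tendsto (fun m : ℕ => ENNReal.ofReal (1 / ((m:ℝ) + 1))) atTop (𝓝 0) := by
          rw [← ENNReal.ofReal_zero]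
          exact ENNReal.tendsto_ofReal tendsto_one_div_add_atTop_nhds_zero_nat
        exact le_antisymm (ge_of_tendsto' h6 h5) zero_le
      exact (mem_iff_infEDist_zero_of_closed hZc).2 h4
    have h3 : volume (⋂ m : ℕ, sect k (cthickening (1 / ((m:ℝ) + 1)) Z)) = 0 :=
      measure_mono_null h2 (volume_sect_null k hZ)
    rw [h3] at h1
    exact h1
  have hsum : Tendsto (fun m : ℕ => ∑ k : Fin N, ENNReal.ofReal (c k) *
      volume (sect k (cthickening (1 / ((m:ℝ) + 1)) Z))) atTop (𝓝 (∑ _k : Fin N, 0)) := by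
    refine tendsto_finsetSum _ fun k _ => ?_
    have := ENNReal.Tendsto.const_mul (a := ENNReal.ofReal (c k)) (hk k)
      (Or.inr ENNReal.ofReal_ne_top)
    rwa [mul_zero] at this
  rw [Finset.sum_const_zero] at hsum
  have := hsum.eventually (gt_mem_nhds (show (0:ENNReal) < ENNReal.ofReal ε by
    rw [ENNReal.ofReal_pos]; exact hε))
  obtain ⟨m, hm⟩ := this.exists
  exact ⟨m, hm.le⟩

lemma exists_eta {ι : Type} [Fintype ι] {p : ℝ} (hp : 0 < p) (μ : ι → ℝ) (hμ : ∀ i, 0 ≤ μ i)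
    (C : ℝ) {ε : ℝ} (hε : 0 < ε) :
    ∃ η > 0, C * ∑ i, (μ i + η)^p ≤ C * ∑ i, μ i ^ p + ε := by
  have h1 : Tendsto (fun η : ℝ => C * ∑ i, (μ i + η)^p) (𝓝 0) (𝓝 (C * ∑ i, (μ i + 0)^p)) := by
    have : Continuous (fun η : ℝ => C * ∑ i, (μ i + η)^p) := by
      refine continuous_const.mul (continuous_finsetSum _ fun i _ => ?_)
      exact (continuous_const.add continuous_id).rpow_const fun _ => Or.inr hp.le
    exact this.tendsto 0
  simp only [add_zero] at h1
  have h2 : ∀ᶠ η : ℝ in 𝓝[>] 0, C * ∑ i, (μ i + η)^p < C * ∑ i, μ i ^ p + ε :=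
    (h1.mono_left nhdsWithin_le_nhds).eventually (gt_mem_nhds (by linarith))
  obtain ⟨η, h3, h4⟩ := (h2.and self_mem_nhdsWithin).exists
  exact ⟨η, h4, h3.le⟩

lemma exists_lin_bound (s : Finset ((Fin n → ℝ) →ᵃ[ℝ] G)) :
    ∃ L : ℝ, 0 ≤ L ∧ ∀ A ∈ s, ∀ v, ‖A.linear v‖ ≤ L * ‖v‖ := by
  classical
  set T : ((Fin n → ℝ) →ᵃ[ℝ] G) → ((Fin n → ℝ) →L[ℝ] G) :=
    fun A => LinearMap.toContinuousLinearMap A.linear with hT
  refine ⟨∑ A ∈ s, ‖T A‖, Finset.sum_nonneg fun _ _ => norm_nonneg _, ?_⟩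
  intro A hA v
  have h1 : ‖T A‖ ≤ ∑ A ∈ s, ‖T A‖ :=
    Finset.single_le_sum (f := fun A => ‖T A‖) (fun _ _ => norm_nonneg _) hA
  exact ((T A).le_opNorm v).trans (mul_le_mul_of_nonneg_right h1 (norm_nonneg _))

lemma Par.cover {N : ℕ} {ι : Type} {F : ι → Set (Fin n → ℝ)} (hcov : sphere 0 1 ⊆ ⋃ i, F i) :
    closedBall (0 : Fin n → ℝ) 1 ⊆
      (⋃ a : Fin N × ι, sect a.1 (F a.2)) ∪ closedBall 0 (((2:ℝ)^N)⁻¹) := by
  intro x hx
  rw [mem_closedBall_zero_iff] at hx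
  by_cases hxN : ‖x‖ ≤ ((2:ℝ)^N)⁻¹
  · exact Or.inr (by rw [mem_closedBall_zero_iff]; exact hxN)
  · left
    have hex : ∃ k, 1/2 ≤ (2:ℝ)^k * ‖x‖ := by
      refine ⟨N, ?_⟩
      have hp : (0:ℝ) < 2^N := by positivity
      have := mul_lt_mul_of_pos_left (not_le.1 hxN) hp
      rw [mul_inv_cancel₀ hp.ne'] at this
      linarith
    set k := Nat.find hex with hk
    have hk1 := Nat.find_spec hex
    rw [← hk] at hk1
    have hk2 : (2:ℝ)^k * ‖x‖ ≤ 1 := by
      rcases Nat.eq_zero_or_pos k with h | h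
      · rw [h]; simpa using hx
      · obtain ⟨m, hm⟩ : ∃ m, k = m + 1 := ⟨k - 1, by omega⟩
        have := Nat.find_min hex (m := m) (by omega)
        rw [hm, pow_succ]
        linarith [not_le.1 this]
    have hkN : k < N := by
      by_contra hc
      have h1 : (2:ℝ)^N ≤ 2^k := pow_le_pow_right₀ (by norm_num) (not_lt.1 hc)
      have hp : (0:ℝ) < 2^N := by positivity
      have := mul_lt_mul_of_pos_left (not_le.1 hxN) hp
      rw [mul_inv_cancel₀ hp.ne'] at this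
      nlinarith [norm_nonneg x]
    have hfoot : ‖foot k x‖ = 1 := by
      have e2 : ‖(2:ℝ)^k • x‖ = 2^k * ‖x‖ := by rw [norm_smul]; simp
      rw [foot_eq, foot_zero]
      exact norm_cf ⟨by rw [e2]; exact hk1, by rw [e2]; exact hk2⟩
    obtain ⟨i, hi⟩ := mem_iUnion.1 (hcov (show foot k x ∈ sphere 0 1 by simpa using hfoot))
    exact mem_iUnion.2 ⟨(⟨k, hkN⟩, i), hk1, hk2, hi⟩

/-- **HOLE SQUEEZE, TRACE FORM, unit cube**: only the local Lipschitz constants of `g`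
restricted to the boundary of the cube count. -/
theorem hole_unit_trace {p : ℝ} (hp0 : 0 < p) (hpn : p < n) {ι : Type} [Fintype ι]
    (F : ι → Set (Fin n → ℝ)) (hFc : ∀ i, IsClosed (F i)) {r : ℝ} (hr0 : 0 < r) (hr1 : r ≤ 1)
    (hd : ∀ i, ∀ x ∈ F i, ∀ y ∈ F i, ‖x - y‖ ≤ r) (hcov : sphere 0 1 ⊆ ⋃ i, F i)
    {μ : ι → ℝ} (hμ : ∀ i, 0 ≤ μ i) {g : (Fin n → ℝ) → G} (hg : PLOn g (closedBall 0 1))
    (htr : ∀ i, ∀ ω ∈ F i, ‖ω‖ = 1 → ω ∈ closure (TB (μ i) g (sphere 0 1)))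
    {ε : ℝ} (hε : 0 < ε) :
    ∃ χ : (Fin n → ℝ) ≃ₜ (Fin n → ℝ), PLOn χ univ ∧ PLOn χ.symm univ ∧
      (∀ x, 1 ≤ ‖x‖ → χ x = x) ∧ (∀ x, ‖x‖ < 1 → ‖χ x‖ < 1) ∧
      EnCov volume p (fun x => g (χ x)) (closedBall 0 1)
        (ENNReal.ofReal (Chole n p * (r^n / r) * ∑ i, μ i ^ p + ε)) := by
  classical
  have hn : 0 < n := by
    have : (0:ℝ) < n := hp0.trans hpn
    exact_mod_cast this
  have hq1 := q_lt_one (n := n) hpn
  have hq0 := q_pos (n := n) (p := p)
  set q := (2:ℝ)^(p - n) with hq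
  obtain ⟨hc, s, hs⟩ := hg
  obtain ⟨L, hL0, hL⟩ := exists_lin_bound s
  obtain ⟨L', hL'⟩ := Crest.Agent.R096.Sk_962.lipschitzOn_of_sel
    (convex_closedBall (0 : Fin n → ℝ) 1) hc hs
  have hLLV : ∀ y : Fin n → ℝ, ‖y‖ < 1 → LLV (L' : ℝ) g y := by
    intro y hy
    have h1 : ∀ᶠ z in 𝓝 y, ‖z‖ < 1 := (isOpen_lt continuous_norm continuous_const).mem_nhds hy
    filter_upwards [h1] with z hz
    have := hL'.dist_le_mul z (by simpa using hz.le) y (by simpa using hy.le)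
    rwa [dist_eq_norm, dist_eq_norm] at this
  have hε3 : 0 < ε / 3 := by linarith
  -- choice of N
  obtain ⟨N, hN⟩ : ∃ N : ℕ, ((2 * (L':ℝ))^p * 2^n) * q^N ≤ ε/3 := by
    rcases (show (0:ℝ) ≤ (2 * (L':ℝ))^p * 2^n by positivity).eq_or_lt with h | h
    · exact ⟨0, by rw [← h, zero_mul]; exact hε3.le⟩
    · obtain ⟨N, hN⟩ := exists_pow_lt_of_lt_one (div_pos hε3 h) hq1
      refine ⟨N, ?_⟩
      rw [lt_div_iff₀ h] at hN
      linarith
  -- the exceptional set
  set Z : Set (Fin n → ℝ) := Z1 n ∪ Z2 s with hZ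
  have hZc : IsClosed Z := isClosed_Z1.union (isClosed_Z2 s)
  have hZ0 : volume (sect 0 Z) = 0 := by
    have : sect 0 Z ⊆ sect 0 (Z1 n) ∪ sect 0 (Z2 s) := by
      rintro x ⟨h1, h2, h3 | h3⟩
      · exact Or.inl ⟨h1, h2, h3⟩
      · exact Or.inr ⟨h1, h2, h3⟩
    exact measure_mono_null this (measure_union_null null_Z1 (null_Z2 s))
  obtain ⟨m, hm⟩ := exists_thick hZc hZ0 N (fun k => ((L':ℝ) * (16 * 2^k))^p) hε3
  set D := cthickening (1 / ((m:ℝ) + 1)) Z with hD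
  -- uniform size
  set K : Set (Fin n → ℝ) := {ω | ‖ω‖ = 1 ∧ ENNReal.ofReal (1 / ((m:ℝ) + 1)) ≤ infEDist ω Z}
    with hK
  have hKc : IsCompact K := by
    have h1 : K = sphere 0 1 ∩ {ω | ENNReal.ofReal (1 / ((m:ℝ) + 1)) ≤ infEDist ω Z} := by
      ext ω; simp [hK]
    rw [h1]
    exact (isCompact_sphere 0 1).inter_right (isClosed_le continuous_const continuous_infEDist)
  obtain ⟨δ, hδ, hnice⟩ := exists_nice_unif (g := g) (s := s) hKc (fun ω hω => hω.1) (by
    intro ω hω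
    have h1 : ω ∉ Z := by
      intro h
      have h2 := hω.2
      rw [infEDist_zero_of_mem h] at h2
      have h3 : (0:ENNReal) < ENNReal.ofReal (1 / ((m:ℝ) + 1)) := by
        rw [ENNReal.ofReal_pos]; positivity
      exact absurd (h3.trans_le h2) (lt_irrefl _)
    exact exists_nice hn hc hs hω.1 (fun h => h1 (Or.inl h)) (fun h => h1 (Or.inr h)))
  obtain ⟨η, hη, hηs⟩ := exists_eta hp0 μ hμ (Chole n p * (r^n / r)) hε3
  -- choice of τ
  set t := min δ (min 1 (η / (L + 1))) with ht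
  have ht0 : 0 < t := lt_min hδ (lt_min one_pos (by positivity))
  set τ := t / (4 * (N + 1)) with hτ
  have hτ0 : 0 < τ := by positivity
  have hNτ : 2 * (N * τ) < t := by
    rw [hτ]
    have h1 : 2 * ((N:ℝ) * (t / (4 * (N + 1)))) = t * (N / (N + 1)) / 2 := by field_simp; ring
    rw [h1]
    have h2 : (N:ℝ) / (N + 1) ≤ 1 := by rw [div_le_one (by positivity)]; linarith
    nlinarith
  have ht1 : t ≤ 1 := (min_le_right _ _).trans (min_le_left _ _)
  have htη : t ≤ η / (L + 1) := (min_le_right _ _).trans (min_le_right _ _)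
  have h4τ : 4 * τ * L ≤ η := by
    have h1 : 4 * τ ≤ t := by
      rw [hτ]
      have h2 : 4 * (t / (4 * ((N:ℝ) + 1))) = t / (N + 1) := by field_simp
      rw [h2]
      exact div_le_self ht0.le (by have : (0:ℝ) ≤ N := Nat.cast_nonneg _; linarith)
    calc 4 * τ * L ≤ η / (L + 1) * L := by
          apply mul_le_mul_of_nonneg_right (h1.trans htη) hL0
      _ = η * (L / (L + 1)) := by ring
      _ ≤ η * 1 := by
          apply mul_le_mul_of_nonneg_left _ hη.le
          rw [div_le_one (by linarith)]; linarith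
      _ = η := mul_one _
  have hP : Par τ N 1 := ⟨hτ0, by linarith, le_rfl⟩
  refine ⟨chi hP, plOn_chf hP, plOn_chg hP, fun x hx => chf_out hx,
    fun x hx => norm_chf_lt hP hx, ?_⟩
  set f : (Fin n → ℝ) → G := fun x => g (chf τ N x) with hf
  have hshell : ∀ k : ℕ, ∀ᵐ x : Fin n → ℝ, 1/2 ≤ 2^k * ‖x‖ → 2^k * ‖x‖ ≤ 1 →
      1/2 < 2^k * ‖x‖ ∧ 2^k * ‖x‖ < 1 := by
    intro k
    filter_upwards [ae_norm_ne (((2:ℝ)^k)⁻¹) hn, ae_norm_ne (((2:ℝ)^k)⁻¹ / 2) hn]
      with x hx1 hx2 h1 h2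
    have hp : (0:ℝ) < 2^k := by positivity
    constructor
    · refine lt_of_le_of_ne h1 (fun h => hx2 ?_)
      field_simp
      linarith
    · refine lt_of_le_of_ne h2 (fun h => hx1 ?_)
      field_simp
      linarith
  -- a.e. bounds
  have hsect : ∀ k < N, ∀ i, ∀ᵐ x, x ∈ sect k (F i) \ sect k D →
      LLV ((μ i + η) * (16 * 2^k)) f x := by
    intro k hk i
    filter_upwards [hshell k] with x hx hxS
    obtain ⟨⟨h1, h2, h3⟩, h4⟩ := hxS
    obtain ⟨h1', h2'⟩ := hx h1 h2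
    obtain ⟨a1, a2, a3⟩ := chf_near hP hk h1' h2'
    have h5 : foot k x ∉ D := fun h => h4 ⟨h1, h2, h⟩
    have h6 : foot k x ∈ K := by
      refine ⟨a1, ?_⟩
      by_contra hcon
      exact h5 (le_of_lt (not_le.1 hcon))
    obtain ⟨k₀, A, hA⟩ := hnice _ h6
    have h7 := hA.tan (htr i _ h3 a1)
    have h8 := LLV_shell_tan hP hk h1' h2' hA (hμ i) h7 (hL A hA.mem) hL0
      (hNτ.trans_le (min_le_left _ _))
    refine h8.mono ?_
    have hp : (0:ℝ) < 2^k := by positivity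
    have h9 : 4 * τ * 2^k * L ≤ η * 2^k := by
      calc 4 * τ * 2^k * L = (4 * τ * L) * 2^k := by ring
        _ ≤ η * 2^k := mul_le_mul_of_nonneg_right h4τ hp.le
    have h10 : 0 ≤ μ i * 2^k := mul_nonneg (hμ i) hp.le
    have h11 : 0 ≤ η * 2^k := by positivity
    nlinarith
  have hbad : ∀ k < N, ∀ᵐ x, x ∈ sect k D → LLV ((L':ℝ) * (16 * 2^k)) f x := by
    intro k hk
    filter_upwards [hshell k] with x hx hxS
    obtain ⟨h1, h2, h3⟩ := hxS
    obtain ⟨h1', h2'⟩ := hx h1 h2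
    obtain ⟨a1, a2, a3⟩ := chf_near hP hk h1' h2'
    exact LLV_shell hP hk h1' h2' L'.2 (hLLV _ a2)
  have hinn : ∀ᵐ x, x ∈ closedBall (0 : Fin n → ℝ) (((2:ℝ)^N)⁻¹) →
      LLV ((L':ℝ) * (2 * 2^N)) f x := by
    filter_upwards [ae_norm_ne (((2:ℝ)^N)⁻¹) hn, ae_norm_ne (n := n) 1 hn] with x hx1 hx1' hxS
    rw [mem_closedBall_zero_iff] at hxS
    have hp : (0:ℝ) < 2^N := by positivity
    have hp1 : (1:ℝ) ≤ 2^N := one_le_pow₀ (by norm_num)
    have h1 : ‖x‖ < ((2:ℝ)^N)⁻¹ := lt_of_le_of_ne hxS hx1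
    have h2 : 2^N * ‖x‖ < 1 := by
      have := mul_lt_mul_of_pos_left h1 hp
      rwa [mul_inv_cancel₀ hp.ne'] at this
    have h3 : ‖x‖ < 1 := by nlinarith [norm_nonneg x]
    exact LLV_inner hP h2 L'.2 (hLLV _ (norm_chf_lt hP h3))
  set V : ℝ := 2 * 8^n * (r^n / r) with hV
  have hV0 : 0 ≤ V := by positivity
  have h16 : (0:ℝ) ≤ (16:ℝ)^p := by positivity
  have hμη : ∀ i, 0 ≤ μ i + η := fun i => add_nonneg (hμ i) hη.le
  have hstep : ∀ a : Fin N × ι, ENNReal.ofReal (((μ a.2 + η) * (16 * 2^(a.1:ℕ)))^p) *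
      volume (sect a.1 (F a.2) \ sect a.1 D) ≤
      ENNReal.ofReal ((16:ℝ)^p * V * (q^(a.1 : ℕ) * (μ a.2 + η) ^ p)) := by
    rintro ⟨k, i⟩
    have hnn : 0 ≤ (μ i + η) * (16 * 2^(k:ℕ)) := mul_nonneg (hμη i) (by positivity)
    refine (mul_le_mul' le_rfl ((measure_mono sdiff_subset).trans
      (volume_sect k (F i) hr0 hr1 (hd i)))).trans ?_
    rw [← ENNReal.ofReal_mul (by positivity)]
    apply le_of_eq
    congr 1
    rw [Real.mul_rpow (hμη i) (by positivity), Real.mul_rpow (by norm_num) (by positivity)]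
    have := pow_aux (n := n) (k : ℕ) (p := p)
    rw [← hq] at this
    calc (μ i + η) ^ p * ((16:ℝ)^p * ((2:ℝ)^(k:ℕ))^p) *
          ((((2:ℝ)^(k:ℕ))⁻¹)^n * (2 * 8^n * (r^n / r)))
        = (16:ℝ)^p * V * ((((2:ℝ)^(k:ℕ))^p * (((2:ℝ)^(k:ℕ))⁻¹)^n) * (μ i + η) ^ p) := by
          rw [hV]; ring
      _ = _ := by rw [this]
  have hin : ENNReal.ofReal (((L':ℝ) * (2 * 2^N))^p) *
      volume (closedBall (0 : Fin n → ℝ) (((2:ℝ)^N)⁻¹)) ≤ ENNReal.ofReal (ε/3) := by
    rw [Real.volume_pi_closedBall _ (by positivity), Fintype.card_fin,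
      ← ENNReal.ofReal_mul (by positivity)]
    apply ENNReal.ofReal_le_ofReal
    refine le_trans (le_of_eq ?_) hN
    have := pow_aux (n := n) N (p := p)
    rw [← hq] at this
    have e : ((L':ℝ) * (2 * 2^N))^p = (2 * (L':ℝ))^p * ((2:ℝ)^N)^p := by
      rw [← Real.mul_rpow (by positivity) (by positivity)]
      congr 1; ring
    rw [e, mul_pow, ← this]
    ring
  have hmain : ∑ a : Fin N × ι, (16:ℝ)^p * V * (q^(a.1 : ℕ) * (μ a.2 + η) ^ p) ≤
      Chole n p * (r^n / r) * ∑ i, (μ i + η) ^ p := by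
    have e1 : ∑ a : Fin N × ι, (16:ℝ)^p * V * (q^(a.1 : ℕ) * (μ a.2 + η) ^ p) =
        (16:ℝ)^p * V * ((∑ k ∈ Finset.range N, q^k) * ∑ i, (μ i + η) ^ p) := by
      rw [← Finset.mul_sum, Fintype.sum_prod_type, Finset.sum_mul, Finset.sum_range]
      congr 1
      refine Finset.sum_congr rfl fun k _ => ?_
      rw [Finset.mul_sum]
    rw [e1]
    have h1 := geom_le hq0.le hq1 N
    have h2 : 0 ≤ ∑ i, (μ i + η) ^ p :=
      Finset.sum_nonneg fun i _ => Real.rpow_nonneg (hμη i) p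
    have h3 : (16:ℝ)^p * V * ((∑ k ∈ Finset.range N, q^k) * ∑ i, (μ i + η) ^ p) ≤
        (16:ℝ)^p * V * ((1 / (1 - q)) * ∑ i, (μ i + η) ^ p) := by
      refine mul_le_mul_of_nonneg_left ?_ (by positivity)
      exact mul_le_mul_of_nonneg_right h1 h2
    have h4 : (16:ℝ)^p * V * ((1 / (1 - q)) * ∑ i, (μ i + η) ^ p) =
        Chole n p * (r^n / r) * ∑ i, (μ i + η) ^ p := by
      rw [Chole, hV, ← hq]
      ring
    linarith
  refine ⟨Option (Fin N × Option ι), inferInstance, fun o => o.elim (closedBall 0 (((2:ℝ)^N)⁻¹))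
    (fun a => a.2.elim (sect a.1 D) (fun i => sect a.1 (F i) \ sect a.1 D)),
    fun o => o.elim ((L':ℝ) * (2 * 2^N))
    (fun a => a.2.elim ((L':ℝ) * (16 * 2^(a.1:ℕ))) (fun i => (μ i + η) * (16 * 2^(a.1:ℕ)))),
    ?_, ?_, ?_, ?_, ?_⟩
  · rintro (_ | ⟨k, _ | i⟩)
    · exact isClosed_closedBall.measurableSet
    · exact (isClosed_sect _ isClosed_cthickening).measurableSet
    · exact (isClosed_sect _ (hFc _)).measurableSet.diff
        (isClosed_sect _ isClosed_cthickening).measurableSet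
  · rintro (_ | ⟨k, _ | i⟩)
    · show 0 ≤ (L':ℝ) * (2 * 2^N)
      positivity
    · show 0 ≤ (L':ℝ) * (16 * 2^(k:ℕ))
      positivity
    · exact mul_nonneg (hμη i) (by positivity)
  · intro x hx
    rcases Par.cover (N := N) hcov hx with h | h
    · obtain ⟨⟨k, i⟩, ha⟩ := mem_iUnion.1 h
      by_cases hxD : x ∈ sect k D
      · exact mem_iUnion.2 ⟨some (k, none), hxD⟩
      · exact mem_iUnion.2 ⟨some (k, some i), ha, hxD⟩
    · exact mem_iUnion.2 ⟨none, h⟩
  · rintro (_ | ⟨k, _ | i⟩)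
    · exact hinn
    · exact hbad k k.2
    · exact hsect k k.2 i
  rw [Fintype.sum_option]
  show ENNReal.ofReal (((L':ℝ) * (2 * 2^N))^p) *
    volume (closedBall (0 : Fin n → ℝ) (((2:ℝ)^N)⁻¹)) + ∑ a : Fin N × Option ι, _ ≤ _
  rw [Fintype.sum_prod_type]
  simp only [Fintype.sum_option]
  rw [Finset.sum_add_distrib]
  have hA : ∑ k : Fin N, ENNReal.ofReal (((L':ℝ) * (16 * 2^(k:ℕ)))^p) * volume (sect k D) ≤
      ENNReal.ofReal (ε/3) := hm
  have hB : ∑ k : Fin N, ∑ i, ENNReal.ofReal (((μ i + η) * (16 * 2^(k:ℕ)))^p) *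
      volume (sect k (F i) \ sect k D) ≤
      ENNReal.ofReal (Chole n p * (r^n / r) * ∑ i, μ i ^ p + ε/3) := by
    calc ∑ k : Fin N, ∑ i, ENNReal.ofReal (((μ i + η) * (16 * 2^(k:ℕ)))^p) *
          volume (sect k (F i) \ sect k D)
        = ∑ a : Fin N × ι, ENNReal.ofReal (((μ a.2 + η) * (16 * 2^(a.1:ℕ)))^p) *
          volume (sect a.1 (F a.2) \ sect a.1 D) := by rw [Fintype.sum_prod_type]
      _ ≤ ∑ a : Fin N × ι, ENNReal.ofReal ((16:ℝ)^p * V * (q^(a.1 : ℕ) * (μ a.2 + η) ^ p)) :=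
          Finset.sum_le_sum fun a _ => hstep a
      _ = ENNReal.ofReal (∑ a : Fin N × ι, (16:ℝ)^p * V * (q^(a.1 : ℕ) * (μ a.2 + η) ^ p)) := by
          rw [ENNReal.ofReal_sum_of_nonneg fun a _ => ?_]
          have := Real.rpow_nonneg (hμη a.2) p
          positivity
      _ ≤ _ := ENNReal.ofReal_le_ofReal (hmain.trans hηs)
  have h0 : 0 ≤ Chole n p * (r^n / r) * ∑ i, μ i ^ p := by
    have := Chole_nonneg (n := n) hpn
    have h2 : 0 ≤ ∑ i, μ i ^ p := Finset.sum_nonneg fun i _ => Real.rpow_nonneg (hμ i) p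
    positivity
  calc _ ≤ ENNReal.ofReal (ε/3) + (ENNReal.ofReal (ε/3) +
        ENNReal.ofReal (Chole n p * (r^n / r) * ∑ i, μ i ^ p + ε/3)) :=
        add_le_add hin (add_le_add hA hB)
    _ = ENNReal.ofReal (ε/3 + (ε/3 + (Chole n p * (r^n / r) * ∑ i, μ i ^ p + ε/3))) := by
        rw [← ENNReal.ofReal_add (by positivity) (by positivity),
          ← ENNReal.ofReal_add (by positivity) (by positivity)]
    _ ≤ _ := by
        apply ENNReal.ofReal_le_ofReal
        linarith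

end Crest.Agent.R96.Hole_348
end

-- ▼ part R96/Hr1_348
section

/-!
# R96, (HR) of 663 #9825, part 1: hole squeeze in a cube `closedBall a R` of `Fin n → ℝ`,
pieces of different sizes (helper348)
-/

set_option autoImplicit false

open Set Metric Filter Topology MeasureTheory Module
open scoped ENNReal NNReal

namespace Crest.Agent.R96.Hole_348

open Crest.Agent.R096.Ce_537 Crest.Agent.R096.Bd_416

section scale

variable {n : ℕ} {G : Type*} [NormedAddCommGroup G] [NormedSpace ℝ G]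
variable {a : Fin n → ℝ} {R : ℝ}

/-- from the unit cube to `closedBall a R` -/
noncomputable def up1 (a : Fin n → ℝ) (R : ℝ) (u : Fin n → ℝ) : Fin n → ℝ := a + R • u

/-- back -/
noncomputable def dn1 (a : Fin n → ℝ) (R : ℝ) (y : Fin n → ℝ) : Fin n → ℝ := R⁻¹ • (y - a)

lemma dn1_up1 (hR : R ≠ 0) (u : Fin n → ℝ) : dn1 a R (up1 a R u) = u := by
  simp [dn1, up1, smul_smul, inv_mul_cancel₀ hR]

lemma up1_dn1 (hR : R ≠ 0) (y : Fin n → ℝ) : up1 a R (dn1 a R y) = y := by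
  simp [dn1, up1, smul_smul, mul_inv_cancel₀ hR]

lemma up1_sub (hR : 0 < R) (u u' : Fin n → ℝ) :
    ‖up1 a R u - up1 a R u'‖ = R * ‖u - u'‖ := by
  simp only [up1, add_sub_add_left_eq_sub, ← smul_sub]
  rw [norm_smul, Real.norm_eq_abs, abs_of_pos hR]

lemma dn1_sub (hR : 0 < R) (y y' : Fin n → ℝ) :
    ‖dn1 a R y - dn1 a R y'‖ = R⁻¹ * ‖y - y'‖ := by
  simp only [dn1]
  rw [← smul_sub, sub_sub_sub_cancel_right, norm_smul, norm_inv, Real.norm_eq_abs, abs_of_pos hR]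

lemma norm_dn1 (hR : 0 < R) (y : Fin n → ℝ) : ‖dn1 a R y‖ = R⁻¹ * ‖y - a‖ := by
  simp only [dn1]
  rw [norm_smul, norm_inv, Real.norm_eq_abs, abs_of_pos hR]

lemma norm_up1_sub (hR : 0 < R) (u : Fin n → ℝ) : ‖up1 a R u - a‖ = R * ‖u‖ := by
  simp only [up1, add_sub_cancel_left]
  rw [norm_smul, Real.norm_eq_abs, abs_of_pos hR]

lemma continuous_up1 : Continuous (up1 a R) := by
  unfold up1
  exact continuous_const.add (continuous_id.const_smul R)

lemma continuous_dn1 : Continuous (dn1 a R) := by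
  unfold dn1
  exact (continuous_id.sub continuous_const).const_smul R⁻¹

/-- the chart as an affine map -/
noncomputable def up1A (a : Fin n → ℝ) (R : ℝ) : (Fin n → ℝ) →ᵃ[ℝ] (Fin n → ℝ) where
  toFun := up1 a R
  linear := R • LinearMap.id
  map_vadd' p v := by
    simp only [up1, vadd_eq_add, smul_add]
    show _ = R • v + _
    abel

/-- the inverse chart as an affine map -/
noncomputable def dn1A (a : Fin n → ℝ) (R : ℝ) : (Fin n → ℝ) →ᵃ[ℝ] (Fin n → ℝ) where
  toFun := dn1 a R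
  linear := R⁻¹ • LinearMap.id
  map_vadd' p v := by
    simp only [dn1, vadd_eq_add]
    show _ = R⁻¹ • v + _
    rw [← smul_add, add_sub_assoc]

lemma volume_dn1 (hR : 0 < R) (S : Set (Fin n → ℝ)) :
    volume (dn1 a R ⁻¹' S) ≤ ENNReal.ofReal (R^n) * volume S := by
  have e : dn1 a R ⁻¹' S = (fun y : Fin n → ℝ => y + (-a)) ⁻¹'
      ((fun y : Fin n → ℝ => R⁻¹ • y) ⁻¹' S) := by
    ext y
    simp [dn1, sub_eq_add_neg]
  rw [e, measure_preimage_add_right, Measure.addHaar_preimage_smul _ (inv_ne_zero hR.ne')]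
  refine mul_le_mul' ?_ le_rfl
  apply ENNReal.ofReal_le_ofReal
  rw [Module.finrank_fin_fun, inv_pow, inv_inv, abs_of_pos (by positivity)]

lemma mem_closedBall_iff1 (hR : 0 < R) {y : Fin n → ℝ} :
    y ∈ closedBall a R ↔ ‖dn1 a R y‖ ≤ 1 := by
  rw [mem_closedBall, dist_eq_norm, norm_dn1 hR, inv_mul_le_iff₀ hR, mul_one]

lemma mem_ball_iff1 (hR : 0 < R) {y : Fin n → ℝ} :
    y ∈ ball a R ↔ ‖dn1 a R y‖ < 1 := by
  rw [mem_ball, dist_eq_norm, norm_dn1 hR, inv_mul_lt_iff₀ hR, mul_one]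

lemma up1_mem_sphere (hR : 0 < R) {u : Fin n → ℝ} : up1 a R u ∈ sphere a R ↔ ‖u‖ = 1 := by
  rw [mem_sphere, dist_eq_norm, norm_up1_sub hR]
  constructor
  · intro h
    have : R * (‖u‖ - 1) = 0 := by linarith
    rcases mul_eq_zero.1 this with h | h
    · exact absurd h hR.ne'
    · linarith
  · intro h
    rw [h, mul_one]

omit [NormedSpace ℝ G] in
lemma tb_transport1 (hR : 0 < R) {μ : ℝ} {g : (Fin n → ℝ) → G} {u : Fin n → ℝ}
    (h : up1 a R u ∈ closure (TB μ g (sphere a R))) :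
    u ∈ closure (TB (μ * R) (fun u => g (up1 a R u)) (sphere 0 1)) := by
  have hR0 := hR.ne'
  rw [mem_closure_iff_nhds] at h ⊢
  intro T hT
  have h1 : dn1 a R ⁻¹' T ∈ 𝓝 (up1 a R u) := by
    have : ContinuousAt (dn1 a R) (up1 a R u) := continuous_dn1.continuousAt
    refine this ?_
    rw [dn1_up1 hR0]
    exact hT
  obtain ⟨z, hz1, hz2, hz3⟩ := h _ h1
  have hzu : up1 a R (dn1 a R z) = z := up1_dn1 hR0 z
  refine ⟨dn1 a R z, hz1, ?_, ?_⟩
  · rw [mem_sphere_zero_iff_norm, ← up1_mem_sphere (a := a) hR, hzu]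
    exact hz2
  · have h2 : Tendsto (up1 a R) (𝓝[sphere 0 1] (dn1 a R z)) (𝓝[sphere a R] z) := by
      refine tendsto_nhdsWithin_iff.2 ⟨?_, ?_⟩
      · have h3 : Tendsto (up1 a R) (𝓝 (dn1 a R z)) (𝓝 (up1 a R (dn1 a R z))) :=
          continuous_up1.continuousAt
        rw [hzu] at h3
        exact h3.mono_left nhdsWithin_le_nhds
      · filter_upwards [self_mem_nhdsWithin] with y hy
        rw [up1_mem_sphere hR]
        simpa using hy
    filter_upwards [h2.eventually hz3] with y hy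
    show ‖g (up1 a R y) - g (up1 a R (dn1 a R z))‖ ≤ _
    rw [hzu]
    refine hy.trans ?_
    have h4 := up1_sub (a := a) hR y (dn1 a R z)
    rw [hzu] at h4
    rw [h4]
    apply le_of_eq
    ring

/-- **HOLE SQUEEZE, TRACE FORM, in the cube `closedBall a R` of `Fin n → ℝ`**. -/
theorem hole_ball {p : ℝ} (hp0 : 0 < p) (hpn : p < n) (a : Fin n → ℝ) {R r : ℝ}
    (hr0 : 0 < r) (hrR : r ≤ R) {ι : Type} [Fintype ι] (F : ι → Set (Fin n → ℝ))
    (hFc : ∀ i, IsClosed (F i)) (hd : ∀ i, ∀ x ∈ F i, ∀ y ∈ F i, ‖x - y‖ ≤ r)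
    (hcov : sphere a R ⊆ ⋃ i, F i) {μ : ι → ℝ} (hμ : ∀ i, 0 ≤ μ i) {g : (Fin n → ℝ) → G}
    (hg : PLOn g (closedBall a R))
    (htr : ∀ i, ∀ ω ∈ F i, ω ∈ sphere a R → ω ∈ closure (TB (μ i) g (sphere a R)))
    {ε : ℝ} (hε : 0 < ε) :
    ∃ χ : (Fin n → ℝ) ≃ₜ (Fin n → ℝ), PLOn χ univ ∧ PLOn χ.symm univ ∧
      (∀ x, x ∉ ball a R → χ x = x) ∧ (∀ x ∈ ball a R, χ x ∈ ball a R) ∧
      EnCov volume p (fun x => g (χ x)) (closedBall a R)
        (ENNReal.ofReal (Chole n p * (R * (r^n / r)) * ∑ i, μ i ^ p + ε)) := by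
  have hR : 0 < R := hr0.trans_le hrR
  have hR0 := hR.ne'
  have hRp : (0:ℝ) < R^(p - n) := Real.rpow_pos_of_pos hR _
  set g' : (Fin n → ℝ) → G := fun u => g (up1 a R u) with hg'
  have hε' : 0 < R^(p - n) * ε := mul_pos hRp hε
  have hup : PLOn (up1 a R) univ := plOn_affineMap (up1A a R) continuous_up1 univ
  have hdn : PLOn (dn1 a R) univ := plOn_affineMap (dn1A a R) continuous_dn1 univ
  obtain ⟨χ', h1, h2, h3, h4, h5⟩ := hole_unit_trace (n := n) (p := p) hp0 hpn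
    (fun i => up1 a R ⁻¹' F i) (fun i => (hFc i).preimage continuous_up1)
    (r := r / R) (by positivity) (by rw [div_le_one hR]; exact hrR) (by
      intro i x hx y hy
      have h6 := hd i _ hx _ hy
      rw [up1_sub hR] at h6
      rw [le_div_iff₀ hR]
      linarith) (by
      intro u hu
      have hu1 : ‖u‖ = 1 := by simpa using hu
      obtain ⟨i, hi⟩ := mem_iUnion.1 (hcov ((up1_mem_sphere hR).2 hu1))
      exact mem_iUnion.2 ⟨i, hi⟩)
    (μ := fun i => μ i * R) (fun i => mul_nonneg (hμ i) hR.le) (g := g')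
    (hg.comp (hup.mono (subset_univ _)) (by
      intro u hu
      rw [mem_closedBall_iff1 hR, dn1_up1 hR0]
      simpa using hu)) (by
      intro i ω hω hω1
      exact tb_transport1 hR (htr i _ hω ((up1_mem_sphere hR).2 hω1))) hε'
  -- the homeomorphism
  let χ : (Fin n → ℝ) ≃ₜ (Fin n → ℝ) :=
    { toFun := fun y => up1 a R (χ' (dn1 a R y))
      invFun := fun y => up1 a R (χ'.symm (dn1 a R y))
      left_inv := fun y => by
        show up1 a R (χ'.symm (dn1 a R (up1 a R (χ' (dn1 a R y))))) = y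
        rw [dn1_up1 hR0, χ'.symm_apply_apply, up1_dn1 hR0]
      right_inv := fun y => by
        show up1 a R (χ' (dn1 a R (up1 a R (χ'.symm (dn1 a R y))))) = y
        rw [dn1_up1 hR0, χ'.apply_symm_apply, up1_dn1 hR0]
      continuous_toFun := continuous_up1.comp (χ'.continuous.comp continuous_dn1)
      continuous_invFun := continuous_up1.comp (χ'.symm.continuous.comp continuous_dn1) }
  refine ⟨χ, ?_, ?_, ?_, ?_, ?_⟩
  · exact hup.comp (h1.comp hdn (mapsTo_univ _ _)) (mapsTo_univ _ _)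
  · exact hup.comp (h2.comp hdn (mapsTo_univ _ _)) (mapsTo_univ _ _)
  · intro x hx
    show up1 a R (χ' (dn1 a R x)) = x
    rw [mem_ball_iff1 hR, not_lt] at hx
    rw [h3 _ hx, up1_dn1 hR0]
  · intro x hx
    rw [mem_ball_iff1 hR] at hx ⊢
    show ‖dn1 a R (up1 a R (χ' (dn1 a R x)))‖ < 1
    rw [dn1_up1 hR0]
    exact h4 _ hx
  · have h6 := h5.transport (m' := (volume : Measure (Fin n → ℝ))) (dn1 a R) continuous_dn1
      (l := R⁻¹) (κ := R^n) (by positivity) (fun y y' => (dn1_sub hR y y').le) (volume_dn1 hR)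
    have hK : dn1 a R ⁻¹' closedBall 0 1 = closedBall a R := by
      ext y
      rw [mem_preimage, mem_closedBall_zero_iff, mem_closedBall_iff1 hR]
    rw [hK] at h6
    refine h6.mono ?_
    rw [← ENNReal.ofReal_mul (by positivity), ← ENNReal.ofReal_mul (by positivity)]
    apply ENNReal.ofReal_le_ofReal
    have e1 : ∀ i, (μ i * R)^p = R^p * μ i ^ p := by
      intro i
      rw [Real.mul_rpow (hμ i) hR.le]
      ring
    have e2 : (R⁻¹)^p * R^p = 1 := by
      rw [← Real.mul_rpow (by positivity) hR.le, inv_mul_cancel₀ hR0, Real.one_rpow]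
    have e3 : (R⁻¹)^p * R^n * R^(p - n) = 1 := by
      rw [Real.rpow_sub hR, Real.rpow_natCast]
      have h7 : R^n ≠ 0 := by positivity
      calc (R⁻¹)^p * R^n * (R^p / R^n) = (R⁻¹)^p * R^p * (R^n / R^n) := by ring
        _ = 1 := by rw [div_self h7, mul_one, e2]
    have e4 : ∑ i, (μ i * R)^p = R^p * ∑ i, μ i ^ p := by
      rw [Finset.mul_sum]
      exact Finset.sum_congr rfl fun i _ => e1 i
    show (R⁻¹)^p * R^n * (Chole n p * ((r / R)^n / (r / R)) * ∑ i, (μ i * R)^p +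
      R^(p - n) * ε) ≤ _
    rw [e4, mul_add]
    have e5 : (R⁻¹)^p * R^n * (R^(p - n) * ε) = ε := by
      rw [← mul_assoc, e3, one_mul]
    rw [e5]
    apply le_of_eq
    congr 1
    have e6 : R^n * ((r / R)^n / (r / R)) = R * (r^n / r) := by
      rw [div_pow]
      field_simp
    calc (R⁻¹)^p * R^n * (Chole n p * ((r / R)^n / (r / R)) * (R^p * ∑ i, μ i ^ p))
        = ((R⁻¹)^p * R^p) * (Chole n p * (R^n * ((r / R)^n / (r / R))) *
            ∑ i, μ i ^ p) := by ring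
      _ = _ := by rw [e2, e6, one_mul]

end scale

end Crest.Agent.R96.Hole_348
end

-- ▼ part R96/Hr2_348
section

/-!
# R96, (HR) of 663 #9825, part 2: hole squeeze, pieces of different sizes (helper348)
-/

set_option autoImplicit false

open Set Metric Filter Topology MeasureTheory Module
open scoped ENNReal NNReal

namespace Crest.Agent.R96.Hole_348

open Crest.Agent.R096.Ce_537 Crest.Agent.R096.Bd_416

variable {n : ℕ} {G : Type*} [NormedAddCommGroup G] [NormedSpace ℝ G]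

/-- the constant of `hole_ball_var` -/
noncomputable def Chv (n : ℕ) (p : ℝ) : ℝ := Chole n p * (2 * n * 3^(n - 1))

lemma Chv_nonneg {p : ℝ} (hpn : p < n) : 0 ≤ Chv n p := by
  have := Chole_nonneg hpn
  unfold Chv
  positivity

/-- **HOLE SQUEEZE, TRACE FORM, pieces of different sizes `d i`.** -/
theorem hole_ball_var {p : ℝ} (hp0 : 0 < p) (hpn : p < n) (a : Fin n → ℝ) {R : ℝ} (hR : 0 < R)
    {ι : Type} [Fintype ι] (F : ι → Set (Fin n → ℝ)) (hFc : ∀ i, IsClosed (F i)) {d : ι → ℝ}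
    (hd0 : ∀ i, 0 < d i) (hd : ∀ i, ∀ x ∈ F i, ∀ y ∈ F i, ‖x - y‖ ≤ d i)
    (hcov : sphere a R ⊆ ⋃ i, F i) {μ : ι → ℝ} (hμ : ∀ i, 0 ≤ μ i) {g : (Fin n → ℝ) → G}
    (hg : PLOn g (closedBall a R))
    (htr : ∀ i, ∀ ω ∈ F i, ω ∈ sphere a R → ω ∈ closure (TB (μ i) g (sphere a R)))
    {ε : ℝ} (hε : 0 < ε) :
    ∃ χ : (Fin n → ℝ) ≃ₜ (Fin n → ℝ), PLOn χ univ ∧ PLOn χ.symm univ ∧
      (∀ x, x ∉ ball a R → χ x = x) ∧ (∀ x ∈ ball a R, χ x ∈ ball a R) ∧
      EnCov volume p (fun x => g (χ x)) (closedBall a R)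
        (ENNReal.ofReal (Chv n p * R * ∑ i, d i ^ (n - 1) * μ i ^ p + ε)) := by
  classical
  have hn : 0 < n := by
    rcases Nat.eq_zero_or_pos n with h | h
    · subst h; simp at hpn; linarith
    · exact h
  -- the common scale
  obtain ⟨r, ⟨hrR, hrd⟩, hr0⟩ : ∃ r : ℝ, (r ≤ R ∧ ∀ i, r ≤ d i) ∧ 0 < r := by
    have h1 : ∀ᶠ r in 𝓝[>] (0:ℝ), r ≤ R ∧ ∀ i, r ≤ d i := by
      refine Filter.Eventually.and ?_ (Filter.eventually_all.2 fun i => ?_)
      · filter_upwards [Ioc_mem_nhdsGT hR] with r hr using hr.2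
      · filter_upwards [Ioc_mem_nhdsGT (hd0 i)] with r hr using hr.2
    exact (h1.and self_mem_nhdsWithin).exists
  set b : ι → (Fin n → ℝ) := fun i => if h : (F i).Nonempty then h.some else 0 with hb
  have hbd : ∀ i, ∀ x ∈ F i, ‖x - b i‖ ≤ d i := by
    intro i x hx
    have hne : (F i).Nonempty := ⟨x, hx⟩
    have e : b i = hne.some := by simp only [hb]; rw [dif_pos hne]
    rw [e]
    exact hd i x hx _ hne.some_mem
  set M : ι → ℕ := fun i => ⌊2 * d i / r⌋₊ + 1 with hM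
  have hM3 : ∀ i, (M i : ℝ) ≤ 3 * d i / r := by
    intro i
    have h1 : 0 ≤ 2 * d i / r := by have := hd0 i; positivity
    have h2 := Nat.floor_le h1
    have h3 : 1 ≤ d i / r := by rw [le_div_iff₀ hr0, one_mul]; exact hrd i
    have e : 3 * d i / r = 2 * d i / r + d i / r := by ring
    rw [e]
    push_cast [hM]
    linarith
  -- the subdivided pieces
  let sg : Bool → ℝ := fun s => if s then 1 else -1
  let J : Type := Σ i : ι, Σ k : Fin n, Bool × ({j : Fin n // j ≠ k} → Fin (M i))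
  let F' : J → Set (Fin n → ℝ) := fun q =>
    {x | x ∈ F q.1 ∧ x q.2.1 = a q.2.1 + sg q.2.2.1 * R ∧
      ∀ j : {j : Fin n // j ≠ q.2.1}, b q.1 j - d q.1 + r * ((q.2.2.2 j : ℕ) : ℝ) ≤ x j ∧
        x j ≤ b q.1 j - d q.1 + r * (((q.2.2.2 j : ℕ) : ℝ) + 1)}
  obtain ⟨χ, h1, h2, h3, h4, h5⟩ := hole_ball (p := p) hp0 hpn a hr0 hrR (ι := J) F' (by
      intro q
      have e : F' q = F q.1 ∩ ({x | x q.2.1 = a q.2.1 + sg q.2.2.1 * R} ∩
          ⋂ j : {j : Fin n // j ≠ q.2.1}, {x : Fin n → ℝ |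
            b q.1 j - d q.1 + r * ((q.2.2.2 j : ℕ) : ℝ) ≤ x j ∧
            x j ≤ b q.1 j - d q.1 + r * (((q.2.2.2 j : ℕ) : ℝ) + 1)}) := by
        ext x
        simp only [F', mem_setOf_eq, mem_inter_iff, mem_iInter]
      rw [e]
      refine (hFc _).inter ((isClosed_eq (continuous_apply _) continuous_const).inter
        (isClosed_iInter fun j => ?_))
      exact (isClosed_le continuous_const (continuous_apply _)).inter
        (isClosed_le (continuous_apply _) continuous_const)) (by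
      intro q x hx y hy
      rw [pi_norm_le_iff_of_nonneg hr0.le]
      intro j
      rw [Pi.sub_apply, Real.norm_eq_abs]
      by_cases hj : j = q.2.1
      · rw [hj, hx.2.1, hy.2.1, sub_self, abs_zero]
        exact hr0.le
      · have h6 := hx.2.2 ⟨j, hj⟩
        have h7 := hy.2.2 ⟨j, hj⟩
        rw [abs_le]
        simp only at h6 h7
        constructor <;> nlinarith [h6.1, h6.2, h7.1, h7.2]) (by
      intro ω hω
      obtain ⟨i, hi⟩ := mem_iUnion.1 (hcov hω)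
      have h6 : ‖dn1 a R ω‖ = 1 := by
        rw [norm_dn1 hR, ← dist_eq_norm, mem_sphere.1 hω, inv_mul_cancel₀ hR.ne']
      obtain ⟨k, hk⟩ := exists_max_coord hn h6
      have hk1 : |ω k - a k| = R := by
        have e : dn1 a R ω k = R⁻¹ * (ω k - a k) := rfl
        rw [e, abs_mul, abs_of_pos (inv_pos.2 hR), inv_mul_eq_iff_eq_mul₀ hR.ne', mul_one] at hk
        exact hk
      have hs : ∃ s : Bool, ω k = a k + sg s * R := by
        rcases (abs_eq hR.le).1 hk1 with h | h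
        · exact ⟨true, by simp only [sg, if_true]; linarith⟩
        · exact ⟨false, by simp only [sg]; norm_num; linarith⟩
      obtain ⟨s, hs⟩ := hs
      have h7 := hbd i ω hi
      have h8 : ∀ j, |ω j - b i j| ≤ d i := fun j => (abs_sub_apply_le ω (b i) j).trans h7
      have h9 : ∀ j, 0 ≤ (ω j - b i j + d i) / r := fun j =>
        div_nonneg (by have := (abs_le.1 (h8 j)).1; linarith) hr0.le
      have h10 : ∀ j, ⌊(ω j - b i j + d i) / r⌋₊ < M i := by
        intro j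
        refine Nat.lt_succ_of_le (Nat.floor_le_floor ?_)
        apply div_le_div_of_nonneg_right _ hr0.le
        have := (abs_le.1 (h8 j)).2
        linarith
      refine mem_iUnion.2 ⟨⟨i, k, s, fun j => ⟨⌊(ω j - b i j + d i) / r⌋₊, h10 j⟩⟩, hi, hs, ?_⟩
      rintro ⟨j, hj⟩
      have h11 := Nat.floor_le (h9 j)
      have h12 := (Nat.lt_floor_add_one ((ω j - b i j + d i) / r)).le
      rw [le_div_iff₀ hr0] at h11
      rw [div_le_iff₀ hr0] at h12
      constructor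
      · simp only
        linarith
      · simp only
        linarith)
    (μ := fun q => μ q.1) (fun q => hμ _) hg (fun q ω hω hω1 => htr _ ω hω.1 hω1) hε
  refine ⟨χ, h1, h2, h3, h4, h5.mono ?_⟩
  apply ENNReal.ofReal_le_ofReal
  have hcard : ∀ (i : ι), (Fintype.card (Σ k : Fin n, Bool × ({j : Fin n // j ≠ k} → Fin (M i))) : ℝ)
      = n * (2 * (M i : ℝ)^(n - 1)) := by
    intro i
    rw [Fintype.card_sigma]
    have : ∀ k : Fin n, Fintype.card (Bool × ({j : Fin n // j ≠ k} → Fin (M i))) =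
        2 * (M i)^(n - 1) := by
      intro k
      rw [Fintype.card_prod, Fintype.card_bool, Fintype.card_fun, Fintype.card_fin]
      congr 2
      rw [Fintype.card_subtype_compl]
      simp
    simp only [this, Finset.sum_const, Finset.card_univ, Fintype.card_fin, smul_eq_mul]
    push_cast
    ring
  have hsum : ∑ q : J, μ q.1 ^ p = ∑ i, (n * (2 * (M i : ℝ)^(n - 1))) * μ i ^ p := by
    rw [Fintype.sum_sigma]
    refine Finset.sum_congr rfl fun i _ => ?_
    simp only [Finset.sum_const, Finset.card_univ, nsmul_eq_mul]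
    rw [hcard]
  rw [hsum]
  have hrn : r^n / r = r^(n - 1) := by
    rw [div_eq_iff hr0.ne', ← pow_succ, Nat.sub_add_cancel hn]
  have hC := Chole_nonneg hpn
  have h6 : R * (r^n / r) * ∑ i, (n * (2 * (M i : ℝ)^(n - 1))) * μ i ^ p ≤
      (2 * n * 3^(n - 1)) * R * ∑ i, d i ^ (n - 1) * μ i ^ p := by
    rw [hrn, Finset.mul_sum, Finset.mul_sum]
    refine Finset.sum_le_sum fun i _ => ?_
    have h7 : r^(n - 1) * (M i : ℝ)^(n - 1) ≤ 3^(n - 1) * d i ^ (n - 1) := by
      rw [← mul_pow, ← mul_pow]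
      refine pow_le_pow_left₀ (by positivity) ?_ _
      have := hM3 i
      rw [le_div_iff₀ hr0] at this
      linarith
    have h8 : 0 ≤ μ i ^ p := Real.rpow_nonneg (hμ i) p
    calc R * r^(n - 1) * (n * (2 * (M i : ℝ)^(n - 1)) * μ i ^ p)
        = 2 * n * R * (r^(n - 1) * (M i : ℝ)^(n - 1)) * μ i ^ p := by ring
      _ ≤ 2 * n * R * (3^(n - 1) * d i ^ (n - 1)) * μ i ^ p := by
          refine mul_le_mul_of_nonneg_right ?_ h8
          exact mul_le_mul_of_nonneg_left h7 (by positivity)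
      _ = _ := by ring
  have h7 := mul_le_mul_of_nonneg_left h6 hC
  unfold Chv
  have e : Chole n p * (R * (r^n / r)) * ∑ i, (n * (2 * (M i : ℝ)^(n - 1))) * μ i ^ p =
    Chole n p * (R * (r^n / r) * ∑ i, (n * (2 * (M i : ℝ)^(n - 1))) * μ i ^ p) := by ring
  rw [e]
  calc _ ≤ Chole n p * ((2 * n * 3^(n - 1)) * R * ∑ i, d i ^ (n - 1) * μ i ^ p) + ε := by
        linarith
    _ = _ := by ring

end Crest.Agent.R96.Hole_348
end

-- ▼ part R96/Hr3_348
section

/-!
# R96, (HR) of 663 #9825, part 3: choice of the radius by averaging, arbitrary tiles in the ring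
(helper348)
-/

set_option autoImplicit false

open Set Metric Filter Topology MeasureTheory Module
open scoped ENNReal NNReal

namespace Crest.Agent.R96.Hole_348

open Crest.Agent.R096.Ce_537 Crest.Agent.R096.Bd_416

section slices

variable {n : ℕ}

/-- the complement of `N` is dense in the slice `x k = t` -/
def GoodSl (N : Set (Fin n → ℝ)) (k : Fin n) (t : ℝ) : Prop :=
  ∀ x : Fin n → ℝ, x k = t → ∀ δ > 0, ∃ y : Fin n → ℝ, y k = t ∧ ‖y - x‖ < δ ∧ y ∉ N

lemma ae_slice_succ {m : ℕ} {N : Set (Fin (m + 1) → ℝ)} (hN : volume N = 0) (k : Fin (m + 1)) :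
    ∀ᵐ t : ℝ, GoodSl N k t := by
  have hmp := volume_preserving_piFinSuccAbove (fun _ : Fin (m + 1) => ℝ) k
  have h1 : ∀ᵐ x : Fin (m + 1) → ℝ, x ∉ N := measure_eq_zero_iff_ae_notMem.1 hN
  have h2 := hmp.symm.quasiMeasurePreserving.ae h1
  have h3 := Measure.ae_ae_of_ae_prod h2
  filter_upwards [h3] with t ht x hx δ hδ
  obtain ⟨y', hy', hd⟩ := (Measure.dense_of_ae ht).exists_dist_lt
    (fun j => x (k.succAbove j)) hδ
  refine ⟨k.insertNth t y', by simp, ?_, hy'⟩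
  rw [pi_norm_lt_iff hδ]
  rw [dist_comm, dist_pi_lt_iff hδ] at hd
  refine (Fin.forall_iff_succAbove k).2 ⟨?_, fun j => ?_⟩
  · simp [hx, hδ]
  · have := hd j
    rw [Real.dist_eq] at this
    simpa using this

lemma ae_slice {N : Set (Fin n → ℝ)} (hN : volume N = 0) (k : Fin n) :
    ∀ᵐ t : ℝ, GoodSl N k t := by
  cases n with
  | zero => exact k.elim0
  | succ m => exact ae_slice_succ hN k

lemma ae_slice_pm {N : Set (Fin n → ℝ)} (hN : volume N = 0) (a : Fin n → ℝ) :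
    ∀ᵐ R : ℝ, ∀ k : Fin n, GoodSl N k (a k + R) ∧ GoodSl N k (a k - R) := by
  rw [ae_all_iff]
  intro k
  have h1 := ae_slice hN k
  exact ((measurePreserving_add_left volume (a k)).quasiMeasurePreserving.ae h1).and
    ((Measure.measurePreserving_sub_left volume (a k)).quasiMeasurePreserving.ae h1)

lemma sphere_dense {N : Set (Fin n → ℝ)} {a : Fin n → ℝ} {R : ℝ} (hR : 0 < R)
    (h : ∀ k : Fin n, GoodSl N k (a k + R) ∧ GoodSl N k (a k - R)) {ω : Fin n → ℝ}
    (hω : ω ∈ sphere a R) {δ : ℝ} (hδ : 0 < δ) :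
    ∃ y ∈ sphere a R, ‖y - ω‖ < δ ∧ y ∉ N := by
  have hn : 0 < n := by
    rcases Nat.eq_zero_or_pos n with h0 | h0
    · subst h0
      rw [mem_sphere, dist_eq_norm, show ω - a = 0 from Subsingleton.elim _ _, norm_zero] at hω
      exact absurd hω hR.ne
    · exact h0
  have h6 : ‖dn1 a R ω‖ = 1 := by
    rw [norm_dn1 hR, ← dist_eq_norm, mem_sphere.1 hω, inv_mul_cancel₀ hR.ne']
  obtain ⟨k, hk⟩ := exists_max_coord hn h6
  have hk1 : |ω k - a k| = R := by
    have e : dn1 a R ω k = R⁻¹ * (ω k - a k) := rfl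
    rw [e, abs_mul, abs_of_pos (inv_pos.2 hR), inv_mul_eq_iff_eq_mul₀ hR.ne', mul_one] at hk
    exact hk
  have hG : GoodSl N k (ω k) := by
    rcases (abs_eq hR.le).1 hk1 with h1 | h1
    · rw [show ω k = a k + R by linarith]
      exact (h k).1
    · rw [show ω k = a k - R by linarith]
      exact (h k).2
  have hωa : ∀ j, |ω j - a j| ≤ R := by
    intro j
    rw [mem_sphere, dist_eq_norm] at hω
    rw [← hω]
    exact abs_sub_apply_le ω a j
  set η : ℝ := min (1/2) (δ / (2 * R)) with hη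
  have hη0 : 0 < η := lt_min (by norm_num) (by positivity)
  have hη1 : η ≤ 1/2 := min_le_left _ _
  have hηR : η * R ≤ δ / 2 := by
    calc η * R ≤ δ / (2 * R) * R := mul_le_mul_of_nonneg_right (min_le_right _ _) hR.le
      _ = δ / 2 := by field_simp
  set ω' : Fin n → ℝ := fun j => if j = k then ω k else a j + (1 - η) * (ω j - a j) with hω'
  have hωk : ω' k = ω k := by simp [hω']
  have h1 : ‖ω' - ω‖ ≤ δ / 2 := by
    rw [pi_norm_le_iff_of_nonneg (by positivity)]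
    intro j
    rw [Pi.sub_apply, Real.norm_eq_abs]
    by_cases hj : j = k
    · rw [hj, hωk, sub_self, abs_zero]
      positivity
    · have e : ω' j - ω j = -(η * (ω j - a j)) := by
        simp only [hω', if_neg hj]
        ring
      rw [e, abs_neg, abs_mul, abs_of_pos hη0]
      exact (mul_le_mul_of_nonneg_left (hωa j) hη0.le).trans hηR
  obtain ⟨y, hy1, hy2, hy3⟩ := hG ω' hωk (min (δ / 2) (η * R)) (lt_min (by positivity)
    (by positivity))
  refine ⟨y, ?_, ?_, hy3⟩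
  · rw [mem_sphere, dist_eq_norm]
    apply le_antisymm
    · rw [pi_norm_le_iff_of_nonneg hR.le]
      intro j
      rw [Pi.sub_apply, Real.norm_eq_abs]
      by_cases hj : j = k
      · rw [hj, hy1, hk1]
      · have h2 : |y j - ω' j| ≤ η * R :=
          (abs_sub_apply_le y ω' j).trans (hy2.le.trans (min_le_right _ _))
        have e : ω' j - a j = (1 - η) * (ω j - a j) := by
          simp only [hω', if_neg hj]
          ring
        have h3 : |ω' j - a j| ≤ (1 - η) * R := by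
          rw [e, abs_mul, abs_of_nonneg (by linarith)]
          exact mul_le_mul_of_nonneg_left (hωa j) (by linarith)
        calc |y j - a j| = |(y j - ω' j) + (ω' j - a j)| := by congr 1; ring
          _ ≤ |y j - ω' j| + |ω' j - a j| := abs_add_le _ _
          _ ≤ η * R + (1 - η) * R := add_le_add h2 h3
          _ = R := by ring
    · rw [← hk1, ← hy1]
      exact abs_sub_apply_le y a k
  · calc ‖y - ω‖ = ‖(y - ω') + (ω' - ω)‖ := by congr 1; abel
      _ ≤ ‖y - ω'‖ + ‖ω' - ω‖ := norm_add_le _ _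
      _ < δ / 2 + δ / 2 := add_lt_add_of_lt_of_le (hy2.trans_le (min_le_left _ _)) h1
      _ = δ := by ring

end slices

section averaging

/-- **averaging over the radius** -/
lemma exists_radius {ι : Type} [Fintype ι] (I : ι → Set ℝ) {l w : ι → ℝ} (hl : ∀ i, 0 ≤ l i)
    (hI : ∀ i, ∃ c, I i ⊆ Icc (c - l i) (c + l i)) (hw : ∀ i, 0 ≤ w i) {R0 R1 : ℝ}
    (h01 : R0 < R1) {B : Set ℝ} (hB : volume B = 0) :
    ∃ R ∈ Ioo R0 R1, R ∉ B ∧
      ∀ s : Finset ι, (∀ i ∈ s, R ∈ I i) → ∑ i ∈ s, w i ≤ (∑ i, 2 * l i * w i) / (R1 - R0) := by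
  classical
  choose c hc using hI
  set f : ℝ → ℝ≥0∞ := fun R => ∑ i, (Icc (c i - l i) (c i + l i)).indicator
    (fun _ => ENNReal.ofReal (w i)) R with hf
  set m : Measure ℝ := volume.restrict (Ioo R0 R1) with hm
  have hm1 : m univ = ENNReal.ofReal (R1 - R0) := by
    rw [hm, Measure.restrict_apply_univ, Real.volume_Ioo]
  have hfin : IsFiniteMeasure m := ⟨by rw [hm1]; exact ENNReal.ofReal_lt_top⟩
  have hm0 : m ≠ 0 := by
    intro h
    rw [h] at hm1
    simp at hm1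
    linarith
  have hfm : Measurable f := by
    refine Finset.measurable_sum _ fun i _ => ?_
    exact measurable_const.indicator measurableSet_Icc
  have hN : m (B ∪ (Ioo R0 R1)ᶜ) = 0 := by
    refine measure_union_null ?_ ?_
    · exact le_antisymm ((Measure.restrict_apply_le _ _).trans hB.le) zero_le
    · rw [hm, Measure.restrict_apply measurableSet_Ioo.compl, compl_inter_self, measure_empty]
  obtain ⟨R, hR1, hR2⟩ := exists_notMem_null_le_laverage hm0 hfm.aemeasurable hN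
  rw [mem_union, not_or, notMem_compl_iff] at hR1
  refine ⟨R, hR1.2, hR1.1, fun s hs => ?_⟩
  have h1 : ∫⁻ x, f x ∂m ≤ ENNReal.ofReal (∑ i, 2 * l i * w i) := by
    calc ∫⁻ x, f x ∂m ≤ ∫⁻ x, f x := lintegral_mono' Measure.restrict_le_self le_rfl
      _ = ∑ i, ∫⁻ x, (Icc (c i - l i) (c i + l i)).indicator
            (fun _ => ENNReal.ofReal (w i)) x :=
          lintegral_finsetSum _ fun i _ => measurable_const.indicator measurableSet_Icc
      _ = ∑ i, ENNReal.ofReal (2 * l i * w i) := by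
          refine Finset.sum_congr rfl fun i _ => ?_
          rw [lintegral_indicator_const measurableSet_Icc, Real.volume_Icc,
            ← ENNReal.ofReal_mul (hw i)]
          congr 1
          ring
      _ = _ := (ENNReal.ofReal_sum_of_nonneg fun i _ =>
          mul_nonneg (mul_nonneg (by norm_num) (hl i)) (hw i)).symm
  have h2 : f R ≤ ENNReal.ofReal ((∑ i, 2 * l i * w i) / (R1 - R0)) := by
    refine hR2.trans ?_
    rw [laverage_eq, hm1, ENNReal.ofReal_div_of_pos (by linarith)]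
    exact ENNReal.div_le_div_right h1 _
  have h3 : ENNReal.ofReal (∑ i ∈ s, w i) ≤ f R := by
    rw [ENNReal.ofReal_sum_of_nonneg fun i _ => hw i]
    calc ∑ i ∈ s, ENNReal.ofReal (w i) = ∑ i ∈ s, (Icc (c i - l i) (c i + l i)).indicator
            (fun _ => ENNReal.ofReal (w i)) R := by
          refine Finset.sum_congr rfl fun i hi => ?_
          rw [indicator_of_mem (hc i (hs i hi))]
      _ ≤ f R := Finset.sum_le_univ_sum_of_nonneg fun _ => zero_le
  have h4 := h3.trans h2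
  rwa [ENNReal.ofReal_le_ofReal_iff] at h4
  refine div_nonneg (Finset.sum_nonneg fun i _ => ?_) (by linarith)
  exact mul_nonneg (mul_nonneg (by norm_num) (hl i)) (hw i)

end averaging

variable {n : ℕ} {G : Type*} [NormedAddCommGroup G] [NormedSpace ℝ G]

lemma closure_diam {E : Type*} [NormedAddCommGroup E] {S : Set E} {d : ℝ}
    (h : ∀ x ∈ S, ∀ y ∈ S, ‖x - y‖ ≤ d) : ∀ x ∈ closure S, ∀ y ∈ closure S, ‖x - y‖ ≤ d := by
  intro x hx y hy
  have h1 : (x, y) ∈ closure (S ×ˢ S) := by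
    rw [closure_prod_eq]
    exact ⟨hx, hy⟩
  have h2 : closure (S ×ˢ S) ⊆ {q : E × E | ‖q.1 - q.2‖ ≤ d} := by
    refine closure_minimal ?_ (isClosed_le (continuous_fst.sub continuous_snd).norm
      continuous_const)
    rintro ⟨u, v⟩ ⟨hu, hv⟩
    exact h u hu v hv
  exact h2 h1

/-- **HOLE IN A RING.** `U i` open tiles of size `≤ d i`, which cover the ring
`ball a R1 \ closedBall a R0` up to a null set, `g` has local Lipschitz constant `μ i` on `U i`
(inside the ring). Then for some radius `R` in `(R0, R1)` the hole squeeze in `closedBall a R`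
costs only the energy of the ring. -/
theorem hole_ring {p : ℝ} (hp0 : 0 < p) (hpn : p < n) (a : Fin n → ℝ) {R0 R1 : ℝ} (h0 : 0 ≤ R0)
    (h01 : R0 < R1) {ι : Type} [Fintype ι] (U : ι → Set (Fin n → ℝ)) {d : ι → ℝ}
    (hd0 : ∀ i, 0 < d i) (hd : ∀ i, ∀ x ∈ U i, ∀ y ∈ U i, ‖x - y‖ ≤ d i)
    (hcov : volume ((ball a R1 \ closedBall a R0) \ ⋃ i, U i) = 0) {μ : ι → ℝ}
    (hμ : ∀ i, 0 ≤ μ i) {g : (Fin n → ℝ) → G} (hg : PLOn g (closedBall a R1))
    (hL : ∀ i, ∀ x ∈ U i, x ∈ ball a R1 → x ∉ closedBall a R0 → LLV (μ i) g x)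
    {ε : ℝ} (hε : 0 < ε) :
    ∃ R ∈ Ioo R0 R1, ∃ χ : (Fin n → ℝ) ≃ₜ (Fin n → ℝ), PLOn χ univ ∧ PLOn χ.symm univ ∧
      (∀ x, x ∉ ball a R → χ x = x) ∧ (∀ x ∈ ball a R, χ x ∈ ball a R) ∧
      EnCov volume p (fun x => g (χ x)) (closedBall a R)
        (ENNReal.ofReal (Chv n p * (2 * R1 / (R1 - R0)) * ∑ i, d i ^ n * μ i ^ p + ε)) := by
  classical
  have hn : 0 < n := by
    rcases Nat.eq_zero_or_pos n with h | h
    · subst h; simp at hpn; linarith
    · exact h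
  set N : Set (Fin n → ℝ) := (ball a R1 \ closedBall a R0) \ ⋃ i, U i with hNdef
  have hB := ae_iff.1 (ae_slice_pm hcov a)
  set I : ι → Set ℝ := fun i => {R | (U i ∩ sphere a R).Nonempty} with hI
  obtain ⟨R, hR, hRB, hsum⟩ := exists_radius I (l := d) (w := fun i => d i ^ (n - 1) * μ i ^ p)
    (fun i => (hd0 i).le) (by
      intro i
      rcases (U i).eq_empty_or_nonempty with h | ⟨y, hy⟩
      · refine ⟨0, ?_⟩
        rintro R ⟨x, hx, _⟩
        rw [h] at hx
        exact absurd hx (notMem_empty _)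
      · refine ⟨‖y - a‖, ?_⟩
        rintro R ⟨x, hx, hx2⟩
        have h1 := hd i x hx y hy
        rw [mem_sphere, dist_eq_norm] at hx2
        have h2 := abs_norm_sub_norm_le (x - a) (y - a)
        rw [sub_sub_sub_cancel_right, hx2] at h2
        have h3 := abs_le.1 (h2.trans h1)
        exact ⟨by linarith [h3.1], by linarith [h3.2]⟩)
    (fun i => mul_nonneg (pow_nonneg (hd0 i).le _) (Real.rpow_nonneg (hμ i) p)) h01 hB
  have hRg : ∀ k : Fin n, GoodSl N k (a k + R) ∧ GoodSl N k (a k - R) := by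
    simpa using hRB
  have hR0 : 0 < R := h0.trans_lt hR.1
  have hring : ∀ y ∈ sphere a R, y ∈ ball a R1 ∧ y ∉ closedBall a R0 := by
    intro y hy
    rw [mem_sphere] at hy
    rw [mem_ball, mem_closedBall, hy]
    exact ⟨hR.2, not_le.2 hR.1⟩
  let F : ι → Set (Fin n → ℝ) := fun i => closure (U i ∩ sphere a R)
  have hcovF : sphere a R ⊆ ⋃ i, F i := by
    intro ω hω
    by_contra hcon
    have hcl : IsClosed (⋃ i, F i) := isClosed_iUnion_of_finite fun i => isClosed_closure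
    obtain ⟨δ, hδ, hball⟩ := Metric.isOpen_iff.1 hcl.isOpen_compl ω hcon
    obtain ⟨y, hy1, hy2, hy3⟩ := sphere_dense hR0 hRg hω hδ
    have h1 : y ∈ ⋃ i, U i := by
      by_contra h2
      exact hy3 ⟨hring y hy1, h2⟩
    obtain ⟨i, hi⟩ := mem_iUnion.1 h1
    exact hball (show y ∈ ball ω δ by rw [mem_ball, dist_eq_norm]; exact hy2)
      (mem_iUnion.2 ⟨i, subset_closure ⟨hi, hy1⟩⟩)
  let ι' : Type := {i : ι // (U i ∩ sphere a R).Nonempty}
  obtain ⟨χ, h1, h2, h3, h4, h5⟩ := hole_ball_var (p := p) hp0 hpn a hR0 (ι := ι')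
    (fun i => F i.1) (fun i => isClosed_closure) (d := fun i => d i.1) (fun i => hd0 _)
    (fun i => closure_diam fun x hx y hy => hd i.1 x hx.1 y hy.1) (by
      intro ω hω
      obtain ⟨i, hi⟩ := mem_iUnion.1 (hcovF hω)
      have hne : (U i ∩ sphere a R).Nonempty := by
        rw [← closure_nonempty_iff]
        exact ⟨ω, hi⟩
      exact mem_iUnion.2 ⟨⟨i, hne⟩, hi⟩)
    (μ := fun i => μ i.1) (fun i => hμ _) (g := g)
    (hg.mono (closedBall_subset_closedBall hR.2.le)) (by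
      intro i ω hω _
      refine closure_mono ?_ hω
      rintro x ⟨hx1, hx2⟩
      refine ⟨hx2, ?_⟩
      have h6 := hL i.1 x hx1 (hring x hx2).1 (hring x hx2).2
      exact h6.filter_mono nhdsWithin_le_nhds) hε
  refine ⟨R, hR, χ, h1, h2, h3, h4, h5.mono ?_⟩
  apply ENNReal.ofReal_le_ofReal
  have h6 := hsum (Finset.univ.filter fun i => (U i ∩ sphere a R).Nonempty) (by
    intro i hi
    exact (Finset.mem_filter.1 hi).2)
  have h7 : ∑ i : ι', d i.1 ^ (n - 1) * μ i.1 ^ p =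
      ∑ i ∈ Finset.univ.filter (fun i => (U i ∩ sphere a R).Nonempty),
        d i ^ (n - 1) * μ i ^ p :=
    (Finset.sum_subtype _ (fun i => by simp) (fun i => d i ^ (n - 1) * μ i ^ p)).symm
  rw [h7]
  have hC := Chv_nonneg hpn
  have h8 : ∑ i, 2 * d i * (d i ^ (n - 1) * μ i ^ p) = 2 * ∑ i, d i ^ n * μ i ^ p := by
    rw [Finset.mul_sum]
    refine Finset.sum_congr rfl fun i _ => ?_
    have : d i ^ n = d i * d i ^ (n - 1) := by
      rw [← pow_succ', Nat.sub_add_cancel hn]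
    rw [this]
    ring
  rw [h8] at h6
  have h9 : 0 ≤ ∑ i, d i ^ n * μ i ^ p := Finset.sum_nonneg fun i _ =>
    mul_nonneg (pow_nonneg (hd0 i).le _) (Real.rpow_nonneg (hμ i) p)
  have h10 : 0 ≤ (2 * ∑ i, d i ^ n * μ i ^ p) / (R1 - R0) :=
    div_nonneg (by positivity) (by linarith)
  have h11 : R * (∑ i ∈ Finset.univ.filter (fun i => (U i ∩ sphere a R).Nonempty),
        d i ^ (n - 1) * μ i ^ p) ≤ R1 * ((2 * ∑ i, d i ^ n * μ i ^ p) / (R1 - R0)) :=
    (mul_le_mul_of_nonneg_left h6 hR0.le).trans (mul_le_mul_of_nonneg_right hR.2.le h10)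
  have h12 := mul_le_mul_of_nonneg_left h11 hC
  rw [mul_assoc (Chv n p) R]
  calc _ ≤ Chv n p * (R1 * ((2 * ∑ i, d i ^ n * μ i ^ p) / (R1 - R0))) + ε := by linarith
    _ = _ := by ring

end Crest.Agent.R96.Hole_348
end

-- ▼ part R96/Hr4_348
section

/-!
# R96, (HR) of 663 #9825, part 4: the whole ball; the tiles of a `Tiling`; grid cells (helper348)
-/

set_option autoImplicit false

open Set Metric Filter Topology MeasureTheory Module
open scoped ENNReal NNReal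

namespace Crest.Agent.R96.Hole_348

open Crest.Agent.R096.Ce_537 Crest.Agent.R096.Bd_416 Crest.Agent.R096.Msh_715

section union

variable {E G : Type*} [NormedAddCommGroup E] [MeasurableSpace E] [NormedAddCommGroup G]
  {m : Measure E} {p : ℝ} {f : E → G}

lemma EnCov.union {K K' : Set E} {A A' : ENNReal} (h : EnCov m p f K A)
    (h' : EnCov m p f K' A') : EnCov m p f (K ∪ K') (A + A') := by
  obtain ⟨J, _, S, c, hS, hc, hK, hL, hA⟩ := h
  obtain ⟨J', _, S', c', hS', hc', hK', hL', hA'⟩ := h'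
  refine ⟨J ⊕ J', inferInstance, Sum.elim S S', Sum.elim c c', ?_, ?_, ?_, ?_, ?_⟩
  · rintro (j | j)
    · exact hS j
    · exact hS' j
  · rintro (j | j)
    · exact hc j
    · exact hc' j
  · rintro x (hx | hx)
    · obtain ⟨j, hj⟩ := mem_iUnion.1 (hK hx)
      exact mem_iUnion.2 ⟨Sum.inl j, hj⟩
    · obtain ⟨j, hj⟩ := mem_iUnion.1 (hK' hx)
      exact mem_iUnion.2 ⟨Sum.inr j, hj⟩
  · rintro (j | j)
    · exact hL j
    · exact hL' j
  · rw [Fintype.sum_sum_type]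
    exact add_le_add hA hA'

lemma EnCov.subset {K K' : Set E} {A : ENNReal} (h : EnCov m p f K A) (hK : K' ⊆ K) :
    EnCov m p f K' A := by
  obtain ⟨J, i, S, c, hS, hc, hKS, hL, hA⟩ := h
  exact ⟨J, i, S, c, hS, hc, hK.trans hKS, hL, hA⟩

/-- a null set costs nothing -/
lemma EnCov.of_null (hp : 0 < p) {K : Set E} (hK : MeasurableSet K) (h0 : m K = 0) :
    EnCov m p f K 0 := by
  refine ⟨Unit, inferInstance, fun _ => K, fun _ => 0, fun _ => hK, fun _ => le_rfl, ?_, ?_, ?_⟩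
  · intro x hx
    exact mem_iUnion.2 ⟨(), hx⟩
  · intro _
    filter_upwards [measure_eq_zero_iff_ae_notMem.1 h0] with x hx hx2
    exact absurd hx2 hx
  · simp [Real.zero_rpow hp.ne']

/-- finitely many open tiles -/
lemma EnCov.tiles {ι : Type} [Fintype ι] {U : ι → Set E} {μ : ι → ℝ}
    (hU : ∀ i, MeasurableSet (U i)) (hμ : ∀ i, 0 ≤ μ i) (hL : ∀ i, ∀ x ∈ U i, LLV (μ i) f x) :
    EnCov m p f (⋃ i, U i) (∑ i, ENNReal.ofReal (μ i ^ p) * m (U i)) :=
  ⟨ι, inferInstance, U, μ, hU, hμ, subset_rfl, fun i => Eventually.of_forall (hL i), le_rfl⟩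

end union

variable {n : ℕ} {G : Type*} [NormedAddCommGroup G] [NormedSpace ℝ G]

/-- the constant of `hole_ring_full`; `t = 2 R1 / (R1 - R0)` -/
noncomputable def Chr (n : ℕ) (p t : ℝ) : ℝ := Chv n p * t + 2^n

lemma volume_le_of_diam {S : Set (Fin n → ℝ)} {d : ℝ} (hd0 : 0 ≤ d)
    (hd : ∀ x ∈ S, ∀ y ∈ S, ‖x - y‖ ≤ d) : volume S ≤ ENNReal.ofReal ((2 * d)^n) := by
  rcases S.eq_empty_or_nonempty with h | ⟨y, hy⟩
  · rw [h]; simp
  · refine (measure_mono (t := closedBall y d) fun x hx => ?_).trans ?_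
    · rw [mem_closedBall, dist_eq_norm]
      exact hd x hx y hy
    · rw [Real.volume_pi_closedBall _ hd0, Fintype.card_fin]

/-- **HOLE IN A RING, energy on the whole ball.** -/
theorem hole_ring_full {p : ℝ} (hp0 : 0 < p) (hpn : p < n) (a : Fin n → ℝ) {R0 R1 : ℝ}
    (h0 : 0 ≤ R0) (h01 : R0 < R1) {ι : Type} [Fintype ι] (U : ι → Set (Fin n → ℝ))
    (hU : ∀ i, IsOpen (U i)) {d : ι → ℝ}
    (hd0 : ∀ i, 0 < d i) (hd : ∀ i, ∀ x ∈ U i, ∀ y ∈ U i, ‖x - y‖ ≤ d i)
    (hcov : volume ((ball a R1 \ closedBall a R0) \ ⋃ i, U i) = 0) {μ : ι → ℝ}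
    (hμ : ∀ i, 0 ≤ μ i) {g : (Fin n → ℝ) → G} (hg : PLOn g (closedBall a R1))
    (hL : ∀ i, ∀ x ∈ U i, x ∈ ball a R1 → x ∉ closedBall a R0 → LLV (μ i) g x)
    {ε : ℝ} (hε : 0 < ε) :
    ∃ R ∈ Ioo R0 R1, ∃ χ : (Fin n → ℝ) ≃ₜ (Fin n → ℝ), PLOn χ univ ∧ PLOn χ.symm univ ∧
      (∀ x, x ∉ ball a R → χ x = x) ∧ (∀ x ∈ ball a R, χ x ∈ ball a R) ∧
      EnCov volume p (fun x => g (χ x)) (closedBall a R1)
        (ENNReal.ofReal (Chr n p (2 * R1 / (R1 - R0)) * ∑ i, d i ^ n * μ i ^ p + ε)) := by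
  obtain ⟨R, hR, χ, h1, h2, h3, h4, h5⟩ := hole_ring hp0 hpn a h0 h01 U hd0 hd hcov hμ hg hL hε
  refine ⟨R, hR, χ, h1, h2, h3, h4, ?_⟩
  have hR1 : 0 < R1 := (h0.trans_lt hR.1).trans hR.2
  -- the tiles outside the hole
  have hUR : ∀ i, IsOpen (U i ∩ (ball a R1 \ closedBall a R)) := fun i =>
    (hU i).inter (isOpen_ball.sdiff isClosed_closedBall)
  have h6 : EnCov volume p (fun x => g (χ x)) (⋃ i, (U i ∩ (ball a R1 \ closedBall a R)))
      (∑ i, ENNReal.ofReal (μ i ^ p) * volume (U i ∩ (ball a R1 \ closedBall a R))) := by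
    refine EnCov.tiles (fun i => (hUR i).measurableSet) hμ ?_
    rintro i x ⟨hx1, hx2, hx3⟩
    have h7 := hL i x hx1 hx2 (fun h => hx3 (closedBall_subset_closedBall hR.1.le h))
    have h8 : ∀ᶠ y in 𝓝 x, χ y = y := by
      filter_upwards [isClosed_closedBall.isOpen_compl.mem_nhds hx3] with y hy
      exact h3 y fun h => hy (ball_subset_closedBall h)
    filter_upwards [h7, h8] with y hy1 hy2
    rw [hy2, h8.self_of_nhds]
    exact hy1
  have h7 : EnCov volume p (fun x => g (χ x)) (sphere a R1) 0 := by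
    refine EnCov.of_null hp0 isClosed_sphere.measurableSet ?_
    exact Measure.addHaar_sphere_of_ne_zero volume a hR1.ne'
  have h8 : EnCov volume p (fun x => g (χ x)) ((ball a R1 \ closedBall a R0) \ ⋃ i, U i) 0 :=
    EnCov.of_null hp0 ((measurableSet_ball.diff measurableSet_closedBall).diff
      (isOpen_iUnion hU).measurableSet) hcov
  have h9 := ((h5.union h6).union h7).union h8
  refine (h9.subset ?_).mono ?_
  · intro x hx
    by_cases hxR : x ∈ closedBall a R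
    · exact Or.inl (Or.inl (Or.inl hxR))
    · by_cases hxs : x ∈ sphere a R1
      · exact Or.inl (Or.inr hxs)
      · have hxb : x ∈ ball a R1 := by
          rw [mem_ball]
          rw [mem_closedBall] at hx
          exact lt_of_le_of_ne hx hxs
        have hx0 : x ∉ closedBall a R0 := fun h => hxR (closedBall_subset_closedBall hR.1.le h)
        by_cases hxU : x ∈ ⋃ i, U i
        · obtain ⟨i, hi⟩ := mem_iUnion.1 hxU
          exact Or.inl (Or.inl (Or.inr (mem_iUnion.2 ⟨i, hi, hxb, hxR⟩)))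
        · exact Or.inr ⟨⟨hxb, hx0⟩, hxU⟩
  · have h10 : ∑ i, ENNReal.ofReal (μ i ^ p) * volume (U i ∩ (ball a R1 \ closedBall a R)) ≤
        ENNReal.ofReal (2^n * ∑ i, d i ^ n * μ i ^ p) := by
      rw [Finset.mul_sum, ENNReal.ofReal_sum_of_nonneg (fun i _ => mul_nonneg (by positivity)
        (mul_nonneg (pow_nonneg (hd0 i).le _) (Real.rpow_nonneg (hμ i) p)))]
      refine Finset.sum_le_sum fun i _ => ?_
      have h11 : volume (U i ∩ (ball a R1 \ closedBall a R)) ≤ ENNReal.ofReal ((2 * d i)^n) :=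
        volume_le_of_diam (hd0 i).le fun x hx y hy => hd i x hx.1 y hy.1
      calc _ ≤ ENNReal.ofReal (μ i ^ p) * ENNReal.ofReal ((2 * d i)^n) := mul_le_mul' le_rfl h11
        _ = _ := by
            rw [← ENNReal.ofReal_mul (Real.rpow_nonneg (hμ i) p)]
            congr 1
            rw [mul_pow]
            ring
    have h12 : 0 ≤ ∑ i, d i ^ n * μ i ^ p := Finset.sum_nonneg fun i _ =>
      mul_nonneg (pow_nonneg (hd0 i).le _) (Real.rpow_nonneg (hμ i) p)
    have hC := Chv_nonneg hpn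
    rw [add_zero, add_zero]
    refine (add_le_add le_rfl h10).trans ?_
    have h13 : 0 ≤ 2 * R1 / (R1 - R0) := div_nonneg (by linarith) (by linarith)
    rw [← ENNReal.ofReal_add (by positivity) (by positivity)]
    apply ENNReal.ofReal_le_ofReal
    apply le_of_eq
    unfold Chr
    ring

/-- **(HR), tiles of a tiling**: `g` has local Lipschitz constant `≤ μ i` in the open tile `i` for
the tiles that meet the ring, `diam ≤ d i`; `S` = the tiles which meet the ring. -/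
theorem hole_tiling {p : ℝ} (hp0 : 0 < p) (hpn : p < n) {Om : Set (Fin n → ℝ)} {ι : Type}
    (T : Tiling Om ι) (a : Fin n → ℝ) {R0 R1 : ℝ} (h0 : 0 ≤ R0) (h01 : R0 < R1)
    (hsub : closedBall a R1 ⊆ Om) {d μ : ι → ℝ} (S : Finset ι)
    (hS : ∀ i, (P (T.H i) ∩ (ball a R1 \ closedBall a R0)).Nonempty → i ∈ S)
    (hd0 : ∀ i ∈ S, 0 < d i) (hd : ∀ i ∈ S, ∀ x ∈ P (T.H i), ∀ y ∈ P (T.H i), ‖x - y‖ ≤ d i)
    (hμ : ∀ i ∈ S, 0 ≤ μ i) {g : (Fin n → ℝ) → G} (hg : PLOn g (closedBall a R1))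
    (hL : ∀ i ∈ S, ∀ x ∈ I (T.H i), x ∈ ball a R1 → x ∉ closedBall a R0 → LLV (μ i) g x)
    {ε : ℝ} (hε : 0 < ε) :
    ∃ R ∈ Ioo R0 R1, ∃ χ : (Fin n → ℝ) ≃ₜ (Fin n → ℝ), PLOn χ univ ∧ PLOn χ.symm univ ∧
      (∀ x, x ∉ ball a R → χ x = x) ∧ (∀ x ∈ ball a R, χ x ∈ ball a R) ∧
      EnCov volume p (fun x => g (χ x)) (closedBall a R1)
        (ENNReal.ofReal (Chr n p (2 * R1 / (R1 - R0)) * ∑ i ∈ S, d i ^ n * μ i ^ p + ε)) := by
  classical
  let ι' : Type := {i : ι // i ∈ S}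
  have h := hole_ring_full (p := p) hp0 hpn a h0 h01 (ι := ι') (fun i => I (T.H i.1))
    (fun i => isOpen_I _) (d := fun i => d i.1) (fun i => hd0 _ i.2)
    (fun i x hx y hy => hd i.1 i.2 x (I_sub_P _ hx) y (I_sub_P _ hy)) (by
      have h1 : (ball a R1 \ closedBall a R0) \ ⋃ i : ι', I (T.H i.1) ⊆
          ⋃ i : ι', (P (T.H i.1) \ I (T.H i.1)) := by
        rintro x ⟨hx, hx2⟩
        obtain ⟨i, hi⟩ := T.cov x (hsub (ball_subset_closedBall hx.1))
        have hiS : i ∈ S := hS i ⟨x, hi, hx⟩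
        refine mem_iUnion.2 ⟨⟨i, hiS⟩, hi, fun h => hx2 (mem_iUnion.2 ⟨⟨i, hiS⟩, h⟩)⟩
      refine measure_mono_null h1 ?_
      rw [measure_iUnion_null_iff]
      intro i
      exact Crest.Agent.R096.Ea_713.null_diff volume (T.ne i.1))
    (μ := fun i => μ i.1) (fun i => hμ _ i.2) hg (fun i x hx hx1 hx2 => hL i.1 i.2 x hx hx1 hx2)
    hε
  have hsum : ∑ i : ι', d i.1 ^ n * μ i.1 ^ p = ∑ i ∈ S, d i ^ n * μ i ^ p :=
    (Finset.sum_subtype S (fun i => Iff.rfl) (fun i => d i ^ n * μ i ^ p)).symm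
  rw [hsum] at h
  exact h

end Crest.Agent.R96.Hole_348
end

-- ▼ part R96/Hole9_348
section

/-!
# R96, HOLE-FAMILY (helper348): locally finite families of macro cubes
-/

set_option autoImplicit false

open Set Metric Filter Topology MeasureTheory Module
open scoped ENNReal NNReal
open Crest.AnalysisR.VecCalc3 Crest.AnalysisR.Sobolev

namespace Crest.Agent.R96.Hole_348

open Crest.Agent.R096.Ce_537 Crest.Agent.R096.Bd_416 Crest.Agent.R096.Sk_962

section glue

variable {E : Type*} [NormedAddCommGroup E] [NormedSpace ℝ E]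

/-- **gluing homeomorphisms with disjoint supports** -/
theorem exists_glue_homeo {Om : Set E} {I : Type*} (O : I → Set E)
    (hO : ∀ i, O i ⊆ Om) (hdisj : Pairwise fun i j => Disjoint (O i) (O j))
    (hlf : ∀ x ∈ Om, ∃ U ∈ 𝓝 x, {i | (O i ∩ U).Nonempty}.Finite) (χ : I → (E ≃ₜ E))
    (hpl : ∀ i, PLOn (χ i) univ) (hpl' : ∀ i, PLOn (χ i).symm univ)
    (hout : ∀ i, ∀ x ∉ O i, χ i x = x) (hin : ∀ i, ∀ x ∈ O i, χ i x ∈ O i) :
    ∃ X Y : E → E, (∀ x, Y (X x) = x) ∧ (∀ x, X (Y x) = x) ∧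
      (∀ i, ∀ x ∈ O i, X x = χ i x ∧ Y x = (χ i).symm x) ∧
      (∀ x, (∀ i, x ∉ O i) → X x = x ∧ Y x = x) ∧
      (∀ i, ∀ x, X x ∈ O i ↔ x ∈ O i) ∧ (∀ x, X x ∈ Om ↔ x ∈ Om) ∧
      LocPL X Om ∧ LocPL Y Om := by
  classical
  have huniq : ∀ {i j : I} {x : E}, x ∈ O i → x ∈ O j → i = j := by
    intro i j x hi hj
    by_contra h
    exact disjoint_left.1 (hdisj h) hi hj
  have hout' : ∀ i, ∀ x ∉ O i, (χ i).symm x = x := by
    intro i x hx
    have := hout i x hx
    conv_lhs => rw [← this]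
    exact (χ i).symm_apply_apply x
  have hin' : ∀ i, ∀ x ∈ O i, (χ i).symm x ∈ O i := by
    intro i x hx
    by_contra h
    have h1 := hout i _ h
    rw [(χ i).apply_symm_apply] at h1
    rw [← h1] at h
    exact h hx
  -- general construction
  have key : ∀ ψ : I → (E ≃ₜ E), (∀ i, PLOn (ψ i) univ) → (∀ i, ∀ x ∉ O i, ψ i x = x) →
      (∀ i, ∀ x ∈ O i, ψ i x ∈ O i) → ∃ X : E → E, (∀ i, ∀ x ∈ O i, X x = ψ i x) ∧
        (∀ x, (∀ i, x ∉ O i) → X x = x) ∧ LocPL X Om := by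
    intro ψ h1 h2 h3
    set X : E → E := fun x => if h : ∃ i, x ∈ O i then ψ h.choose x else x with hX
    have hX1 : ∀ i, ∀ x ∈ O i, X x = ψ i x := by
      intro i x hx
      have h : ∃ i, x ∈ O i := ⟨i, hx⟩
      show (if h : ∃ i, x ∈ O i then ψ h.choose x else x) = _
      rw [dif_pos h, huniq h.choose_spec hx]
    have hX2 : ∀ x, (∀ i, x ∉ O i) → X x = x := by
      intro x hx
      show (if h : ∃ i, x ∈ O i then ψ h.choose x else x) = _
      rw [dif_neg (by rintro ⟨i, hi⟩; exact hx i hi)]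
    refine ⟨X, hX1, hX2, ?_⟩
    -- finite compositions
    have hfin : ∀ T : Finset I, ∃ Φ : E → E, PLOn Φ univ ∧
        (∀ i ∈ T, ∀ x ∈ O i, Φ x = ψ i x) ∧ (∀ x, (∀ i ∈ T, x ∉ O i) → Φ x = x) := by
      intro T
      induction T using Finset.induction_on with
      | empty => exact ⟨fun x => x, plOn_id _, by simp, by simp⟩
      | insert j T hj ih =>
        obtain ⟨Φ, hΦ, hΦ1, hΦ2⟩ := ih
        refine ⟨fun x => ψ j (Φ x), (h1 j).comp hΦ (mapsTo_univ _ _), ?_, ?_⟩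
        · intro i hi x hx
          rcases Finset.mem_insert.1 hi with h | h
          · subst h
            show ψ i (Φ x) = _
            rw [hΦ2 x (fun i' hi' hx' => hj (huniq hx hx' ▸ hi'))]
          · show ψ j (Φ x) = _
            rw [hΦ1 i h x hx]
            refine h2 j _ (fun h4 => hj ?_)
            rw [huniq h4 (h3 i x hx)]
            exact h
        · intro x hx
          show ψ j (Φ x) = x
          rw [hΦ2 x (fun i hi => hx i (Finset.mem_insert_of_mem hi))]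
          exact h2 j x (hx j (Finset.mem_insert_self _ _))
    intro x hx
    obtain ⟨U, hU, hUf⟩ := hlf x hx
    obtain ⟨r, hr, hrU⟩ := Metric.mem_nhds_iff.1 hU
    obtain ⟨Φ, hΦ, hΦ1, hΦ2⟩ := hfin hUf.toFinset
    refine ⟨r, hr, (hΦ.mono (subset_univ _)).congr ?_⟩
    intro y hy
    by_cases h : ∃ i, y ∈ O i
    · obtain ⟨i, hi⟩ := h
      rw [hX1 i y hi, hΦ1 i (hUf.mem_toFinset.2 ⟨y, hi, hrU hy⟩) y hi]
    · rw [hX2 y (fun i hi => h ⟨i, hi⟩), hΦ2 y (fun i _ hi => h ⟨i, hi⟩)]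
  obtain ⟨X, hX1, hX2, hX3⟩ := key χ hpl hout hin
  obtain ⟨Y, hY1, hY2, hY3⟩ := key (fun i => (χ i).symm) hpl' hout' hin'
  have hmem : ∀ i, ∀ x, X x ∈ O i ↔ x ∈ O i := by
    intro i x
    constructor
    · intro h
      by_cases h' : ∃ j, x ∈ O j
      · obtain ⟨j, hj⟩ := h'
        rw [hX1 j x hj] at h
        rw [huniq h (hin j x hj)]
        exact hj
      · rw [hX2 x (fun j hj => h' ⟨j, hj⟩)] at h
        exact h
    · intro h
      rw [hX1 i x h]
      exact hin i x h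
  refine ⟨X, Y, ?_, ?_, fun i x hx => ⟨hX1 i x hx, hY1 i x hx⟩, fun x hx => ⟨hX2 x hx, hY2 x hx⟩,
    hmem, ?_, hX3, hY3⟩
  · intro x
    by_cases h : ∃ i, x ∈ O i
    · obtain ⟨i, hi⟩ := h
      rw [hX1 i x hi, hY1 i _ (hin i x hi), (χ i).symm_apply_apply]
    · have h' : ∀ i, x ∉ O i := fun i hi => h ⟨i, hi⟩
      rw [hX2 x h', hY2 x h']
  · intro x
    by_cases h : ∃ i, x ∈ O i
    · obtain ⟨i, hi⟩ := h
      rw [hY1 i x hi, hX1 i _ (hin' i x hi), (χ i).apply_symm_apply]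
    · have h' : ∀ i, x ∉ O i := fun i hi => h ⟨i, hi⟩
      rw [hY2 x h', hX2 x h']
  · intro x
    by_cases h : ∃ i, x ∈ O i
    · obtain ⟨i, hi⟩ := h
      exact ⟨fun _ => hO i hi, fun _ => hO i ((hmem i x).2 hi)⟩
    · rw [hX2 x (fun i hi => h ⟨i, hi⟩)]

lemma LocPL.comp' {F G : Type*} [NormedAddCommGroup F] [NormedSpace ℝ F] [NormedAddCommGroup G]
    [NormedSpace ℝ G] {f : E → F} {g : F → G} {Om : Set E} {La : Set F} (hg : LocPL g La)
    (hf : LocPL f Om) (hm : MapsTo f Om La) : LocPL (fun x => g (f x)) Om := by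
  intro x hx
  obtain ⟨r, hr, hf1⟩ := hf x hx
  obtain ⟨ρ, hρ, hg1⟩ := hg (f x) (hm hx)
  have hc : ContinuousAt f x := hf1.1.continuousAt (ball_mem_nhds x hr)
  obtain ⟨s, hs, hs1⟩ := Metric.mem_nhds_iff.1 (hc (ball_mem_nhds (f x) hρ))
  refine ⟨min r s, lt_min hr hs, hg1.comp (hf1.mono (ball_subset_ball (min_le_left _ _))) ?_⟩
  intro y hy
  exact hs1 (ball_subset_ball (min_le_right _ _) hy)

lemma LocPL.continuousOn' {F : Type*} [NormedAddCommGroup F] [NormedSpace ℝ F] {f : E → F}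
    {Om : Set E} (hf : LocPL f Om) : ContinuousOn f Om := by
  intro x hx
  obtain ⟨r, hr, hf1⟩ := hf x hx
  exact (hf1.1.continuousAt (ball_mem_nhds x hr)).continuousWithinAt

end glue

/-- transfer of an energy bound to a map with the same germs at almost all points -/
lemma EnCov.congr {E G : Type*} [NormedAddCommGroup E] [MeasurableSpace E]
    [NormedAddCommGroup G] {m : Measure E} {p : ℝ} {f f' : E → G} {K : Set E} {A : ENNReal}
    (hK : MeasurableSet K) (h : ∀ᵐ x ∂m, x ∈ K → f' =ᶠ[𝓝 x] f) (H : EnCov m p f K A) :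
    EnCov m p f' K A := by
  obtain ⟨J, i, S, c, hS, hc, hcov, hL, hA⟩ := H
  refine ⟨J, i, fun j => S j ∩ K, c, fun j => (hS j).inter hK, hc, ?_, ?_, ?_⟩
  · intro x hx
    obtain ⟨j, hj⟩ := mem_iUnion.1 (hcov hx)
    exact mem_iUnion.2 ⟨j, hj, hx⟩
  · intro j
    filter_upwards [hL j, h] with x h1 h2 hx
    have h3 := h2 hx.2
    have h4 := h1 hx.1
    have h5 : f' x = f x := h3.eq_of_nhds
    filter_upwards [h3, h4] with y h6 h7
    rw [h6, h5]
    exact h7
  · exact (Finset.sum_le_sum fun j _ => mul_le_mul' le_rfl (measure_mono inter_subset_left)).trans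
      hA

section cubes

variable {V : R3 ≃ₗᵢ[ℝ] R3} {a : R3} {R : ℝ}





end cubes

/-- a locally finite family of cubes in `Om` with pairwise disjoint interiors -/
structure CubeFam (Om : Set R3) {I : Type*} (V : I → (R3 ≃ₗᵢ[ℝ] R3)) (a : I → R3) (R : I → ℝ) :
    Prop where
  pos : ∀ i, 0 < R i
  sub : ∀ i, Kc (V i) (a i) (R i) ⊆ Om
  disj : Pairwise fun i j => Disjoint (Ko (V i) (a i) (R i)) (Ko (V j) (a j) (R j))
  lf : ∀ x ∈ Om, ∃ U ∈ 𝓝 x, {i | (Kc (V i) (a i) (R i) ∩ U).Nonempty}.Finite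



end Crest.Agent.R96.Hole_348
end

-- ▼ part R96/Hf1_348

/-!
# R96, EA-ASM: the hole squeeze in all macro balls of a tiling at once (helper348)
-/

set_option autoImplicit false

open Set Metric Filter Topology MeasureTheory Module
open scoped ENNReal NNReal

namespace Crest.Agent.R96.Hole_348

open Crest.Agent.R096.Ce_537 Crest.Agent.R096.Bd_416 Crest.Agent.R096.Msh_715

section pl

variable {E F : Type*} [NormedAddCommGroup E] [NormedSpace ℝ E] [NormedAddCommGroup F]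
  [NormedSpace ℝ F]

/-- the two forms of `LocPL` -/
lemma locPL_iff {f : E → F} {Om : Set E} :
    LocPL f Om ↔ Crest.Agent.R096.Str_696.LocPL f Om := by
  constructor
  · intro h x hx
    obtain ⟨r, hr, h1, S, h2⟩ := h x hx
    exact ⟨r, hr, S, h1, h2⟩
  · intro h x hx
    obtain ⟨r, hr, S, h1, h2⟩ := h x hx
    exact ⟨r, hr, h1, S, h2⟩

/-- locally PL maps are PL on compact sets -/
lemma plOn_of_locPL {f : E → F} {Om K : Set E} (h : LocPL f Om) (hK : IsCompact K)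
    (hKO : K ⊆ Om) : PLOn f K := by
  classical
  choose! r hr hf using h
  obtain ⟨t, ht, hc⟩ := hK.elim_nhds_subcover (fun x => ball x (r x))
    (fun x hx => ball_mem_nhds x (hr x (hKO hx)))
  have hS : ∀ x, ∃ S : Finset (E →ᵃ[ℝ] F), x ∈ K → ∀ y ∈ ball x (r x), ∃ g ∈ S, f y = g y := by
    intro x
    by_cases hx : x ∈ K
    · obtain ⟨_, S, hS⟩ := hf x (hKO hx)
      exact ⟨S, fun _ => hS⟩
    · exact ⟨∅, fun h => absurd h hx⟩
  choose S hS using hS
  refine ⟨?_, t.biUnion S, ?_⟩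
  · intro x hx
    exact ((hf x (hKO hx)).1.continuousAt (ball_mem_nhds x (hr x (hKO hx)))).continuousWithinAt
  · intro y hy
    have h1 := hc hy
    simp only [mem_iUnion] at h1
    obtain ⟨x, hx, hxy⟩ := h1
    obtain ⟨g, hg, e⟩ := hS x (ht x hx) y hxy
    exact ⟨g, Finset.mem_biUnion.2 ⟨x, hx, hg⟩, e⟩

end pl

variable {n : ℕ}

/-- a locally finite family of closed balls in `Om`, pairwise disjoint, with rings -/
structure RingFam (Om : Set (Fin n → ℝ)) {κ : Type*} (a : κ → Fin n → ℝ) (R0 R1 : κ → ℝ) :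
    Prop where
  pos : ∀ c, 0 ≤ R0 c
  lt : ∀ c, R0 c < R1 c
  sub : ∀ c, closedBall (a c) (R1 c) ⊆ Om
  disj : Pairwise fun c c' => Disjoint (closedBall (a c) (R1 c)) (closedBall (a c') (R1 c'))
  lf : ∀ x ∈ Om, ∃ U ∈ 𝓝 x, {c | (closedBall (a c) (R1 c) ∩ U).Nonempty}.Finite

/-- **HOLE-FAM**: the hole squeeze in a locally finite family of disjoint macro balls; the energy
on every macro ball is controlled by the energy of the tiles in its ring. -/
theorem hole_fam {p : ℝ} (hp0 : 0 < p) (hpn : p < n) {Om La : Set (Fin n → ℝ)} {ι : Type}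
    (T : Tiling Om ι) {κ : Type*} {a : κ → Fin n → ℝ} {R0 R1 : κ → ℝ} (hF : RingFam Om a R0 R1)
    {g : (Fin n → ℝ) → (Fin n → ℝ)}
    (hg : ∃ gi : (Fin n → ℝ) → (Fin n → ℝ), MapsTo g Om La ∧ MapsTo gi La Om ∧
      (∀ x ∈ Om, gi (g x) = x) ∧ (∀ y ∈ La, g (gi y) = y) ∧ ContinuousOn g Om ∧
      ContinuousOn gi La)
    (hgp : Crest.Agent.R096.Str_696.LocPL g Om) {d : ι → ℝ} {μ : κ → ι → ℝ} (S : κ → Finset ι)
    (hS : ∀ c i, (P (T.H i) ∩ (ball (a c) (R1 c) \ closedBall (a c) (R0 c))).Nonempty → i ∈ S c)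
    (hd0 : ∀ c, ∀ i ∈ S c, 0 < d i)
    (hd : ∀ c, ∀ i ∈ S c, ∀ x ∈ P (T.H i), ∀ y ∈ P (T.H i), ‖x - y‖ ≤ d i)
    (hμ : ∀ c, ∀ i ∈ S c, 0 ≤ μ c i)
    (hL : ∀ c, ∀ i ∈ S c, ∀ x ∈ I (T.H i), x ∈ ball (a c) (R1 c) → x ∉ closedBall (a c) (R0 c) →
      LLV (μ c i) g x) {ε : κ → ℝ} (hε : ∀ c, 0 < ε c) :
    ∃ g' : (Fin n → ℝ) → (Fin n → ℝ),
      (∃ gi : (Fin n → ℝ) → (Fin n → ℝ), MapsTo g' Om La ∧ MapsTo gi La Om ∧
        (∀ x ∈ Om, gi (g' x) = x) ∧ (∀ y ∈ La, g' (gi y) = y) ∧ ContinuousOn g' Om ∧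
        ContinuousOn gi La) ∧
      Crest.Agent.R096.Str_696.LocPL g' Om ∧
      (∀ x, (∀ c, x ∉ closedBall (a c) (R1 c)) → g' x = g x) ∧
      (∀ x ∈ Om, (∀ c, x ∉ closedBall (a c) (R1 c)) → g' =ᶠ[𝓝 x] g) ∧
      (∀ c, ∀ x ∈ closedBall (a c) (R1 c), ∃ x' ∈ closedBall (a c) (R1 c), g' x = g x') ∧
      ∀ c, EnCov volume p g' (closedBall (a c) (R1 c))
        (ENNReal.ofReal (Chr n p (2 * R1 c / (R1 c - R0 c)) *
          ∑ i ∈ S c, d i ^ n * μ c i ^ p + ε c)) := by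
  have hgp' : LocPL g Om := locPL_iff.2 hgp
  have h1 := fun c => hole_tiling hp0 hpn T (a c) (hF.pos c) (hF.lt c) (hF.sub c) (S c) (hS c)
    (hd0 c) (hd c) (hμ c) (plOn_of_locPL hgp' (isCompact_closedBall _ _) (hF.sub c)) (hL c) (hε c)
  choose R hR χ hχ1 hχ2 hχ3 hχ4 hχ5 using h1
  have hRsub : ∀ c, ball (a c) (R c) ⊆ closedBall (a c) (R1 c) := fun c =>
    (ball_subset_ball (hR c).2.le).trans ball_subset_closedBall
  obtain ⟨X, Y, e1, e2, e3, e4, e5, e6, e7, e8⟩ := exists_glue_homeo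
    (Om := Om) (fun c => ball (a c) (R c)) (fun c => (hRsub c).trans (hF.sub c))
    (fun c c' hcc => (hF.disj hcc).mono (hRsub c) (hRsub c')) (by
      intro x hx
      obtain ⟨U, hU, hf⟩ := hF.lf x hx
      refine ⟨U, hU, hf.subset ?_⟩
      rintro c ⟨y, hy1, hy2⟩
      exact ⟨y, hRsub c hy1, hy2⟩) χ hχ1 hχ2 hχ3 hχ4
  obtain ⟨gi, g1, g2, g3, g4, g5, g6⟩ := hg
  -- on the whole closed macro ball, `X` is `χ c`
  have hXc : ∀ c, ∀ x ∈ closedBall (a c) (R1 c), X x = χ c x := by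
    intro c x hx
    by_cases hxc : x ∈ ball (a c) (R c)
    · exact (e3 c x hxc).1
    · rw [hχ3 c x hxc]
      refine (e4 x fun c' hxc' => ?_).1
      by_cases hcc : c' = c
      · rw [hcc] at hxc'
        exact hxc hxc'
      · exact Set.disjoint_left.1 (hF.disj hcc) (hRsub c' hxc') hx
  have hXm : ∀ c, ∀ x ∈ closedBall (a c) (R1 c), X x ∈ closedBall (a c) (R1 c) := by
    intro c x hx
    by_cases hxc : x ∈ ball (a c) (R c)
    · exact hRsub c ((e5 c x).2 hxc)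
    · rw [hXc c x hx, hχ3 c x hxc]
      exact hx
  have hXo : ∀ x, (∀ c, x ∉ closedBall (a c) (R1 c)) → X x = x := fun x hx =>
    (e4 x fun c hxc => hx c (hRsub c hxc)).1
  have hXC : ContinuousOn X Om := LocPL.continuousOn' e7
  have hYC : ContinuousOn Y Om := LocPL.continuousOn' e8
  have hYO : ∀ x ∈ Om, Y x ∈ Om := by
    intro x hx
    rw [← e6, e2]
    exact hx
  refine ⟨fun x => g (X x), ⟨fun y => Y (gi y), ?_, ?_, ?_, ?_, ?_, ?_⟩, ?_, ?_, ?_, ?_, ?_⟩
  · intro x hx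
    exact g1 ((e6 x).2 hx)
  · intro y hy
    exact hYO _ (g2 hy)
  · intro x hx
    show Y (gi (g (X x))) = x
    rw [g3 _ ((e6 x).2 hx), e1]
  · intro y hy
    show g (X (Y (gi y))) = y
    rw [e2, g4 y hy]
  · exact g5.comp hXC fun x hx => (e6 x).2 hx
  · exact hYC.comp g6 g2
  · exact locPL_iff.1 (LocPL.comp' hgp' e7 fun x hx => (e6 x).2 hx)
  · intro x hx
    show g (X x) = g x
    rw [hXo x hx]
  · intro x hxO hx
    -- the union of the closed balls is closed near `x`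
    obtain ⟨U, hU, hf⟩ := hF.lf x hxO
    have h2 : IsClosed (⋃ c ∈ {c | (closedBall (a c) (R1 c) ∩ U).Nonempty},
        closedBall (a c) (R1 c)) := hf.isClosed_biUnion fun c _ => isClosed_closedBall
    have h3 : x ∉ ⋃ c ∈ {c | (closedBall (a c) (R1 c) ∩ U).Nonempty},
        closedBall (a c) (R1 c) := by
      simp only [mem_iUnion, not_exists]
      intro c _
      exact hx c
    filter_upwards [hU, h2.isOpen_compl.mem_nhds h3] with y hyU hy
    show g (X y) = g y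
    rw [hXo y]
    intro c hyc
    apply hy
    simp only [mem_iUnion]
    exact ⟨c, ⟨y, hyc, hyU⟩, hyc⟩
  · intro c x hx
    exact ⟨X x, hXm c x hx, rfl⟩
  · intro c
    refine (hχ5 c).congr isClosed_closedBall.measurableSet ?_
    have hR1 : 0 < R1 c := ((hF.pos c).trans_lt (hF.lt c))
    have h2 : ∀ᵐ x : Fin n → ℝ, x ∉ sphere (a c) (R1 c) :=
      measure_eq_zero_iff_ae_notMem.1 (Measure.addHaar_sphere_of_ne_zero volume _ hR1.ne')
    filter_upwards [h2] with x hx hxK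
    have h3 : x ∈ ball (a c) (R1 c) := by
      rw [mem_ball]
      rw [mem_closedBall] at hxK
      exact lt_of_le_of_ne hxK hx
    filter_upwards [isOpen_ball.mem_nhds h3] with y hy
    show g (X y) = g (χ c y)
    rw [hXc c y (ball_subset_closedBall hy)]

/-- countably many balls -/
lemma RingFam.countable {Om : Set (Fin n → ℝ)} {κ : Type*} {a : κ → Fin n → ℝ} {R0 R1 : κ → ℝ}
    (hF : RingFam Om a R0 R1) : Countable κ := by
  have h1 : (univ : Set κ).Countable := by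
    refine Set.PairwiseDisjoint.countable_of_isOpen (s := fun c => ball (a c) (R1 c))
      (a := univ) ?_ (fun c _ => isOpen_ball)
      (fun c _ => ⟨a c, mem_ball_self ((hF.pos c).trans_lt (hF.lt c))⟩)
    intro c _ c' _ hcc
    exact (hF.disj hcc).mono ball_subset_closedBall ball_subset_closedBall
  exact countable_univ_iff.1 h1


end Crest.Agent.R96.Hole_348
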