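import Crest.Agent.R096.Fns1_360
import Crest.Agent.R096.Tms1_582
import Crest.Agent.R096.Bxs10_627
import Crest.Agent.R096.Eab1_747
import Crest.Agent.R096.Tms2_582
import Crest.Agent.R096.Ls4_222

-- ▼ part R96/Eam1_466
section

/-!
# R96, EA-C (helper466; 348 #10593): `Cores` and `Fine` for a mesh with exact cores (bricks in `X`) and
tiny cores (bricks off `X`)

* `interior_P`, `tile_disj` : the interior of a tile is its open polytope, other tiles miss it;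
* `brick_disj` : different bricks have disjoint open boxes;
* **`cores_mix`** : `Mbf_337.Cores` from `Exact` on `X` and `Tiny` off `X` (no disjointness needed);
* `Bad` : the open sets where nothing is asked (open core / open ball round the tiny core);
* `exact_hole`, `cori_hole`, `bad_hole` : they contain the preimages of the holes;
* **`exists_rho_mix`** : the size function off the bad sets, chosen before the mesh;
* **`fine_mix`**, **`cores_fine_mix`** : `Mbf_337.Fine`.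
-/

set_option autoImplicit false
set_option linter.style.longLine false
set_option linter.unusedSectionVars false

open MeasureTheory Set Filter Topology Metric

namespace Crest.Agent.R96.Eam_466

open Crest.Agent.R096.Bsp_628 Crest.Agent.R096.Brk1_582 Crest.Agent.R096.Brk3_582
open Crest.Agent.R096.Brk5_582
open Crest.Agent.R096.Msh_715
open Crest.Agent.R96.Push_899
open Crest.Agent.R096.SkC1_961 (E3 Hom3 IsPush FoamD)
open Crest.Agent.R096.Mbf_337
open Crest.Agent.R096.Fns_360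

noncomputable section

/-! ### polytopes -/

section poly

variable {E : Type*} [NormedAddCommGroup E] [NormedSpace ℝ E]

theorem interior_P {H : Finset ((E →L[ℝ] ℝ) × ℝ)} (hne : (I H).Nonempty) : interior (P H) = I H := by
  apply Subset.antisymm
  · intro x hx h hh
    obtain ⟨z, hz⟩ := hne
    have hxP : x ∈ P H := interior_subset hx
    have hc : Tendsto (fun s : ℝ => x + s • (x - z)) (𝓝 0) (𝓝 (x + (0 : ℝ) • (x - z))) := by
      apply Continuous.tendsto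
      fun_prop
    rw [zero_smul, add_zero] at hc
    have h1 : ∀ᶠ s in 𝓝[>] (0 : ℝ), x + s • (x - z) ∈ interior (P H) :=
      (hc.eventually (isOpen_interior.mem_nhds hx)).filter_mono nhdsWithin_le_nhds
    obtain ⟨s, hs, hs0⟩ := (h1.and self_mem_nhdsWithin).exists
    have h2 := interior_subset hs h hh
    have h3 := hz h hh
    have h4 := hxP h hh
    have hs0' : (0 : ℝ) < s := hs0
    simp only [map_add, map_smul, map_sub, smul_eq_mul] at h2
    by_contra h5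
    have h6 : h.1 x = h.2 := le_antisymm h4 (not_lt.1 h5)
    nlinarith
  · exact interior_maximal (I_sub_P H) (isOpen_I H)


end poly

variable {δ κ0 R c0 : ℝ} {La Om : Set E3} {ι : Type}

/-- different bricks have disjoint open boxes -/
theorem brick_disj (Φ : FoamD δ κ0 R c0 La) {c c' : Φ.F} (hne : c ≠ c') {y : E3}
    (h : ∀ k, c.1.lo k < y k ∧ y k < c.1.hi k) (h' : ∀ k, c'.1.lo k < y k ∧ y k < c'.1.hi k) :
    False := by
  obtain ⟨k, hk⟩ := Φ.bf.inv.disj c.2 c'.2 (Φ.bf.pos _ c.2) (Φ.bf.pos _ c'.2)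
    (fun e => hne (Subtype.ext e))
  have h1 := h k
  have h2 := h' k
  rcases hk with hk | hk <;> linarith [h1.1, h1.2, h2.1, h2.2]

/-! ### the cores -/

section cores

variable {Φ : FoamD δ κ0 R c0 La} {T : Tiling Om ι} {f : E3 → E3} {κ1 κ2 : ℝ} {X : Set Φ.F}
  {J0 J V : Φ.F → Set ι} {ct : Φ.F → ι} {A : Φ.F → E3 ≃ᵃ[ℝ] E3} {lam : Φ.F → ℝ} {z : Φ.F → E3}
  {θ : Φ.F → E3 → E3} {φ : Φ.F → E3 → ℝ}

/-- the tiles of `V c` are mapped into the open brick `c` -/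
theorem inside_V (one : ∀ c ∈ X, J0 c = {ct c} ∧ J c = {ct c} ∧ V c = {ct c})
    (hex : ∀ c ∈ X, Exact Φ T f κ1 κ2 c (ct c) (A c) (lam c) (z c))
    (htl : ∀ c ∉ X, Tiny Φ T f κ1 c (J0 c) (J c) (V c) (θ c) (φ c)) (c : Φ.F) {i : ι}
    (hi : i ∈ V c) {x : E3} (hx : x ∈ P (T.H i)) (k : Fin 3) :
    c.1.lo k < f x k ∧ f x k < c.1.hi k := by
  by_cases hc : c ∈ X
  · rw [(one c hc).2.2, mem_singleton_iff] at hi
    rw [hi] at hx
    exact (hex c hc).inside x hx k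
  · exact (htl c hc).inside x (mem_biUnion hi hx) k

/-- **CORES-MIX** -/
theorem cores_mix (one : ∀ c ∈ X, J0 c = {ct c} ∧ J c = {ct c} ∧ V c = {ct c})
    (hex : ∀ c ∈ X, Exact Φ T f κ1 κ2 c (ct c) (A c) (lam c) (z c))
    (htl : ∀ c ∉ X, Tiny Φ T f κ1 c (J0 c) (J c) (V c) (θ c) (φ c)) :
    Cores Φ T f κ1 κ2 X J0 J V ct A lam z θ φ where
  disj c c' hcc := by
    rw [Set.disjoint_left]
    intro i hi hi'
    obtain ⟨x, hx⟩ := T.ne i
    have hxP := I_sub_P _ hx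
    exact brick_disj Φ hcc (inside_V one hex htl c hi hxP) (inside_V one hex htl c' hi' hxP)
  one := one
  exact_ := hex
  tiny := htl

end cores

/-! ### the bad sets -/

open Classical in
/-- the open sets where `Fine` asks nothing: the open core tile (`c ∈ X`), the ball round the
preimage of the hole (`c ∉ X`) -/
def Bad {κ : Type*} (X : Set κ) (K : κ → Set E3) (x₀ : κ → E3) (r : κ → ℝ) (c : κ) : Set E3 :=
  if c ∈ X then interior (K c) else ball (x₀ c) (r c)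









/-! ### fineness -/

section fine

variable {Φ : FoamD δ κ0 R c0 La} {T : Tiling Om ι} {f : E3 → E3} {κ1 κ2 : ℝ} {X : Set Φ.F}
  {J0 J V : Φ.F → Set ι} {ct : Φ.F → ι} {A : Φ.F → E3 ≃ᵃ[ℝ] E3} {lam : Φ.F → ℝ} {z : Φ.F → E3}
  {θ : Φ.F → E3 → E3} {φ : Φ.F → E3 → ℝ}

/-- the two clauses of `Fine` on one tile -/
def FineT (Φ : FoamD δ κ0 R c0 La) (T : Tiling Om ι) (f : E3 → E3) (κ1 : ℝ) (i : ι) : Prop :=
  ∀ x ∈ P (T.H i), ∀ y ∈ P (T.H i), ∀ c' : Φ.F,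
    (Φ.Psi (f x) ∈ c'.1.set → ‖Φ.Psi (f y) - Φ.Psi (f x)‖ ≤ κ1 * c'.1.sz) ∧
      |Φ.lev c' (f y) - Φ.lev c' (f x)| ≤ κ1

theorem FineT.of_S {i : ι} {S : Set E3} (h : FineS Φ f κ1 S) (hS : P (T.H i) ⊆ S) :
    FineT Φ T f κ1 i := fun x hx y hy c' =>
  ⟨h.psi x (hS hx) y (hS hy) c', h.lev x (hS hx) y (hS hy) c'⟩

/-- `Fine` tile by tile -/
theorem fine_of_tiles (h : ∀ i, (∀ c, i ∉ J0 c) → FineT Φ T f κ1 i) : Fine Φ T f κ1 J0 where
  psi i hi x hx y hy c := (h i hi x hx y hy c).1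
  lev i hi x hx y hy c := (h i hi x hx y hy c).2




end fine

end

end Crest.Agent.R96.Eam_466
end

-- ▼ part R96/Eam2_466
section

/-!
# R96, EA-C, part 2 (helper466): `Cores` and `Fine` from `TinyLoc` (582) and the zones (747)

* `TLAt` : the data of one tiny core at the scale `k`; `tinyLoc_iff`; **`exists_tl`** : chosen for all
  `c ∉ X` at once, for every family of scales `k c ≥ k0 c`;
* `mx X g h` : `g` on `X`, `h` off `X`;
* **`mix_of_loc`** : `Mbf_337.Cores` and `Mbf_337.Fine` with `J0 = mx X {ct} (e '' J0)`,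
  `V = mx X {ct} VZ`;
* `V_off_iff`, `V_union` : the ordinary tiles, the union of the `V c`, `c ∉ X` (for 348's `Geo`).
-/

set_option autoImplicit false
set_option linter.style.longLine false
set_option linter.unusedSectionVars false

open MeasureTheory Set Filter Topology Metric

namespace Crest.Agent.R96.Eam_466

open Crest.Agent.R096.Bsp_628 Crest.Agent.R096.Brk1_582 Crest.Agent.R096.Brk3_582
open Crest.Agent.R096.Brk5_582
open Crest.Agent.R096.Msh_715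
open Crest.Agent.R096.Msh_810 (Cu)
open Crest.Agent.R96.Push_899
open Crest.Agent.R096.SkC1_961 (E3 Hom3 IsPush FoamD)
open Crest.Agent.R096.Mbf_337
open Crest.Agent.R096.Fns_360
open Crest.Agent.R096.Tms_582
open Crest.Agent.R096.Eab_747 (ZoneFam VZ)

noncomputable section

variable {δ κ0 Rc c0 : ℝ} {La Om : Set E3}

/-! ### the data of one tiny core -/

/-- the data of one tiny core at the scale `k` (the body of `TinyLoc`) -/
def TLAt (Φ : FoamD δ κ0 Rc c0 La) (Om : Set E3) (f : E3 → E3) (κ1 : ℝ) (c : Φ.F) (x₀ : E3) (R : ℝ)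
    (k : ℕ) (Zc : Finset (Fin 3 → ℤ)) {κ : Type} (H : κ → Finset ((E3 →L[ℝ] ℝ) × ℝ))
    (J0 J : Set κ) (θ : E3 → E3) (φ : E3 → ℝ) : Prop :=
  LatRepl k Zc H ∧ (∀ z ∈ Zc, Cu (0 : E3) k z ⊆ ball x₀ (R / 4)) ∧
    ∀ w : E3, (∀ i, 0 ≤ w i ∧ w i ≤ (2 : ℝ)⁻¹ ^ k) → ∀ (ι : Type) (T : Tiling Om ι) (e : κ → ι),
      InZone T x₀ R k w Zc H e → ∀ V : Set ι, range e ⊆ V →
      (∀ i ∈ V, P (T.H i) ⊆ closedBall x₀ R) →
      (∀ i, (P (T.H i) ∩ closedBall x₀ (R / 2)).Nonempty → i ∈ V) →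
      RegV T f V → (∃ i, x₀ ∈ I (T.H i)) →
      Tiny Φ T f κ1 c (e '' J0) (e '' J) V (fun x => θ (x - w)) (fun x => φ (x - w)) ∧
      ∀ i ∈ V, i ∉ e '' J0 → ∀ x ∈ P (T.H i), ∀ y ∈ P (T.H i), ∀ c' : Φ.F,
        (Φ.Psi (f x) ∈ c'.1.set → ‖Φ.Psi (f y) - Φ.Psi (f x)‖ ≤ κ1 * c'.1.sz) ∧
        |Φ.lev c' (f y) - Φ.lev c' (f x)| ≤ κ1

theorem tinyLoc_iff {Φ : FoamD δ κ0 Rc c0 La} {f : E3 → E3} {κ1 : ℝ} {c : Φ.F} {x₀ : E3} {R : ℝ} :
    TinyLoc Φ Om f κ1 c x₀ R ↔ ∃ k0 : ℕ, ∀ k : ℕ, k0 ≤ k → ∃ (Zc : Finset (Fin 3 → ℤ)) (κ : Type)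
      (H : κ → Finset ((E3 →L[ℝ] ℝ) × ℝ)) (J0 J : Set κ) (θ : E3 → E3) (φ : E3 → ℝ),
      TLAt Φ Om f κ1 c x₀ R k Zc H J0 J θ φ := Iff.rfl

/-- the data of all tiny cores at once -/
theorem exists_tl {Φ : FoamD δ κ0 Rc c0 La} {f : E3 → E3} {κ1 : ℝ} {X : Set Φ.F}
    {x₀ : {c // c ∉ X} → E3} {R : {c // c ∉ X} → ℝ}
    (h : ∀ c : {c // c ∉ X}, TinyLoc Φ Om f κ1 c.1 (x₀ c) (R c)) :
    ∃ k0 : {c // c ∉ X} → ℕ, ∀ k : {c // c ∉ X} → ℕ, (∀ c, k0 c ≤ k c) →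
      ∃ (Zc : {c // c ∉ X} → Finset (Fin 3 → ℤ)) (κ : {c // c ∉ X} → Type)
        (H : ∀ c, κ c → Finset ((E3 →L[ℝ] ℝ) × ℝ)) (J0 J : ∀ c, Set (κ c))
        (θ : {c // c ∉ X} → E3 → E3) (φ : {c // c ∉ X} → E3 → ℝ),
        ∀ c, TLAt Φ Om f κ1 c.1 (x₀ c) (R c) (k c) (Zc c) (H c) (J0 c) (J c) (θ c) (φ c) := by
  choose k0 hk0 using fun c => tinyLoc_iff.1 (h c)
  refine ⟨k0, fun k hk => ?_⟩
  choose Zc κ H J0 J θ φ hT using fun c => hk0 c (k c) (hk c)
  exact ⟨Zc, κ, H, J0, J, θ, φ, hT⟩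

/-! ### mixed families -/

section mx

variable {κ α : Type*}

open Classical in
/-- `g` on `X`, `h` off `X` -/
def mx (X : Set κ) (g : κ → α) (h : {c // c ∉ X} → α) (c : κ) : α :=
  if hc : c ∈ X then g c else h ⟨c, hc⟩



end mx



/-! ### the mixed mesh -/

section mesh

variable {ι : Type} {Φ : FoamD δ κ0 Rc c0 La} {T : Tiling Om ι} {f : E3 → E3} {κ1 κ2 : ℝ}
  {X : Set Φ.F} {ct : Φ.F → ι}




end mesh

end

end Crest.Agent.R96.Eam_466
end

-- ▼ part R96/Eam3_466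

/-!
# R96, [MIX] of 348 #11024 (helper466): `Mok` minus words for 582's patched tiling `tmesh`

`T0` = the base mesh (exact cores on `X`), `Z : Zones T0 x R k w` (index type `{c // c ∉ X}`), local
families `LF`.

* `exact_congr` : `Exact` sees only the polytope of the core tile;
* `zoneFam_tmesh` : 747's `ZoneFam` for `tmesh`;
* `core_zone_disj` : core tiles miss the macro balls;
* `FineX T0 ..` : what is asked from the base mesh: all tiles which are not core tiles and miss the half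
  balls are fine;
* **`mix_tmesh`** : `Cores` and `Fine` for `tmesh`, any decoration which is `{ct c}` on `X` and the one
  of `TLAt` off `X`;
* **`geo_tmesh`** : 348's `Geo`;
* **`words_tmesh`** : `Words` for `tmesh` from `Words` for the base mesh;
* `RegS`, `regV_of`, `regV_of_edg` : `RegV` from regularity of all closed 1-cells.
-/

set_option autoImplicit false
set_option linter.style.longLine false
set_option linter.unusedSectionVars false

open MeasureTheory Set Filter Topology Metric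

namespace Crest.Agent.R96.Eam_466

open Crest.Agent.R096.Bsp_628 Crest.Agent.R096.Brk1_582 Crest.Agent.R096.Brk3_582
open Crest.Agent.R096.Brk5_582
open Crest.Agent.R096.Msh_715
open Crest.Agent.R096.Msh_810 (Cu)
open Crest.Agent.R96.Push_899
open Crest.Agent.R096.SkC1_961 (E3 Hom3 IsPush FoamD)
open Crest.Agent.R096.Mbf_337
open Crest.Agent.R096.Fns_360
open Crest.Agent.R096.Tms_582
open Crest.Agent.R096.Eab_747 (ZoneFam VZ)
open Crest.Agent.R96.EaPost_348 (Geo)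

noncomputable section

variable {δ κ0 Rc c0 : ℝ} {La Om : Set E3}

/-- `Exact` sees only the polytope of the core tile -/
theorem exact_congr {ι ι' : Type} {Φ : FoamD δ κ0 Rc c0 La} {T : Tiling Om ι} {T' : Tiling Om ι'}
    {f : E3 → E3} {κ1 κ2 : ℝ} {c : Φ.F} {i : ι} {i' : ι'} {A : E3 ≃ᵃ[ℝ] E3} {lam : ℝ} {z : E3}
    (h : P (T'.H i') = P (T.H i)) (hE : Exact Φ T f κ1 κ2 c i A lam z) :
    Exact Φ T' f κ1 κ2 c i' A lam z where
  lam0 := hE.lam0
  lam1 := hE.lam1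
  box_in := hE.box_in
  hole := hE.hole
  ray := hE.ray
  tile := h.trans hE.tile
  nbd := by rw [h]; exact hE.nbd
  inside := by rw [h]; exact hE.inside
  miss := by rw [h]; exact hE.miss

/-! ### the zones -/

section zones

variable {ι0 : Type} {T0 : Tiling Om ι0} {𝒞 : Type} {x : 𝒞 → E3} {R : 𝒞 → ℝ} {k : 𝒞 → ℕ}
  {w : 𝒞 → E3} {Zc : 𝒞 → Finset (Fin 3 → ℤ)} {κ : 𝒞 → Type}
  {H : ∀ c, κ c → Finset ((E3 →L[ℝ] ℝ) × ℝ)}

/-- 747's `ZoneFam` for 582's patched tiling -/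
theorem zoneFam_tmesh (Z : Zones T0 x R k w) (F : LocF x R k Zc H)
    {Kt : Set ({i // i ∉ Ar T0 k w Zc} ⊕ Σ c, κ c)}
    (hkt : ∀ i ∈ Kt, ∀ c, Disjoint (P ((tmesh Z F).H i)) (closedBall (x c) (R c))) :
    ZoneFam (tmesh Z F) x R k w Zc H (fun c => en T0 k w Zc c) Kt where
  pos := Z.R0
  sub c := (closedBall_subset_closedBall (by have := Z.R0 c; linarith)).trans (Z.sub c)
  disj c c' h := (Z.dis c c' h).mono
    (closedBall_subset_closedBall (by have := Z.R0 c; linarith))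
    (closedBall_subset_closedBall (by have := Z.R0 c'; linarith))
  lf y hy := by
    obtain ⟨r, hr, hf⟩ := Z.lf y hy
    refine ⟨ball y r, ball_mem_nhds _ hr, hf.subset ?_⟩
    rintro c ⟨u, hu, hub⟩
    exact ⟨u, closedBall_subset_closedBall (by have := Z.R0 c; linarith) hu, hub⟩
  scale := Z.sm
  zone c := tmesh_zone Z F c (by have := Z.R0 c; linarith)
  w0 := Z.w01
  zc := F.inb
  repl := F.rep
  kt := hkt

/-- the replaced tiles lie in the half balls -/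
theorem Ar_sub (Z : Zones T0 x R k w) (F : LocF x R k Zc H) {i : ι0} (hi : i ∈ Ar T0 k w Zc) :
    ∃ c, P (T0.H i) ⊆ ball (x c) (R c / 2) := by
  obtain ⟨c, z, hz, h⟩ := hi
  exact ⟨c, by rw [h, P_Hc_idE]; exact cube_in Z F hz⟩


end zones

/-! ### regularity on the edges -/

/-- all Lipschitz functions of `f` have finite level sets on the set `S`, for almost all levels -/
def RegS (f : E3 → E3) (S : Set E3) : Prop :=
  ∀ ℓ : E3 → ℝ, (∃ k, LipschitzWith k ℓ) → ∀ᵐ t : ℝ, {y ∈ S | ℓ (f y) = t}.Finite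

theorem RegS.mono {f : E3 → E3} {S S' : Set E3} (h : RegS f S) (hS : S' ⊆ S) : RegS f S' := by
  intro ℓ hℓ
  filter_upwards [h ℓ hℓ] with t ht
  exact ht.subset fun y hy => ⟨hS hy.1, hy.2⟩



/-! ### the mixed mesh -/

section mix

variable {ι0 : Type} {Φ : FoamD δ κ0 Rc c0 La} {T0 : Tiling Om ι0} {f : E3 → E3} {κ1 κ2 : ℝ}
  {X : Set Φ.F} {ct0 : Φ.F → ι0} {A : Φ.F → E3 ≃ᵃ[ℝ] E3} {lam : Φ.F → ℝ} {z : Φ.F → E3}
  {x : {c // c ∉ X} → E3} {R : {c // c ∉ X} → ℝ} {k : {c // c ∉ X} → ℕ} {w : {c // c ∉ X} → E3}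
  {Zc : {c // c ∉ X} → Finset (Fin 3 → ℤ)} {κ : {c // c ∉ X} → Type}
  {H : ∀ c, κ c → Finset ((E3 →L[ℝ] ℝ) × ℝ)}

/-- **what is asked from the base mesh**: every tile which is not a core tile and misses the half balls
of the zones is fine -/
def FineX (Φ : FoamD δ κ0 Rc c0 La) (T0 : Tiling Om ι0) (f : E3 → E3) (κ1 : ℝ) (X : Set Φ.F)
    (ct0 : Φ.F → ι0) (x : {c // c ∉ X} → E3) (R : {c // c ∉ X} → ℝ) : Prop :=
  ∀ i, (∀ c ∈ X, i ≠ ct0 c) → (∀ c, Disjoint (P (T0.H i)) (closedBall (x c) (R c / 2))) →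
    FineT Φ T0 f κ1 i

/-- the macro balls are mapped into their bricks -/
def InB (Φ : FoamD δ κ0 Rc c0 La) (f : E3 → E3) (X : Set Φ.F) (x : {c // c ∉ X} → E3)
    (R : {c // c ∉ X} → ℝ) : Prop :=
  ∀ c : {c // c ∉ X}, ∀ y ∈ closedBall (x c) (R c), ∀ j, c.1.1.lo j < f y j ∧ f y j < c.1.1.hi j

/-- the local families from the data of the tiny cores -/
theorem locF_of_tl {j0 j1 : ∀ c, Set (κ c)} {θ0 : {c // c ∉ X} → E3 → E3}
    {φ0 : {c // c ∉ X} → E3 → ℝ}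
    (htl : ∀ c, TLAt Φ Om f κ1 c.1 (x c) (R c) (k c) (Zc c) (H c) (j0 c) (j1 c) (θ0 c) (φ0 c)) :
    LocF x R k Zc H where
  rep c := (htl c).1
  inb c := (htl c).2.1


theorem tmesh_hsub {ι1 : Type} {T1 : Tiling Om ι1} {i1 : ι1} {i0 : ι0} (h : T1.H i1 = T0.H i0)
    (hF : FineT Φ T0 f κ1 i0) : FineT Φ T1 f κ1 i1 := by
  unfold FineT at *
  rw [h]
  exact hF

/-- **[MIX]: `Cores` and `Fine` for `tmesh`.** -/
theorem mix_tmesh (Z : Zones T0 x R k w) (LF : LocF x R k Zc H)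
    (hex : ∀ c ∈ X, Exact Φ T0 f κ1 κ2 c (ct0 c) (A c) (lam c) (z c))
    (hF : FineX Φ T0 f κ1 X ct0 x R)
    {j0 j1 : ∀ c, Set (κ c)} {θ0 : {c // c ∉ X} → E3 → E3} {φ0 : {c // c ∉ X} → E3 → ℝ}
    (htl : ∀ c, TLAt Φ Om f κ1 c.1 (x c) (R c) (k c) (Zc c) (H c) (j0 c) (j1 c) (θ0 c) (φ0 c))
    (hreg : ∀ c, RegV (tmesh Z LF) f (Vc (tmesh Z LF) x R c))
    (hx₀ : ∀ c, ∃ i, x c ∈ I ((tmesh Z LF).H i))
    {J0 J V : Φ.F → Set ({i // i ∉ Ar T0 k w Zc} ⊕ Σ c, κ c)}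
    {ct : Φ.F → {i // i ∉ Ar T0 k w Zc} ⊕ Σ c, κ c} {θ : Φ.F → E3 → E3} {φ : Φ.F → E3 → ℝ}
    (hct : ∀ c ∈ X, (tmesh Z LF).H (ct c) = T0.H (ct0 c))
    (hJX : ∀ c ∈ X, J0 c = {ct c} ∧ J c = {ct c} ∧ V c = {ct c})
    (hJ : ∀ c : {c // c ∉ X}, J0 c.1 = en T0 k w Zc c '' j0 c ∧ J c.1 = en T0 k w Zc c '' j1 c ∧
      V c.1 = Vc (tmesh Z LF) x R c)
    (hθ : ∀ c : {c // c ∉ X}, θ c.1 = (fun y => θ0 c (y - w c)) ∧
      φ c.1 = fun y => φ0 c (y - w c)) :
    Cores Φ (tmesh Z LF) f κ1 κ2 X J0 J V ct A lam z θ φ ∧ Fine Φ (tmesh Z LF) f κ1 J0 := by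
  have hzf : ZoneFam (tmesh Z LF) x R k w Zc H (fun c => en T0 k w Zc c) ∅ :=
    zoneFam_tmesh Z LF (fun i hi => absurd hi (notMem_empty i))
  have hT : ∀ c : {c // c ∉ X}, Tiny Φ (tmesh Z LF) f κ1 c.1 (J0 c.1) (J c.1) (V c.1) (θ c.1)
      (φ c.1) ∧ ∀ i ∈ V c.1, i ∉ J0 c.1 → FineT Φ (tmesh Z LF) f κ1 i := by
    intro c
    have h1 := (htl c).2.2 (w c) (fun i => Z.w01 c i) _ (tmesh Z LF) (en T0 k w Zc c)
      (tmesh_zone Z LF c (by have := Z.R0 c; linarith)) (Vc (tmesh Z LF) x R c) (hzf.e_mem c)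
      (hzf.V_sub c) (fun i hi => hi) (hreg c) (hx₀ c)
    rw [(hJ c).1, (hJ c).2.1, (hJ c).2.2, (hθ c).1, (hθ c).2]
    exact h1
  have hE : ∀ c ∈ X, Exact Φ (tmesh Z LF) f κ1 κ2 c (ct c) (A c) (lam c) (z c) := fun c hc =>
    exact_congr (by rw [hct c hc]) (hex c hc)
  refine ⟨cores_mix hJX hE fun c hc => (hT ⟨c, hc⟩).1, fine_of_tiles fun i hi => ?_⟩
  by_cases hV : ∃ c, i ∈ V c
  · obtain ⟨c, hc⟩ := hV
    by_cases hX : c ∈ X
    · have h1 := hi c
      rw [(hJX c hX).1] at h1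
      rw [(hJX c hX).2.2] at hc
      exact absurd hc h1
    · exact (hT ⟨c, hX⟩).2 i hc (hi c)
  · push Not at hV
    obtain ⟨i0, rfl, hi0⟩ := off_zones Z LF (i := i) fun c => by
      rw [← (hJ c).2.2]; exact hV c.1
    refine tmesh_hsub (tmesh_inl Z LF i0) (hF i0.1 (fun c hc e => ?_) hi0)
    -- a tile with the polytope of a core tile is the core tile
    have h1 : ct c ≠ Sum.inl i0 := fun e' => hV c (by rw [(hJX c hc).2.2, ← e']; rfl)
    have h2 := (tmesh Z LF).dis _ _ h1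
    rw [hct c hc, tmesh_inl, ← e, disjoint_self] at h2
    obtain ⟨y, hy⟩ := T0.ne i0.1
    rw [h2] at hy
    exact hy



end mix

end

end Crest.Agent.R96.Eam_466
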