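/-
helper872, row 96, PREMACH / instance of MF, (IV) of 199 #10868, part 2: the lists are the positions `RP` of
874's mesh of core blocks; the good sets with 365's `GoodW`.
-/
import Crest.Agent.R96.Gj1_872
import Crest.Agent.R096.Mal15_874
import Crest.Agent.R096.Exa3_365

set_option autoImplicit false

open MeasureTheory Set Filter Metric
open scoped Topology ENNReal Pointwise

namespace Crest.Agent.R96.Gj_872

open Crest.Agent.R096.Mal_874
open Crest.Agent.R096.SkC1_961 (E3)
open Crest.Agent.R096.EaX_766 (lin)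
open Crest.Agent.R096.Exa_365 (GoodW Wt measurableSet_Wt volume_Wt det_lin_ne)

noncomputable section

section rp

variable {E : Type*} [NormedAddCommGroup E] [NormedSpace ℝ E] {n : ℕ} {J : Type*} {M : MD E n J}



end rp

/-! ### the sets `Wt` of total shifts -/

theorem isBounded_Wt (A : E3 ≃ᵃ[ℝ] E3) (ρ : ℝ) : Bornology.IsBounded (Wt A ρ) := by
  have h1 : Wt A ρ ⊆ (fun y => (A.linear.toContinuousLinearEquiv.symm) y) '' Icc 0 (fun _ => ρ) := by
    intro w hw
    refine ⟨lin A w, hw, ?_⟩
    show A.linear.toContinuousLinearEquiv.symm (lin A w) = w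
    rw [ContinuousLinearEquiv.symm_apply_eq]
    rfl
  refine (IsCompact.isBounded ?_).subset h1
  exact isCompact_Icc.image (ContinuousLinearEquiv.continuous _)

theorem volume_Wt_ne (A : E3 ≃ᵃ[ℝ] E3) {ρ : ℝ} (hρ : 0 < ρ) : volume (Wt A ρ) ≠ 0 := by
  rw [volume_Wt A hρ.le]
  have h1 : 0 < |(lin A).det|⁻¹ := inv_pos.2 (abs_pos.2 (det_lin_ne A))
  exact mul_ne_zero (ENNReal.ofReal_pos.2 h1).ne' (ENNReal.ofReal_pos.2 (by positivity)).ne'



end

end Crest.Agent.R96.Gj_872
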