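import Crest.Agent.R096.No10_276_Mg
import Crest.Agent.R096.Br6_695
import Crest.Agent.R096.Rg3h_766
import Crest.Agent.R096.Eau1_365
import Crest.Agent.R096.Mno9_928
import Crest.Agent.R096.Mch1_534
import Crest.Agent.R096.Mch2_534
import Crest.Agent.R096.Mch3_337
import Crest.Agent.R096.Nsl4_552
import Crest.Agent.R096.Nst1_780
import Crest.Agent.R096.Pg3_691
import Crest.Agent.R096.No4_276
import Crest.Agent.R096.Pg2_691
import Crest.Agent.R096.Pg4_691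
import Crest.Agent.R096.Ps7_273
import Crest.Agent.R096.No6_276
import Crest.Agent.R096.Frm1_234
import Crest.Agent.R096.Aclt1_608
import Crest.Agent.R096.Tlo1_715
import Crest.Agent.R096.Ls5_222
import Crest.Agent.R96.Sg5_199
import Crest.Agent.R096.Npr1_582
import Crest.Agent.R096.Tms2_582
import Crest.Agent.R096.Tl4_4
import Crest.Agent.R096.Aclt2_608
import Crest.Agent.R096.Eaa1_748
import Crest.Agent.R096.Gno2_324
import Crest.Agent.R096.Eab1_747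
import Crest.Agent.R096.Shv1_273
import Crest.Agent.R096.Npl2_477
import Crest.Agent.R096.Ps6_273
import Crest.Agent.R096.Acc5_365
import Crest.Agent.R096.Ea0_961
import Crest.Agent.R96.Eac1_348
import Crest.Agent.R96.Ea0p_348

-- ▼ part R096/Top3_961
section

/-!
Row 96 (S0127), helper961.  **The top of the row, second form**: the ranges `2 < p < 3` (695) and
`p ≥ 3` (766) are proved; `EA p` is reduced to `PreX p` (365), `NOS` to `MachNO` and `NOPre` (276).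
-/

set_option autoImplicit false
set_option linter.style.longLine false

namespace Crest.Agent.R096.Top_961

open MeasureTheory Metric Set Filter Topology
open scoped ENNReal Gradient NNReal
open Crest.AnalysisR.VecCalc3 Crest.AnalysisR.Sobolev
open Crest.Agent.R096.Sk_962 Crest.Agent.R096.Sk4_663

/-- **S0127 from the open nodes** (09:45Z): `MachBF`, `MachNO`, `PreX` (`p > 2`), `EA0` and its
consumer (`p ≤ 2`), `NOPre`. -/
theorem s0127_final2 (hM : Mbf_337.MachBF) (hMN : ∀ p : ℝ, 1 ≤ p → SkN2_477.MachNO p)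
    (preX : ∀ p : ℝ, 2 < p → Eau_365.PreX p)
    (ea0 : Mbf_337.MachBF → ∀ p : ℝ, 1 ≤ p → p ≤ 2 → Ea0_961.EA0 p)
    (r12 : ∀ p : ℝ, 1 ≤ p → p ≤ 2 → Ea0_961.EA0 p → Br_695.BFk p)
    (pre : ∀ p : ℝ, 1 ≤ p → No_276.NOPre p)
    (Ω Λ : Set R3) (hΩo : IsOpen Ω) (hΩb : Bornology.IsBounded Ω) (hΩc : IsConnected Ω)
    (hΛo : IsOpen Λ) (hΛb : Bornology.IsBounded Λ) (hΛc : IsConnected Λ)
    (p : ℝ) (hp : 1 ≤ p) (f : R3 → R3) (hf : IsHomeomorphOn f Ω Λ)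
    (hfp : MemLp f (ENNReal.ofReal p) (volume.restrict Ω))
    (G : Fin 3 → R3 → R3) (hG : ∀ j : Fin 3, HasWeakGradOn Ω (fun x => f x j) (G j))
    (hGp : ∀ j : Fin 3, MemLp (G j) (ENNReal.ofReal p) (volume.restrict Ω))
    (ε : ℝ≥0∞) (hε : 0 < ε) :
    ∃ g : R3 → R3, IsSmoothDiffeoOn g Ω Λ ∧ MemLp g (ENNReal.ofReal p) (volume.restrict Ω) ∧
      (∀ j : Fin 3, MemLp (fun x => ∇ (fun y => g y j) x) (ENNReal.ofReal p) (volume.restrict Ω)) ∧
      ∫⁻ x in Ω, (‖g x - f x‖ₑ ^ p + ∑ j : Fin 3, ‖∇ (fun y => g y j) x - G j x‖ₑ ^ p) < ε :=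
  s0127_final hM hMN
    (fun hM p hp => Eau_365.ea_of_pre (by linarith) hM (preX p hp)) ea0 r12
    (fun _ h2 h3 H => Br_695.bfk_of_ea h2 h3 H) (fun _ h3 H => Rg3_766.bfk_of_ea h3 H) pre
    (fun _ hp h1 h2 => No_276.nos_of hp h1 h2)
    Ω Λ hΩo hΩb hΩc hΛo hΛb hΛc p hp f hf hfp G hG hGp ε hε

end Crest.Agent.R096.Top_961
end

-- ▼ part R096/Mxo7_487
section

/-!
# R096 (row 96), helper487.  `meshLp_of` : 928's `mesh_no` over 337's `Lp` (534's `MeshLp`).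
-/

set_option autoImplicit false
set_option linter.unusedSectionVars false
set_option linter.unusedVariables false
set_option linter.style.longLine false

open Set Metric Filter Topology Module

namespace Crest.Agent.R096.Mxo_487

open Crest.Agent.R096.Msh_715 Crest.Agent.R096.Csub_487
open Crest.Agent.R096.Mfr_487
open Crest.Agent.R096.Mno_534

/-- **the mixed mesh over `Lp`, with the face clause** -/
theorem meshLp_of {p : ℝ} (hp : 1 ≤ p) {Λ e : ℝ} (hΛ : 1 ≤ Λ) (he : 0 < e) :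
    ∃ η β0 ε₁ KN : ℝ, 0 < η ∧ 1/4 ≤ β0 ∧ β0 < 1/2 ∧ 0 < ε₁ ∧ ε₁ < 1 ∧ 0 ≤ KN ∧
      MeshLp p Λ e η β0 ε₁ KN := by
  obtain ⟨η, β0, ε₁, KN, h1, h2, h3, h4, h5, h6, hM⟩ := Fsw_928.mesh_no hp hΛ he
  refine ⟨η, β0, ε₁, KN, h1, h2, h3, h4, h5, h6, ?_⟩
  intro δ κ0 R c0 κ1 κ2 La Om ι Φ T f X J0 Jt V ct A lmc z θ φ ι3 T3 KK c3 _ hH hdis hne Lv Qd s₀
    far₀ Zc lam₀ v₀ v₁ κ hfin kap s far β lm hC hL h Ω' Xc b hb hb2 Kb hKb Rb hRb g0 P0 cc0 hB Ds B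
    ν a FD
  obtain ⟨δt, d1, d2, SpecX, Gf, Pp, cc, k1, k2, k3, k4, k5⟩ := hM (hf1 := h.fin1) (Ex := ⋃ c, V c)
    h Xc top3_Lp cellIx_Lp hb hb2 hKb hB (Frn_337.jj_mm Lv hfin) FD (hfc_Lp hC hL hRb FD)
  exact ⟨δt, d1, d2, Gf, Pp, cc, k1, k2, ⟨g0, P0, cc0, SpecX, k3⟩, k4, k5⟩

end Crest.Agent.R096.Mxo_487
end

-- ▼ part R096/Mxo8_487
section

/-!
# R096 (row 96), helper487.  `MachNO p` from the front half alone.

* `machNO_of_front` : `1 ≤ p → FrontP → MachNO p`;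
* `machNO_of_b` : the same with 337's `FrontPb b` (`κp ≤ b`).
-/

set_option autoImplicit false
set_option linter.unusedSectionVars false
set_option linter.unusedVariables false
set_option linter.style.longLine false

open Set Filter Topology Metric MeasureTheory

namespace Crest.Agent.R096.Mxo_487

open Crest.Agent.R096.Msh_715 Crest.Agent.R096.Brk1_582 Crest.Agent.R096.Brk3_582
open Crest.Agent.R096.SkC1_961 (E3 Hom3 FoamD Cfg NN)
open Crest.Agent.R096.SkN1_477 (FaceD)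
open Crest.Agent.R096.Mbf_337 (Star Cores Fine Levels Words)
open Crest.Agent.R096.Nr_527 Crest.Agent.R096.Oa_527 Crest.Agent.R096.Mno_534
open Crest.Agent.R096.Num_689
open Crest.Agent.R096.Mch_337 (FrontPb)





/-! ### with a bound on `κp` -/

/-- 689's order of the constants with `κp ≤ b` -/
theorem machGN_of_data_b {p b : ℝ} (hb0 : 0 < b) (hF : FrontPb b)
    {Mn : ℝ → ℝ → ℝ → ℝ → ℝ → ℝ → Prop}
    (hM : ∀ Λ e' : ℝ, 1 ≤ Λ → 0 < e' → ∃ η β0 ε₁ KN : ℝ, 0 < η ∧ 1/4 ≤ β0 ∧ β0 < 1/2 ∧ 0 < ε₁ ∧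
      ε₁ < 1 ∧ 0 ≤ KN ∧ Mn Λ e' η β0 ε₁ KN)
    (hD : DataP p Mn) : MachGN p := by
  intro Λ e' hΛ he'
  obtain ⟨η, β0, ε₁, KN, hη, hβ0, hβ0', hε0, hε1, hKN, hMn⟩ := hM Λ e' hΛ he'
  refine ⟨η, hη, Cun KN ε₁, Cun_pos hKN, ?_⟩
  intro δ κ0 R c0 κ2 κ3 hδ hκ0 hR hc0 hκ2 hκ3
  refine ⟨C0n δ κ0 R, Csn KN ε₁ δ R κ3, C0n_pos δ κ0 R,
    Csn_pos hKN (by linarith) (by linarith), fun e he => ?_⟩
  obtain ⟨κb, κf, sg, bt, hK⟩ := exists_numK (e := e) hβ0' he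
  have hsg := hK.sg0
  have hp0 : 0 < min b (min (1/64) (sg / 2 / 2)) :=
    lt_min hb0 (lt_min (by norm_num) (by positivity))
  refine ⟨min b (min (1/64) (sg / 2 / 2)), hp0, fun μ hμ hμp => ?_⟩
  set κp : ℝ := min b (min (1/64) (sg / 2 / 2)) with hκp
  have p0 : 0 < κp := hp0
  have p1 : κp ≤ 1/64 := (min_le_right _ _).trans (min_le_left _ _)
  have p2 : κp ≤ sg / 2 / 2 := (min_le_right _ _).trans (min_le_right _ _)
  obtain ⟨κa, hκa, hFr⟩ := hF δ κ0 R c0 κ2 κ3 hδ hκ0 hR hc0 hκ2 hκ3 κp p0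
    (min_le_left _ _) μ hμ hμp
  obtain ⟨κs, hκs, hDa⟩ := hD Λ e' η β0 ε₁ KN hΛ he' hη hβ0 hβ0' hε0 hε1 hKN hMn
    δ κ0 R c0 κ2 κ3 hδ hκ0 hR hc0 hκ2 hκ3 e κb κf sg bt he hK κp μ p0 p1 p2 hμ hμp
  obtain ⟨κc, hκc, hsm⟩ := exists_small (κ0 := κ0) hδ (zero_lt_one.trans_le hR)
    (zero_le_one.trans hκ0) hκ2
  set κ1 : ℝ := min κa (min κs κc) with hκ1
  have q0 : 0 < κ1 := lt_min hκa (lt_min hκs hκc)
  have q1 : κ1 ≤ κa := min_le_left _ _
  have q2 : κ1 ≤ κs := (min_le_right _ _).trans (min_le_left _ _)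
  have q3 : κ1 ≤ κc := (min_le_right _ _).trans (min_le_right _ _)
  refine ⟨κ1, q0, ?_⟩
  intro Om La f hOm hOmb hOmc hLa hLab hLac hf Φ ι T X J0 J V ct A lam z θ φ M hst hcr hfi
    Ds B ν a hDs
  obtain ⟨Z1, m1, hZ1, h1⟩ := hFr Om La f hOm hOmb hOmc hLa hLab hLac hf Φ ι T X J0 J V ct A lam
    z θ φ M hst (cores_mono q1 hcr) (fine_mono q1 hfi)
  obtain ⟨Z2, m2, hZ2, h2⟩ := hDa κ1 q0 q2 ⟨p0, p1, p2, hμ, hμp, q0, hsm κ1 q0.le q3⟩
    Om La f hOm hOmb hOmc hLa hLab hLac hf Φ ι T X J0 J V ct A lam z θ φ M hst hcr hfi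
    Ds B ν a hDs
  obtain ⟨m3, hm3⟩ := Nod_714.exists_m0 hLa Φ M (sg / 2)
  refine ⟨fun c => Z1 c ∪ Z2 c, fun c => max (m1 c) (max (m2 c) (m3 c)),
    fun c => measure_union_null (hZ1 c) (hZ2 c), fun κ L hL hW => ?_⟩
  have hfr : FrontOut Φ T f X J0 J V ct L := h1 κ L
    (levels_mono hL le_rfl le_rfl (fun c => subset_union_left) fun c => le_max_left _ _) hW
  refine h2 (fun c => Z1 c ∪ Z2 c) (fun c => max (m1 c) (max (m2 c) (m3 c)))
    (fun c => subset_union_right) (fun c => (le_max_left _ _).trans (le_max_right _ _))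
    (fun c b hcb => ?_) κ L hL hW hfr
  obtain ⟨k1, k2⟩ := hm3 c b hcb
  have k3 : m3 b ≤ max (m1 b) (max (m2 b) (m3 b)) := (le_max_right _ _).trans (le_max_right _ _)
  exact ⟨k1.trans k3, k2.trans (by exact_mod_cast k3)⟩

/-- **`MachAll p` from `FrontPb b`** -/
theorem machAll_of_b {p b : ℝ} (hp : 1 ≤ p) (hb0 : 0 < b) (hF : FrontPb b) : MachAll p :=
  machAll_of (machGN_of_data_b hb0 hF (fun _ _ hΛ he' => meshLp_of hp hΛ he') (dataP p))

/-- **`MachNO p` from `FrontPb b`** -/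
theorem machNO_of_b {p b : ℝ} (hp : 1 ≤ p) (hb0 : 0 < b) (hF : FrontPb b) : SkN2_477.MachNO p :=
  machNO_of (machAll_of_b hp hb0 hF)

end Crest.Agent.R096.Mxo_487
end

-- ▼ part R096/Nsl5_552
section

/-!
Row 96 (S0127), helper552.  NO0-PRE [P4b] (276 `PreN`, `p < 3`), part 3: `preN_of`.

`ND` = the data (front, tiling, shift, block); **`preN_of`**: constants in the order of `NOPre`
(582 #11112 (4)) and `PreN` for every `Z`, `m0`.
-/

set_option autoImplicit false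
set_option linter.style.longLine false
set_option linter.unusedSectionVars false

open MeasureTheory Set Filter Metric
open scoped Topology ENNReal

namespace Crest.Agent.R096.Nsl_552

open Crest.Agent.R096.Msh_810 Crest.Agent.R96.En3_199
  Crest.Agent.R96.En4_199 Crest.Agent.R96.En5_199 Crest.Agent.R96.En6_199
  Crest.Agent.R96.En7_199 Crest.Agent.R96.En8_199 Crest.Agent.R96.En9_199
  Crest.Agent.R96.En11_199 Crest.Agent.R96.Sg1_199
open Crest.Agent.R096.Msh_715 hiding P I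
open Crest.Agent.R096.Ea_713 (lin)
open Crest.Agent.R096.SkC1_961 (E3 Hom3 FoamD NN Cfg)
open Crest.Agent.R096.Nl_234 (HWq)
open Crest.Agent.R096.No_276 (QL ShL IZ MJ MU PreN)
open Crest.Agent.R096.No0_477 (cub fr Fc NOGeo)
open Crest.Agent.R096.SkN1_477 (usq)
open Crest.Agent.R096.Log2_582 (IsLog)
open Crest.Agent.R096.Frm_234 (Sg Sg_finite frm)
open Crest.Agent.R096.Ls_222 Crest.Agent.R096.Ps_273

noncomputable section

/-- the volume of the stretched cube -/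
theorem vol_QL {L : ℝ} (hL : 0 < L) : volume (QL L) = ENNReal.ofReal (8 / L) := by
  rw [Nst_780.volume_QL hL, Real.volume_pi_ball _ one_pos, ← ENNReal.ofReal_mul (by positivity)]
  congr 1
  simp only [Fintype.card_fin]
  field_simp
  norm_num

/-- **the data of `preN_of`** -/
structure ND (p : ℝ) (s : Fin 3 → ℝ) (L : ℕ) (η κ3 : ℝ) {δ κ0 R c0 : ℝ} {La : Set E3}
    (Φ : FoamD δ κ0 R c0 La) (q : ℕ) (al : Fin 3 → ℝ) (h : ℝ) (f1 : E3 → E3) {ι : Type}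
    (T : Tiling (QL L) ι) (V : Φ.F → Set ι) (D : Dat 3) (τ : ι → Top D) (Ω : Set E3)
    (g : Φ.F → Fin 3 → E3 → ℝ) (W : Φ.F → ℝ) (Wt : Set E3) (εf θ : ℝ≥0∞) (r₁ : ℝ) (k : ℕ)
    (r : ℝ) (hr : r ≠ 0) (o : Fin 2 → ℤ) (M : ℕ) (A Zs : Finset ℤ) {β : Type} (b : β → E3)
    (R1 : β → ℝ) (Sc : β → Finset ι) : Prop where
  oLa : IsOpen La
  hom : Hom3 f1 (QL L) La
  /-- the edges miss the preimages of the holes -/
  hh : ∀ e : Edg T, ∀ y ∈ sgm (ea e) (ev e), ∀ c, f1 y ∉ (Φ.B c).S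
  edge : ∀ e : Edg T, e.1 ⊆ Ω
  sub : Ω ⊆ QL L
  gm : ∀ c l, Measurable (g c l)
  good : ∀ (k : ℕ) (z : Fin 3 → ℤ), Good Ω (us Φ f1) g (vx D.a k z)
  patch : ∀ e : Edg T, (¬ ∃ (σ : Cel D) (l : Fin 3), σ.1.J = {l} ∧ e.1 = σ.c) → ∀ c,
    ∃ G : E3 → ℝ≥0∞, UGs (us Φ f1 c) G (ea e) (ev e) ∧ li G (ea e) (ev e) ≠ ∞
  W0 : ∀ c, 0 < W c
  Wd : ∀ c, ∃ k N : ℕ, W c * 2 ^ k = N
  W1 : ∀ c, c.1.sz ≤ κ3 * W c
  W2 : ∀ c, W c ≤ κ3 * c.1.sz
  Wl : ∀ c : Φ.F, IsLog q al h c.1 → W c = h / 2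
  base : BaseOn T D {i | ∀ c, i ∉ V c} τ
  eW : ∀ l, ∫⁻ x in Ω, Xs (fun c => ENNReal.ofReal (W c)) g (fun l => ENNReal.ofReal (s l)) l x ^ p ≤
    εf * volume (QL L)
  Ep : ∀ l, Ed D l p (Xs (fun c => ENNReal.ofReal (W c)) g (fun l => ENNReal.ofReal (s l)) l) ≤
    24 * ∫⁻ x in Ω, Xs (fun c => ENNReal.ofReal (W c)) g (fun l => ENNReal.ofReal (s l)) l x ^ p
  E1 : ∀ l, Ed D l 1 (Xs (fun c => ENNReal.ofReal (W c)) g (fun l => ENNReal.ofReal (s l)) l) ≤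
    24 * ∫⁻ x in Ω, Xs (fun c => ENNReal.ofReal (W c)) g (fun l => ENNReal.ofReal (s l)) l x
  ES : S D p (Wt.indicator (GGw (fun c => ENNReal.ofReal (W c)) g)) ≤ 100 * (KE 3 p * θ)
  vW : volume Wt ≤ θ
  /-- off `Wt` the map is over the horizontal log walls -/
  hw : ∀ x ∈ QL L, x ∉ Wt → HWq Φ f1 q al h {x}
  /-- ordinary tiles which touch the excluded tiles -/
  tW : ∀ i, (∀ c, i ∉ V c) → ∀ c, ∀ j ∈ V c,
    ¬ Disjoint (Msh_715.P (T.H i)) (Msh_715.P (T.H j)) → Msh_715.P (T.H i) ⊆ Wt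
  shv : volume (⋃ i ∈ {i | (∀ c, i ∉ V c) ∧ i ∈ IZ T (ShL L η) b R1 Sc}, Msh_715.P (T.H i)) ≤
    ENNReal.ofReal ((48 * η + 72 * L * r₁) / L)
  geo : NOGeo T (⋃ c, V c) Gno_324.𝒬0 L η r hr D.a o M Zs (fun _ _ => True)
  rk : r = ((2:ℝ) ^ k)⁻¹
  blk : Blk D k o M Zs
  N0 : 2 / L ≤ ((A.card : ℝ) * M ^ 2) * r ^ 3
  AZ : (A.card : ℝ) ≤ 2 * Zs.card

theorem two_rpow_ne_top {x : ℝ} (hx : 0 ≤ x) : (2:ℝ≥0∞) ^ x ≠ ∞ :=
  ENNReal.rpow_ne_top_of_nonneg hx (by norm_num)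

set_option maxHeartbeats 1000000 in
/-- **`PreN` FROM THE DATA**, order of the constants of `NOPre` -/
theorem preN_of {p : ℝ} (hp : 1 ≤ p) {s : Fin 3 → ℝ} (hs : ∀ i, 0 ≤ s i) {S1 : ℝ} (hS1 : 0 < S1) :
    ∃ S KS : ℝ, S1 ≤ S ∧ 0 ≤ KS ∧
    ∀ (ε η : ℝ) (L : ℕ) (e₂ : ℝ), 0 < ε → 0 < η → 1 ≤ L → 0 < e₂ →
    ∃ εf : ℝ≥0∞, 0 < εf ∧
    ∀ (q : ℕ) (κ3 : ℝ) (C : Set (Set E3) → ℝ) (κp ε' : ℝ), (∀ 𝒦, 0 < C 𝒦) → 0 < κp → 0 < ε' →
    ∃ μ : ℝ, 0 < μ ∧ μ ≤ κp ∧ ∃ θ : ℝ≥0∞, 0 < θ ∧ ∃ r₁ : ℝ, 0 < r₁ ∧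
    ∀ {δ κ0 R c0 : ℝ} {La : Set E3} {Φ : FoamD δ κ0 R c0 La} {al : Fin 3 → ℝ} {h : ℝ}
      {f1 : E3 → E3} {ι : Type} {T : Tiling (QL L) ι} {V : Φ.F → Set ι} {D : Dat 3} {τ : ι → Top D}
      {Ω : Set E3} {g : Φ.F → Fin 3 → E3 → ℝ} {W : Φ.F → ℝ} {Wt : Set E3} {k : ℕ}
      {r : ℝ} {hr : r ≠ 0} {o : Fin 2 → ℤ} {M : ℕ} {A Zs : Finset ℤ} {β : Type} {b : β → E3}
      {R1 : β → ℝ} {Sc : β → Finset ι},
      ND p s L η κ3 Φ q al h f1 T V D τ Ω g W Wt εf θ r₁ k r hr o M A Zs b R1 Sc →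
    ∀ (ct : Φ.F → ι) (Aa : Φ.F → E3 ≃ᵃ[ℝ] E3) (lam : Φ.F → ℝ) (z : Φ.F → E3) (Mg : Φ.F → ℕ)
      (cnt : ι → ℝ) (Z : Φ.F → Set ℝ) (m0 : Φ.F → ℕ), (∀ c, volume (Z c) = 0) →
      ∃ (κ : Φ.F → ℕ) (Lv : Φ.F → Finset ℝ),
        PreN p s L η ε ε' e₂ S1 S KS κp μ κ3 C Sg f1 q al h Φ T ∅ V ct Aa lam z Mg r hr D.a o M Zs
          (fun _ _ => True) b R1 Sc cnt Z m0 κ Lv := by
  classical
  have hp0 : 0 ≤ p := by linarith
  have hp1 : 0 ≤ p - 1 := by linarith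
  have h2p := two_rpow_ne_top hp0
  have h2p1 := two_rpow_ne_top hp1
  set smr : ℝ := s 0 + s 1 + s 2 with hsmr
  have hsmr0 : 0 ≤ smr := by have := hs 0; have := hs 1; have := hs 2; positivity
  set sm : ℝ≥0∞ := ENNReal.ofReal smr with hsm
  have hsle : ∀ l, s l ≤ smr := by
    intro l
    have h0 := hs 0
    have h1 := hs 1
    have h2 := hs 2
    fin_cases l
    · show s 0 ≤ smr; linarith
    · show s 1 ≤ smr; linarith
    · show s 2 ≤ smr; linarith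
  have hsl : ∀ l, ENNReal.ofReal (s l) ≤ sm := fun l => ENNReal.ofReal_le_ofReal (hsle l)
  have hMs : (M1 3 * (2 * sm) : ℝ≥0∞) ≠ ∞ :=
    ENNReal.mul_ne_top (ENNReal.natCast_ne_top _) (ENNReal.mul_ne_top (by norm_num)
      ENNReal.ofReal_ne_top)
  set S : ℝ := S1 + (M1 3 * (2 * sm) : ℝ≥0∞).toReal with hS
  have hSS : S1 ≤ S := le_add_of_nonneg_right ENNReal.toReal_nonneg
  have hS0 : 0 ≤ S := by linarith
  have hSM : (M1 3 * (2 * sm) : ℝ≥0∞) ≤ ENNReal.ofReal S := by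
    calc (M1 3 * (2 * sm) : ℝ≥0∞) = ENNReal.ofReal (M1 3 * (2 * sm) : ℝ≥0∞).toReal :=
          (ENNReal.ofReal_toReal hMs).symm
      _ ≤ _ := ENNReal.ofReal_le_ofReal (by rw [hS]; linarith)
  set KT : ℝ≥0∞ := 2 ^ (p - 1) * (KTc p sm + ENNReal.ofReal S1 ^ p) with hKT
  have hKTt : KT ≠ ∞ := ENNReal.mul_ne_top h2p1 (ENNReal.add_ne_top.2
    ⟨KTc_ne_top hp ENNReal.ofReal_ne_top, ENNReal.rpow_ne_top_of_nonneg hp0 ENNReal.ofReal_ne_top⟩)
  set KTr : ℝ := KT.toReal with hKTr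
  have hKT0 : 0 ≤ KTr := ENNReal.toReal_nonneg
  have hKTe : KT = ENNReal.ofReal KTr := (ENNReal.ofReal_toReal hKTt).symm
  refine ⟨S, 48 * KTr + 1, hSS, by positivity, fun ε η L e₂ hε hη hL he₂ => ?_⟩
  have hL0 : (0 : ℝ) < L := by exact_mod_cast hL
  set vq : ℝ≥0∞ := volume (QL (L : ℝ)) with hvq
  have hvq' : vq = ENNReal.ofReal (8 / L) := vol_QL hL0
  have hvqt : vq ≠ ∞ := by rw [hvq']; exact ENNReal.ofReal_ne_top
  -- `t1` : energies
  obtain ⟨t1, ht10, ht1t, ht1⟩ := exists_small (J := Fin 2)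
    ![2 ^ (p - 1) * (KEc p * 6), ENNReal.ofReal L * (KEc p * 6)]
    ![ENNReal.ofReal (min 1 (e₂ / 2) / L), ENNReal.ofReal ε]
    (by
      intro j
      have h6 : KEc p * 6 ≠ ∞ := ENNReal.mul_ne_top (KEc_ne_top hp) (by norm_num)
      fin_cases j
      · exact ENNReal.mul_ne_top h2p1 h6
      · exact ENNReal.mul_ne_top ENNReal.ofReal_ne_top h6)
    (by
      intro j
      fin_cases j
      · show ENNReal.ofReal _ ≠ 0
        rw [Ne, ENNReal.ofReal_eq_zero, not_le]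
        have : 0 < min 1 (e₂ / 2) := lt_min one_pos (by linarith)
        positivity
      · show ENNReal.ofReal _ ≠ 0
        rw [Ne, ENNReal.ofReal_eq_zero, not_le]
        exact hε)
  have ht1a : 2 ^ (p - 1) * (KEc p * 6) * t1 ≤ ENNReal.ofReal (min 1 (e₂ / 2) / L) := ht1 0
  have ht1b : ENNReal.ofReal L * (KEc p * 6) * t1 ≤ ENNReal.ofReal ε := ht1 1
  -- `δ1` : from `p` to `1`
  obtain ⟨δ1, hδ10, hδ1t, hδ1⟩ := exists_small (J := Fin 1) ![24 * vq] ![ENNReal.ofReal (ε / (16 * L))]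
    (by intro j; fin_cases j; exact ENNReal.mul_ne_top (by norm_num) hvqt)
    (by
      intro j
      fin_cases j
      show ENNReal.ofReal _ ≠ 0
      rw [Ne, ENNReal.ofReal_eq_zero, not_le]
      positivity)
  have hδ1a : 24 * vq * δ1 ≤ ENNReal.ofReal (ε / (16 * L)) := hδ1 0
  have hδ1p : δ1 ^ (1 - p) ≠ ∞ := ENNReal.rpow_ne_top_of_ne_zero hδ10 hδ1t
  -- `εf`
  obtain ⟨εf, hεf0, hεft, hεf⟩ := exists_small (J := Fin 2) ![24 * vq, 24 * (δ1 ^ (1 - p) * vq)]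
    ![t1, ENNReal.ofReal (ε / (16 * L))]
    (by
      intro j
      fin_cases j
      · exact ENNReal.mul_ne_top (by norm_num) hvqt
      · exact ENNReal.mul_ne_top (by norm_num) (ENNReal.mul_ne_top hδ1p hvqt))
    (by
      intro j
      fin_cases j
      · exact ht10
      · show ENNReal.ofReal _ ≠ 0
        rw [Ne, ENNReal.ofReal_eq_zero, not_le]
        positivity)
  have hεfa : 24 * vq * εf ≤ t1 := hεf 0
  have hεfb : 24 * (δ1 ^ (1 - p) * vq) * εf ≤ ENNReal.ofReal (ε / (16 * L)) := hεf 1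
  refine ⟨εf, pos_iff_ne_zero.2 hεf0, fun q κ3 C κp ε' hC hκp hε' => ?_⟩
  -- `κ'`, `μ`
  set κ' : ℝ := min (min κp 1) (ε / (8 * (smr + 1))) with hκ'
  have hκ'0 : 0 < κ' := lt_min (lt_min hκp one_pos) (by positivity)
  have hκ'p : κ' ≤ κp := (min_le_left _ _).trans (min_le_left _ _)
  have hκ'1 : κ' ≤ 1 := (min_le_left _ _).trans (min_le_right _ _)
  have hκ's : κ' * smr ≤ ε / 8 := by
    have h1 : κ' ≤ ε / (8 * (smr + 1)) := min_le_right _ _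
    rw [le_div_iff₀ (by positivity)] at h1
    nlinarith
  refine ⟨κ' / 64, by positivity, by linarith, ?_⟩
  -- bound of `C`
  obtain ⟨CM, hCM⟩ : ∃ CM : ℝ, ∀ 𝒦 ∈ Sg, 0 ≤ C 𝒦 ∧ C 𝒦 ≤ CM := by
    obtain ⟨CM, hCM⟩ := (Sg_finite.image C).bddAbove
    exact ⟨CM, fun 𝒦 h𝒦 => ⟨(hC 𝒦).le, hCM (mem_image_of_mem C h𝒦)⟩⟩
  set CP : ℝ≥0∞ := ENNReal.ofReal CM ^ p with hCP
  have hCPt : CP ≠ ∞ := ENNReal.rpow_ne_top_of_nonneg hp0 ENNReal.ofReal_ne_top
  set SP : ℝ≥0∞ := ENNReal.ofReal S1 ^ p with hSP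
  have hSPt : SP ≠ ∞ := ENNReal.rpow_ne_top_of_nonneg hp0 ENNReal.ofReal_ne_top
  have hKEt : KE 3 p ≠ ∞ := KE_ne_top hp
  have hKCt : KC 3 p ≠ ∞ := KC_ne_top hp
  set tp : ℝ := 2 ^ (p - 1) with htp
  have htp0 : 0 < tp := by rw [htp]; positivity
  set e5 : ℝ := ε' / (4 * tp) with he5
  have he50 : 0 < e5 := by rw [he5]; positivity
  set e6 : ℝ := ε' / (2 * tp * (S ^ p + 1)) with he6
  have hSp0 : 0 ≤ S ^ p := Real.rpow_nonneg hS0 p
  have he60 : 0 < e6 := by rw [he6]; positivity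
  -- `θ`
  obtain ⟨θ, hθ0, hθt, hθ⟩ := exists_small (J := Fin 4)
    ![CP * (2 ^ (p - 1) * (2 ^ (p - 1) * (2 ^ p * (100 * KE 3 p)))), CP * (2 ^ (p - 1) * SP),
      ENNReal.ofReal L * (2 ^ (p - 1) * (2 ^ p * (100 * KE 3 p))), ENNReal.ofReal L]
    ![ENNReal.ofReal (ε' / 3), ENNReal.ofReal (ε' / 3), ENNReal.ofReal e5, ENNReal.ofReal e6]
    (by
      intro j
      have h1 : (2:ℝ≥0∞) ^ p * (100 * KE 3 p) ≠ ∞ :=
        ENNReal.mul_ne_top h2p (ENNReal.mul_ne_top (by norm_num) hKEt)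
      fin_cases j
      · exact ENNReal.mul_ne_top hCPt (ENNReal.mul_ne_top h2p1 (ENNReal.mul_ne_top h2p1 h1))
      · exact ENNReal.mul_ne_top hCPt (ENNReal.mul_ne_top h2p1 hSPt)
      · exact ENNReal.mul_ne_top ENNReal.ofReal_ne_top (ENNReal.mul_ne_top h2p1 h1)
      · exact ENNReal.ofReal_ne_top)
    (by
      intro j
      fin_cases j
      · show ENNReal.ofReal _ ≠ 0
        rw [Ne, ENNReal.ofReal_eq_zero, not_le]; positivity
      · show ENNReal.ofReal _ ≠ 0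
        rw [Ne, ENNReal.ofReal_eq_zero, not_le]; positivity
      · show ENNReal.ofReal _ ≠ 0
        rw [Ne, ENNReal.ofReal_eq_zero, not_le]; positivity
      · show ENNReal.ofReal _ ≠ 0
        rw [Ne, ENNReal.ofReal_eq_zero, not_le]; positivity)
  have hθa : CP * (2 ^ (p - 1) * (2 ^ (p - 1) * (2 ^ p * (100 * KE 3 p)))) * θ ≤
      ENNReal.ofReal (ε' / 3) := hθ 0
  have hθb : CP * (2 ^ (p - 1) * SP) * θ ≤ ENNReal.ofReal (ε' / 3) := hθ 1
  have hθc : ENNReal.ofReal L * (2 ^ (p - 1) * (2 ^ p * (100 * KE 3 p))) * θ ≤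
      ENNReal.ofReal e5 := hθ 2
  have hθd : ENNReal.ofReal L * θ ≤ ENNReal.ofReal e6 := hθ 3
  -- `r₁`
  set r₁ : ℝ := e₂ / (144 * L * (KTr + 1)) with hr₁
  have hr₁0 : 0 < r₁ := by rw [hr₁]; positivity
  have hr₁' : KTr * (72 * L * r₁) ≤ e₂ / 2 := by
    have e : 72 * L * r₁ = e₂ / (2 * (KTr + 1)) := by
      rw [hr₁]; field_simp; ring
    rw [e, mul_div_assoc', div_le_div_iff₀ (by positivity) (by norm_num)]
    nlinarith
  refine ⟨θ, pos_iff_ne_zero.2 hθ0, r₁, hr₁0, ?_⟩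
  intro δ κ0 R c0 La Φ al h f1 ι T V D τ Ω g W Wt k r hr o M A Zs β b R1 Sc d ct Aa lam z Mg cnt Z m0 hZ
  set w : Φ.F → ℝ≥0∞ := fun c => ENNReal.ofReal (W c) with hw
  set s' : Fin 3 → ℝ≥0∞ := fun l => ENNReal.ofReal (s l) with hs'
  -- the energies of the shift
  have hEp : ∀ l, Ed D l p (Xs w g s' l) ≤ t1 := fun l =>
    (d.Ep l).trans ((mul_le_mul' le_rfl (d.eW l)).trans (by
      rw [← mul_assoc, mul_right_comm]; exact hεfa))
  have hE1 : ∀ l, Ed D l 1 (Xs w g s' l) ≤ ENNReal.ofReal (ε / (8 * L)) := by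
    intro l
    have h1 := lint_le_rpow hp hδ10 hδ1t Ω (Xs w g s' l)
    have h3 : volume Ω ≤ vq := measure_mono d.sub
    calc Ed D l 1 (Xs w g s' l) ≤ 24 * (δ1 * vq + δ1 ^ (1 - p) * (εf * vq)) := by
          refine (d.E1 l).trans ?_
          gcongr
          refine h1.trans ?_
          gcongr
          exact d.eW l
      _ = 24 * vq * δ1 + 24 * (δ1 ^ (1 - p) * vq) * εf := by ring
      _ ≤ ENNReal.ofReal (ε / (16 * L)) + ENNReal.ofReal (ε / (16 * L)) := add_le_add hδ1a hεfb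
      _ = ENNReal.ofReal (ε / (8 * L)) := by
          rw [← ENNReal.ofReal_add (by positivity) (by positivity)]
          congr 1
          field_simp
          ring
  -- the errors
  obtain ⟨δ2, hδ20, hδ2t, hδ2⟩ := exists_small (J := Fin 4)
    ![1, 1, CP * (2 ^ (p - 1) * (2 ^ (p - 1) * (KC 3 p * 3))),
      ENNReal.ofReal L * (2 ^ (p - 1) * (KC 3 p * 3))]
    ![t1, ENNReal.ofReal (ε / (4 * L)), ENNReal.ofReal (ε' / 3), ENNReal.ofReal e5]
    (by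
      intro j
      have h1 : KC 3 p * 3 ≠ ∞ := ENNReal.mul_ne_top hKCt (by norm_num)
      fin_cases j
      · exact ENNReal.one_ne_top
      · exact ENNReal.one_ne_top
      · exact ENNReal.mul_ne_top hCPt (ENNReal.mul_ne_top h2p1 (ENNReal.mul_ne_top h2p1 h1))
      · exact ENNReal.mul_ne_top ENNReal.ofReal_ne_top (ENNReal.mul_ne_top h2p1 h1))
    (by
      intro j
      fin_cases j
      · exact ht10
      · show ENNReal.ofReal _ ≠ 0
        rw [Ne, ENNReal.ofReal_eq_zero, not_le]; positivity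
      · show ENNReal.ofReal _ ≠ 0
        rw [Ne, ENNReal.ofReal_eq_zero, not_le]; positivity
      · show ENNReal.ofReal _ ≠ 0
        rw [Ne, ENNReal.ofReal_eq_zero, not_le]; positivity)
  have hδ2a : δ2 ≤ t1 := by have := hδ2 0; rwa [show (![(1:ℝ≥0∞), 1, CP * (2 ^ (p - 1) * (2 ^ (p - 1) * (KC 3 p * 3))),
      ENNReal.ofReal L * (2 ^ (p - 1) * (KC 3 p * 3))] : Fin 4 → ℝ≥0∞) 0 = 1 from rfl, one_mul] at this
  have hδ2b : δ2 ≤ ENNReal.ofReal (ε / (4 * L)) := by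
    have := hδ2 1
    rwa [show (![(1:ℝ≥0∞), 1, CP * (2 ^ (p - 1) * (2 ^ (p - 1) * (KC 3 p * 3))),
      ENNReal.ofReal L * (2 ^ (p - 1) * (KC 3 p * 3))] : Fin 4 → ℝ≥0∞) 1 = 1 from rfl, one_mul] at this
  have hδ2c : CP * (2 ^ (p - 1) * (2 ^ (p - 1) * (KC 3 p * 3))) * δ2 ≤ ENNReal.ofReal (ε' / 3) :=
    hδ2 2
  have hδ2d : ENNReal.ofReal L * (2 ^ (p - 1) * (KC 3 p * 3)) * δ2 ≤ ENNReal.ofReal e5 := hδ2 3
  obtain ⟨err, er, herr0, her0, herr, hYp, hY1⟩ := exists_err_T T D hp hδ20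
  set er' : Cel D → ℝ≥0∞ := fun σ => ENNReal.ofReal (er σ) with her'
  have hYs : ∑ l : Fin 3, Ye D l p er' ≤ 3 * δ2 := by
    refine (Finset.sum_le_sum fun l _ => hYp l).trans (le_of_eq ?_)
    rw [Finset.sum_const, Finset.card_univ, Fintype.card_fin, nsmul_eq_mul]; norm_num
  -- the levels
  obtain ⟨κ, Lv, hlev, hcard, hEN, hNN⟩ := levels_inst d.oLa d.hom T D d.hh d.edge d.gm d.good
    d.patch (err := fun e => ENNReal.ofReal (err e)) (fun e => by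
      rw [Ne, ENNReal.ofReal_eq_zero, not_le]; exact herr0 e) hκ'0 hκ'1 hκ'p (μ := κ' / 64) le_rfl
    d.W0 d.Wd d.W1 d.W2 hZ m0
  have hF : ∀ (e : Edg T) (σ : Cel D) (l : Fin 3), σ.1.J = {l} → e.1 = σ.c →
      EN (us Φ f1) κ Lv e ≤ (1 + ENNReal.ofReal κ') * ic (Hw w g l) D.a σ.1 + er' σ := by
    intro e σ l hl he
    refine (hEN e σ l hl he).trans ?_
    rw [ENNReal.ofReal_add zero_le_one hκ'0.le, ENNReal.ofReal_one]
    gcongr
    exact ENNReal.ofReal_le_ofReal (herr e σ he)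
  have hc2 : (1 + ENNReal.ofReal κ' : ℝ≥0∞) ≤ 2 := by
    calc (1 + ENNReal.ofReal κ' : ℝ≥0∞) ≤ 1 + ENNReal.ofReal 1 := by gcongr
      _ = 2 := by rw [ENNReal.ofReal_one]; norm_num
  set c : ℝ≥0∞ := 1 + ENNReal.ofReal κ' with hc
  -- weights in the bad set
  have hSx : c ^ p * Crest.Agent.R96.En4_199.S D p (Wt.indicator (GGw w g)) + KC 3 p * ∑ l : Fin 3, Ye D l p er' ≤
      2 ^ p * (100 * KE 3 p) * θ + KC 3 p * 3 * δ2 := by
    calc _ ≤ 2 ^ p * (100 * (KE 3 p * θ)) + KC 3 p * (3 * δ2) := by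
          gcongr
          exact d.ES
      _ = _ := by ring
  have hM0 : 0 < M := d.geo.M0
  have hr0 : 0 < r := d.geo.r0
  set N0 : ℝ := (Zs.card : ℝ) * M ^ 2 with hN0
  have hN00 : 0 ≤ N0 := mul_nonneg (Nat.cast_nonneg _) (sq_nonneg _)
  refine ⟨κ, Lv, ?_⟩
  exact
    { lev := hlev
      words :=
        { grid := fun c hc => absurd hc (notMem_empty c)
          word := fun c hc => absurd hc (notMem_empty c)
          sign := fun c hc => absurd hc (notMem_empty c) }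
      wlog := fun c hc => (hcard c).trans (d.Wl c hc)
      wt := by
        exact Ps_273.wt_clause (T := T) (f := f1) (w := w) (g := g) hr d.rk d.blk subset_rfl hs
          (κp := ENNReal.ofReal κ') (er := er') hF (U := fun _ _ => True) d.geo.edge
          (N0 := ε * N0) (mul_nonneg hε.le hN00) (fun j => wt_num hL hM0 d.rk d.N0 d.AZ hε.le
            hκ'0.le hκ'1 ((mul_le_mul_of_nonneg_left (hsle _) hκ'0.le).trans hκ's) (hE1 _)
            ((hY1 _).trans hδ2b))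
      sq := by
        have h4 : tp * (S ^ p * (e6 * N0) + 2 * e5 * N0) ≤ ε' * N0 := by
          have h5 : tp * (S ^ p * e6) ≤ ε' / 2 := by
            rw [he6]
            have : tp * (S ^ p * (ε' / (2 * tp * (S ^ p + 1)))) =
                (S ^ p / (S ^ p + 1)) * (ε' / 2) := by field_simp
            rw [this]
            have h6 : S ^ p / (S ^ p + 1) ≤ 1 := by
              rw [div_le_one (by positivity)]; linarith
            nlinarith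
          have h7 : tp * (2 * e5) = ε' / 2 := by rw [he5]; field_simp; norm_num
          calc _ = (tp * (S ^ p * e6)) * N0 + (tp * (2 * e5)) * N0 := by ring
            _ ≤ ε' / 2 * N0 + ε' / 2 * N0 := by
                rw [h7]
                exact add_le_add (mul_le_mul_of_nonneg_right h5 hN00) le_rfl
            _ = _ := by ring
        have h2 : ENNReal.ofReal L * (2 ^ (p - 1) * (c ^ p *
            Crest.Agent.R96.En4_199.S D p (Wt.indicator (GGw w g)) +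
            KC 3 p * ∑ l : Fin 3, Ye D l p er')) ≤ ENNReal.ofReal (2 * e5) := by
          calc _ ≤ ENNReal.ofReal L * (2 ^ (p - 1) * (2 ^ p * (100 * KE 3 p) * θ +
                KC 3 p * 3 * δ2)) := by gcongr
            _ = ENNReal.ofReal L * (2 ^ (p - 1) * (2 ^ p * (100 * KE 3 p))) * θ +
                ENNReal.ofReal L * (2 ^ (p - 1) * (KC 3 p * 3)) * δ2 := by ring
            _ ≤ ENNReal.ofReal e5 + ENNReal.ofReal e5 := add_le_add hθc hδ2d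
            _ = _ := by
                rw [← ENNReal.ofReal_add he50.le he50.le, two_mul]
        exact Ps_273.sq_clause hp d.base d.rk d.blk subset_rfl (s := s') (sm := sm) hsl (c := c)
          (er := er') (S := S) hS0 ((mul_le_mul' le_rfl (mul_le_mul' hc2 le_rfl)).trans hSM) hF hNN
          (U := fun _ _ => True)
          (fun m hm v hv _ i hi => by
            obtain ⟨x, hx⟩ := T.ne i
            have hx' := I_sub_P _ hx
            have h1 := d.geo.off m hm v hv trivial x (hi ▸ hx') i hx'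
            intro c hc
            exact h1 (mem_iUnion.2 ⟨c, hc⟩))
          (Rx := Wt) d.hw
          (fun m hm v hv _ => by
            obtain ⟨i, hi, -⟩ := d.geo.tile m hm v hv trivial
            rw [← hi]
            exact T.sub i)
          (N1 := ε * N0) (N2 := 2 * e5 * N0) (N3 := e6 * N0) (N4 := ε' * N0)
          (mul_nonneg hε.le hN00) (mul_nonneg (by linarith) hN00) (mul_nonneg he60.le hN00)
          (sq_num1 hL d.rk d.N0 d.AZ hp hc2 hEp (fun l => (hYp l).trans hδ2a) (by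
            rw [← mul_assoc (KEc p), ← mul_assoc]; exact ht1b))
          (sq_num2 hL d.rk d.N0 d.AZ hp h2)
          (sq_num3 hL hr0 D.a d.N0 d.AZ he60.le ((mul_le_mul' le_rfl d.vW).trans hθd))
          h4
      tl := by
        have hKE6 : 2 ^ (p - 1) * (KEc p * (6 * t1)) ≤ ENNReal.ofReal (min 1 (e₂ / 2) / L) := by
          refine le_trans (le_of_eq ?_) ht1a
          ring
        have hKTm : ∀ v : ℝ≥0∞, 2 ^ (p - 1) * ((KTc p sm + SP) * v + KEc p * (6 * t1)) =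
            KT * v + 2 ^ (p - 1) * (KEc p * (6 * t1)) := fun v => by rw [hKT]; ring
        refine tl_clause (h := h) (q := q) (al := al) hp hsl hS1.le d.base (B := fun i => frm D.a (τ i).1.1.k (τ i).1.1.z)
          (fun i hi => (frames_of d.base (i := i) hi).2) (𝒮 := Sg)
          (fun i hi => (frames_of d.base (i := i) hi).1) hCM hc2
          (er := er') (fun σ => ENNReal.ofReal_ne_top) hF hNN ht1t hEp
          (fun l => (hYp l).trans hδ2a) (Rb := Wt) ?_ d.tW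
          (fun i hi hm => scale_MU d.base d.rk d.blk hi hm) ?_ ?_ ?_ cnt
        · intro i hi hn x hx
          by_contra hxW
          obtain ⟨C', O, hCO, y, hy, hyP⟩ := d.hw x (T.sub i hx) hxW
          rw [mem_singleton_iff] at hy
          subst hy
          exact hn ⟨C', O, hCO, y, hx, hyP⟩
        · rw [hKTm, vol_QL hL0, hKTe, ← ENNReal.ofReal_mul hKT0]
          refine (add_le_add le_rfl hKE6).trans ?_
          rw [← ENNReal.ofReal_add (by positivity) (by positivity)]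
          refine ENNReal.ofReal_le_ofReal ?_
          have h1 : min 1 (e₂ / 2) ≤ (1:ℝ) := min_le_left _ _
          rw [mul_div_assoc', ← add_div]
          exact div_le_div_of_nonneg_right (by linarith) hL0.le
        · rw [hKTm]
          refine (add_le_add (mul_le_mul' le_rfl d.shv) hKE6).trans ?_
          rw [hKTe, ← ENNReal.ofReal_mul hKT0, ← ENNReal.ofReal_add (by positivity) (by positivity)]
          refine ENNReal.ofReal_le_ofReal ?_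
          have h1 : min 1 (e₂ / 2) ≤ e₂ / 2 := min_le_right _ _
          rw [mul_div_assoc', ← add_div]
          have e : KTr * (48 * η + 72 * L * r₁) = 48 * KTr * η + KTr * (72 * L * r₁) := by ring
          have e' : (48 * KTr + 1) * η = 48 * KTr * η + η := by ring
          refine div_le_div_of_nonneg_right ?_ hL0.le
          rw [e, e']
          linarith
        · calc _ ≤ CP * (2 ^ (p - 1) * (2 ^ (p - 1) * (2 ^ p * (100 * KE 3 p) * θ +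
                KC 3 p * 3 * δ2) + SP * θ)) := by
                gcongr
                exact d.vW
            _ = CP * (2 ^ (p - 1) * (2 ^ (p - 1) * (2 ^ p * (100 * KE 3 p)))) * θ +
                CP * (2 ^ (p - 1) * (2 ^ (p - 1) * (KC 3 p * 3))) * δ2 +
                CP * (2 ^ (p - 1) * SP) * θ := by ring
            _ ≤ ENNReal.ofReal (ε' / 3) + ENNReal.ofReal (ε' / 3) + ENNReal.ofReal (ε' / 3) :=
                add_le_add (add_le_add hθa hδ2c) hθb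
            _ = ENNReal.ofReal ε' := by
                rw [← ENNReal.ofReal_add (by positivity) (by positivity),
                  ← ENNReal.ofReal_add (by positivity) (by positivity)]
                congr 1
                ring }

end

end Crest.Agent.R096.Nsl_552
end

-- ▼ part R096/Pg5_691
section

/-!
# Row 96, NO0-PRE, [PREG] (helper691), part 5: the macro balls of the patched tiling

`Macro (tmesh Z F) Ex x (5/8 R) (5/4 R) Sc d 4 1` for every `Ex ⊆ ⋃ Vc`.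
-/

set_option autoImplicit false
set_option linter.unusedSectionVars false
set_option linter.style.longLine false

open Set Filter Topology Metric MeasureTheory
open scoped ENNReal

namespace Crest.Agent.R096.Pg_691

open Crest.Agent.R096.Msh_715
open Crest.Agent.R096.Msh_810 (Cu Hc)
open Crest.Agent.R096.SkC1_961 (E3 Hom3 FoamD Cfg)
open Crest.Agent.R096.Tms_582 Crest.Agent.R096.Gno_324 Crest.Agent.R096.No0_477
open Crest.Agent.R096.No_276 (Macro)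
open Crest.Agent.R096.Tme_234 (norm_sub_Cu)

noncomputable section

variable {ι0 : Type} {𝒞 : Type} {Om : Set E3} {T0 : Tiling Om ι0}
  {x : 𝒞 → E3} {R : 𝒞 → ℝ} {k : 𝒞 → ℕ} {w : 𝒞 → E3} {Zc : 𝒞 → Finset (Fin 3 → ℤ)} {κ : 𝒞 → Type}
  {H : ∀ c, κ c → Finset ((E3 →L[ℝ] ℝ) × ℝ)}

/-- the volume of a lattice cube -/
theorem vol_Cu (a : E3) (m : ℕ) (z : Fin 3 → ℤ) :
    ENNReal.ofReal (((2 : ℝ)⁻¹ ^ m) ^ 3) ≤ volume (Cu a m z) := by
  have hr : (0 : ℝ) < 1 / 2 ^ m := by positivity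
  rw [Cu_eq_lcub (r := 1 / 2 ^ m) rfl, lcub_eq_cub, inv_pow, ← one_div, ← vol_ocub _ hr]
  exact measure_mono (ocub_sub _ _)

/-- a tile which meets the large zone is new (in the half ball) or a lattice cube -/
theorem tile_zone (Z : Zones T0 x R k w) (F : LocF x R k Zc H) (c : 𝒞)
    {i : {i // i ∉ Ar T0 k w Zc} ⊕ Σ c, κ c}
    (hi : (P ((tmesh Z F).H i) ∩ closedBall (x c) (2 * R c)).Nonempty) :
    P ((tmesh Z F).H i) ⊆ ball (x c) (R c / 2) ∨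
      ∃ z, P ((tmesh Z F).H i) = Cu (w c) (k c) z := by
  by_cases hie : i ∈ range (en T0 k w Zc c)
  · obtain ⟨j, rfl⟩ := hie
    left
    exact new_in Z F ⟨c, j⟩
  · right
    obtain ⟨z, -, hz⟩ := (tmesh_zone Z F c (ρ := 2 * R c) le_rfl).lat i hi hie
    exact ⟨z, by rw [hz, P_Hc_idE]⟩

/-- the tiles of `Vc` are in the ball of radius `5/8 R` -/
theorem Vc_sub (Z : Zones T0 x R k w) (F : LocF x R k Zc H) (c : 𝒞)
    {i : {i // i ∉ Ar T0 k w Zc} ⊕ Σ c, κ c} (hi : i ∈ Vc (tmesh Z F) x R c) :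
    P ((tmesh Z F).H i) ⊆ closedBall (x c) (5 / 8 * R c) := by
  obtain ⟨y, hy, hyb⟩ := hi
  have hR := Z.R0 c
  rcases tile_zone Z F c ⟨y, hy, closedBall_subset_closedBall (by linarith) hyb⟩ with h | ⟨z, hz⟩
  · intro u hu
    have := h hu
    rw [mem_ball] at this
    rw [mem_closedBall]
    linarith
  · rw [hz] at hy ⊢
    intro u hu
    have h1 := norm_sub_Cu hu hy
    have h2 := Z.sm c
    rw [mem_closedBall_iff_norm] at hyb ⊢
    calc ‖u - x c‖ = ‖(u - y) + (y - x c)‖ := by congr 1; abel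
      _ ≤ ‖u - y‖ + ‖y - x c‖ := norm_add_le _ _
      _ ≤ 5 / 8 * R c := by linarith

/-- the tiles of the ring -/
def rg (T : Tiling Om ({i // i ∉ Ar T0 k w Zc} ⊕ Σ c, κ c)) (x : 𝒞 → E3) (R : 𝒞 → ℝ) (c : 𝒞) :
    Set ({i // i ∉ Ar T0 k w Zc} ⊕ Σ c, κ c) :=
  {i | (P (T.H i) ∩ (ball (x c) (5 / 4 * R c) \ closedBall (x c) (5 / 8 * R c))).Nonempty}

theorem rg_cube (Z : Zones T0 x R k w) (F : LocF x R k Zc H) (c : 𝒞)
    {i : {i // i ∉ Ar T0 k w Zc} ⊕ Σ c, κ c} (hi : i ∈ rg (tmesh Z F) x R c) :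
    ∃ z, P ((tmesh Z F).H i) = Cu (w c) (k c) z := by
  obtain ⟨y, hy, hyb, hyn⟩ := hi
  have hR := Z.R0 c
  rcases tile_zone Z F c ⟨y, hy, (ball_subset_closedBall.trans
    (closedBall_subset_closedBall (by linarith))) hyb⟩ with h | h
  · exact absurd ((ball_subset_closedBall.trans
      (closedBall_subset_closedBall (by linarith))) (h hy)) hyn
  · exact h

/-- the tiles of the ring of `c` are in the large zone of `c` -/
theorem rg_sub (Z : Zones T0 x R k w) (F : LocF x R k Zc H) (c : 𝒞)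
    {i : {i // i ∉ Ar T0 k w Zc} ⊕ Σ c, κ c} (hi : i ∈ rg (tmesh Z F) x R c) :
    P ((tmesh Z F).H i) ⊆ closedBall (x c) (2 * R c) := by
  obtain ⟨z, hz⟩ := rg_cube Z F c hi
  obtain ⟨y, hy, hyb, -⟩ := hi
  rw [hz] at hy ⊢
  intro u hu
  have h1 := norm_sub_Cu hu hy
  have h2 := Z.sm c
  have hR := Z.R0 c
  rw [mem_ball_iff_norm] at hyb
  rw [mem_closedBall_iff_norm]
  calc ‖u - x c‖ = ‖(u - y) + (y - x c)‖ := by congr 1; abel
    _ ≤ ‖u - y‖ + ‖y - x c‖ := norm_add_le _ _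
    _ ≤ 2 * R c := by linarith

theorem rg_ne (Z : Zones T0 x R k w) (F : LocF x R k Zc H) {c c' : 𝒞}
    {i : {i // i ∉ Ar T0 k w Zc} ⊕ Σ c, κ c} (hi : i ∈ rg (tmesh Z F) x R c)
    (hi' : i ∈ rg (tmesh Z F) x R c') : c = c' := by
  by_contra hcc
  obtain ⟨y, hy⟩ := (tmesh Z F).ne i
  have hy' := I_sub_P _ hy
  exact Set.disjoint_left.1 (Z.dis c c' hcc) (rg_sub Z F c hi hy') (rg_sub Z F c' hi' hy')

theorem rg_nex (Z : Zones T0 x R k w) (F : LocF x R k Zc H) {c c' : 𝒞}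
    {i : {i // i ∉ Ar T0 k w Zc} ⊕ Σ c, κ c} (hi : i ∈ rg (tmesh Z F) x R c) :
    i ∉ Vc (tmesh Z F) x R c' := by
  intro hi'
  have h1 := Vc_sub Z F c' hi'
  by_cases hcc : c = c'
  · subst hcc
    obtain ⟨y, hy, -, hyn⟩ := hi
    exact hyn (h1 hy)
  · obtain ⟨y, hy⟩ := (tmesh Z F).ne i
    have hy' := I_sub_P _ hy
    have hR := Z.R0 c'
    exact Set.disjoint_left.1 (Z.dis c c' hcc) (rg_sub Z F c hi hy')
      (closedBall_subset_closedBall (by linarith) (h1 hy'))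

/-- **the macro balls of the patched tiling** -/
theorem macro_tmesh (Z : Zones T0 x R k w) (F : LocF x R k Zc H)
    {Ex : Set ({i // i ∉ Ar T0 k w Zc} ⊕ Σ c, κ c)}
    (hEx : ∀ i ∈ Ex, ∃ c, i ∈ Vc (tmesh Z F) x R c) :
    ∃ (Sc : 𝒞 → Finset ({i // i ∉ Ar T0 k w Zc} ⊕ Σ c, κ c))
      (d : ({i // i ∉ Ar T0 k w Zc} ⊕ Σ c, κ c) → ℝ),
      Macro (tmesh Z F) Ex x (fun c => 5 / 8 * R c) (fun c => 5 / 4 * R c) Sc d 4 1 ∧
      ∀ c i, i ∈ Sc c ↔ i ∈ rg (tmesh Z F) x R c := by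
  classical
  have hR := Z.R0
  have hfin : ∀ c, (rg (tmesh Z F) x R c).Finite := by
    intro c
    refine ((tmesh Z F).finite_tiles (isCompact_closedBall (x c) (2 * R c)) (Z.sub c)).subset ?_
    rintro i ⟨y, hy, hyb, -⟩
    exact ⟨y, hy, (ball_subset_closedBall.trans
      (closedBall_subset_closedBall (by have := hR c; linarith))) hyb⟩
  let Sc : 𝒞 → Finset ({i // i ∉ Ar T0 k w Zc} ⊕ Σ c, κ c) := fun c => (hfin c).toFinset
  have hSc : ∀ c i, i ∈ Sc c ↔ i ∈ rg (tmesh Z F) x R c := fun c i => (hfin c).mem_toFinset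
  let d : ({i // i ∉ Ar T0 k w Zc} ⊕ Σ c, κ c) → ℝ := fun i =>
    if h : ∃ c, i ∈ Sc c then (2 : ℝ)⁻¹ ^ k h.choose else 1
  have hd : ∀ c, ∀ i ∈ Sc c, d i = (2 : ℝ)⁻¹ ^ k c := by
    intro c i hi
    have h : ∃ c, i ∈ Sc c := ⟨c, hi⟩
    simp only [d, dif_pos h]
    rw [rg_ne Z F ((hSc _ _).1 h.choose_spec) ((hSc _ _).1 hi)]
  refine ⟨Sc, d, ⟨⟨fun c => ?_, fun c => ?_, fun c => ?_, fun c c' hcc => ?_, fun y hy => ?_⟩,
    fun c => ?_, fun i hi => ?_, fun c i hi => (hSc c i).2 hi, fun c i hi hiE => ?_,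
    fun c c' hcc => ?_, fun c i hi => ?_, fun c i hi y hy y' hy' => ?_, fun c i hi => ?_⟩, hSc⟩
  · have := hR c; positivity
  · have := hR c
    show 5 / 8 * R c < 5 / 4 * R c
    linarith
  · exact (closedBall_subset_closedBall (by have := hR c; linarith)).trans (Z.sub c)
  · exact (Z.dis c c' hcc).mono (closedBall_subset_closedBall (by have := hR c; linarith))
      (closedBall_subset_closedBall (by have := hR c'; linarith))
  · obtain ⟨t, ht, hf⟩ := Z.lf y hy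
    refine ⟨ball y t, ball_mem_nhds y ht, hf.subset ?_⟩
    rintro c ⟨u, hu, hut⟩
    exact ⟨u, closedBall_subset_closedBall (by have := hR c; linarith) hu, hut⟩
  · show 2 * (5 / 4 * R c) ≤ 4 * (5 / 4 * R c - 5 / 8 * R c)
    linarith
  · obtain ⟨c, hc⟩ := hEx i hi
    exact ⟨c, Vc_sub Z F c hc⟩
  · obtain ⟨c', hc'⟩ := hEx i hiE
    exact rg_nex Z F ((hSc c i).1 hi) hc'
  · show Disjoint (Sc c) (Sc c')
    rw [Finset.disjoint_left]
    intro i hi hi'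
    exact hcc (rg_ne Z F ((hSc c i).1 hi) ((hSc c' i).1 hi'))
  · rw [hd c i hi]; positivity
  · rw [hd c i hi]
    obtain ⟨z, hz⟩ := rg_cube Z F c ((hSc c i).1 hi)
    rw [hz] at hy hy'
    exact norm_sub_Cu hy hy'
  · rw [hd c i hi, one_mul]
    obtain ⟨z, hz⟩ := rg_cube Z F c ((hSc c i).1 hi)
    rw [hz]
    exact vol_Cu _ _ _

end

end Crest.Agent.R096.Pg_691
end

-- ▼ part R096/Pg6_691
section

/-!
# Row 96, NO0-PRE, [PREG] (helper691), part 6: the block with the chosen slices (`Slc`), `preG_of`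
-/

set_option autoImplicit false
set_option linter.unusedSectionVars false
set_option linter.style.longLine false

open Set Filter Topology Metric MeasureTheory
open scoped ENNReal

namespace Crest.Agent.R096.Pg_691

open Crest.Agent.R096.Bsp_628 Crest.Agent.R096.Brk1_582 Crest.Agent.R096.Brk5_582
open Crest.Agent.R096.Log2_582 Crest.Agent.R096.Dic1_582 Crest.Agent.R096.Dic6_582
open Crest.Agent.R096.Npr_582
open Crest.Agent.R096.Msh_715
open Crest.Agent.R096.Msh_810 (Cu Hc Dat)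
open Crest.Agent.R096.SkC1_961 (E3 Hom3 FoamD Cfg)
open Crest.Agent.R096.Tms_582 Crest.Agent.R096.Gno_324 Crest.Agent.R096.No0_477
open Crest.Agent.R096.No_276 (QL Macro PreG Vti MJ)
open Crest.Agent.R096.Nend_458 (EndB)
open Crest.Agent.R096.Mbf_337
open Crest.Agent.R096.Frm_234 (Sg)
open Crest.Agent.R096.Tme_234 (ExactOn)

noncomputable section

/-! ### the block and the slices -/

/-- **the block (all slices `A`) and the chosen slices `Zs`** -/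
structure Slc (L : ℕ) (η r : ℝ) (a : E3) (o : Fin 2 → ℤ) (M : ℕ) (A Zs : Finset ℤ) {𝒞 : Type*}
    (x : 𝒞 → E3) (R : 𝒞 → ℝ) : Prop where
  r0 : 0 < r
  rη : 4 * r ≤ η
  rL : 4 * L * r ≤ 1
  M0 : 0 < M
  lo : ∀ j : Fin 2, a j.castSucc + r * o j ≤ -(1 - η) ∧ -(1 - η) - r < a j.castSucc + r * o j ∧
    -1 < a j.castSucc + r * o j
  hi : ∀ j : Fin 2, 1 - η ≤ a j.castSucc + r * (o j + M) ∧
    a j.castSucc + r * (o j + M) ≤ 1 - η + 2 * r ∧ a j.castSucc + r * (o j + M) < 1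
  mA : ∀ m, m ∈ A ↔ |(L : ℝ) * (a 2 + r * m)| ≤ 1 / 2
  sub : Zs ⊆ A
  zne : Zs.Nonempty
  half : (A.card : ℝ) ≤ 2 * Zs.card
  cub : ∀ m ∈ A, ∀ v : Fin 2 → ℕ, (∀ j, v j < M) → cub (vx a r o m v) r ⊆ KB L η
  NA1 : 2 / L ≤ ((A.card : ℝ) * M ^ 2) * r ^ 3
  NA2 : ((A.card : ℝ) * M ^ 2) * r ^ 3 ≤ 5 / L
  far : ∀ m ∈ Zs, ∀ c, (closedBall (x c) (2 * R c) ∩ KB L η).Nonempty →
    2 * R c + r < |a 2 + r * m - x c 2|

section slc

variable {L : ℕ} {η r : ℝ} {a : E3} {o : Fin 2 → ℤ} {M : ℕ} {A Zs : Finset ℤ} {𝒞 : Type*}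
  {x : 𝒞 → E3} {R : 𝒞 → ℝ}

theorem Slc.zs (B : Slc L η r a o M A Zs x R) : ∀ m ∈ Zs, |(L : ℝ) * (a 2 + r * m)| ≤ 1 / 2 :=
  fun m hm => (B.mA m).1 (B.sub hm)

/-- the number of the squares of the chosen slices -/
theorem Slc.N (B : Slc L η r a o M A Zs x R) : 1 / L ≤ ((Zs.card : ℝ) * M ^ 2) * r ^ 3 := by
  have h1 := B.NA1
  have h2 : ((A.card : ℝ) * M ^ 2) * r ^ 3 ≤ 2 * (((Zs.card : ℝ) * M ^ 2) * r ^ 3) := by
    have h3 : (0 : ℝ) ≤ (M : ℝ) ^ 2 * r ^ 3 := by have := B.r0; positivity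
    nlinarith [mul_le_mul_of_nonneg_right B.half h3]
  have h3 : (2 : ℝ) / L = 2 * (1 / L) := by ring
  rw [h3] at h1
  linarith

/-- the cubes of the chosen slices miss the large zones -/
theorem Slc.dis (B : Slc L η r a o M A Zs x R) : ∀ m ∈ Zs, ∀ v : Fin 2 → ℕ, (∀ j, v j < M) →
    ∀ c, Disjoint (Crest.Agent.R096.No0_477.cub (vx a r o m v) r) (closedBall (x c) (2 * R c)) := by
  intro m hm v hv c
  rw [Set.disjoint_left]
  intro y hy hyc
  have h := B.far m hm c ⟨y, hyc, B.cub m (B.sub hm) v hv hy⟩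
  exact Set.disjoint_left.1 (Crest.Agent.R096.Nsl_552.cub_disj_ball o v h) hy hyc

/-- the block in 273's form -/
theorem Slc.blk (B : Slc L η r a o M A Zs x R) {D : Dat 3} (ha : D.a = a) {kb : ℕ}
    (hr : r = ((2 : ℝ) ^ kb)⁻¹) (hD : ExactOn D (KB L η) kb) :
    Crest.Agent.R096.Ps_273.Blk D kb o M A := by
  intro m hm v hv y hy
  rw [ha, ← hr] at hy
  have hy' := B.cub m hm v hv hy
  refine ⟨?_, hD.K_eq hy'⟩
  have h1 := (hD y hy').2 y (by rw [dist_self]; positivity)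
  have h2 := D.C_pos
  have h3 : (0 : ℝ) < D.C / 2 ^ kb := by positivity
  linarith

/-- **existence of the block and of the slices for every shift and every small `r`** -/
theorem exists_slc (hL : 1 ≤ L) (hη : η ≤ 1 / 8) (hη0 : 0 < η) (hR : ∀ c, 0 < R c)
    (hfin : {c | (closedBall (x c) (2 * R c) ∩ KB L η).Nonempty}.Finite)
    (hsum : ∀ S : Finset 𝒞, ∑ c ∈ S, 2 * R c ≤ 1 / (64 * L)) :
    ∃ r₁ > 0, ∀ r, 0 < r → r ≤ r₁ → ∀ a : E3,
      ∃ (o : Fin 2 → ℤ) (M : ℕ) (A Zs : Finset ℤ), Slc L η r a o M A Zs x R := by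
  have hL0 : (0 : ℝ) < L := by exact_mod_cast hL
  set S := hfin.toFinset with hS
  set c0 : ℝ := 1 / (64 * L * (S.card + 1)) with hc0
  have hc0p : 0 < c0 := by positivity
  refine ⟨min (min (η / 4) (1 / (4 * L))) c0, by positivity, fun r hr hrr a => ?_⟩
  have h1 : r ≤ η / 4 := hrr.trans ((min_le_left _ _).trans (min_le_left _ _))
  have h2 : r ≤ 1 / (4 * L) := hrr.trans ((min_le_left _ _).trans (min_le_right _ _))
  have h3 : r ≤ c0 := hrr.trans (min_le_right _ _)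
  have hrη : 4 * r ≤ η := by linarith
  have hrL : 4 * L * r ≤ 1 := by
    rw [le_div_iff₀ (by positivity)] at h2
    linarith
  obtain ⟨o, M, A, hM, lo, hi, hAne, hA, hcub, hN1, hN2⟩ := exists_block hL hη hr hrη hrL a
  have hScard : (S.card : ℝ) * r ≤ 1 / (64 * L) := by
    have e : (S.card : ℝ) * r ≤ (S.card + 1) * c0 :=
      mul_le_mul (by linarith) h3 hr.le (by positivity)
    refine e.trans (le_of_eq ?_)
    rw [hc0]
    field_simp
  obtain ⟨Zs, h4, h5, h6, h7, h8, -, -, -⟩ := Crest.Agent.R096.Nsl_552.exists_slices_block hL hr hrL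
    hA S x (fun c => 2 * R c) (fun c _ => by have := hR c; positivity) (by
      rw [Finset.sum_add_distrib, Finset.sum_const, nsmul_eq_mul]
      have h9 := hsum S
      have e : (1 : ℝ) / (32 * L) = 1 / (64 * L) + 1 / (64 * L) := by field_simp; norm_num
      rw [e]
      linarith) (k := 0) (fun i => i.elim0) (fun i => i.elim0) (fun i => i.elim0)
    (fun i => i.elim0)
  exact ⟨o, M, A, Zs, hr, hrη, hrL, hM, lo, hi, hA, h4, h5, h6,
    fun m hm v hv y hy => cub_sub_KB hrη hrL (hcub m hm v hv y hy).1 (hcub m hm v hv y hy).2, hN1,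
    hN2, fun m hm c hc => h8 m hm c (hfin.mem_toFinset.2 hc)⟩

end slc

/-! ### PreG -/

variable {p : ℝ} {q : ℕ} {s : Fin 3 → ℝ} {e1 e2 : ℝ≥0∞} {La : Set E3} {f f1 : E3 → E3}
  {M3 h : ℝ} {al : Fin 3 → ℝ} {Φ : FoamD (dF q) (kF q) 6 (cN q) La} {z0 : Φ.F → E3}
  {X HH : Set E3} {g : Φ.F → Fin 3 → E3 → ℝ}

theorem Vti_empty {F ι : Type*} (V : F → Set ι) : Vti (∅ : Set F) V = {i | ∃ c, i ∈ V c} := by
  ext i
  constructor
  · rintro ⟨c, -, hc⟩; exact ⟨c, hc⟩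
  · rintro ⟨c, hc⟩; exact ⟨c, notMem_empty c, hc⟩

/-- **`PreG`, any tiling** (`X = ∅`, `U = True`, `Kc = cnt = 0`) -/
theorem preG_gen {L : ℕ} (hL : 1 ≤ L) (hLa : IsOpen La) (hne : Laᶜ.Nonempty)
    (H : Front p q s e1 e2 (QL L) La f M3 h al Φ z0 f1 X HH g)
    {x : Φ.F → E3} {R : Φ.F → ℝ} (hRad : Rad Φ (QL L) f1 z0 x R)
    {ε ε' C0 κ1 κ2 η t : ℝ} {Cf : ℝ≥0∞} (hε : 0 < ε) (hC0 : 0 ≤ C0)
    (hsz : C0 * (2 * q * h) ≤ ε) (hh : 8 * h ≤ ε) (hev : (e1 + e2) * 8 ≤ ENNReal.ofReal ε)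
    {ι : Type} {T : Tiling (QL L) ι} {J0 J V : Φ.F → Set ι} {ct : Φ.F → ι}
    {A : Φ.F → E3 ≃ᵃ[ℝ] E3} {lam : Φ.F → ℝ} {z : Φ.F → E3} {θ : Φ.F → E3 → E3} {φ : Φ.F → E3 → ℝ}
    (hcores : Cores Φ T f1 κ1 κ2 ∅ J0 J V ct A lam z θ φ) (hfine : Fine Φ T f1 κ1 J0)
    {𝒮 : Set (Set (Set E3))} {𝒬 : Set (Set E3)} (hshape : 𝒬 ∈ 𝒮)
    {r : ℝ} (hr : r ≠ 0) {a : E3} {o : Fin 2 → ℤ} {M : ℕ} {Ab Zs : Finset ℤ}
    (B : Slc L η r a o M Ab Zs x R)
    (hgeo : NOGeo T (⋃ c, V c) 𝒬 L η r hr a o M Zs (fun _ _ => True))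
    {R0 R1 : Φ.F → ℝ} {Sc : Φ.F → Finset ι} {d : ι → ℝ}
    (hmac : Macro T {i | ∃ c, i ∈ V c} x R0 R1 Sc d t Cf) (hR1 : ∀ c, R1 c ≤ 2 * R c)
    {kb : ℕ} (hrk : r = 1 / 2 ^ kb) {Se : Fin 2 → E3 → ℝ≥0∞}
    (hS : ∀ j, EndB (QL L) f s j r (Se j) a) {m δ' : ℝ≥0∞}
    (hSa : ∀ j, Se j a ≤ m * (((2 : ℝ≥0∞) ^ kb) ^ 2 * (δ' * volume (QL (L : ℝ)))))
    (hδ : 16 * (m * δ') ≤ ENNReal.ofReal (ε / 2)) :
    PreG p s L η ε ε' C0 κ1 κ2 𝒮 t Cf f f1 q al h Φ T ∅ J0 J V ct A lam z θ φ 𝒬 r hr a o M Zs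
      (fun _ _ => True) x R0 R1 Sc d (fun _ => 0) (fun _ => 0) := by
  have hL0 : (0 : ℝ) < L := by exact_mod_cast hL
  have hr0 := B.r0
  have hZ : (0 : ℝ) ≤ (Zs.card : ℝ) * M ^ 2 := by positivity
  have hnoU : ∀ P : Prop, ¬ (P ∧ ¬ True) := fun P hP => hP.2 trivial
  refine
    { hom := H.homeo
      nb := nb_of_front hLa hne H
      star := star_of_front H
      rho := rho_of_front H
      size := size_of_front H hC0 hsz
      q1 := H.q1
      h0 := H.h0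
      cores := hcores
      fine := hfine
      shape := hshape
      geo := hgeo
      nU := ?_
      gvol := ?_
      ends := ?_
      mac := by rw [Vti_empty]; exact hmac
      osc := fun c y hy y' hy' => hRad.osc c y (closedBall_subset_closedBall (hR1 c) hy) y'
        (closedBall_subset_closedBall (hR1 c) hy')
      av := ?_
      kc0 := fun _ => le_rfl
      kc := fun c hc => absurd hc (notMem_empty c)
      kcs := ?_
      cnt0 := fun _ => le_rfl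
      cn := ?_
      jV := ?_
      jc := ?_ }
  · have e : {k : ℤ × (Fin 2 → ℕ) | k ∈ Fc M Zs ∧ ¬ True} = ∅ := by
      ext k; simp
    rw [e, Set.ncard_empty, Nat.cast_zero]
    positivity
  · refine gvol_of_front H ?_
    rw [volume_QL hL]
    have h8 : ENNReal.ofReal (8 / L) ≤ 8 * ENNReal.ofReal (((Zs.card : ℝ) * M ^ 2) * r ^ 3) := by
      have h1 := B.N
      have h2 : (8 : ℝ) / L ≤ 8 * (((Zs.card : ℝ) * M ^ 2) * r ^ 3) := by
        have : (8 : ℝ) / L = 8 * (1 / L) := by ring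
        rw [this]; linarith
      refine (ENNReal.ofReal_le_ofReal h2).trans (le_of_eq ?_)
      rw [ENNReal.ofReal_mul (by norm_num)]
      norm_num
    calc (e1 + e2) * ENNReal.ofReal (8 / L)
        ≤ (e1 + e2) * (8 * ENNReal.ofReal (((Zs.card : ℝ) * M ^ 2) * r ^ 3)) := by gcongr
      _ = ((e1 + e2) * 8) * ENNReal.ofReal (((Zs.card : ℝ) * M ^ 2) * r ^ 3) := by ring
      _ ≤ ENNReal.ofReal ε * ENNReal.ofReal (((Zs.card : ℝ) * M ^ 2) * r ^ 3) := by gcongr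
      _ = ENNReal.ofReal (ε * ((Zs.card : ℝ) * M ^ 2) * r ^ 3) := by
          rw [← ENNReal.ofReal_mul hε.le]; congr 1; ring
  · exact ends_final hL hrk B.M0 (fun j => (B.lo j).2.2) (fun j => (B.hi j).2.2) B.zs B.N hS hSa hδ
      hε H.near hh
  · exact av_of (by linarith [B.rη]) hr0.le B.zs hR1 B.far
  · have : IsEmpty {i // (∃ c, i ∈ V c) ∧ i ∉ Vti (∅ : Set Φ.F) V} := by
      refine ⟨fun i => ?_⟩
      obtain ⟨c, hc⟩ := i.2.1
      exact i.2.2 ⟨c, notMem_empty c, hc⟩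
    rw [tsum_empty]
    exact bot_le
  · intro i
    have e : {k : ℤ × (Fin 2 → ℕ) | k ∈ Fc M Zs ∧ ¬ True ∧
        (P (T.H i) ∩ Crest.Agent.R096.SkN1_477.usq (fr (vx a r o k.1 k.2) r hr)).Nonempty} = ∅ := by
      ext k; simp
    rw [e, Set.ncard_empty]
    simp
  · rintro i - ⟨k, -, hk, -⟩
    exact hk trivial
  · have : IsEmpty {i // ((∃ c, i ∈ V c) ∧ i ∉ Vti (∅ : Set Φ.F) V) ∧
        MJ T r hr a o M Zs (fun _ _ => True) i} := by
      refine ⟨fun i => ?_⟩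
      obtain ⟨c, hc⟩ := i.2.1.1
      exact i.2.1.2 ⟨c, notMem_empty c, hc⟩
    rw [tsum_empty]
    exact bot_le

/-- **`PreG` for the patched mesh `tmesh Z F` (582 / 234)** -/
theorem preG_of {L : ℕ} (hL : 1 ≤ L) (hLa : IsOpen La) (hne : Laᶜ.Nonempty)
    (H : Front p q s e1 e2 (QL L) La f M3 h al Φ z0 f1 X HH g)
    {x : Φ.F → E3} {R : Φ.F → ℝ} (hRad : Rad Φ (QL L) f1 z0 x R)
    {ε ε' C0 κ1 κ2 η : ℝ} (hε : 0 < ε) (hC0 : 0 ≤ C0)
    (hsz : C0 * (2 * q * h) ≤ ε) (hh : 8 * h ≤ ε) (hev : (e1 + e2) * 8 ≤ ENNReal.ofReal ε)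
    {ι0 : Type} {T0 : Tiling (QL L) ι0} {k : Φ.F → ℕ} {w : Φ.F → E3}
    {Zc : Φ.F → Finset (Fin 3 → ℤ)} {κ : Φ.F → Type} {Hf : ∀ c, κ c → Finset ((E3 →L[ℝ] ℝ) × ℝ)}
    (Z : Zones T0 x R k w) (F : LocF x R k Zc Hf)
    {J0 J : Φ.F → Set ({i // i ∉ Ar T0 k w Zc} ⊕ Σ c, κ c)}
    {ct : Φ.F → {i // i ∉ Ar T0 k w Zc} ⊕ Σ c, κ c}
    {A : Φ.F → E3 ≃ᵃ[ℝ] E3} {lam : Φ.F → ℝ} {z : Φ.F → E3} {θ : Φ.F → E3 → E3} {φ : Φ.F → E3 → ℝ}
    (hcores : Cores Φ (tmesh Z F) f1 κ1 κ2 ∅ J0 J (Vc (tmesh Z F) x R) ct A lam z θ φ)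
    (hfine : Fine Φ (tmesh Z F) f1 κ1 J0)
    {r : ℝ} (hr : r ≠ 0) {a : E3} {o : Fin 2 → ℤ} {M : ℕ} {Ab Zs : Finset ℤ}
    (B : Slc L η r a o M Ab Zs x R) {kb : ℕ} (hrk : r = 1 / 2 ^ kb)
    (hbase : ∀ τ, (P (T0.H τ) ∩ KB L η).Nonempty → ∃ z, T0.H τ = Hc idE a kb z)
    {Se : Fin 2 → E3 → ℝ≥0∞} (hS : ∀ j, EndB (QL L) f s j r (Se j) a) {m δ' : ℝ≥0∞}
    (hSa : ∀ j, Se j a ≤ m * (((2 : ℝ≥0∞) ^ kb) ^ 2 * (δ' * volume (QL (L : ℝ)))))
    (hδ : 16 * (m * δ') ≤ ENNReal.ofReal (ε / 2)) :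
    ∃ (Sc : Φ.F → Finset ({i // i ∉ Ar T0 k w Zc} ⊕ Σ c, κ c))
      (d : ({i // i ∉ Ar T0 k w Zc} ⊕ Σ c, κ c) → ℝ),
      (∀ c i, i ∈ Sc c ↔ i ∈ rg (tmesh Z F) x R c) ∧
      PreG p s L η ε ε' C0 κ1 κ2 Sg 4 1 f f1 q al h Φ (tmesh Z F) ∅ J0 J (Vc (tmesh Z F) x R) ct A
        lam z θ φ 𝒬0 r hr a o M Zs (fun _ _ => True) x (fun c => 5 / 8 * R c)
        (fun c => 5 / 4 * R c) Sc d (fun _ => 0) (fun _ => 0) := by
  obtain ⟨Sc, d, hM, hSc⟩ := macro_tmesh Z F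
    (Ex := {i | ∃ c, i ∈ Vc (tmesh Z F) x R c}) (fun i hi => hi)
  refine ⟨Sc, d, hSc, preG_gen hL hLa hne H hRad hε hC0 hsz hh hev hcores hfine
    Crest.Agent.R096.Frm_234.Q0_mem hr B ?_ hM (fun c => by have := hRad.r0 c; linarith) hrk hS hSa
      hδ⟩
  exact geo_tmesh Z F B.r0 hr hrk B.M0 (KB_sub (by linarith [B.rη, B.r0])) hbase
    (fun j => ⟨(B.lo j).1, (B.lo j).2.2⟩) (fun j => ⟨(B.hi j).1, (B.hi j).2.2⟩) B.zne B.zs
    (fun m hm => B.cub m (B.sub hm)) fun m hm v hv c => (B.dis m hm v hv c).mono_right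
      (closedBall_subset_closedBall (by have := hRad.r0 c; linarith))

end

end Crest.Agent.R096.Pg_691
end

-- ▼ part R096/Aclt3_608
section

/-!
# Row 96, NO0-PRE, [ACLT] (helper608), part 3

The countable family of inequalities of a mesh with zones: the cubes of all dyadic lattices and the
systems `H c j` of the zones, translated by the lattice vectors of scale `k c`.
-/

set_option autoImplicit false
set_option linter.unusedSectionVars false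

open MeasureTheory Set Filter Topology Metric Module
open scoped ENNReal NNReal

namespace Crest.Agent.R096.Aclt_608

open Crest.Agent.R096.Msh_715 Crest.Agent.R096.Tms_582 Crest.Agent.R096.Msh_810
open Crest.Agent.R096.SkC1_961 (E3 Hom3)

noncomputable section

section

variable {E : Type*} [NormedAddCommGroup E] [NormedSpace ℝ E]

theorem trh_trh (a b : E) (h : (E →L[ℝ] ℝ) × ℝ) : trh a (trh b h) = trh (b + a) h := by
  unfold trh
  rw [map_add]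
  exact Prod.ext rfl (by simp only; ring)

theorem trH_trH (a b : E) (H : Finset ((E →L[ℝ] ℝ) × ℝ)) : trH a (trH b H) = trH (b + a) H := by
  classical
  unfold trH
  rw [Finset.image_image]
  exact Finset.image_congr fun h _ => trh_trh a b h

/-- a translate by `w` is a translate by `a` of a translate by `w - a` -/
theorem trH_eq (a w : E) (H : Finset ((E →L[ℝ] ℝ) × ℝ)) : trH w H = trH a (trH (w - a) H) := by
  rw [trH_trH, sub_add_cancel]

end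

/-- the lattice vectors of scale `k` -/
def zl (k : ℕ) : Set E3 := range fun (z : Fin 3 → ℤ) (i : Fin 3) => (z i : ℝ) / 2 ^ k

theorem countable_zl (k : ℕ) : (zl k).Countable := countable_range _

/-- the systems of a mesh with zones -/
def Fz {κc : Type*} (k : κc → ℕ) {κ : κc → Type*} (H : ∀ c, κ c → Finset ((E3 →L[ℝ] ℝ) × ℝ)) :
    Set (Finset ((E3 →L[ℝ] ℝ) × ℝ)) :=
  (range fun p : ℕ × (Fin 3 → ℤ) => Hc idE 0 p.1 p.2) ∪
    ⋃ c, ⋃ w ∈ zl (k c), (range fun z : Fin 3 → ℤ => trH w (Hc idE 0 (k c) z)) ∪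
      range fun j : κ c => trH w (H c j)

theorem countable_Fz {κc : Type*} [Countable κc] (k : κc → ℕ) {κ : κc → Type*}
    [∀ c, Countable (κ c)] (H : ∀ c, κ c → Finset ((E3 →L[ℝ] ℝ) × ℝ)) : (Fz k H).Countable :=
  (countable_range _).union (countable_iUnion fun c => (countable_zl (k c)).biUnion fun _ _ =>
    (countable_range _).union (countable_range _))

/-- **the inequalities of a mesh with zones**: every tile of `J` is a cube of a dyadic lattice with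
origin `a`, or (in the zone `c`, origin `w c` with `w c - a` a lattice vector of scale `k c`) a cube of
scale `k c` with origin `w c`, or one of the new tiles `H c j` translated by `w c` -/
theorem Sh.of_zones {κc : Type*} {k : κc → ℕ} {κ : κc → Type*}
    {H : ∀ c, κ c → Finset ((E3 →L[ℝ] ℝ) × ℝ)} {a : E3} {w : κc → E3} {Om : Set E3} {ι : Type*}
    {T : Tiling Om ι} {J : Set ι}
    (hT : ∀ i ∈ J, (∃ (l : ℕ) (z : Fin 3 → ℤ), T.H i = Hc idE a l z) ∨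
      ∃ c, w c - a ∈ zl (k c) ∧ ((∃ z : Fin 3 → ℤ, T.H i = Hc idE (w c) (k c) z) ∨
        ∃ j, T.H i = trH (w c) (H c j))) : Sh (Ineq (Fz k H)) a T J := by
  refine Sh.of_trH fun i hi => ?_
  rcases hT i hi with ⟨l, z, h⟩ | ⟨c, hw, ⟨z, h⟩ | ⟨j, h⟩⟩
  · exact ⟨Hc idE 0 l z, Or.inl ⟨(l, z), rfl⟩, by rw [h, Tlo_715.trH_Hc]⟩
  · refine ⟨trH (w c - a) (Hc idE 0 (k c) z), Or.inr (mem_iUnion.2 ⟨c, mem_biUnion hw
      (Or.inl ⟨z, rfl⟩)⟩), ?_⟩
    rw [← trH_eq, Tlo_715.trH_Hc, h]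
  · refine ⟨trH (w c - a) (H c j), Or.inr (mem_iUnion.2 ⟨c, mem_biUnion hw
      (Or.inr ⟨j, rfl⟩)⟩), ?_⟩
    rw [← trH_eq, h]


end

end Crest.Agent.R096.Aclt_608
end

-- ▼ part R096/Aclt4_608
section

/-!
# Row 96, NO0-PRE, [ACLT] (helper608), part 4

The parametrised edges `(ea e, ev e)` of 222: every edge of a translated tiling is a member of the
countable list (`edg_ls`), and almost every translate is good on all edges, with the upper gradients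
in the form which `Ls5` / `Ls8` consume (`ae_edg`, `ae_front`).
-/

set_option autoImplicit false
set_option linter.unusedSectionVars false

open MeasureTheory Set Filter Topology Metric Module
open scoped ENNReal NNReal

namespace Crest.Agent.R096.Aclt_608

open Crest.Agent.R096.Msh_715 Crest.Agent.R096.Tms_582
open Crest.Agent.R096.SkC1_961 (E3 Hom3 FoamD)
open Crest.Agent.R96.Acl_392 Crest.Agent.R96.Sg1_199 Crest.Agent.R96.Sg2_199
open Crest.Agent.R96.Sg5_199 (gdir wd_dir)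
open Crest.Agent.R096.Ls_222

noncomputable section

section geom

variable {E : Type*} [NormedAddCommGroup E] [NormedSpace ℝ E] [FiniteDimensional ℝ E]
  {Om : Set E} {ι : Type*} {T : Tiling Om ι} {𝓛 : Set ((E →L[ℝ] ℝ) × ℝ)} {a : E}

/-- **the parametrised edge `(ea e, ev e)` is in the list** -/
theorem edg_ls (e : Edg T) (hT : Sh 𝓛 a T {i | (P (T.H i) ∩ e.1).Nonempty}) :
    ∃ j : Ls 𝓛, j.x + a = ea e ∧ j.v = ev e := by
  have hm : ∀ p ∈ e.1, T.dim p = 0 → p - a ∈ Vt 𝓛 := by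
    intro p hp hp0
    exact vertex (T := T) (hT.mono fun i hi => ⟨p, hi, hp⟩) (edg_sub_Om e hp)
      (T.dim_eq_zero_iff.1 hp0)
  have h1 : ea e ∈ e.1 := by
    have h := sgm_edg e
    rw [← h]
    exact ⟨0, ⟨le_rfl, zero_le_one⟩, by simp⟩
  have h2 : ea e + ev e ∈ e.1 := by
    have h := sgm_edg e
    rw [← h]
    exact ⟨1, ⟨zero_le_one, le_rfl⟩, by simp⟩
  refine ⟨⟨(ea e - a, ea e + ev e - a), hm _ h1 (dim_ea e), hm _ h2 (dim_eb e)⟩, ?_, ?_⟩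
  · show ea e - a + a = ea e
    abel
  · show ea e + ev e - a - (ea e - a) = ev e
    abel

end geom

section ae

variable {n : ℕ} [NeZero n] {𝓛 : Set (((Fin n → ℝ) →L[ℝ] ℝ) × ℝ)} {Om' : Set (Fin n → ℝ)}

/-- **almost every translate is good on all edges of all translated tilings** -/
theorem ae_edg (h𝓛 : 𝓛.Countable) (hO : IsOpen Om') {𝒞 : Type*} [Countable 𝒞]
    {u : 𝒞 → (Fin n → ℝ) → ℝ} (hu : ∀ c, ContinuousOn (u c) Om')
    {g : 𝒞 → Fin n → (Fin n → ℝ) → ℝ} (hg : ∀ c l, WD Om' volume (u c) (g c l) (Pi.single l (1:ℝ))) :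
    ∀ᵐ a : Fin n → ℝ, ∀ (Om : Set (Fin n → ℝ)) (ι : Type) (T : Tiling Om ι) (e : Edg T),
      Sh 𝓛 a T {i | (P (T.H i) ∩ e.1).Nonempty} →
      (∀ c, ACLat Om' (u c) (gdir (g c) (ev e)) (ev e) (ea e)) ∧
      (e.1 ⊆ Om' → ∀ c, UGs (u c) (fun y => ‖gdir (g c) (ev e) y‖ₑ) (ea e) (ev e) ∧
        li (fun y => ‖gdir (g c) (ev e) y‖ₑ) (ea e) (ev e) ≠ ∞) := by
  filter_upwards [aclt (μ := volume) h𝓛 hO hu (g := fun c v => gdir (g c) v)
    fun c v => wd_dir (hg c) v] with a ha Om ι T e hT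
  obtain ⟨j, hx, hv⟩ := edg_ls e hT
  have h1 : ∀ c, ACLat Om' (u c) (gdir (g c) (ev e)) (ev e) (ea e) := by
    intro c
    have := ha j c
    rw [hx, hv] at this
    exact this
  refine ⟨h1, fun hs c => ?_⟩
  have hs' : sgm (ea e) (ev e) ⊆ Om' := by rw [sgm_edg]; exact hs
  exact ⟨ugs_of_acl hs' (h1 c), li_ne_top_of_acl hs' (h1 c)⟩

end ae

open Crest.Agent.R096.Brk1_582 Crest.Agent.R096.Dic6_582
open Crest.Agent.R096.Npr_582

/-- **the level functions of the front on the edges of translated tilings** (552 / 582) -/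
theorem ae_front {p : ℝ} {q : ℕ} {s : Fin 3 → ℝ} {ε ε' : ℝ≥0∞} {Om La : Set E3} {f : E3 → E3}
    {M h : ℝ} {a₀ : Fin 3 → ℝ} {Φ : FoamD (dF q) (kF q) 6 (cN q) La} {z : Φ.F → E3} {f1 : E3 → E3}
    {X HH : Set E3} {g : Φ.F → Fin 3 → E3 → ℝ} (hF : Front p q s ε ε' Om La f M h a₀ Φ z f1 X HH g)
    (hLa : IsOpen La)
    {𝓛 : Set ((E3 →L[ℝ] ℝ) × ℝ)} (h𝓛 : 𝓛.Countable) :
    ∀ᵐ a : E3, ∀ (Om' : Set E3) (ι : Type) (T : Tiling Om' ι) (e : Edg T),
      Sh 𝓛 a T {i | (P (T.H i) ∩ e.1).Nonempty} → e.1 ⊆ Op Φ Om f1 → ∀ c,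
      UGs (us Φ f1 c) (fun y => ‖gdir (g c) (ev e) y‖ₑ) (ea e) (ev e) ∧
        li (fun y => ‖gdir (g c) (ev e) y‖ₑ) (ea e) (ev e) ≠ ∞ := by
  have : Countable Φ.F := countable_F Φ
  have hc : ∀ c, ContinuousOn (us Φ f1 c) (Op Φ Om f1) := fun c =>
    continuousOn_us hLa hF.homeo (fun x hx => hx.1) (fun x hx c => hx.2 c) c
  filter_upwards [ae_edg h𝓛 hF.op hc (g := g) hF.wd] with a ha Om' ι T e hT he
  exact (ha Om' ι T e hT).2 he

end

end Crest.Agent.R096.Aclt_608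
end

-- ▼ part R096/Tme4_234
section

/-!
Row 96 (S0127), helper234.  TMESH-ALL: the mesh with tiny cores for every brick, `p < 3`.

* `exists_base_sh` : the base mesh as `baseT (D.sh a)`, one `D` for all shifts `a`;
* `balls_dis`, `balls_lf` : disjointness and local finiteness of the balls from `f (ball) ⊆ open brick`;
* **`exists_tm`** : for all `kb ≥ kb0` there are `k Zc H D` (independent of the shift) such that for almost
  every shift `a` the tiling `tmesh` has the clauses `Cores` (`X = ∅`) and `Fine`;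
* `sh_tmesh` : all inequalities of `tmesh` are translates by `a` of members of a countable set.
-/

set_option autoImplicit false
set_option linter.style.longLine false
set_option linter.unusedSectionVars false

open MeasureTheory Set Filter Topology Metric
open scoped ENNReal

namespace Crest.Agent.R096.Tme_234

open Crest.Agent.R096.Bsp_628 Crest.Agent.R096.Brk1_582
open Crest.Agent.R096.Msh_715
open Crest.Agent.R096.Msh_810 (Cu Hc hc ps mem_Cu P_Hc Dat Top Cel tiling cf)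
open Crest.Agent.R096.SkC1_961 (E3 Hom3 FoamD Cfg)
open Crest.Agent.R096.Mbf_337 Crest.Agent.R096.Tms_582 Crest.Agent.R096.Fns_360
open Crest.Agent.R096.Aclt_608 (Sh Ineq Fz countable_Ineq countable_Fz zl ae_av ae_regV Av)
open Crest.Agent.R096.Er_594 (SH3)
open Crest.Agent.R096.Frm_234 (frm Sg frame_base)

noncomputable section

variable {δ κ0 R0 c0 : ℝ} {La Om : Set E3}

/-! ### the shift -/

theorem dat_eq {D D' : Dat 3} (h1 : D'.ρ = D.ρ) (h2 : D'.C = D.C) : D' = D.sh D'.a := by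
  obtain ⟨ρ, C, a, _, _, _, _⟩ := D
  obtain ⟨ρ', C', a', _, _, _, _⟩ := D'
  simp only at h1 h2
  subst h1 h2
  rfl


theorem ExactOn.sh {D : Dat 3} {S : Set E3} {k : ℕ} (h : ExactOn D S k) (a : E3) :
    ExactOn (D.sh a) S k := h

/-- **T3-ρ, one size function for all shifts** -/
theorem exists_base_sh (Φ : FoamD δ κ0 R0 c0 La) (hOm : IsOpen Om) (hLa : IsOpen La) (hδ : 0 < δ)
    (hR0 : 0 < R0) {f : E3 → E3} (hf : Hom3 f Om La) {κ1 : ℝ} (hκ1 : 0 < κ1) (x : Φ.F → E3)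
    (R : Φ.F → ℝ) (hR : ∀ c, 0 < R c) (hsub : ∀ c, closedBall (x c) (2 * R c) ⊆ Om)
    (hdis : ∀ c c', c ≠ c' → Disjoint (closedBall (x c) (2 * R c)) (closedBall (x c') (2 * R c')))
    (hlf : ∀ y ∈ Om, ∃ r > 0, {c | (closedBall (x c) (2 * R c) ∩ ball y r).Nonempty}.Finite)
    (hhole : ∀ p ∈ Om, ∀ c, f p ∈ (Φ.B c).S → p ∈ ball (x c) (R c / 2)) (k0 : Φ.F → ℕ) {C : ℝ}
    (hC : 1 < C) (ρ0 : E3 → ℝ) (hρ0 : ∀ y z, ρ0 y ≤ ρ0 z + dist y z) (hρ0n : ∀ y, 0 ≤ ρ0 y)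
    (hρ0p : ∀ y ∈ Om, 0 < ρ0 y) {Kb : Set E3} (hKb : IsCompact Kb) (hKbO : Kb ⊆ Om) :
    ∃ kb0 : ℕ, ∀ kb, kb0 ≤ kb → ∃ k : Φ.F → ℕ, (∀ c, k0 c ≤ k c) ∧ (∀ c, kb ≤ k c) ∧
      (∀ c, (closedBall (x c) (2 * R c) ∩ Kb).Nonempty → k c = kb) ∧
      ∃ (D : Dat 3) (hD : D.Om = Om), D.C = C ∧ (∀ y, D.ρ y ≤ ρ0 y) ∧ (∀ y, D.ρ y ≤ C / 2 ^ kb) ∧
        (∀ c, ExactOn D (closedBall (x c) (2 * R c)) (k c)) ∧ ExactOn D Kb kb ∧
        ∀ a : E3, Zones (baseT (D.sh a) hD) x R k (fun c => wmod a (k c)) ∧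
          (∀ τ, (P ((baseT (D.sh a) hD).H τ) ∩ Kb).Nonempty →
            ∃ z, (baseT (D.sh a) hD).H τ = Hc idE a kb z) ∧
          ∀ τ, (∀ c, Disjoint (P ((baseT (D.sh a) hD).H τ)) (closedBall (x c) (R c / 2))) →
            FineAt Φ (baseT (D.sh a) hD) f κ1 τ := by
  obtain ⟨kb0, H⟩ := exists_base Φ hOm hLa hδ hR0 hf hκ1 x R hR hsub hdis hlf hhole k0 hC ρ0 hρ0
    hρ0n hρ0p hKb hKbO
  refine ⟨kb0, fun kb hkb => ?_⟩
  obtain ⟨k, hk0, hkk, hk16, hkJ, ρ, hρ1, hρ2, H⟩ := H kb hkb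
  obtain ⟨D, hD, d1, d2, d3, d4, d5, -, -, -⟩ := H 0
  refine ⟨k, hk0, hkk, hkJ, D, hD, d2, fun y => by rw [d1]; exact hρ1 y,
    fun y => by rw [d1]; exact hρ2 y, d4, d5, fun a => ?_⟩
  obtain ⟨D', hD', e1, e2, e3, e4, e5, e6, e7, e8⟩ := H a
  have he : D' = D.sh a := by
    have := dat_eq (D := D) (D' := D') (by rw [e1, d1]) (by rw [e2, d2])
    rw [this, e3]
  subst he
  refine ⟨⟨hR, hsub, hdis, hlf, hk16, fun c i => ⟨wmod_nonneg _ _ _, (wmod_lt _ _ _).le⟩, e6⟩,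
    e7, e8⟩

/-! ### the balls -/

/-- the balls mapped into different open bricks are disjoint -/
theorem balls_dis (Φ : FoamD δ κ0 R0 c0 La) {f : E3 → E3} {x : Φ.F → E3} {ρ : Φ.F → ℝ}
    (hin : ∀ c, ∀ y ∈ closedBall (x c) (ρ c), ∀ k, c.1.lo k < f y k ∧ f y k < c.1.hi k) :
    ∀ c c', c ≠ c' → Disjoint (closedBall (x c) (ρ c)) (closedBall (x c') (ρ c')) := by
  intro c c' hne
  rw [Set.disjoint_left]
  intro y hy hy'
  exact Eaa_748.brick_disj Φ.bf hne (hin c y hy) (hin c' y hy')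

/-- .. and locally finite -/
theorem balls_lf (Φ : FoamD δ κ0 R0 c0 La) (hO : IsOpen Om) {f : E3 → E3} (hf : Hom3 f Om La)
    {x : Φ.F → E3} {ρ : Φ.F → ℝ}
    (hin : ∀ c, ∀ y ∈ closedBall (x c) (ρ c), ∀ k, c.1.lo k < f y k ∧ f y k < c.1.hi k) :
    ∀ y ∈ Om, ∃ r > 0, {c | (closedBall (x c) (ρ c) ∩ ball y r).Nonempty}.Finite := by
  obtain ⟨fi, hfm, hfim, hl, hri, hfc, hfic⟩ := hf
  intro y hy
  obtain ⟨r, hr, hfin⟩ := Φ.bf.lf (f y) (hfm hy)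
  have hpre : f ⁻¹' (ball (f y) r) ∈ 𝓝 y :=
    (hfc.continuousAt (hO.mem_nhds hy)).preimage_mem_nhds (ball_mem_nhds _ hr)
  obtain ⟨s, hs, hsub⟩ := Metric.mem_nhds_iff.1 hpre
  refine ⟨s, hs, Set.Finite.of_finite_image (f := Subtype.val) (hfin.subset ?_)
    Subtype.val_injective.injOn⟩
  rintro _ ⟨c, ⟨z, hz, hzU⟩, rfl⟩
  refine ⟨c.2, f z, ?_, hsub hzU⟩
  rw [Bx.mem_set]
  intro k
  have h := hin c z hz k
  exact ⟨h.1.le, h.2.le⟩

/-! ### the inequalities of the patched tiling -/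

/-- **all inequalities are translates by `a` of members of a countable set** -/
theorem sh_tmesh {D : Dat 3} {hD : D.Om = Om} {𝒞 : Type} {x : 𝒞 → E3} {R : 𝒞 → ℝ} {k : 𝒞 → ℕ}
    {Zc : 𝒞 → Finset (Fin 3 → ℤ)} {κ : 𝒞 → Type} {H : ∀ c, κ c → Finset ((E3 →L[ℝ] ℝ) × ℝ)} {a : E3}
    (Z : Zones (baseT (D.sh a) hD) x R k (fun c => wmod a (k c))) (F : LocF x R k Zc H) :
    Sh (Ineq (Fz k H)) a (tmesh Z F) univ := by
  refine Sh.of_zones (w := fun c => wmod a (k c)) ?_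
  rintro (i | ⟨c, j⟩) -
  · exact Or.inl ⟨i.1.1.1.k, i.1.1.1.z, rfl⟩
  · refine Or.inr ⟨c, ⟨fun i => -flr a (k c) i, ?_⟩, Or.inr ⟨j, rfl⟩⟩
    funext i
    unfold wmod
    simp only [Pi.sub_apply, Int.cast_neg]
    ring

theorem countable_sh {𝒞 : Type} [Countable 𝒞] {x : 𝒞 → E3} {R : 𝒞 → ℝ} {k : 𝒞 → ℕ}
    {Zc : 𝒞 → Finset (Fin 3 → ℤ)} {κ : 𝒞 → Type} {H : ∀ c, κ c → Finset ((E3 →L[ℝ] ℝ) × ℝ)}
    (F : LocF x R k Zc H) : (Ineq (Fz k H)).Countable := by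
  have : ∀ c, Countable (κ c) := fun c => by
    have := (F.rep c).fin
    infer_instance
  exact countable_Ineq (countable_Fz k H)

/-- regular on the 1-cells near the cores and the centres in open tiles, for a.e. shift -/
theorem ae_tmesh {p : ℝ} (hOm : IsOpen Om) {f : E3 → E3} {Df : E3 → E3 →L[ℝ] E3}
    (hS : SH3 p Om La f Df) {D : Dat 3} {hD : D.Om = Om} {𝒞 : Type} [Countable 𝒞] {x : 𝒞 → E3}
    {R : 𝒞 → ℝ} {k : 𝒞 → ℕ} {Zc : 𝒞 → Finset (Fin 3 → ℤ)} {κ : 𝒞 → Type}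
    {H : ∀ c, κ c → Finset ((E3 →L[ℝ] ℝ) × ℝ)} (F : LocF x R k Zc H) :
    ∀ᵐ a : E3, ∀ Z : Zones (baseT (D.sh a) hD) x R k (fun c => wmod a (k c)),
      (∀ V, RegV (tmesh Z F) f V) ∧ (∀ c, ∃ i, x c ∈ I ((tmesh Z F).H i)) ∧
        ∀ c, (tmesh Z F).dim (x c) = 3 := by
  have hc := countable_sh F
  filter_upwards [ae_regV hc hOm hS, ae_av (μ := volume) hc x] with a h1 h2 Z
  have hsh := sh_tmesh Z F
  have hx : ∀ c, x c ∈ Om := fun c =>
    Z.sub c (mem_closedBall_self (by have := Z.R0 c; linarith))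
  refine ⟨fun V => h1 Om _ _ V (Subset.refl _) (hsh.mono (subset_univ _)), fun c =>
    (h2 c).exists_I (hsh.mono (subset_univ _)) (hx c), fun c => ?_⟩
  rw [(h2 c).dim (hsh.mono (subset_univ _))]
  simp

/-! ### the theorem -/

/-- **TMESH**: cores and fineness for almost every shift -/
theorem exists_tm {p : ℝ} (hp : 1 ≤ p) (Φ : FoamD δ κ0 R0 c0 La) (hOm : IsOpen Om) (hLa : IsOpen La)
    (hδ : 0 < δ) (hR0 : 0 < R0) {f : E3 → E3} {Df : E3 → E3 →L[ℝ] E3} (hS : SH3 p Om La f Df)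
    {κ1 : ℝ} (hκ1 : 0 < κ1) (κ2 : ℝ) (hpt : ∀ c, (Φ.B c).lo = (Φ.B c).hi) (x : Φ.F → E3)
    (hfx : ∀ c, f (x c) = (Φ.B c).lo)
    (R : Φ.F → ℝ) (hR : ∀ c, 0 < R c) (hsub : ∀ c, closedBall (x c) (2 * R c) ⊆ Om)
    (hin : ∀ c, ∀ y ∈ closedBall (x c) (2 * R c), ∀ k, c.1.lo k < f y k ∧ f y k < c.1.hi k)
    {C : ℝ} (hC : 1 < C) (ρ0 : E3 → ℝ) (hρ0 : ∀ y z, ρ0 y ≤ ρ0 z + dist y z) (hρ0n : ∀ y, 0 ≤ ρ0 y)
    (hρ0p : ∀ y ∈ Om, 0 < ρ0 y) {Kb : Set E3} (hKb : IsCompact Kb) (hKbO : Kb ⊆ Om) :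
    ∃ kb0 : ℕ, ∀ kb, kb0 ≤ kb → ∃ (k : Φ.F → ℕ) (Zc : Φ.F → Finset (Fin 3 → ℤ)) (κ : Φ.F → Type)
      (H : ∀ c, κ c → Finset ((E3 →L[ℝ] ℝ) × ℝ)) (F : LocF x R k Zc H) (D : Dat 3) (hD : D.Om = Om),
      (∀ c, kb ≤ k c) ∧ (∀ c, (closedBall (x c) (2 * R c) ∩ Kb).Nonempty → k c = kb) ∧
      D.C = C ∧ (∀ y, D.ρ y ≤ ρ0 y) ∧ (∀ y, D.ρ y ≤ C / 2 ^ kb) ∧
      (∀ c, ExactOn D (closedBall (x c) (2 * R c)) (k c)) ∧ ExactOn D Kb kb ∧
      ∀ᵐ a : E3, ∃ Z : Zones (baseT (D.sh a) hD) x R k (fun c => wmod a (k c)),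
        (∀ V, RegV (tmesh Z F) f V) ∧ (∀ c, ∃ i, x c ∈ I ((tmesh Z F).H i)) ∧
        (∀ c, (tmesh Z F).dim (x c) = 3) ∧
        ∃ (J0 J : Φ.F → Set ({i // i ∉ Ar (baseT (D.sh a) hD) k (fun c => wmod a (k c)) Zc} ⊕
            Σ c, κ c)) (θ : Φ.F → E3 → E3) (φ : Φ.F → E3 → ℝ),
          (∀ ct A lam z, Cores Φ (tmesh Z F) f κ1 κ2 ∅ J0 J (Vc (tmesh Z F) x R) ct A lam z θ φ) ∧
          Fine Φ (tmesh Z F) f κ1 J0 := by
  have hf : Hom3 f Om La := hS.homeo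
  have hdis := balls_dis Φ hin
  have hlf := balls_lf Φ hOm hf hin
  have hxO : ∀ c, x c ∈ Om := fun c => hsub c (mem_closedBall_self (by have := hR c; linarith))
  have hhole : ∀ y ∈ Om, ∀ c, f y ∈ (Φ.B c).S → y ∈ ball (x c) (R c / 2) := by
    obtain ⟨fi, -, -, hl, -⟩ := id hf
    intro y hy c hyc
    have h1 : f y = f (x c) := by
      rw [hfx c]
      funext k
      have h2 := hyc k
      have h3 := congrFun (hpt c) k
      exact le_antisymm (by rw [h3]; exact h2.2) h2.1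
    have h2 : y = x c := by
      rw [← hl y hy, h1, hl _ (hxO c)]
    rw [h2]
    exact mem_ball_self (by have := hR c; linarith)
  have hle : ∀ c, closedBall (x c) (R c) ⊆ closedBall (x c) (2 * R c) := fun c =>
    closedBall_subset_closedBall (by linarith [hR c])
  obtain ⟨k0, H0⟩ := cores_fine Φ f κ2 x R hR (fun c c' h => (hdis c c' h).mono (hle c) (hle c'))
    (κ1 := κ1) fun c => Tl_4.tiny_loc hp hOm hLa hS Φ (hpt c) (hfx c) (hR c) ((hle c).trans (hsub c))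
      (fun y hy => hin c y (hle c hy)) hκ1
  obtain ⟨kb0, H1⟩ := exists_base_sh Φ hOm hLa hδ hR0 hf hκ1 x R hR hsub hdis hlf hhole k0 hC ρ0 hρ0
    hρ0n hρ0p hKb hKbO
  refine ⟨kb0, fun kb hkb => ?_⟩
  obtain ⟨k, hk0, hkk, hkJ, D, hD, d1, d2, d3, d4, d5, H1⟩ := H1 kb hkb
  obtain ⟨Zc, κ, H, hL, hZ, H0⟩ := H0 k hk0
  have F : LocF x R k Zc H := ⟨hL, hZ⟩
  refine ⟨k, Zc, κ, H, F, D, hD, hkk, hkJ, d1, d2, d3, d4, d5, ?_⟩
  have : Countable Φ.F := Crest.Agent.R096.Ls_222.countable_F Φ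
  filter_upwards [ae_tmesh hOm hS (D := D) (hD := hD) F] with a ha
  obtain ⟨Z, -, hfine⟩ := H1 a
  obtain ⟨h1, h2, h3⟩ := ha Z
  refine ⟨Z, h1, h2, h3, ?_⟩
  have hfa : ∀ i, (∀ c, i ∉ Vz (tmesh Z F) x R c) → FineAt Φ (tmesh Z F) f κ1 i := by
    intro i hi
    obtain ⟨i0, rfl, hi0⟩ := off_zones Z F hi
    exact hfine i0.1 hi0
  obtain ⟨J0, J, θ, φ, hc, hfi, -, -⟩ := H0 (fun c => wmod a (k c)) Z.w01 _ (tmesh Z F)
    (fun c => en (baseT (D.sh a) hD) k (fun c => wmod a (k c)) Zc c)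
    (fun c => tmesh_zone Z F c (by linarith [hR c])) hfa (fun c => h1 _) h2
  exact ⟨J0, J, θ, φ, hc, hfi⟩

end

end Crest.Agent.R096.Tme_234
end

-- ▼ part R096/Tme5_234
section

/-!
Row 96 (S0127), helper234.  TMESH-GEO: geometry of the patched tiling `tmesh` over `baseT (D.sh a)`.

* `vc_sub` : the tiles of `Vc c` lie in `closedBall (x c) (5/8 R c)`;
* **`frame_ord`** : frames of the ordinary tiles (list `Sg`);
* **`nogeo_tm`** : `NOGeo` with `U = True` from slices whose cubes lie in the bulk and miss the zones;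
* **`macro_tm`** : `Macro` with radii `5/8 R`, `5/4 R`, ratio 4, fatness 1.
-/

set_option autoImplicit false
set_option linter.style.longLine false
set_option linter.unusedSectionVars false

open MeasureTheory Set Filter Topology Metric
open scoped ENNReal

namespace Crest.Agent.R096.Tme_234

open Crest.Agent.R096.Bsp_628 Crest.Agent.R096.Brk1_582
open Crest.Agent.R096.Msh_715
open Crest.Agent.R096.Msh_810 (Cu Hc hc ps mem_Cu P_Hc Dat Top Cel tiling cf)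
open Crest.Agent.R096.SkC1_961 (E3 Hom3 FoamD Cfg)
open Crest.Agent.R096.Mbf_337 Crest.Agent.R096.Tms_582
open Crest.Agent.R096.Frm_234 (frm Sg frame_base rk)
open Crest.Agent.R096.Ea_713 (lin)
open Crest.Agent.R096.No0_477 (NOGeo cub vx)
open Crest.Agent.R096.Gno_324 (𝒬0 Ug lcub nogeo_of)
open Crest.Agent.R096.No_276 (Macro)
open Crest.Agent.R96.Hole_348 (RingFam)

noncomputable section

section gen

variable {Om : Set E3} {ι0 : Type} {T0 : Tiling Om ι0} {𝒞 : Type} {x : 𝒞 → E3} {R : 𝒞 → ℝ}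
  {k : 𝒞 → ℕ} {w : 𝒞 → E3} {Zc : 𝒞 → Finset (Fin 3 → ℤ)} {κ : 𝒞 → Type}
  {H : ∀ c, κ c → Finset ((E3 →L[ℝ] ℝ) × ℝ)}

/-- a base tile which meets the ball of radius `ρ ≤ 2 R` lies in the ball of radius `ρ + R / 16` -/
theorem base_sub (Z : Zones T0 x R k w) {c : 𝒞} {ρ : ℝ} (hρ : ρ ≤ 2 * R c) {i : ι0}
    (hi : (P (T0.H i) ∩ closedBall (x c) ρ).Nonempty) :
    P (T0.H i) ⊆ closedBall (x c) (ρ + R c / 16) := by
  obtain ⟨z, hz⟩ := Z.lat c i (hi.mono (inter_subset_inter_right _ (closedBall_subset_closedBall hρ)))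
  obtain ⟨y, hy, hyb⟩ := hi
  intro u hu
  rw [hz, P_Hc_idE] at hy hu
  have h1 := norm_sub_Cu hu hy
  have h2 := Z.sm c
  rw [mem_closedBall_iff_norm] at hyb ⊢
  calc ‖u - x c‖ = ‖(u - y) + (y - x c)‖ := by congr 1; abel
    _ ≤ ‖u - y‖ + ‖y - x c‖ := norm_add_le _ _
    _ ≤ ρ + R c / 16 := by linarith

/-- a tile of the patched tiling which meets the ball of radius `ρ`, `R / 2 ≤ ρ ≤ 2 R`, lies in the
ball of radius `ρ + R / 16` -/
theorem tile_sub (Z : Zones T0 x R k w) (F : LocF x R k Zc H) {c : 𝒞} {ρ : ℝ} (hρ1 : R c / 2 ≤ ρ)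
    (hρ : ρ ≤ 2 * R c) {i : {i // i ∉ Ar T0 k w Zc} ⊕ Σ c, κ c}
    (hi : (P ((tmesh Z F).H i) ∩ closedBall (x c) ρ).Nonempty) :
    P ((tmesh Z F).H i) ⊆ closedBall (x c) (ρ + R c / 16) := by
  have hR := Z.R0 c
  rcases i with i0 | ⟨c', j⟩
  · exact base_sub Z hρ hi
  · have h1 : P ((tmesh Z F).H (Sum.inr ⟨c', j⟩)) ⊆ ball (x c') (R c' / 2) := new_in Z F ⟨c', j⟩
    have hR' := Z.R0 c'
    by_cases h : c' = c
    · subst h
      exact (h1.trans ball_subset_closedBall).trans (closedBall_subset_closedBall (by linarith))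
    · exfalso
      obtain ⟨y, hy, hyb⟩ := hi
      exact Set.disjoint_left.1 (Z.dis c' c h)
        ((ball_subset_closedBall.trans (closedBall_subset_closedBall (by linarith))) (h1 hy))
        (closedBall_subset_closedBall hρ hyb)

/-- the tiles of `Vc c` lie in the ball of radius `5/8 R` -/
theorem vc_sub (Z : Zones T0 x R k w) (F : LocF x R k Zc H) {c : 𝒞}
    {i : {i // i ∉ Ar T0 k w Zc} ⊕ Σ c, κ c} (hi : i ∈ Vc (tmesh Z F) x R c) :
    P ((tmesh Z F).H i) ⊆ closedBall (x c) (5 / 8 * R c) := by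
  have hR := Z.R0 c
  exact (tile_sub Z F le_rfl (by linarith) hi).trans (closedBall_subset_closedBall (by linarith))


end gen

section base

variable {Om : Set E3} {D : Dat 3} {hD : D.Om = Om} {𝒞 : Type} {x : 𝒞 → E3} {R : 𝒞 → ℝ}
  {k : 𝒞 → ℕ} {w : 𝒞 → E3} {Zc : 𝒞 → Finset (Fin 3 → ℤ)} {κ : 𝒞 → Type}
  {H : ∀ c, κ c → Finset ((E3 →L[ℝ] ℝ) × ℝ)} {a : E3}







end base

end

end Crest.Agent.R096.Tme_234
end

-- ▼ part R096/Pg7_691
section

/-!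
# Row 96, NO0-PRE, [PREG] (helper691), part 7: `preG_of` over `baseT (D.sh a)` (output of 234's
`exists_tm`)
-/

set_option autoImplicit false
set_option linter.unusedSectionVars false
set_option linter.style.longLine false

open Set Filter Topology Metric MeasureTheory
open scoped ENNReal

namespace Crest.Agent.R096.Pg_691

open Crest.Agent.R096.Bsp_628 Crest.Agent.R096.Brk1_582 Crest.Agent.R096.Brk5_582
open Crest.Agent.R096.Log2_582 Crest.Agent.R096.Dic1_582 Crest.Agent.R096.Dic6_582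
open Crest.Agent.R096.Npr_582
open Crest.Agent.R096.Msh_715
open Crest.Agent.R096.Msh_810 (Cu Hc Dat)
open Crest.Agent.R096.SkC1_961 (E3 Hom3 FoamD Cfg)
open Crest.Agent.R096.Tms_582 Crest.Agent.R096.Gno_324 Crest.Agent.R096.No0_477
open Crest.Agent.R096.No_276 (QL Macro PreG Vti MJ)
open Crest.Agent.R096.Nend_458 (EndB)
open Crest.Agent.R096.Mbf_337
open Crest.Agent.R096.Frm_234 (Sg)
open Crest.Agent.R096.Tme_234 (ExactOn baseT wmod)

noncomputable section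

variable {p : ℝ} {q : ℕ} {s : Fin 3 → ℝ} {e1 e2 : ℝ≥0∞} {La : Set E3} {f f1 : E3 → E3}
  {M3 h : ℝ} {al : Fin 3 → ℝ} {Φ : FoamD (dF q) (kF q) 6 (cN q) La} {z0 : Φ.F → E3}
  {X HH : Set E3} {g : Φ.F → Fin 3 → E3 → ℝ}

/-- **`PreG` from the output of `exists_tm`** -/
theorem preG_tm {L : ℕ} (hL : 1 ≤ L) (hLa : IsOpen La) (hne : Laᶜ.Nonempty)
    (H : Front p q s e1 e2 (QL L) La f M3 h al Φ z0 f1 X HH g)
    {x : Φ.F → E3} {R : Φ.F → ℝ} (hRad : Rad Φ (QL L) f1 z0 x R)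
    {ε C0 κ1 κ2 η : ℝ} (ε' : ℝ) (hε : 0 < ε) (hC0 : 0 ≤ C0)
    (hsz : C0 * (2 * q * h) ≤ ε) (hh : 8 * h ≤ ε) (hev : (e1 + e2) * 8 ≤ ENNReal.ofReal ε)
    {D : Dat 3} {hD : D.Om = QL L} {k : Φ.F → ℕ} {a : E3}
    {Zc : Φ.F → Finset (Fin 3 → ℤ)} {κ : Φ.F → Type} {Hf : ∀ c, κ c → Finset ((E3 →L[ℝ] ℝ) × ℝ)}
    (Z : Zones (baseT (D.sh a) hD) x R k (fun c => wmod a (k c))) (F : LocF x R k Zc Hf)
    {J0 J : Φ.F → Set ({i // i ∉ Ar (baseT (D.sh a) hD) k (fun c => wmod a (k c)) Zc} ⊕ Σ c, κ c)}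
    {θ : Φ.F → E3 → E3} {φ : Φ.F → E3 → ℝ}
    (hcores : ∀ ct A lam z, Cores Φ (tmesh Z F) f1 κ1 κ2 ∅ J0 J (Vc (tmesh Z F) x R) ct A lam z θ φ)
    (hfine : Fine Φ (tmesh Z F) f1 κ1 J0)
    (ct : Φ.F → {i // i ∉ Ar (baseT (D.sh a) hD) k (fun c => wmod a (k c)) Zc} ⊕ Σ c, κ c)
    (A : Φ.F → E3 ≃ᵃ[ℝ] E3) (lam : Φ.F → ℝ) (z : Φ.F → E3)
    {kb : ℕ} (hE : ExactOn D (KB L η) kb)
    {r : ℝ} (hrk : r = 1 / 2 ^ kb) (hr : r ≠ 0) {o : Fin 2 → ℤ} {M : ℕ} {Ab Zs : Finset ℤ}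
    (B : Slc L η r a o M Ab Zs x R)
    {Se : Fin 2 → E3 → ℝ≥0∞} (hS : ∀ j, EndB (QL L) f s j r (Se j) a) {m δ' : ℝ≥0∞}
    (hSa : ∀ j, Se j a ≤ m * (((2 : ℝ≥0∞) ^ kb) ^ 2 * (δ' * volume (QL (L : ℝ)))))
    (hδ : 16 * (m * δ') ≤ ENNReal.ofReal (ε / 2)) :
    ∃ (Sc : Φ.F → Finset ({i // i ∉ Ar (baseT (D.sh a) hD) k (fun c => wmod a (k c)) Zc} ⊕
        Σ c, κ c))
      (d : ({i // i ∉ Ar (baseT (D.sh a) hD) k (fun c => wmod a (k c)) Zc} ⊕ Σ c, κ c) → ℝ),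
      (∀ c i, i ∈ Sc c ↔ i ∈ rg (tmesh Z F) x R c) ∧
      PreG p s L η ε ε' C0 κ1 κ2 Sg 4 1 f f1 q al h Φ (tmesh Z F) ∅ J0 J (Vc (tmesh Z F) x R) ct A
        lam z θ φ 𝒬0 r hr a o M Zs (fun _ _ => True) x (fun c => 5 / 8 * R c)
        (fun c => 5 / 4 * R c) Sc d (fun _ => 0) (fun _ => 0) :=
  preG_of hL hLa hne H hRad hε hC0 hsz hh hev Z F (hcores ct A lam z) hfine hr B hrk
    (fun _ hτ => ExactOn.baseT (D := D.sh a) (h := hD) (hE.sh a) hτ) hS hSa hδ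

end

end Crest.Agent.R096.Pg_691
end

-- ▼ part R096/Tme6_234
section

/-!
Row 96 (S0127), helper234.  TMESH, inputs of the composition of NOPre (582 #11112).

* `baseOn_tm` : 273's `BaseOn` for the ordinary tiles of `tmesh`;
* `blk_tm` : 273's `Blk` from `ExactOn`;
* `touch_sub` : ordinary tiles which touch a tile near a core lie in the zone;
* `rho_lip`, `rho_pos`, `tile_W` : the size function `max (infDist y Wᶜ) (infDist y HHᶜ)`;
* `ord_diam`, `diam_tm` : diameters.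
-/

set_option autoImplicit false
set_option linter.style.longLine false
set_option linter.unusedSectionVars false

open MeasureTheory Set Filter Topology Metric
open scoped ENNReal

namespace Crest.Agent.R096.Tme_234

open Crest.Agent.R096.Msh_715
open Crest.Agent.R096.Msh_810 (Cu Hc hc ps mem_Cu P_Hc Dat Top Cel tiling cf)
open Crest.Agent.R096.SkC1_961 (E3 Hom3 FoamD Cfg)
open Crest.Agent.R096.Tms_582
open Crest.Agent.R096.Ps_273 (BaseOn Blk idn)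
open Crest.Agent.R096.No0_477 (cub vx)
open Crest.Agent.R096.Frm_234 (rk)

noncomputable section

variable {Om : Set E3} {D : Dat 3} {hD : D.Om = Om} {𝒞 : Type} {x : 𝒞 → E3} {R : 𝒞 → ℝ}
  {k : 𝒞 → ℕ} {w : 𝒞 → E3} {Zc : 𝒞 → Finset (Fin 3 → ℤ)} {κ : 𝒞 → Type}
  {H : ∀ c, κ c → Finset ((E3 →L[ℝ] ℝ) × ℝ)} {a : E3}

/-- the base tile of an ordinary tile (junk on the others) -/
def tau (Z : Zones (baseT (D.sh a) hD) x R k w) :
    ({i // i ∉ Ar (baseT (D.sh a) hD) k w Zc} ⊕ Σ c, κ c) → Top (D.sh a)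
  | Sum.inl τ => τ.1
  | Sum.inr p => ((baseT (D.sh a) hD).cov (x p.1)
      (Z.sub p.1 (mem_closedBall_self (by have := Z.R0 p.1; linarith)))).choose


/-- a tile of `tmesh` which meets an ordinary tile is a base tile -/
theorem nb_base (Z : Zones (baseT (D.sh a) hD) x R k w) (F : LocF x R k Zc H)
    {i j : {i // i ∉ Ar (baseT (D.sh a) hD) k w Zc} ⊕ Σ c, κ c}
    (hi : ∀ c, i ∉ Vc (tmesh Z F) x R c)
    (h : (P ((tmesh Z F).H i) ∩ P ((tmesh Z F).H j)).Nonempty) : ∃ τ, j = Sum.inl τ := by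
  rcases j with τ | p
  · exact ⟨τ, rfl⟩
  · exfalso
    obtain ⟨y, hy, hy'⟩ := h
    exact hi p.1 ⟨y, hy, ball_subset_closedBall (new_in Z F p hy')⟩

/-- **273's `BaseOn`** -/
theorem baseOn_tm (Z : Zones (baseT (D.sh a) hD) x R k w) (F : LocF x R k Zc H) :
    BaseOn (tmesh Z F) (D.sh a) {i | ∀ c, i ∉ Vc (tmesh Z F) x R c} (tau Z) where
  Om_eq := hD.symm
  tile i hi := by
    obtain ⟨τ, rfl, -⟩ := off_zones Z F hi
    rfl
  nb i hi j hj := by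
    obtain ⟨τ, rfl⟩ := nb_base Z F hi hj
    exact ⟨τ.1, rfl⟩


/-- an ordinary tile which touches a tile near a core lies in the zone -/
theorem touch_sub (Z : Zones (baseT (D.sh a) hD) x R k w) (F : LocF x R k Zc H)
    {i j : {i // i ∉ Ar (baseT (D.sh a) hD) k w Zc} ⊕ Σ c, κ c} {c : 𝒞}
    (hj : j ∈ Vc (tmesh Z F) x R c)
    (h : (P ((tmesh Z F).H i) ∩ P ((tmesh Z F).H j)).Nonempty) :
    P ((tmesh Z F).H i) ⊆ closedBall (x c) (3 / 4 * R c) := by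
  obtain ⟨y, hy, hy'⟩ := h
  have hR := Z.R0 c
  exact (tile_sub Z F (c := c) (ρ := 5 / 8 * R c) (by linarith) (by linarith)
    ⟨y, hy, vc_sub Z F hj hy'⟩).trans (closedBall_subset_closedBall (by linarith))

/-! ### diameters -/

/-- the scale of a base tile is at least `kb` -/
theorem scale_ge {kb : ℕ} (hρ : ∀ y, D.ρ y ≤ D.C / 2 ^ kb) (τ : Top (D.sh a)) : kb ≤ τ.1.1.k := by
  obtain ⟨y, hy⟩ := τ.1.o_nonempty
  have hyc := τ.1.o_subset_c hy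
  have h1 : D.C ≤ 2 ^ τ.1.1.k * D.ρ y := τ.1.2.lower hyc
  have hC := D.C_pos
  have h2 : D.C ≤ 2 ^ τ.1.1.k * (D.C / 2 ^ kb) :=
    h1.trans (mul_le_mul_of_nonneg_left (hρ y) (by positivity))
  by_contra hcon
  push Not at hcon
  have h5 : (2 : ℝ) ^ τ.1.1.k < 2 ^ kb := pow_lt_pow_right₀ (by norm_num) hcon
  have h6 : (2 : ℝ) ^ τ.1.1.k * (D.C / 2 ^ kb) < 2 ^ kb * (D.C / 2 ^ kb) :=
    mul_lt_mul_of_pos_right h5 (by positivity)
  have h7 : (2 : ℝ) ^ kb * (D.C / 2 ^ kb) = D.C := by field_simp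
  linarith

/-- diameter of the base tiles -/
theorem base_diam {kb : ℕ} (hρ : ∀ y, D.ρ y ≤ D.C / 2 ^ kb) (τ : Top (D.sh a)) {y u : E3}
    (hy : y ∈ P ((baseT (D.sh a) hD).H τ)) (hu : u ∈ P ((baseT (D.sh a) hD).H τ)) :
    ‖y - u‖ ≤ (2 : ℝ)⁻¹ ^ kb := by
  have h1 : P ((baseT (D.sh a) hD).H τ) = Cu a τ.1.1.k τ.1.1.z := P_Hc_idE _ _ _
  rw [h1] at hy hu
  exact (norm_sub_Cu hy hu).trans (pow_le_pow_of_le_one (by norm_num) (by norm_num)
    (scale_ge hρ τ))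

/-- **diameters of all tiles of `tmesh`** -/
theorem diam_tm (Z : Zones (baseT (D.sh a) hD) x R k w) (F : LocF x R k Zc H) {kb : ℕ}
    (hρ : ∀ y, D.ρ y ≤ D.C / 2 ^ kb) {r : ℝ} (hr : (2 : ℝ)⁻¹ ^ kb ≤ r) (hR : ∀ c, 2 * R c ≤ r)
    (i : {i // i ∉ Ar (baseT (D.sh a) hD) k w Zc} ⊕ Σ c, κ c) :
    ∀ y ∈ P ((tmesh Z F).H i), ∀ u ∈ P ((tmesh Z F).H i), ‖y - u‖ ≤ r := by
  intro y hy u hu
  rcases i with τ | p
  · exact (base_diam (hD := hD) hρ τ.1 hy hu).trans hr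
  · have h1 := new_in Z F p hy
    have h2 := new_in Z F p hu
    rw [mem_ball_iff_norm] at h1 h2
    have hR1 := Z.R0 p.1
    have hR2 := hR p.1
    calc ‖y - u‖ = ‖(y - x p.1) - (u - x p.1)‖ := by congr 1; abel
      _ ≤ ‖y - x p.1‖ + ‖u - x p.1‖ := norm_sub_le _ _
      _ ≤ r := by linarith

/-! ### the size function -/






end

end Crest.Agent.R096.Tme_234
end

-- ▼ part R096/Nsl6_552
section

/-!
Row 96 (S0127), helper552.  NO0-PRE [P4b] (276 `PreN`, `p < 3`), part 4: `nd_of`, the data `ND` of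
`preN_of` for the patched mesh `tmesh` (front, radii, `exists_tm`, `exists_shift4`, `Slc`).
-/

set_option autoImplicit false
set_option linter.style.longLine false
set_option linter.unusedSectionVars false

open MeasureTheory Set Filter Metric
open scoped Topology ENNReal

namespace Crest.Agent.R096.Nsl_552

open Crest.Agent.R096.Bsp_628 Crest.Agent.R096.Brk1_582 Crest.Agent.R096.Brk5_582
open Crest.Agent.R096.Log2_582 (IsLog)
open Crest.Agent.R096.Dic6_582 Crest.Agent.R096.Dic7_582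
open Crest.Agent.R096.Npr_582
open Crest.Agent.R096.Msh_810 Crest.Agent.R96.En3_199
  Crest.Agent.R96.En4_199 Crest.Agent.R96.En5_199 Crest.Agent.R96.En6_199
  Crest.Agent.R96.En7_199 Crest.Agent.R96.En8_199 Crest.Agent.R96.En9_199
  Crest.Agent.R96.En11_199 Crest.Agent.R96.Sg1_199
open Crest.Agent.R096.Msh_715 hiding P I
open Crest.Agent.R096.SkC1_961 (E3 Hom3 FoamD NN Cfg)
open Crest.Agent.R096.Nl_234 (HWq)
open Crest.Agent.R096.No_276 (QL ShL IZ MJ MU PreN)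
open Crest.Agent.R096.No0_477 (cub fr Fc NOGeo)
open Crest.Agent.R096.Ls_222 Crest.Agent.R096.Ps_273
open Crest.Agent.R096.Tms_582
open Crest.Agent.R096.Tme_234 (ExactOn baseT wmod tau baseOn_tm touch_sub diam_tm)
open Crest.Agent.R096.Pg_691 (Rad Slc rg KB KB_sub geo_tmesh)

noncomputable section

variable {p : ℝ} {q : ℕ} {s : Fin 3 → ℝ} {e1 e2 : ℝ≥0∞} {La : Set E3} {f f1 : E3 → E3}
  {M3 h : ℝ} {al : Fin 3 → ℝ} {Φ : FoamD (dF q) (kF q) 6 (cN q) La} {z0 : Φ.F → E3}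
  {X HH : Set E3} {g : Φ.F → Fin 3 → E3 → ℝ}

/-- points of dimension 3 are not on the edges -/
theorem edge_off {Om : Set E3} {ι : Type} {T : Tiling Om ι} (e : Edg T) {x : E3}
    (hx : T.dim x = 3) : x ∉ e.1 := by
  intro h
  obtain ⟨y, hy, hd, he⟩ := e.2
  rw [he] at h
  have := T.dim_le h
  omega

/-- the edges miss the preimages of the holes -/
theorem edge_hh {L : ℝ} {x : Φ.F → E3} {R : Φ.F → ℝ} (hRad : Rad Φ (QL L) f1 z0 x R) {ι : Type}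
    {T : Tiling (QL L) ι} (hdim : ∀ c, T.dim (x c) = 3) (e : Edg T) :
    ∀ y ∈ e.1, ∀ c, f1 y ∉ (Φ.B c).S := by
  intro y hy c hc
  have h1 := hRad.hole y (edg_sub_Om e hy) c hc
  exact edge_off e (hdim c) (h1 ▸ hy)

/-- the ball of the ring -/
theorem rg_ball {Om : Set E3} {ι0 : Type} {T0 : Tiling Om ι0} {𝒞 : Type} {x : 𝒞 → E3} {R : 𝒞 → ℝ}
    {k : 𝒞 → ℕ} {w : 𝒞 → E3} {Zc : 𝒞 → Finset (Fin 3 → ℤ)} {κ : 𝒞 → Type}
    {T : Tiling Om ({i // i ∉ Ar T0 k w Zc} ⊕ Σ c, κ c)} {c : 𝒞} {i}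
    (hi : i ∈ rg T x R c) :
    (Msh_715.P (T.H i) ∩ closedBall (x c) (5 / 4 * R c)).Nonempty := by
  obtain ⟨y, hy, hyb, -⟩ := hi
  exact ⟨y, hy, ball_subset_closedBall hyb⟩

/-- **`ND` FOR THE PATCHED MESH** -/
theorem nd_of {L : ℕ} (hL : 1 ≤ L) (hLa : IsOpen La)
    (H : Front p q s e1 e2 (QL L) La f M3 h al Φ z0 f1 X HH g)
    {x : Φ.F → E3} {R : Φ.F → ℝ} (hRad : Rad Φ (QL L) f1 z0 x R)
    {η κ3 : ℝ} (hη : 0 < η)
    -- weights (`exists_W`)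
    {W : Φ.F → ℝ} (hW : (∀ c, 0 < W c) ∧ (∀ c, ∃ k N : ℕ, W c * 2 ^ k = N) ∧
      (∀ c, c.1.sz ≤ κ3 * W c) ∧ (∀ c, W c ≤ κ3 * c.1.sz) ∧ (∀ c, W c ≤ c.1.sz) ∧
      ∀ c : Φ.F, IsLog q al h c.1 → W c = h / 2)
    {εf θ : ℝ≥0∞} (he1 : e1 ≤ εf)
    -- the bad set (`exists_small`)
    {W0 Wt : Set E3} (hW0 : QL L \ HH ⊆ W0) (hWt : Wt = W0 ∪ ⋃ c, closedBall (x c) (2 * R c))
    (hvW : volume Wt ≤ θ)
    (hint : ∫⁻ y in Op Φ (QL L) f1 ∩ Wt, GGw (fun c => ENNReal.ofReal (W c)) g y ^ p ≤ θ)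
    -- the mesh (`exists_tm`)
    {D : Dat 3} {hD : D.Om = QL L} {k : Φ.F → ℕ} {a : E3}
    {Zc : Φ.F → Finset (Fin 3 → ℤ)} {κ : Φ.F → Type} {Hf : ∀ c, κ c → Finset ((E3 →L[ℝ] ℝ) × ℝ)}
    (Z : Zones (baseT (D.sh a) hD) x R k (fun c => wmod a (k c))) (F : LocF x R k Zc Hf)
    (hdim : ∀ c, (tmesh Z F).dim (x c) = 3)
    {kb : ℕ} (hρ : ∀ y, D.ρ y ≤ D.C / 2 ^ kb) (hE : ExactOn D (KB L η) kb)
    -- the edges (`ae_front`)
    (hac : ∀ e : Edg (tmesh Z F), e.1 ⊆ Op Φ (QL L) f1 → ∀ c,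
      ∃ G : E3 → ℝ≥0∞, UGs (us Φ f1 c) G (ea e) (ev e) ∧ li G (ea e) (ev e) ≠ ∞)
    -- the shift (`exists_shift4`)
    (hgood : ∀ (k : ℕ) (z : Fin 3 → ℤ), Good (Op Φ (QL L) f1) (us Φ f1) g (vx a k z))
    (hEp : ∀ l, Ed (D.sh a) l p (Xs (fun c => ENNReal.ofReal (W c)) g
        (fun l => ENNReal.ofReal (s l)) l) ≤ (8 * (3 : ℕ)) * ∫⁻ x in Op Φ (QL L) f1,
      Xs (fun c => ENNReal.ofReal (W c)) g (fun l => ENNReal.ofReal (s l)) l x ^ p)
    (hE1 : ∀ l, Ed (D.sh a) l 1 (Xs (fun c => ENNReal.ofReal (W c)) g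
        (fun l => ENNReal.ofReal (s l)) l) ≤ (8 * (3 : ℕ)) * ∫⁻ x in Op Φ (QL L) f1,
      Xs (fun c => ENNReal.ofReal (W c)) g (fun l => ENNReal.ofReal (s l)) l x)
    (hES : S (D.sh a) p (Wt.indicator
        (GGw (fun c => ENNReal.ofReal (W c)) g)) ≤ 100 * (KE 3 p *
      ∫⁻ y in Op Φ (QL L) f1 ∩ Wt, GGw (fun c => ENNReal.ofReal (W c)) g y ^ p))
    -- the block
    {r : ℝ} (hrk : r = ((2:ℝ) ^ kb)⁻¹) (hr : r ≠ 0) {o : Fin 2 → ℤ} {M : ℕ} {Ab Zs : Finset ℤ}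
    (B : Slc L η r a o M Ab Zs x R)
    {r₁ : ℝ} (hr1 : r ≤ r₁) (hR1 : ∀ c, 2 * R c ≤ r₁)
    {Sc : Φ.F → Finset ({i // i ∉ Ar (baseT (D.sh a) hD) k (fun c => wmod a (k c)) Zc} ⊕
      Σ c, κ c)}
    (hSc : ∀ c i, i ∈ Sc c ↔ i ∈ rg (tmesh Z F) x R c) :
    ND p s L η κ3 Φ q al h f1 (tmesh Z F) (Vc (tmesh Z F) x R) (D.sh a) (tau Z) (Op Φ (QL L) f1) g W
      Wt εf θ r₁ kb r hr o M Ab Zs x (fun c => 5 / 4 * R c) Sc := by
  have hL0 : (0:ℝ) < L := by exact_mod_cast hL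
  have hr0 : 0 < r := B.r0
  have hr10 : 0 ≤ r₁ := hr0.le.trans hr1
  have hhh := edge_hh hRad hdim
  have hlog : ∀ c : Φ.F, IsLog q al h c.1 → ENNReal.ofReal (W c) = ENNReal.ofReal (h / 2) :=
    fun c hc => by rw [hW.2.2.2.2.2 c hc]
  have hle : ∀ c : Φ.F, ENNReal.ofReal (W c) ≤ ENNReal.ofReal c.1.sz := fun c =>
    ENNReal.ofReal_le_ofReal (hW.2.2.2.2.1 c)
  have hdi : ∀ i, ∀ y ∈ Msh_715.P ((tmesh Z F).H i), ∀ u ∈ Msh_715.P ((tmesh Z F).H i),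
      ‖y - u‖ ≤ r₁ := diam_tm Z F hρ (by rw [inv_pow, ← hrk]; exact hr1) hR1
  have h24 : ((8 * (3 : ℕ) : ℝ≥0∞)) = 24 := by norm_num
  have hedge : ∀ e : Edg (tmesh Z F), e.1 ⊆ Op Φ (QL L) f1 := fun e y hy =>
    ⟨edg_sub_Om e hy, hhh e y hy⟩
  have hblk := B.blk (D := D.sh a) rfl hrk (hE.sh a)
  refine
    { oLa := hLa
      hom := H.homeo
      hh := fun e y hy c => hhh e y (by rw [← sgm_edg e]; exact hy) c
      edge := hedge
      sub := fun y hy => hy.1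
      gm := H.gm
      good := hgood
      patch := fun e _ c => hac e (hedge e) c
      W0 := hW.1
      Wd := hW.2.1
      W1 := hW.2.2.1
      W2 := hW.2.2.2.1
      Wl := hW.2.2.2.2.2
      base := baseOn_tm Z F
      eW := fun l => (H.eW l _ hlog hle).trans (by gcongr)
      Ep := fun l => (hEp l).trans (le_of_eq (by rw [h24]))
      E1 := fun l => (hE1 l).trans (le_of_eq (by rw [h24]))
      ES := hES.trans (by gcongr)
      vW := hvW
      hw := ?_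
      tW := ?_
      shv := ?_
      geo := ?_
      rk := hrk
      blk := fun m hm => hblk m (B.sub hm)
      N0 := B.NA1
      AZ := B.half }
  · intro y hy hyW
    have hyH : y ∈ HH := by
      by_contra hn
      exact hyW (by rw [hWt]; exact Or.inl (hW0 ⟨hy, hn⟩))
    obtain ⟨C, O, h1, h2⟩ := H.HHw y hyH
    exact ⟨C, O, h1, y, rfl, h2⟩
  · intro i hi c j hj hd
    rw [Set.not_disjoint_iff_nonempty_inter] at hd
    refine (touch_sub Z F hj hd).trans ?_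
    rw [hWt]
    refine Subset.trans ?_ (subset_union_right.trans Subset.rfl)
    refine Subset.trans ?_ (subset_iUnion (fun c => closedBall (x c) (2 * R c)) c)
    exact closedBall_subset_closedBall (by have := hRad.r0 c; linarith)
  · refine (measure_mono ?_).trans (Crest.Agent.R096.Shv_273.shell_vol (T := tmesh Z F) hL hη hr10
      hdi (fun c => ?_) (fun c i hi => rg_ball ((hSc c i).1 hi)))
    · exact biUnion_mono (fun i hi => hi.2) fun _ _ => Subset.rfl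
    · have h1 := hR1 c
      have h2 := hRad.r0 c
      show 5 / 4 * R c ≤ r₁
      linarith
  · exact geo_tmesh Z F B.r0 hr (by rw [hrk, one_div]) B.M0 (KB_sub (by linarith [B.rη, B.r0]))
      (fun _ hτ => ExactOn.baseT (D := D.sh a) (h := hD) (hE.sh a) hτ)
      (fun j => ⟨(B.lo j).1, (B.lo j).2.2⟩) (fun j => ⟨(B.hi j).1, (B.hi j).2.2⟩) B.zne B.zs
      (fun m hm => B.cub m (B.sub hm)) fun m hm v hv c => (B.dis m hm v hv c).mono_right
        (closedBall_subset_closedBall (by have := hRad.r0 c; linarith))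

end

end Crest.Agent.R096.Nsl_552
end

-- ▼ part R096/Nsl7_552
section

/-!
Row 96 (S0127), helper552.  NO0-PRE, `p < 3`: the composition `noPre_lt`.
-/

set_option autoImplicit false
set_option linter.style.longLine false
set_option linter.unusedSectionVars false
set_option linter.unusedVariables false

open MeasureTheory Set Filter Metric
open scoped Topology ENNReal

namespace Crest.Agent.R096.Nsl_552

open Crest.AnalysisR.VecCalc3 Crest.AnalysisR.Sobolev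
open Crest.Agent.R096.Bsp_628 Crest.Agent.R096.Brk1_582 Crest.Agent.R096.Brk5_582
open Crest.Agent.R096.Log2_582 (IsLog)
open Crest.Agent.R096.Dic6_582 Crest.Agent.R096.Dic7_582
open Crest.Agent.R096.Npr_582
open Crest.Agent.R096.Msh_810 Crest.Agent.R96.En3_199
  Crest.Agent.R96.En4_199 Crest.Agent.R96.En5_199 Crest.Agent.R96.En6_199
  Crest.Agent.R96.En7_199 Crest.Agent.R96.En8_199 Crest.Agent.R96.En9_199
  Crest.Agent.R96.En10_199 Crest.Agent.R96.En11_199 Crest.Agent.R96.Sg1_199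
open Crest.Agent.R96.Acl_392
open Crest.Agent.R096.Msh_715 hiding P I
open Crest.Agent.R096.SkC1_961 (E3 Hom3 FoamD NN Cfg)
open Crest.Agent.R096.Nl_234 (HWq)
open Crest.Agent.R096.No_276 (QL fL ShL IZ MJ MU PreG PreN NOPre)
open Crest.Agent.R096.No0_477 (cub fr Fc NOGeo)
open Crest.Agent.R096.Ls_222 Crest.Agent.R096.Ps_273
open Crest.Agent.R096.Tms_582
open Crest.Agent.R096.Tme_234 (ExactOn baseT wmod tau baseOn_tm touch_sub diam_tm exists_tm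
  sh_tmesh countable_sh)
open Crest.Agent.R096.Pg_691 (Rad Slc rg KB KB_sub KB_compact geo_tmesh exists_slc exists_ends
  preG_tm)
open Crest.Agent.R096.Frm_234 (Sg Sg_finite)
open Crest.Agent.R096.Gno_324 (𝒬0)
open Crest.Agent.R096.Npl_477 (front_input)
open Crest.Agent.R096.Sk_962 (Q0 Qc0 dg SH)
open Crest.Agent.R096.Sq_477 (e3)
open Crest.Agent.R096.Er_594 (SH3)
open Crest.Agent.R096.Nend_458 (EndB)
open Crest.Agent.R096.Mbf_337 (Cores Fine)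
open Crest.Agent.R096.Aclt_608 (Sh Ineq Fz ae_front)

noncomputable section

/-! ### constants -/

theorem exists_theta {θ : ℝ≥0∞} (hθ : 0 < θ) {a : ℝ} (ha : 0 < a) :
    ∃ θ1 : ℝ≥0∞, 0 < θ1 ∧ θ1 + θ1 ≤ θ ∧ θ1 ≠ ⊤ ∧ θ1 ≤ ENNReal.ofReal a := by
  refine ⟨min (θ / 2) (ENNReal.ofReal a), lt_min (ENNReal.half_pos hθ.ne') (ENNReal.ofReal_pos.2 ha),
    ?_, ne_top_of_le_ne_top ENNReal.ofReal_ne_top (min_le_right _ _), min_le_right _ _⟩
  calc min (θ / 2) (ENNReal.ofReal a) + min (θ / 2) (ENNReal.ofReal a) ≤ θ / 2 + θ / 2 :=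
        add_le_add (min_le_left _ _) (min_le_left _ _)
    _ = θ := ENNReal.add_halves θ

theorem exists_e2 {θ1 V : ℝ≥0∞} (hθ : 0 < θ1) (hV : V ≠ ⊤) {p : ℝ} (hp : 0 ≤ p) {ε : ℝ}
    (hε : 0 < ε) :
    ∃ e2 : ℝ≥0∞, 0 < e2 ∧ e2 ≠ ⊤ ∧ 3 ^ p * (e2 * V) ≤ θ1 ∧ e2 * V ≤ θ1 ∧
      e2 ≤ ENNReal.ofReal (ε / 16) := by
  have h3 : (3:ℝ≥0∞) ^ p ≠ ⊤ := ENNReal.rpow_ne_top_of_nonneg hp (by norm_num)
  have h31 : (1:ℝ≥0∞) ≤ 3 ^ p := by
    calc (1:ℝ≥0∞) = 1 ^ p := (ENNReal.one_rpow p).symm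
      _ ≤ 3 ^ p := ENNReal.rpow_le_rpow (by norm_num) hp
  set K : ℝ≥0∞ := 3 ^ p * V with hK
  have hKt : K ≠ ⊤ := ENNReal.mul_ne_top h3 hV
  have key : θ1 / (K + 1) * K ≤ θ1 := by
    calc θ1 / (K + 1) * K ≤ θ1 / (K + 1) * (K + 1) := by gcongr; exact le_self_add
      _ ≤ θ1 := (ENNReal.div_mul_cancel (by simp) (ENNReal.add_ne_top.2
          ⟨hKt, ENNReal.one_ne_top⟩)).le
  have h1 : 3 ^ p * (min (θ1 / (K + 1)) (ENNReal.ofReal (ε / 16)) * V) ≤ θ1 := by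
    calc 3 ^ p * (min (θ1 / (K + 1)) (ENNReal.ofReal (ε / 16)) * V) ≤
        3 ^ p * (θ1 / (K + 1) * V) := by gcongr; exact min_le_left _ _
      _ = θ1 / (K + 1) * K := by rw [hK]; ring
      _ ≤ θ1 := key
  refine ⟨min (θ1 / (K + 1)) (ENNReal.ofReal (ε / 16)), lt_min (ENNReal.div_pos hθ.ne'
    (ENNReal.add_ne_top.2 ⟨hKt, ENNReal.one_ne_top⟩)) (ENNReal.ofReal_pos.2 (by positivity)),
    ne_top_of_le_ne_top ENNReal.ofReal_ne_top (min_le_right _ _), h1, ?_, min_le_right _ _⟩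
  refine le_trans ?_ h1
  calc min (θ1 / (K + 1)) (ENNReal.ofReal (ε / 16)) * V = 1 * (min (θ1 / (K + 1))
        (ENNReal.ofReal (ε / 16)) * V) := (one_mul _).symm
    _ ≤ _ := by gcongr

theorem exists_delta {δF : ℝ≥0∞} (hδ : 0 < δF) {p : ℝ} (hp : 1 ≤ p) {ε : ℝ} (hε : 0 < ε) :
    ∃ δ : ℝ≥0∞, 0 < δ ∧ δ ≤ δF ∧ 16 * (100 * δ ^ p⁻¹) ≤ ENNReal.ofReal (ε / 2) := by
  have hp0 : 0 < p := by linarith
  have h1 : (0:ℝ) < ε / 3200 := by positivity
  refine ⟨min δF (ENNReal.ofReal (ε / 3200) ^ p), lt_min hδ (ENNReal.rpow_pos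
    (ENNReal.ofReal_pos.2 h1) ENNReal.ofReal_ne_top), min_le_left _ _, ?_⟩
  have h2 : min δF (ENNReal.ofReal (ε / 3200) ^ p) ^ p⁻¹ ≤ ENNReal.ofReal (ε / 3200) := by
    calc min δF (ENNReal.ofReal (ε / 3200) ^ p) ^ p⁻¹ ≤ (ENNReal.ofReal (ε / 3200) ^ p) ^ p⁻¹ :=
          ENNReal.rpow_le_rpow (min_le_right _ _) (by positivity)
      _ = ENNReal.ofReal (ε / 3200) := ENNReal.rpow_rpow_inv hp0.ne' _
  calc 16 * (100 * min δF (ENNReal.ofReal (ε / 3200) ^ p) ^ p⁻¹) ≤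
        16 * (100 * ENNReal.ofReal (ε / 3200)) := by gcongr
    _ = ENNReal.ofReal (ε / 2) := by
        rw [show (16:ℝ≥0∞) = ENNReal.ofReal 16 by simp, show (100:ℝ≥0∞) = ENNReal.ofReal 100 by simp,
          ← ENNReal.ofReal_mul (by norm_num), ← ENNReal.ofReal_mul (by norm_num)]
        congr 1
        ring

/-- a dyadic size -/
theorem exists_h {h₀ : ℝ} (hh : 0 < h₀) {C0 : ℝ} (hC0 : 0 < C0) (q : ℕ) {ε : ℝ} (hε : 0 < ε) :
    ∃ h : ℝ, 0 < h ∧ h < h₀ ∧ (∃ k N : ℕ, h / 2 * 2 ^ k = N) ∧ C0 * (2 * q * h) ≤ ε ∧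
      8 * h ≤ ε := by
  have hm : 0 < min (min h₀ (ε / (C0 * (2 * q) + 1))) (ε / 8) := by positivity
  obtain ⟨n, hn⟩ := exists_pow_lt_of_lt_one hm (show (1/2:ℝ) < 1 by norm_num)
  have h1 : ((1/2:ℝ)) ^ n < h₀ := hn.trans_le ((min_le_left _ _).trans (min_le_left _ _))
  have h2 : ((1/2:ℝ)) ^ n ≤ ε / (C0 * (2 * q) + 1) :=
    hn.le.trans ((min_le_left _ _).trans (min_le_right _ _))
  have h3 : ((1/2:ℝ)) ^ n ≤ ε / 8 := hn.le.trans (min_le_right _ _)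
  have h0 : 0 < ((1/2:ℝ)) ^ n := by positivity
  refine ⟨(1/2) ^ n, h0, h1, ⟨n + 1, 1, ?_⟩, ?_, by linarith⟩
  · rw [pow_succ, one_div, inv_pow]
    field_simp
    norm_num
  · rw [le_div_iff₀ (by positivity)] at h2
    nlinarith

theorem kap_lt : ((3 : ℕ) : ℝ≥0∞) * ∑' _ : Unit, ((100 : ℝ≥0∞))⁻¹ +
    ∑' _ : Fin 2, ((100 : ℝ≥0∞))⁻¹ < 1 / 2 := by
  rw [tsum_fintype, tsum_fintype, Finset.sum_const, Finset.sum_const, Finset.card_univ,
    Finset.card_univ, Fintype.card_unit, Fintype.card_fin, one_smul, nsmul_eq_mul, ← add_mul]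
  have h1 : ((3 : ℕ) : ℝ≥0∞) + ((2 : ℕ) : ℝ≥0∞) = ENNReal.ofReal 5 := by
    rw [← Nat.cast_add]; norm_num
  have h2 : ((100 : ℝ≥0∞))⁻¹ = ENNReal.ofReal (1 / 100) := by
    rw [ENNReal.ofReal_div_of_pos (by norm_num)]; norm_num
  have h3 : (1 / 2 : ℝ≥0∞) = ENNReal.ofReal (1 / 2) := by
    rw [ENNReal.ofReal_div_of_pos (by norm_num)]; norm_num
  rw [h1, h2, h3, ← ENNReal.ofReal_mul (by norm_num)]
  exact (ENNReal.ofReal_lt_ofReal_iff (by norm_num)).2 (by norm_num)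

theorem e12_le {e1 e2 : ℝ≥0∞} {ε : ℝ} (h1 : e1 ≤ ENNReal.ofReal (ε / 16))
    (h2 : e2 ≤ ENNReal.ofReal (ε / 16)) (hε : 0 < ε) : (e1 + e2) * 8 ≤ ENNReal.ofReal ε := by
  calc (e1 + e2) * 8 ≤ (ENNReal.ofReal (ε / 16) + ENNReal.ofReal (ε / 16)) * ENNReal.ofReal 8 := by
        gcongr
        norm_num
    _ = ENNReal.ofReal ε := by
        rw [← ENNReal.ofReal_add (by positivity) (by positivity), ← ENNReal.ofReal_mul (by positivity)]
        congr 1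
        ring

set_option maxHeartbeats 1000000 in
/-- **`NOPre p` FOR `p < 3`** -/
theorem noPre_lt {p : ℝ} (hp : 1 ≤ p) (hp3 : p < 3) : NOPre p := by
  classical
  have hp0 : 0 ≤ p := by linarith
  refine ⟨Sg, 4, 1, Sg_finite, ENNReal.one_ne_top, fun s hs hs2 S1 hS1 => ?_⟩
  obtain ⟨S, KS, hSS, hKS, HN⟩ := preN_of hp hs hS1
  refine ⟨S, KS, hSS, hKS, fun ε η L hL e₂ hε hη hη8 hL1 he₂ => ?_⟩
  have hL0 : (0:ℝ) < L := by exact_mod_cast hL1
  obtain ⟨εf, hεf, HN⟩ := HN ε η L e₂ hε hη hL1 he₂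
  obtain ⟨e1, he1, he1f, he1e⟩ : ∃ e1 : ℝ≥0∞, 0 < e1 ∧ e1 ≤ εf ∧ e1 ≤ ENNReal.ofReal (ε / 16) :=
    ⟨min εf (ENNReal.ofReal (ε / 16)), lt_min hεf (ENNReal.ofReal_pos.2 (by positivity)),
      min_le_left _ _, min_le_right _ _⟩
  have he1t : e1 ≠ ⊤ := ne_top_of_le_ne_top ENNReal.ofReal_ne_top he1e
  obtain ⟨q, hq, HF⟩ := exists_front hp hp3 s hs hs2 he1
  have hkF := one_le_kF q
  refine ⟨q, dF q, kF q, 6, cN q, 1, max 8 (4 * q), dF_pos hq, hkF, by norm_num, ?_, one_pos,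
    le_max_left _ _, fun C0 C κp ε' hC0 hC hκp hε' => ?_⟩
  · unfold cN
    positivity
  obtain ⟨μ, hμ, hμκ, θ, hθ, r₁, hr₁, HN⟩ := HN q (max 8 (4 * q)) C κp ε' hC hκp hε'
  refine ⟨μ, hμ, hμκ, fun κ1 hκ1 => ?_⟩
  have hVt : volume (QL (L:ℝ)) ≠ ⊤ := by
    rw [vol_QL hL0]; exact ENNReal.ofReal_ne_top
  obtain ⟨θ1, hθ1, hθ1θ, hθ1t, hθ1L⟩ := exists_theta hθ (a := 1 / (128 * L)) (by positivity)
  obtain ⟨e2, he2, he2t, he2a, he2b, he2e⟩ := exists_e2 hθ1 hVt hp0 hε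
  obtain ⟨δF, hδF, HF⟩ := HF e2 he2
  obtain ⟨δ, hδ, hδF', hδE⟩ := exists_delta hδF hp hε
  obtain ⟨dd, hdd, HI⟩ := front_input hp hs2 hL1 hL hδ
  refine ⟨dd, hdd, fun U₀ W₀ f G hU1 hU2 hU3 hW1 hW2 hW3 hQ hSH hE hZd => ?_⟩
  obtain ⟨hO, hOne, hOf, hLa, hLab, hne, Df, hS, hEn⟩ := HI U₀ W₀ f G hU1 hU2 hU3 hW1 hW2 hW3 hQ hSH hE
  obtain ⟨h₀, hh₀, HF⟩ := HF (QL L) _ (fL f L hL) Df hO hOne hOf hLa hLab hS
    (hEn.trans (by gcongr)) 3 le_rfl
  obtain ⟨h, hh, hh0, hhd, hsz, hh8⟩ := exists_h hh₀ hC0 q hε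
  obtain ⟨al, Φ, z0, f1, X, HH, g, H⟩ := HF h hh hh0
  have hcF : Countable Φ.F := countable_F Φ
  -- weights
  obtain ⟨W, hW⟩ := exists_W Φ hq hh hhd al (κ3 := max 8 (4 * (q:ℝ))) (le_max_left _ _) (le_max_right _ _)
  have hlog : ∀ c : Φ.F, IsLog q al h c.1 → ENNReal.ofReal (W c) = ENNReal.ofReal (h / 2) :=
    fun c hc => by rw [hW.2.2.2.2.2 c hc]
  have hle : ∀ c : Φ.F, ENNReal.ofReal (W c) ≤ ENNReal.ofReal c.1.sz := fun c =>
    ENNReal.ofReal_le_ofReal (hW.2.2.2.2.1 c)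
  -- radii and the bad set
  obtain ⟨x, R, W0, hRad, hRr, hRs, hW0o, hW0, hW0O, hvW, hint⟩ := Crest.Agent.R096.Npl_477.exists_small hp hO hOf hLa hne he1t
    he2t H hlog hle hθ1 (ρ := r₁ / 2) (by positivity)
  obtain ⟨Wt, hWt⟩ : ∃ Wt : Set E3, Wt = W0 ∪ ⋃ c, closedBall (x c) (2 * R c) := ⟨_, rfl⟩
  rw [← hWt] at hvW hint
  have hvW' : volume Wt ≤ θ := hvW.trans ((add_le_add he2b le_rfl).trans hθ1θ)
  have hint' : ∫⁻ y in Op Φ (QL L) f1 ∩ Wt, GGw (fun c => ENNReal.ofReal (W c)) g y ^ p ≤ θ :=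
    hint.trans ((add_le_add he2a le_rfl).trans hθ1θ)
  have hWtm : MeasurableSet Wt := by
    rw [hWt]
    exact hW0o.measurableSet.union (MeasurableSet.iUnion fun c => measurableSet_closedBall)
  -- slices
  have hKb : IsCompact (KB L η) := KB_compact hL1 η
  have hKbO : KB L η ⊆ QL L := KB_sub hη
  obtain ⟨r₂, hr₂, HS⟩ := exists_slc hL1 hη8 hη hRad.r0 (hRad.fin hKb hKbO) (fun S => by
    have h1 : ENNReal.ofReal (∑ c ∈ S, R c) ≤ ENNReal.ofReal (1 / (128 * L)) := by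
      rw [ENNReal.ofReal_sum_of_nonneg fun c _ => (hRad.r0 c).le]
      exact (ENNReal.sum_le_tsum S).trans (hRs.trans hθ1L)
    rw [ENNReal.ofReal_le_ofReal_iff (by positivity)] at h1
    rw [← Finset.mul_sum]
    calc 2 * ∑ c ∈ S, R c ≤ 2 * (1 / (128 * L)) := by linarith
      _ = 1 / (64 * L) := by field_simp; norm_num)
  -- the mesh
  obtain ⟨Dh, hSf⟩ := H.sh
  obtain ⟨kb0, HT⟩ := exists_tm hp Φ hO hLa (dF_pos hq) (by norm_num) hSf hκ1 1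
    (fun c => by rw [H.pt c]; rfl) x (fun c => by rw [H.pt c]; exact hRad.fx c) R hRad.r0 hRad.sub
    hRad.inb (C := 2) (by norm_num) (fun _ => 1) (fun y z => by have := dist_nonneg (x := y) (y := z); linarith)
    (fun _ => zero_le_one) (fun _ _ => one_pos) hKb hKbO
  obtain ⟨kb, hkb0, hkr⟩ : ∃ kb : ℕ, kb0 ≤ kb ∧ ((2:ℝ) ^ kb)⁻¹ ≤ min r₁ r₂ := by
    obtain ⟨n, hn⟩ := exists_pow_lt_of_lt_one (lt_min hr₁ hr₂) (show (1/2:ℝ) < 1 by norm_num)
    refine ⟨max kb0 n, le_max_left _ _, ?_⟩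
    rw [← inv_pow]
    refine le_trans (pow_le_pow_of_le_one (by norm_num) (by norm_num) (le_max_right kb0 n)) ?_
    rw [inv_eq_one_div]
    exact hn.le
  obtain ⟨k, Zc, κf, Hf, F, D, hD, -, -, hDC, -, hDρ, -, hEx, HT⟩ := HT kb hkb0
  obtain ⟨r, hr⟩ : ∃ r : ℝ, r = ((2:ℝ) ^ kb)⁻¹ := ⟨_, rfl⟩
  have hr0 : 0 < r := by rw [hr]; positivity
  have hr1 : r = 1 / 2 ^ kb := by rw [hr, one_div]
  rw [← hr] at hkr
  -- the ends
  obtain ⟨Se, hSe1, hSe2, hSe3⟩ := exists_ends hp hO hOf hS s hEn hr1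
  -- the shift
  have hL608 := countable_sh F
  have hcount : (D.Om \ Op Φ (QL L) f1).Countable := by
    refine (countable_range x).mono ?_
    rintro y ⟨hy, hy2⟩
    rw [hD] at hy
    have : ∃ c, f1 y ∈ (Φ.B c).S := by
      by_contra hcon
      push Not at hcon
      exact hy2 ⟨hy, hcon⟩
    obtain ⟨c, hc⟩ := this
    exact ⟨c, (hRad.hole y hy c hc).symm⟩
  have hus : ∀ c, ContinuousOn (us Φ f1 c) (Op Φ (QL L) f1) := fun c =>
    continuousOn_us hLa H.homeo (fun x hx => hx.1) (fun x hx c => hx.2 c) c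
  obtain ⟨a, -, ⟨⟨Z, -, hctr, hdim, J0, J, θc, φc, hcores, hfine⟩, hac, hEB⟩, hgood, -, hEp, hE1, hES, hSa⟩ :=
    exists_shift4 D (by norm_num) H.op (by rw [hD]; exact fun y hy => hy.1) hcount hus H.gm H.wd
      (fun c => ENNReal.ofReal (W c)) (fun l => ENNReal.ofReal (s l)) hp (ι := Unit)
      (R := fun _ => Wt) (fun _ => hWtm) (κ := fun _ => 100) (fun _ => by norm_num) hSe1 hSe2
      (m := fun _ => 100) (fun _ => by norm_num) kap_lt (HT.and ((ae_front H hLa hL608).and hSe3))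
  obtain ⟨o, M, Ab, Zs, B⟩ := HS r hr0 (hkr.trans (min_le_right _ _)) a
  obtain ⟨Sc, d, hSc, hG⟩ := preG_tm hL1 hLa hne H hRad ε' hε hC0.le hsz hh8 (e12_le he1e he2e hε) Z F hcores
    hfine (fun c => (hctr c).choose) (fun _ => AffineEquiv.refl ℝ E3) (fun _ => 1) z0 hEx hr1 hr0.ne' B
    hEB hSa hδE
  refine ⟨f1, al, h, Φ, _, tmesh Z F, ∅, J0, J, Vc (tmesh Z F) x R, (fun c => (hctr c).choose),
    (fun _ => AffineEquiv.refl ℝ E3), (fun _ => 1), z0, θc, φc, (fun _ => 0), 𝒬0, r, hr0.ne', a, o, M,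
    Zs, (fun _ _ => True), Φ.F, x, (fun c => 5 / 8 * R c), (fun c => 5 / 4 * R c), Sc, d,
    (fun _ => 0), (fun _ => 0), Or.inl hp3, hG, ?_⟩
  have hND := nd_of hL1 hLa H hRad (κ3 := max 8 (4 * (q:ℝ))) hη hW he1f hW0 hWt hvW' hint' Z F hdim
    (by rw [hDC]; exact hDρ) hEx
    (fun e he c => ⟨_, hac _ _ (tmesh Z F) e ((sh_tmesh Z F).mono (subset_univ _)) he c⟩) hgood hEp
    hE1 (hES ()) hr hr0.ne' B (hkr.trans (min_le_left _ _)) (fun c => by linarith [hRr c]) hSc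
  exact HN hND _ _ _ _ _ _

end

end Crest.Agent.R096.Nsl_552
end

-- ▼ part R096/Zac1_447
section

/-!
Row 96 (S0127), helper447.  **EA0, accounting [Z9]**: the original core `K` against the shifted core
`K + v` (`v` in the room `Tw` of the block), with an energy bound `B` (no pointwise bound) on
`K \ (K + v)`.
-/

set_option autoImplicit false
set_option linter.style.longLine false
set_option linter.unusedSectionVars false
set_option linter.unusedVariables false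

open MeasureTheory Set Filter Topology Metric
open scoped ENNReal NNReal

namespace Crest.Agent.R096.Zac_447

open Crest.Agent.R096.SkC1_961 (E3 Hom3)
open Crest.Agent.R096.Bsp_628 Crest.Agent.R096.Brk5_582
open Crest.Agent.R096.EaX_766 (lin cbx Kor)
open Crest.Agent.R096.Mal_874 (CB)
open Crest.Agent.R096.Acc_365
open Crest.Agent.R096.Exa_365

noncomputable section

variable {p : ℝ} {Om : Set E3} {A : E3 ≃ᵃ[ℝ] E3}

section one

variable {Q : Bx (Fin 3)} {lam κ0 τ e1 : ℝ} {v : E3} {h : E3 → E3 →L[ℝ] E3}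

/-- **core clause on the original core** from the core clause on the shifted core and the energy of the
difference -/
theorem core_shiftB (hp : 1 ≤ p) (hQ : Q.Pos) (hl : 0 < lam) (hκ0 : 0 ≤ κ0)
    (hκ : ∀ k, Q.sz ≤ κ0 * Q.side k) (hτ : 0 ≤ τ) (hv : ∀ k, |lin A v k| ≤ τ * (lam * Q.sz))
    (he1 : 0 ≤ e1)
    (hcore : ∫⁻ x in K2 A Q lam v, ‖h x - lam⁻¹ • lin A‖ₑ ^ p ≤
      ENNReal.ofReal e1 * (‖lin A‖ₑ ^ p * volume (K2 A Q lam v))) {B : ℝ≥0∞}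
    (hin : ∫⁻ x in K1 A Q lam \ K2 A Q lam v, ‖h x‖ₑ ^ p ≤ B) :
    ∫⁻ x in K1 A Q lam, ‖h x - lam⁻¹ • lin A‖ₑ ^ p ≤
      ENNReal.ofReal (e1 + 2 ^ (p - 1) * ((1 / lam) ^ p * (3 * κ0 * τ))) *
        (‖lin A‖ₑ ^ p * volume (K1 A Q lam)) + ENNReal.ofReal (2 ^ (p - 1)) * B := by
  have hp0 : 0 ≤ p := zero_le_one.trans hp
  have hll : ‖(0 : E3 →L[ℝ] E3) - lam⁻¹ • lin A‖ₑ = ENNReal.ofReal (1 / lam) * ‖lin A‖ₑ := by
    rw [zero_sub, enorm_neg, enorm_smul, one_div, ← Real.enorm_of_nonneg (inv_nonneg.2 hl.le)]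
  have h1 : ∫⁻ x in K1 A Q lam \ K2 A Q lam v, ‖h x - lam⁻¹ • lin A‖ₑ ^ p ≤
      ENNReal.ofReal (2 ^ (p - 1)) * B +
        ENNReal.ofReal (2 ^ (p - 1) * ((1 / lam) ^ p * (3 * κ0 * τ))) *
          (‖lin A‖ₑ ^ p * volume (K1 A Q lam)) := by
    have h2 := energy_shift hp (h := h) (a := 0) (b := lam⁻¹ • lin A)
      (S := K1 A Q lam \ K2 A Q lam v) (T := K1 A Q lam \ K2 A Q lam v) subset_rfl
    simp only [sub_zero] at h2
    refine h2.trans ?_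
    rw [hll, ENNReal.mul_rpow_of_nonneg _ _ hp0, ENNReal.ofReal_rpow_of_nonneg (by positivity) hp0,
      mul_add]
    refine add_le_add (mul_le_mul_right hin _) ?_
    calc ENNReal.ofReal (2 ^ (p - 1)) * (ENNReal.ofReal ((1 / lam) ^ p) * ‖lin A‖ₑ ^ p *
            volume (K1 A Q lam \ K2 A Q lam v))
          ≤ ENNReal.ofReal (2 ^ (p - 1)) * (ENNReal.ofReal ((1 / lam) ^ p) * ‖lin A‖ₑ ^ p *
            (ENNReal.ofReal (3 * κ0 * τ) * volume (K1 A Q lam))) := by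
            gcongr; exact (vol_shift hQ hl hκ0 hκ hτ hv).1
        _ = ENNReal.ofReal (2 ^ (p - 1) * ((1 / lam) ^ p * (3 * κ0 * τ))) *
            (‖lin A‖ₑ ^ p * volume (K1 A Q lam)) := by
            rw [ENNReal.ofReal_mul (p := 2 ^ (p - 1)) (by positivity),
              ENNReal.ofReal_mul (p := (1 / lam) ^ p) (by positivity)]
            ring
  calc ∫⁻ x in K1 A Q lam, ‖h x - lam⁻¹ • lin A‖ₑ ^ p
      ≤ ∫⁻ x in K2 A Q lam v ∪ (K1 A Q lam \ K2 A Q lam v), ‖h x - lam⁻¹ • lin A‖ₑ ^ p := by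
        refine lintegral_mono_set fun x hx => ?_
        by_cases hx2 : x ∈ K2 A Q lam v
        · exact Or.inl hx2
        · exact Or.inr ⟨hx, hx2⟩
    _ ≤ (∫⁻ x in K2 A Q lam v, ‖h x - lam⁻¹ • lin A‖ₑ ^ p) +
          ∫⁻ x in K1 A Q lam \ K2 A Q lam v, ‖h x - lam⁻¹ • lin A‖ₑ ^ p := lintegral_union_le _ _ _
    _ ≤ ENNReal.ofReal e1 * (‖lin A‖ₑ ^ p * volume (K1 A Q lam)) +
          (ENNReal.ofReal (2 ^ (p - 1)) * B +
        ENNReal.ofReal (2 ^ (p - 1) * ((1 / lam) ^ p * (3 * κ0 * τ))) *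
          (‖lin A‖ₑ ^ p * volume (K1 A Q lam))) := by
        gcongr
        rw [volume_K2] at hcore
        exact hcore
    _ = _ := by
        rw [ENNReal.ofReal_add he1 (by positivity), add_mul]
        ring

/-- **energy of the part of the shifted core outside the original core** -/
theorem zone_shiftB (hp : 1 ≤ p) (hQ : Q.Pos) (hl : 0 < lam) (hκ0 : 0 ≤ κ0)
    (hκ : ∀ k, Q.sz ≤ κ0 * Q.side k) (hτ : 0 ≤ τ) (hv : ∀ k, |lin A v k| ≤ τ * (lam * Q.sz))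
    (he1 : 0 ≤ e1)
    (hcore : ∫⁻ x in K2 A Q lam v, ‖h x - lam⁻¹ • lin A‖ₑ ^ p ≤
      ENNReal.ofReal e1 * (‖lin A‖ₑ ^ p * volume (K2 A Q lam v))) :
    ∫⁻ x in K2 A Q lam v \ K1 A Q lam, ‖h x‖ₑ ^ p ≤
      ENNReal.ofReal (2 ^ (p - 1) * (e1 + (1 / lam) ^ p * (3 * κ0 * τ))) *
        (‖lin A‖ₑ ^ p * volume (K1 A Q lam)) := by
  have h1 := zone_energy (W := K2 A Q lam v) hp hQ hl hκ0 hκ hτ hv (C1 := 0) le_rfl he1
    (measurableSet_K2 A Q lam v) hcore (by rw [sdiff_self, Measure.restrict_empty]; simp)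
  rw [Real.zero_rpow (by linarith), ENNReal.ofReal_zero, zero_mul, zero_add] at h1
  exact h1

end one

/-- the data of the accounting with shifted cores -/
structure ShiftD (p c0 κ0 τ e1 : ℝ) (F : Set (Bx (Fin 3))) (X : Set F) (A : F → E3 ≃ᵃ[ℝ] E3)
    (lam : F → ℝ) (v : F → E3) (g : E3 → E3 →L[ℝ] E3) : Prop where
  cnt : F.Countable
  pos : ∀ c ∈ X, c.1.Pos
  asp : ∀ c ∈ X, ∀ k, c.1.sz ≤ κ0 * c.1.side k
  hc0 : 0 < c0
  hκ0 : 0 ≤ κ0
  hτ : 0 ≤ τ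
  he1 : 0 ≤ e1
  hlam : ∀ c ∈ X, c0 ≤ lam c
  shift : ∀ c ∈ X, ∀ k, |lin (A c) (v c) k| ≤ τ * (lam c * c.1.sz)
  core : ∀ c ∈ X, ∫⁻ x in K2 (A c) c.1 (lam c) (v c), ‖g x - (lam c)⁻¹ • lin (A c)‖ₑ ^ p ≤
    ENNReal.ofReal e1 * (‖lin (A c)‖ₑ ^ p * volume (K2 (A c) c.1 (lam c) (v c)))

/-- the constants of `SHIFT` -/
def Score (p c0 κ0 τ e1 : ℝ) : ℝ := e1 + 2 ^ (p - 1) * ((1 / c0) ^ p * (3 * κ0 * τ))

def Szone (p c0 κ0 τ e1 : ℝ) : ℝ := 2 ^ (p - 1) * (e1 + (1 / c0) ^ p * (3 * κ0 * τ))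

variable {c0 κ0 τ e1 : ℝ} {F : Set (Bx (Fin 3))} {X : Set F}
  {A : F → E3 ≃ᵃ[ℝ] E3} {lam : F → ℝ} {v : F → E3} {g : E3 → E3 →L[ℝ] E3}

/-- **core clause** -/
theorem ShiftD.core1 (hp : 1 ≤ p) (H : ShiftD p c0 κ0 τ e1 F X A lam v g) {c : F} (hc : c ∈ X)
    {B : ℝ≥0∞} (hin : ∫⁻ x in Kor F A lam c \ K2 (A c) c.1 (lam c) (v c), ‖g x‖ₑ ^ p ≤ B) :
    ∫⁻ x in Kor F A lam c, ‖g x - (lam c)⁻¹ • lin (A c)‖ₑ ^ p ≤
      ENNReal.ofReal (Score p c0 κ0 τ e1) * (‖lin (A c)‖ₑ ^ p * volume (Kor F A lam c)) +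
        ENNReal.ofReal (2 ^ (p - 1)) * B := by
  have hl : 0 < lam c := H.hc0.trans_le (H.hlam c hc)
  refine (core_shiftB hp (H.pos c hc) hl H.hκ0 (H.asp c hc) H.hτ (H.shift c hc) H.he1
    (H.core c hc) hin).trans ?_
  change _ ≤ ENNReal.ofReal (Score p c0 κ0 τ e1) *
    (‖lin (A c)‖ₑ ^ p * volume (K1 (A c) c.1 (lam c))) + _
  have h2 : (1 / lam c) ^ p ≤ (1 / c0) ^ p :=
    Real.rpow_le_rpow (by positivity) (one_div_le_one_div_of_le H.hc0 (H.hlam c hc))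
      (zero_le_one.trans hp)
  have h3 := H.hκ0
  have h4 := H.hτ
  unfold Score
  gcongr

theorem ShiftD.zone1 (hp : 1 ≤ p) (H : ShiftD p c0 κ0 τ e1 F X A lam v g) {c : F} (hc : c ∈ X) :
    ∫⁻ x in K2 (A c) c.1 (lam c) (v c) \ Kor F A lam c, ‖g x‖ₑ ^ p ≤
      ENNReal.ofReal (Szone p c0 κ0 τ e1) * (‖lin (A c)‖ₑ ^ p * volume (Kor F A lam c)) := by
  have hl : 0 < lam c := H.hc0.trans_le (H.hlam c hc)
  refine (zone_shiftB hp (H.pos c hc) hl H.hκ0 (H.asp c hc) H.hτ (H.shift c hc) H.he1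
    (H.core c hc)).trans ?_
  change _ ≤ ENNReal.ofReal (Szone p c0 κ0 τ e1) * (‖lin (A c)‖ₑ ^ p * volume (K1 (A c) c.1 (lam c)))
  have h2 : (1 / lam c) ^ p ≤ (1 / c0) ^ p :=
    Real.rpow_le_rpow (by positivity) (one_div_le_one_div_of_le H.hc0 (H.hlam c hc))
      (zero_le_one.trans hp)
  have h3 := H.hκ0
  have h4 := H.hτ
  unfold Szone
  gcongr


/-- **energy off the original cores from the energy off the shifted cores** -/
theorem ShiftD.acc (hp : 1 ≤ p) (H : ShiftD p c0 κ0 τ e1 F X A lam v g) {J0 : ℝ≥0∞}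
    (hout : ∫⁻ x in Om \ ⋃ c ∈ X, K2 (A c) c.1 (lam c) (v c), ‖g x‖ₑ ^ p ≤ J0) :
    ∫⁻ x in Om \ ⋃ c ∈ X, Kor F A lam c, ‖g x‖ₑ ^ p ≤
      J0 + ENNReal.ofReal (Szone p c0 κ0 τ e1) *
        (∑' c : X, (1 + ‖lin (A c)‖ₑ ^ p) * volume (Kor F A lam c)) := by
  classical
  have : Countable F := H.cnt.to_subtype
  set Z : X → Set E3 := fun c => K2 (A c) c.1.1 (lam c) (v c) \ Kor F A lam c with hZ
  have hsub : Om \ ⋃ c ∈ X, Kor F A lam c ⊆
      (Om \ ⋃ c ∈ X, K2 (A c) c.1 (lam c) (v c)) ∪ ⋃ c : X, Z c := by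
    rintro x ⟨hx1, hx2⟩
    by_cases hx3 : x ∈ ⋃ c ∈ X, K2 (A c) c.1 (lam c) (v c)
    · simp only [mem_iUnion] at hx3
      obtain ⟨c, hc, hxc⟩ := hx3
      refine Or.inr (mem_iUnion.2 ⟨⟨c, hc⟩, hxc, fun h => hx2 ?_⟩)
      exact mem_iUnion₂.2 ⟨c, hc, h⟩
    · exact Or.inl ⟨hx1, hx3⟩
  calc ∫⁻ x in Om \ ⋃ c ∈ X, Kor F A lam c, ‖g x‖ₑ ^ p
      ≤ ∫⁻ x in (Om \ ⋃ c ∈ X, K2 (A c) c.1 (lam c) (v c)) ∪ ⋃ c : X, Z c, ‖g x‖ₑ ^ p :=
        lintegral_mono_set hsub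
    _ ≤ (∫⁻ x in Om \ ⋃ c ∈ X, K2 (A c) c.1 (lam c) (v c), ‖g x‖ₑ ^ p) +
          ∫⁻ x in ⋃ c : X, Z c, ‖g x‖ₑ ^ p := lintegral_union_le _ _ _
    _ ≤ J0 + ∑' c : X, ∫⁻ x in Z c, ‖g x‖ₑ ^ p := add_le_add hout (lintegral_iUnion_le _ _)
    _ ≤ J0 + ∑' c : X, ENNReal.ofReal (Szone p c0 κ0 τ e1) *
            ((1 + ‖lin (A c)‖ₑ ^ p) * volume (Kor F A lam c)) := by
        gcongr with c
        refine (H.zone1 hp c.2).trans ?_
        gcongr
        exact le_add_self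
    _ = _ := by rw [ENNReal.tsum_mul_left]

/-- **the constants are as small as we like** -/
theorem shift_choice (p : ℝ) {c0 κ0 e : ℝ} (hc0 : 0 < c0) (hκ0 : 0 ≤ κ0) (he : 0 < e) :
    ∃ e1 τ0 : ℝ, 0 < e1 ∧ 0 < τ0 ∧ ∀ τ, 0 ≤ τ → τ ≤ τ0 →
      Score p c0 κ0 τ e1 ≤ e ∧ Szone p c0 κ0 τ e1 ≤ e := by
  set P : ℝ := 2 ^ (p - 1) with hP
  have hPp : 0 < P := Real.rpow_pos_of_pos (by norm_num) _
  set b : ℝ := (1 / c0) ^ p with hb
  have hb0 : 0 < b := Real.rpow_pos_of_pos (by positivity) _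
  refine ⟨min (e / 2) (e / (2 * P)), e / (2 * (P * (b * (3 * κ0)) + 1)), by positivity,
    by positivity, fun τ h0 h1 => ?_⟩
  have h2 : P * (b * (3 * κ0 * τ)) ≤ e / 2 := by
    have h3 : 0 ≤ P * (b * (3 * κ0)) := by positivity
    calc P * (b * (3 * κ0 * τ)) = P * (b * (3 * κ0)) * τ := by ring
      _ ≤ P * (b * (3 * κ0)) * (e / (2 * (P * (b * (3 * κ0)) + 1))) := by gcongr
      _ ≤ e / 2 := by
          rw [mul_div_assoc', div_le_div_iff₀ (by positivity) (by norm_num)]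
          nlinarith
  have h3 : P * min (e / 2) (e / (2 * P)) ≤ e / 2 := by
    calc P * min (e / 2) (e / (2 * P)) ≤ P * (e / (2 * P)) := by
          gcongr; exact min_le_right _ _
      _ = e / 2 := by field_simp
  constructor
  · unfold Score
    rw [← hP, ← hb]
    have := min_le_left (e / 2) (e / (2 * P))
    linarith
  · unfold Szone
    rw [← hP, ← hb, mul_add]
    linarith

/-- the shifts of the room `Tw` are small in the coordinates `A` -/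
theorem shift_small {F : Set (Bx (Fin 3))} {u Cc κ2 κt : ℝ} {Bs M Nn : ℕ} {c : F} {A : E3 ≃ᵃ[ℝ] E3}
    {lam : ℝ} {Q : CB E3 3} {k0 : ℕ} {hk : Q.kc ≤ k0}
    (hB : Ea0_961.Blk F u Cc κ2 κt Bs M Nn c A lam Q k0 hk) (hu : 0 < u) (hκt : 0 < κt) {w : E3}
    (hw : w ∈ Ea0_961.Tw Q k0) (k : Fin 3) :
    |lin A w k| ≤ κt / 10 * (lam * c.1.sz) ∧ |lin A w k| ≤ u / (10 * 2 ^ k0) := by
  have h1 : lin A w k = u * Q.ψ w k := by
    have h := hB.lin_eq w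
    change A.linear w k = _
    rw [h]
    rfl
  obtain ⟨h2, h3⟩ := hw k
  have hp : (0 : ℝ) < 2 ^ k0 := by positivity
  have h4 : |lin A w k| ≤ u / (10 * 2 ^ k0) := by
    rw [h1, abs_of_nonneg (mul_nonneg hu.le h2)]
    calc u * Q.ψ w k ≤ u * (1 / (10 * 2 ^ k0)) := by gcongr
      _ = _ := by ring
  refine ⟨h4.trans ?_, h4⟩
  have h5 := hB.thin
  have h6 : 0 < u / 2 ^ k0 := by positivity
  have h7 : 0 < κt * (lam * c.1.sz) / M := h6.trans_le h5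
  have hM : (0 : ℝ) < M := by
    rcases Nat.eq_zero_or_pos M with h | h
    · rw [h, Nat.cast_zero, div_zero] at h7
      exact absurd h7 (lt_irrefl _)
    · exact_mod_cast h
  have hM1 : (1 : ℝ) ≤ M := by
    have : 0 < M := by exact_mod_cast hM
    exact_mod_cast this
  have h8 : 0 < κt * (lam * c.1.sz) := by
    have := mul_pos h7 hM
    rwa [div_mul_cancel₀ _ hM.ne'] at this
  calc u / (10 * 2 ^ k0) = (u / 2 ^ k0) / 10 := by rw [mul_comm (10:ℝ), div_div]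
    _ ≤ (κt * (lam * c.1.sz) / M) / 10 := by gcongr
    _ ≤ (κt * (lam * c.1.sz)) / 10 := by
        gcongr
        exact div_le_self h8.le hM1
    _ = _ := by ring

end

end Crest.Agent.R096.Zac_447
end

-- ▼ part R096/Ez1_961
section

/-!
Row 96 (S0127), helper961.  **[E15]**: energy of a set of ordinary tiles off the macro balls from
`Res.lip` (errors per tile, chosen before `g`): no global `ε`, so usable for infinitely many blocks.
-/

set_option autoImplicit false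
set_option linter.style.longLine false

open Set Metric Filter Topology MeasureTheory Module
open scoped ENNReal NNReal

namespace Crest.Agent.R096.Ez_961

open Crest.Agent.R096.Msh_715
open Crest.Agent.R096.SkC1_961 (FoamD Cfg NN Hom3 E3)
open Crest.Agent.R096.Mbf_337
open Crest.Agent.R096.Ls_222 (Edg eIn finite_tiles_edg)
open Crest.Agent.R96.EaCore_348 (bt EE Ord Res)

noncomputable section

variable {δ κ0 R c0 : ℝ} {La Om : Set E3} {ι : Type}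

/-- pointwise bounds on tiles give energies -/
theorem lint_split {T : Tiling Om ι} {Q : Set ι} {h : E3 → ℝ≥0∞} {b η w : ι → ℝ≥0∞} {p : ℝ}
    (hp : 1 ≤ p) (hη : ∀ i, volume (P (T.H i)) * η i ^ p ≤ w i)
    (hb : ∀ i ∈ Q, ∀ x ∈ I (T.H i), h x ≤ b i + η i) :
    ∫⁻ x in ⋃ i ∈ Q, P (T.H i), h x ^ p ≤
      2 ^ (p - 1) * (∑' i : Q, volume (P (T.H i.1)) * b i ^ p + ∑' i : Q, w i) := by
  have hp0 : 0 ≤ p := zero_le_one.trans hp
  have h1 := Crest.Agent.R096.Ea_713.lint_tiles volume T Q (w := fun x => h x ^ p)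
    (c := fun i => (b i + η i) ^ p) fun i hi x hx => ENNReal.rpow_le_rpow (hb i hi x hx) hp0
  refine h1.trans ?_
  rw [← ENNReal.tsum_add, ← ENNReal.tsum_mul_left]
  refine ENNReal.tsum_le_tsum fun i => ?_
  calc (b i + η i) ^ p * volume (P (T.H i.1))
      ≤ (2 ^ (p - 1) * (b i ^ p + η i ^ p)) * volume (P (T.H i.1)) :=
        mul_le_mul' (ENNReal.rpow_add_le_mul_rpow_add_rpow _ _ hp) le_rfl
    _ = 2 ^ (p - 1) * (volume (P (T.H i.1)) * b i ^ p + volume (P (T.H i.1)) * η i ^ p) := by ring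
    _ ≤ _ := by
        gcongr
        exact hη i

/-- the errors per tile -/
theorem exists_eta0 (T : Tiling Om ι) {p : ℝ} (hp : 1 ≤ p) {w : ι → ℝ≥0∞} (hw : ∀ i, w i ≠ 0) :
    ∃ η : ι → ℝ≥0∞, (∀ i, η i ≠ 0) ∧ ∀ i, volume (P (T.H i)) * η i ^ p ≤ w i := by
  have hp0 : 0 < p := lt_of_lt_of_le zero_lt_one hp
  have hv : ∀ i, volume (P (T.H i)) + 1 ≠ ∞ := fun i =>
    ENNReal.add_ne_top.2 ⟨(T.cpt i).measure_lt_top.ne, ENNReal.one_ne_top⟩
  refine ⟨fun i => (w i / (volume (P (T.H i)) + 1)) ^ (1 / p), fun i => ?_, fun i => ?_⟩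
  · have h1 : 0 < w i / (volume (P (T.H i)) + 1) := ENNReal.div_pos (hw i) (hv i)
    exact (ENNReal.rpow_pos_of_nonneg h1 (by positivity)).ne'
  · rw [← ENNReal.rpow_mul, one_div, inv_mul_cancel₀ hp0.ne', ENNReal.rpow_one]
    calc volume (P (T.H i)) * (w i / (volume (P (T.H i)) + 1))
        ≤ (volume (P (T.H i)) + 1) * (w i / (volume (P (T.H i)) + 1)) := by
          gcongr
          exact le_self_add
      _ ≤ w i := ENNReal.mul_div_le


/-- weights with small sums on disjoint sets -/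
theorem exists_w {κ : Type*} [Countable ι] {Qc : κ → Set ι} (hd : Pairwise (Function.onFun Disjoint Qc))
    {ε : κ → ℝ≥0∞} (hε : ∀ c, ε c ≠ 0) :
    ∃ w : ι → ℝ≥0∞, (∀ i, w i ≠ 0) ∧ ∀ c, ∑' i : Qc c, w i ≤ ε c := by
  classical
  obtain ⟨u, hu0, hu⟩ := ENNReal.exists_pos_sum_of_countable' (ε := 1) one_ne_zero ι
  set w : ι → ℝ≥0∞ := fun i => if h : ∃ c, i ∈ Qc c then u i * min (ε h.choose) 1 else 1 with hw
  refine ⟨w, fun i => ?_, fun c => ?_⟩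
  · simp only [hw]
    split_ifs with h
    · exact mul_ne_zero (hu0 i).ne' (lt_min (pos_iff_ne_zero.2 (hε _)) zero_lt_one).ne'
    · exact one_ne_zero
  · have h1 : ∀ i : Qc c, w i = u i * min (ε c) 1 := by
      intro i
      have h : ∃ c, i.1 ∈ Qc c := ⟨c, i.2⟩
      have h2 : h.choose = c := by
        by_contra hne
        exact Set.disjoint_left.1 (hd hne) h.choose_spec i.2
      simp only [hw]
      rw [dif_pos h, h2]
    calc ∑' i : Qc c, w i = ∑' i : Qc c, u i * min (ε c) 1 := tsum_congr h1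
      _ = (∑' i : Qc c, u i) * min (ε c) 1 := ENNReal.tsum_mul_right
      _ ≤ 1 * ε c := by
          refine mul_le_mul' ?_ (min_le_left _ _)
          exact (ENNReal.tsum_comp_le_tsum_of_injective Subtype.val_injective u).trans hu.le
      _ = ε c := one_mul _

end

end Crest.Agent.R096.Ez_961
end

-- ▼ part R96/Ea0q_348

/-!
# R96, EA0 (helper348), part 2: `MachBF → Pre0 p → EA0 p`
-/

set_option autoImplicit false
set_option linter.style.longLine false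
set_option linter.unusedSectionVars false

open MeasureTheory Set Filter Topology Metric
open scoped ENNReal NNReal

namespace Crest.Agent.R96.Ea0p_348

open Crest.Agent.R096.SkC1_961 (E3 Hom3 FoamD)
open Crest.Agent.R096.Er_594 (SH3)
open Crest.Agent.R096.Bsp_628 Crest.Agent.R096.Brk5_582
open Crest.Agent.R096.EaX_766 (lin cbx Kor)
open Crest.Agent.R096.Acc_365
open Crest.Agent.R096.Msh_715 (Tiling P I)
open Crest.Agent.R096.Mal_874 (CB)
open Crest.Agent.R096.Ls_222 (Edg)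
open Crest.Agent.R096.Ea0_961 (Blk InS Tw Ly)
open Crest.Agent.R96.EaCore_348 (EE Ord Macro ea_one Kea)
open Crest.Agent.R96.EaPost_348 (Geo)
open Crest.Agent.R96.Pm_199 (Dec)
open Crest.Agent.R096.Pmc_112 (PreOut)
open Crest.Agent.R96.EaP_899 (XD fX cm)
open Crest.Agent.R096.Mbf_337 (MachBF Star)
open Crest.Agent.R096.Zac_447
open Crest.Agent.R096.Ez_961
open Crest.Agent.R096.Eau_365 (exists_em kea_ne_top arith4)

noncomputable section

/-- the linear part of an affine equivalence is not zero -/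
theorem enorm_lin_ne (A : E3 ≃ᵃ[ℝ] E3) : ‖lin A‖ₑ ≠ 0 := by
  intro h'
  rw [← ofReal_norm, ENNReal.ofReal_eq_zero] at h'
  have h : lin A = 0 := norm_le_zero_iff.1 h'
  have h1 : ∀ x : E3, A.linear x = 0 := fun x => by
    have : lin A x = 0 := by rw [h]; rfl
    exact this
  have h2 : (Pi.single 0 1 : E3) = 0 := A.linear.injective (by rw [h1, h1])
  have := congrFun h2 0
  simp at this

/-- the core has positive volume -/
theorem vol_kor_ne {F : Set (Bx (Fin 3))} (A : F → E3 ≃ᵃ[ℝ] E3) {lam : F → ℝ} {c : F}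
    (hc : c.1.Pos) (hl : 0 < lam c) : volume (Kor F A lam c) ≠ 0 := by
  have h1 : Kor F A lam c = K1 (A c) c.1 (lam c) := rfl
  rw [h1, volume_K1 hc hl.le, Ne, ENNReal.ofReal_eq_zero, not_le]
  have hdet : (lin (A c)).det ≠ 0 := by
    have h2 : (lin (A c)).det = LinearMap.det ((A c).linear : E3 →ₗ[ℝ] E3) := rfl
    rw [h2]
    exact (LinearEquiv.isUnit_det' (A c).linear).ne_zero
  refine mul_pos (inv_pos.2 (abs_pos.2 hdet)) (Finset.prod_pos fun k _ => mul_pos hl ?_)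
  have := hc k
  show 0 < c.1.side k
  unfold Bx.side
  linarith

/-- the factor `2 ^ (p - 1)` -/
def P2 (p : ℝ) : ℝ≥0 := (2 : ℝ≥0) ^ (p - 1)

theorem P2_coe (p : ℝ) : ((P2 p : ℝ≥0) : ℝ≥0∞) = 2 ^ (p - 1) := by
  unfold P2
  rw [ENNReal.coe_rpow_of_ne_zero (by norm_num)]
  rfl

theorem P2_real (p : ℝ) : ENNReal.ofReal (2 ^ (p - 1)) = ((P2 p : ℝ≥0) : ℝ≥0∞) := by
  rw [P2_coe, ← ENNReal.ofReal_rpow_of_pos (by norm_num)]
  norm_num

/-- **`MachBF → Pre0 p → EA0 p`** -/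
theorem ea0_of_pre {p : ℝ} (hp : 1 ≤ p) (hp3 : p < 3) (HM : MachBF) (HP : Pre0 p) :
    Crest.Agent.R096.Ea0_961.EA0 p := by
  classical
  intro δ κ0 R c0 κ2 Cc Bs hδ hκ0 hR hc0 hcκ hκ2 hκ2' hCc hBs
  have hp0 : 0 < p := by linarith
  have hcm : 0 < cm κ0 c0 := Crest.Agent.R96.EaP_899.cm_pos hκ0 hc0
  obtain ⟨C0, C, hC0, hC, HM⟩ := ea_one HM hδ hκ0 hR hcm (κ2 := κ2 / 2) (by positivity)
    (κ3 := 8) le_rfl
  obtain ⟨C1, HP⟩ := HP δ κ0 R c0 κ2 Cc Bs hδ hκ0 hR hc0 hcκ hκ2 hκ2' hCc hBs C hC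
  set KK : ℝ≥0 := (Kea p 1 * 2 ^ (p - 1)).toNNReal with hKK
  have hKKe : ((KK : ℝ≥0) : ℝ≥0∞) = Kea p 1 * 2 ^ (p - 1) :=
    ENNReal.coe_toNNReal (kea_ne_top p 1 hp)
  set BB : ℝ≥0 := ((C0 + 1) * R).toNNReal with hBB
  have hBpos : 0 < (C0 + 1) * R := by positivity
  have hBe : (BB : ℝ) = (C0 + 1) * R := Real.coe_toNNReal _ hBpos.le
  set K4 : ℝ≥0 := P2 p * P2 p with hK4
  refine ⟨(KK + K4) * C1 + BB, add_pos_of_nonneg_of_pos (by positivity)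
    (Real.toNNReal_pos.2 hBpos), ?_⟩
  intro e he lam1 hlam1
  obtain ⟨e1, τ, he1, hτ, hsc⟩ := shift_choice p (c0 := c0) (κ0 := κ0) (e := e / 2) hc0
    (by linarith) (by positivity)
  obtain ⟨em, hem, hem1⟩ := exists_em p hp hC0 hc0 he1
  obtain ⟨κp, κ1', hκp, hκp1, hκ1', hκ12, HM⟩ := HM em hem
  obtain ⟨κ1, hκ1, M0, HP⟩ := HP κp κ1' τ lam1 hκp hκp1 hκ1' hκ12 hτ hlam1
  refine ⟨κ1, hκ1, M0, fun M hM => ?_⟩
  obtain ⟨κw, hκw, HP⟩ := HP M hM
  refine ⟨κw, hκw, fun Nn => ?_⟩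
  obtain ⟨CA, κt, hκt, hκtτ, HP⟩ := HP Nn
  refine ⟨(KK + K4) * CA, κt, hκt, ?_⟩
  intro Om La f D hO hOb hOc hLa hLb hLc hSH u hu F bf cmp hst X A lam Q k0 hk er hlam hB hIn
    e' he'
  -- the small numbers
  obtain ⟨ε, hε0, hεe⟩ := arith4 (KK := KK) he'
  have hpos : ∀ c : F, c.1.Pos := fun c => bf.pos c.1 c.2
  set tn : F → ℝ≥0∞ := fun c =>
    (ENNReal.ofReal (e / 2) * (‖lin (A c)‖ₑ ^ p * volume (Kor F A lam c))) / (2 * K4 + 1) with htn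
  have hden : (2 * K4 + 1 : ℝ≥0∞) ≠ ∞ := ENNReal.add_ne_top.2
    ⟨ENNReal.mul_ne_top (by norm_num) ENNReal.coe_ne_top, ENNReal.one_ne_top⟩
  have htn0 : ∀ c ∈ X, tn c ≠ 0 := by
    intro c hc
    have hl : 0 < lam c := hc0.trans_le (hlam c hc).1
    rw [htn]
    refine (ENNReal.div_pos ?_ hden).ne'
    refine mul_ne_zero (ENNReal.ofReal_pos.2 (by positivity)).ne' (mul_ne_zero ?_
      (vol_kor_ne A (hpos c) hl))
    exact (ENNReal.rpow_pos_of_nonneg (pos_iff_ne_zero.2 (enorm_lin_ne (A c))) hp0.le).ne'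
  have htn1 : ∀ c, (K4 : ℝ≥0∞) * (tn c + tn c) ≤
      ENNReal.ofReal (e / 2) * (‖lin (A c)‖ₑ ^ p * volume (Kor F A lam c)) := by
    intro c
    calc (K4 : ℝ≥0∞) * (tn c + tn c) = (2 * K4) * tn c := by ring
      _ ≤ (2 * K4 + 1) * tn c := by gcongr; exact le_self_add
      _ ≤ _ := ENNReal.mul_div_le
  obtain ⟨z, H, Dd, l, v, κ, x₀, R0, R1, b, Qb, h1, h2, h3, h5, h6, h7, h8⟩ :=
    HP Om La f D hO hOb hOc hLa hLb hLc hSH u hu F bf cmp hst X A lam Q k0 hk er hlam hB hIn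
      ε hε0 tn htn0
  have hstar : Star (fX bf cmp H) := Crest.Agent.R096.Sta_161.star_of_starF
    (fun c => by
      obtain ⟨S, g1, g2, g3, g4⟩ := hst c.1 c.2
      exact ⟨S, g1, g2, g3, fun c' hc' => g4 c'.1 c'.2 hc'⟩)
  -- weights of the tiles
  have : Countable Dd.ι := Crest.Agent.R096.Ea_713.countable_ix Dd.T
  obtain ⟨w, hw0, hw⟩ := exists_w (ι := Dd.ι) (κ := X) (Qc := fun c => Qb c.1)
    (fun c c' hcc => h7 c.1 c.2 c'.1 c'.2 fun e => hcc (Subtype.ext e))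
    (ε := fun c => tn c.1) (fun c => htn0 c.1 c.2)
  obtain ⟨η, hη0, hη⟩ := exists_eta0 Dd.T hp hw0
  obtain ⟨ρ', g, hg, hgn⟩ := HM Om La f hO hOb hOc hLa hLb hLc hSH.homeo (fX bf cmp H) hstar X Dd l
    κ1' le_rfl h1 κ x₀ R0 R1 b 1 one_pos h2 h3 p hp (Or.inl hp3) ε hε0 η hη0
  -- the accounting
  have hG : ShiftD p c0 κ0 (κt / 10) e1 F X A lam v (fun x => fderiv ℝ g x) :=
    { cnt := bf.countable
      pos := fun c _ => hpos c
      asp := fun c _ k => bf.asp c.1 c.2 k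
      hc0 := hc0
      hκ0 := by linarith
      hτ := by positivity
      he1 := he1.le
      hlam := fun c hc => (hlam c hc).1
      shift := fun c hc k => (shift_small (hB c hc) hu hκt (h5 c hc).2.2.2 k).1
      core := fun c hc => by
        obtain ⟨g1, g2, g3, -⟩ := h5 c hc
        have g5 := hg.core c hc
        have g6 : Crest.Agent.R096.Ea_713.lin (Dd.A c) = lin (A c) := g3
        rw [g1, g2, g6, one_div] at g5
        refine g5.trans ?_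
        rw [← mul_assoc]
        gcongr
        rw [← ofReal_norm, ENNReal.ofReal_rpow_of_nonneg (norm_nonneg _) hp0.le,
          ← ENNReal.ofReal_mul he1.le]
        apply ENNReal.ofReal_le_ofReal
        have hq : 0 ≤ em ^ p + (C0 + 1) ^ p * em := by positivity
        have hl' : c0 ≤ lam c := (hlam c hc).1
        have hl0 : 0 < lam c := hc0.trans_le hl'
        calc (em ^ p + (C0 + 1) ^ p * em) * (‖lin (A c)‖ / lam c) ^ p
            ≤ (em ^ p + (C0 + 1) ^ p * em) * (‖lin (A c)‖ / c0) ^ p := by gcongr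
          _ = (em ^ p + (C0 + 1) ^ p * em) / c0 ^ p * ‖lin (A c)‖ ^ p := by
              rw [Real.div_rpow (norm_nonneg _) hc0.le]
              ring
          _ ≤ e1 * ‖lin (A c)‖ ^ p := by gcongr }
  obtain ⟨hEc, hEz⟩ := hsc (κt / 10) (by positivity) (by linarith)
  refine ⟨g, hg.hom, hg.pl, ?_, ?_, ?_⟩
  · intro x hx c hc
    refine (hgn x hx c hc).trans ?_
    have hs : 0 ≤ c.1.sz := (Bx.sz_pos (hpos c)).le
    have h9 : (C0 + 1) * R ≤ (((KK + K4) * C1 + BB : ℝ≥0) : ℝ) := by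
      rw [NNReal.coe_add, hBe]
      have : 0 ≤ (((KK + K4) * C1 : ℝ≥0) : ℝ) := NNReal.coe_nonneg _
      linarith
    exact mul_le_mul_of_nonneg_right h9 hs
  · have hun : (⋃ i ∈ Dd.ct '' X, P (Dd.T.H i)) = ⋃ c ∈ X, K2 (A c) c.1 (lam c) (v c) := by
      ext x
      simp only [mem_iUnion, mem_image, exists_prop]
      constructor
      · rintro ⟨i, ⟨c, hc, rfl⟩, hx⟩
        exact ⟨c, hc, by rw [← (h5 c hc).1]; exact hx⟩
      · rintro ⟨c, hc, hx⟩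
        exact ⟨_, ⟨c, hc, rfl⟩, by rw [(h5 c hc).1]; exact hx⟩
    have h9 := (show ∫⁻ x in Om \ ⋃ i ∈ Dd.ct '' X, P (Dd.T.H i), ‖fderiv ℝ g x‖ₑ ^ p ≤
      Kea p 1 * 2 ^ (p - 1) * EE C Dd.T Dd.fr (Ord (Φ := fX bf cmp H) Dd.V) l p + ε from hg.energy)
    rw [show (Om \ ⋃ i ∈ Dd.ct '' X, P (Dd.T.H i)) =
      Om \ ⋃ c ∈ X, K2 (A c) c.1 (lam c) (v c) by rw [hun], ← hKKe] at h9
    refine (hG.acc hp (Om := Om) (J0 := _) h9).trans ?_
    have h10 : (KK : ℝ≥0∞) * EE C Dd.T Dd.fr (Ord (Φ := fX bf cmp H) Dd.V) l p + ε ≤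
        (KK : ℝ≥0∞) * C1 * (Jn p Om D F X Q + ∑' c : X, Sn p F A lam Q c + ∑' c : X, er c) +
          (KK : ℝ≥0∞) * CA * (∑' c : X, Ln p D F Q k0 c) + e' := by
      calc (KK : ℝ≥0∞) * EE C Dd.T Dd.fr (Ord (Φ := fX bf cmp H) Dd.V) l p + ε
          ≤ (KK : ℝ≥0∞) * (C1 * (Jn p Om D F X Q + ∑' c : X, Sn p F A lam Q c + ∑' c : X, er c) +
            CA * (∑' c : X, Ln p D F Q k0 c) + ε) + ε := by gcongr
        _ = (KK : ℝ≥0∞) * C1 * (Jn p Om D F X Q + ∑' c : X, Sn p F A lam Q c + ∑' c : X, er c) +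
          (KK : ℝ≥0∞) * CA * (∑' c : X, Ln p D F Q k0 c) + (KK * ε + ε) := by ring
        _ ≤ _ := by gcongr
    have hCle : (KK : ℝ≥0∞) * C1 ≤ (((KK + K4) * C1 + BB : ℝ≥0) : ℝ≥0∞) := by
      rw [← ENNReal.coe_mul]
      exact ENNReal.coe_le_coe.2 (le_add_right (mul_le_mul' le_self_add le_rfl))
    have hCAle : (KK : ℝ≥0∞) * CA ≤ (((KK + K4) * CA : ℝ≥0) : ℝ≥0∞) := by
      rw [← ENNReal.coe_mul]
      exact ENNReal.coe_le_coe.2 (mul_le_mul' le_self_add le_rfl)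
    have hEz' : ENNReal.ofReal (Szone p c0 κ0 (κt / 10) e1) ≤ ENNReal.ofReal e :=
      ENNReal.ofReal_le_ofReal (hEz.trans (by linarith))
    refine (add_le_add h10 (mul_le_mul' hEz' le_rfl)).trans ?_
    have h11 := add_le_add (add_le_add (mul_le_mul' hCle
      (le_refl (Jn p Om D F X Q + ∑' c : X, Sn p F A lam Q c + ∑' c : X, er c)))
      (mul_le_mul' hCAle (le_refl (∑' c : X, Ln p D F Q k0 c))))
      (le_refl (ENNReal.ofReal e * (∑' c : X, (1 + ‖lin (A c)‖ₑ ^ p) * volume (Kor F A lam c)) + e'))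
    refine le_trans (le_of_eq ?_) (h11.trans (le_of_eq ?_))
    · ring
    · unfold Jn Sn Ln
      ring
  · intro c hc
    obtain ⟨g1, g2, g3, g4⟩ := h8 c hc
    have h9 : ∫⁻ x in ⋃ i ∈ Qb c, P (Dd.T.H i), ‖fderiv ℝ g x‖ₑ ^ p ≤
        2 ^ (p - 1) * (EE C Dd.T Dd.fr (Ord (Φ := fX bf cmp H) Dd.V ∩ Qb c) l p +
          ∑' i : Qb c, w i) := by
      have g6 := lint_split (T := Dd.T) (Q := Qb c) (h := fun x => ‖fderiv ℝ g x‖ₑ)
        (b := fun i => EaCore_348.bt C Dd.T Dd.fr i * ∑ e ∈ Crest.Agent.R096.Ls_222.eIn Dd.T i, l e)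
        hp hη fun i hi x hx => hg.lip i (g1 hi) x hx (g2 i hi x hx)
      refine g6.trans ?_
      rw [inter_eq_right.2 g1]
      exact le_rfl
    have h10 : ∫⁻ x in Kor F A lam c \ K2 (A c) c.1 (lam c) (v c), ‖fderiv ℝ g x‖ₑ ^ p ≤
        2 ^ (p - 1) * (C1 * (Sn p F A lam Q c + er c) + CA * Ln p D F Q k0 c + (tn c + tn c)) := by
      refine (lintegral_mono_set g3).trans (h9.trans ?_)
      refine mul_le_mul' le_rfl ?_
      have g5 : EE C Dd.T Dd.fr (Ord (Φ := fX bf cmp H) Dd.V ∩ Qb c) l p + ∑' i : Qb c, w i ≤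
          (C1 * (Sn p F A lam Q c + er c) + CA * Ln p D F Q k0 c + tn c) + tn c :=
        add_le_add g4 (hw ⟨c, hc⟩)
      refine g5.trans (le_of_eq ?_)
      ring
    have h12 := hG.core1 hp hc h10
    refine h12.trans ?_
    rw [P2_real, ← P2_coe]
    have hEc' : ENNReal.ofReal (Score p c0 κ0 (κt / 10) e1) ≤ ENNReal.ofReal (e / 2) :=
      ENNReal.ofReal_le_ofReal hEc
    have hCle : (K4 : ℝ≥0∞) * C1 ≤ (((KK + K4) * C1 + BB : ℝ≥0) : ℝ≥0∞) := by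
      rw [← ENNReal.coe_mul]
      exact ENNReal.coe_le_coe.2 (le_add_right (mul_le_mul' le_add_self le_rfl))
    have hCAle : (K4 : ℝ≥0∞) * CA ≤ (((KK + K4) * CA : ℝ≥0) : ℝ≥0∞) := by
      rw [← ENNReal.coe_mul]
      exact ENNReal.coe_le_coe.2 (mul_le_mul' le_add_self le_rfl)
    have hK4' : ((P2 p : ℝ≥0) : ℝ≥0∞) * (P2 p : ℝ≥0) = (K4 : ℝ≥0∞) := by
      rw [hK4, ENNReal.coe_mul]
    have hsplit : ENNReal.ofReal e = ENNReal.ofReal (e / 2) + ENNReal.ofReal (e / 2) := by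
      rw [← ENNReal.ofReal_add (by positivity) (by positivity)]
      congr 1
      ring
    calc ENNReal.ofReal (Score p c0 κ0 (κt / 10) e1) * (‖lin (A c)‖ₑ ^ p * volume (Kor F A lam c)) +
          (P2 p : ℝ≥0∞) * ((P2 p : ℝ≥0∞) * (C1 * (Sn p F A lam Q c + er c) +
            CA * Ln p D F Q k0 c + (tn c + tn c)))
        = ENNReal.ofReal (Score p c0 κ0 (κt / 10) e1) *
            (‖lin (A c)‖ₑ ^ p * volume (Kor F A lam c)) +
          ((K4 : ℝ≥0∞) * C1 * (Sn p F A lam Q c + er c) + (K4 : ℝ≥0∞) * CA * Ln p D F Q k0 c +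
            K4 * (tn c + tn c)) := by
          rw [← hK4']
          ring
      _ ≤ ENNReal.ofReal (e / 2) * (‖lin (A c)‖ₑ ^ p * volume (Kor F A lam c)) +
          ((((KK + K4) * C1 + BB : ℝ≥0) : ℝ≥0∞) * (Sn p F A lam Q c + er c) +
            (((KK + K4) * CA : ℝ≥0) : ℝ≥0∞) * Ln p D F Q k0 c +
            ENNReal.ofReal (e / 2) * (‖lin (A c)‖ₑ ^ p * volume (Kor F A lam c))) := by
          refine add_le_add (mul_le_mul' hEc' le_rfl) (add_le_add (add_le_add ?_ ?_) (htn1 c))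
          · exact mul_le_mul' hCle le_rfl
          · exact mul_le_mul' hCAle le_rfl
      _ = _ := by
          rw [hsplit]
          unfold Sn Ln
          ring

end

end Crest.Agent.R96.Ea0p_348
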