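import Crest.Agent.R96.Hole3_348
import Crest.Agent.R096.Sk0_962

/-!
# R96, P4-HOLE, part 4: the hole squeeze in a rotated cube of `R3` (helper348)
-/

set_option autoImplicit false

open Set Metric Filter Topology MeasureTheory

namespace Crest.Agent.R96.Hole_348

open Crest.Agent.R096.Ce_537 Crest.Agent.R096.Bd_416 Crest.Agent.R096.Sk_962
open Crest.AnalysisR.VecCalc3
open scoped Gradient

section transport

variable {E E' G : Type*} [NormedAddCommGroup E] [NormedAddCommGroup E'] [NormedAddCommGroup G]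

lemma LLV.comp {f : E → G} {φ : E' → E} {c l : ℝ} (hc : 0 ≤ c) {y : E'}
    (h : LLV c f (φ y)) (hφ : ContinuousAt φ y) (hl : LLV l φ y) :
    LLV (c * l) (fun z => f (φ z)) y := by
  filter_upwards [hφ.eventually h, hl] with z h1 h2
  calc ‖f (φ z) - f (φ y)‖ ≤ c * ‖φ z - φ y‖ := h1
    _ ≤ c * (l * ‖z - y‖) := mul_le_mul_of_nonneg_left h2 hc
    _ = _ := by ring

lemma LLV.mono {f : E → G} {c d : ℝ} {y : E} (h : LLV c f y) (hcd : c ≤ d) : LLV d f y := by
  filter_upwards [h] with z hz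
  exact hz.trans (mul_le_mul_of_nonneg_right hcd (norm_nonneg _))

lemma EnCov.mono {E G : Type*} [NormedAddCommGroup E] [MeasurableSpace E] [NormedAddCommGroup G]
    {m : Measure E} {p : ℝ} {f : E → G} {K : Set E} {A B : ENNReal} (h : EnCov m p f K A)
    (hAB : A ≤ B) : EnCov m p f K B := by
  obtain ⟨J, i, S, c, hS, hc, hK, hL, hA⟩ := h
  exact ⟨J, i, S, c, hS, hc, hK, hL, hA.trans hAB⟩

/-- change of the domain by a homeomorphism -/
lemma EnCov.transport [MeasurableSpace E] [MeasurableSpace E'] [BorelSpace E] [BorelSpace E']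
    {m : Measure E} {m' : Measure E'} {p : ℝ} {f : E → G} {K : Set E} {A : ENNReal}
    (h : EnCov m p f K A) (φ : E' → E) (hφ : Continuous φ) {l κ : ℝ} (hl : 0 ≤ l)
    (hlip : ∀ y y', ‖φ y - φ y'‖ ≤ l * ‖y - y'‖)
    (hm : ∀ S : Set E, m' (φ ⁻¹' S) ≤ ENNReal.ofReal κ * m S) :
    EnCov m' p (fun y => f (φ y)) (φ ⁻¹' K) (ENNReal.ofReal (l^p) * ENNReal.ofReal κ * A) := by
  obtain ⟨J, _, S, c, hS, hc, hK, hL, hA⟩ := h
  refine ⟨J, inferInstance, fun j => φ ⁻¹' S j, fun j => c j * l,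
    fun j => hφ.measurable (hS j), fun j => mul_nonneg (hc j) hl, ?_, ?_, ?_⟩
  · intro y hy
    obtain ⟨j, hj⟩ := mem_iUnion.1 (hK hy)
    exact mem_iUnion.2 ⟨j, hj⟩
  · intro j
    have h1 : m {x | ¬ (x ∈ S j → LLV (c j) f x)} = 0 := ae_iff.1 (hL j)
    rw [ae_iff]
    refine measure_mono_null (t := φ ⁻¹' {x | ¬ (x ∈ S j → LLV (c j) f x)}) ?_ ?_
    · intro y hy
      simp only [mem_setOf_eq, mem_preimage] at hy ⊢
      intro h2
      refine hy (fun h3 => ?_)
      refine LLV.comp (hc j) (h2 h3) hφ.continuousAt ?_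
      exact Eventually.of_forall fun z => hlip z y
    · refine le_antisymm ((hm _).trans ?_) zero_le
      rw [h1, mul_zero]
  · calc ∑ j, ENNReal.ofReal ((c j * l)^p) * m' (φ ⁻¹' S j)
        ≤ ∑ j, ENNReal.ofReal (l^p) * ENNReal.ofReal κ *
            (ENNReal.ofReal (c j ^ p) * m (S j)) := by
          refine Finset.sum_le_sum fun j _ => ?_
          rw [Real.mul_rpow (hc j) hl, ENNReal.ofReal_mul (Real.rpow_nonneg (hc j) p)]
          calc ENNReal.ofReal (c j ^ p) * ENNReal.ofReal (l ^ p) * m' (φ ⁻¹' S j)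
              ≤ ENNReal.ofReal (c j ^ p) * ENNReal.ofReal (l ^ p) *
                (ENNReal.ofReal κ * m (S j)) := mul_le_mul' le_rfl (hm _)
            _ = _ := by ring
      _ = ENNReal.ofReal (l^p) * ENNReal.ofReal κ * ∑ j, ENNReal.ofReal (c j ^ p) * m (S j) := by
          rw [Finset.mul_sum]
      _ ≤ _ := mul_le_mul' le_rfl hA

end transport

/-! ### the chart of a rotated cube -/

section chart

variable (V : R3 ≃ₗᵢ[ℝ] R3) (a : R3) (R : ℝ)

/-- from the model cube to the rotated cube -/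
noncomputable def up (u : Fin 3 → ℝ) : R3 := a + R • V (WithLp.toLp 2 u)

/-- back -/
noncomputable def dn (y : R3) : Fin 3 → ℝ := WithLp.ofLp (V.symm (R⁻¹ • (y - a)))

variable {V a R}

lemma dn_up (hR : R ≠ 0) (u : Fin 3 → ℝ) : dn V a R (up V a R u) = u := by
  simp [dn, up, smul_smul, inv_mul_cancel₀ hR]

lemma up_dn (hR : R ≠ 0) (y : R3) : up V a R (dn V a R y) = y := by
  simp [dn, up, smul_smul, mul_inv_cancel₀ hR]

lemma norm_toLp_le (u : Fin 3 → ℝ) : ‖(WithLp.toLp 2 u : R3)‖ ≤ 2 * ‖u‖ := by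
  rw [EuclideanSpace.norm_eq]
  apply Real.sqrt_le_iff.2
  refine ⟨by positivity, ?_⟩
  calc ∑ i, ‖(WithLp.toLp 2 u : R3) i‖^2 ≤ ∑ _i : Fin 3, ‖u‖^2 := by
        refine Finset.sum_le_sum fun i _ => ?_
        exact pow_le_pow_left₀ (norm_nonneg _) (norm_le_pi_norm u i) 2
    _ = 3 * ‖u‖^2 := by simp
    _ ≤ (2 * ‖u‖)^2 := by nlinarith [sq_nonneg ‖u‖]

lemma norm_ofLp_le (x : R3) : ‖(WithLp.ofLp x : Fin 3 → ℝ)‖ ≤ ‖x‖ := by
  rw [pi_norm_le_iff_of_nonneg (norm_nonneg _)]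
  intro i
  exact PiLp.norm_apply_le x i

lemma up_sub_le (hR : 0 < R) (u u' : Fin 3 → ℝ) :
    ‖up V a R u - up V a R u'‖ ≤ 2 * R * ‖u - u'‖ := by
  have e : up V a R u - up V a R u' = R • V (WithLp.toLp 2 (u - u')) := by
    simp only [up, add_sub_add_left_eq_sub, ← smul_sub, ← map_sub]
    rfl
  rw [e, norm_smul, LinearIsometryEquiv.norm_map, Real.norm_eq_abs, abs_of_pos hR]
  have := mul_le_mul_of_nonneg_left (norm_toLp_le (u - u')) hR.le
  linarith

lemma dn_sub_le (hR : 0 < R) (y y' : R3) :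
    ‖dn V a R y - dn V a R y'‖ ≤ R⁻¹ * ‖y - y'‖ := by
  have e : dn V a R y - dn V a R y' = WithLp.ofLp (V.symm (R⁻¹ • (y - y'))) := by
    simp only [dn]
    rw [← WithLp.ofLp_sub, ← map_sub, ← smul_sub, sub_sub_sub_cancel_right]
  rw [e]
  refine (norm_ofLp_le _).trans ?_
  rw [LinearIsometryEquiv.norm_map, norm_smul, norm_inv, Real.norm_eq_abs, abs_of_pos hR]

lemma continuous_up : Continuous (up V a R) := by
  unfold up
  exact continuous_const.add
    ((V.continuous.comp (PiLp.continuous_toLp 2 _)).const_smul R)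

lemma continuous_dn : Continuous (dn V a R) := by
  unfold dn
  exact (PiLp.continuous_ofLp 2 _).comp
    (V.symm.continuous.comp ((continuous_id.sub continuous_const).const_smul R⁻¹))






end chart

lemma plOn_affineMap {E F : Type*} [NormedAddCommGroup E] [NormedSpace ℝ E]
    [NormedAddCommGroup F] [NormedSpace ℝ F] (A : E →ᵃ[ℝ] F) (hA : Continuous A) (K : Set E) :
    PLOn (fun x => A x) K :=
  ⟨hA.continuousOn, {A}, fun _ _ => ⟨A, Finset.mem_singleton_self _, rfl⟩⟩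






end Crest.Agent.R96.Hole_348
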